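import Crest.Agent.R195.CertFull

/-! Row 195, certificate table (generated, helper895) for the shape with hooks [3]. -/

set_option autoImplicit false
set_option maxRecDepth 100000

namespace Crest.Agent.R195

/-- certificates -/
def ct3_t0 : List Entry :=
 [
  ⟨[3, 1, 1], 5, 0, 47890668362075327421484329586542283875181555670843520, 0⟩]

theorem ct3_ok0 : (ct3_t0.all fun x => x.lin 5 [3, 1, 1]) = true := by decide +kernel

/-- all certificates -/
def ct3_tb : List Entry := ct3_t0

theorem ct3_tabOK : TabOK [3] 5 ct3_tb :=
  (tabOK_of_lin (by decide) (by decide) (by decide) ct3_ok0)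

theorem ct3_cov : covL (regParts (3 - 1) 5) ct3_tb = true := by
  decide +kernel

theorem ct3_hc : HC 3 [] := by unfold HC; decide

theorem ct3_full (h : FullH []) : FullH [3] :=
  fullH_of_reg (by decide) ct3_hc h (by decide) (by decide) ct3_tabOK ct3_cov

end Crest.Agent.R195
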