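import Crest.Agent.R195.CertFull

/-! Row 195, certificate table (generated, helper895) for the shape with hooks [4]. -/

set_option autoImplicit false
set_option maxRecDepth 100000

namespace Crest.Agent.R195

/-- certificates -/
def ct4_t0 : List Entry :=
 [
  ⟨[3, 1, 1, 1, 1], 3, 4, 79286493187402615463614873728, 1394051849001058157413558661784455281123330⟩,
  ⟨[3, 2, 1, 1], 7, 0, 114846353607262901331207669733039416284157019694678936646019111125030535232, 0⟩,
  ⟨[3, 2, 2], 7, 0, 227923722938809262408726156545202003589892683453985385054655339094268969024, 0⟩,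
  ⟨[3, 2, 2], 7, 0, 227923722938809262408726156545202003589892683453985385054655339094268969024, 0⟩,
  ⟨[4, 1, 1, 1], 7, 0, 3534125597306762686973117391169616405763013847611227901193767559519797440, 0⟩]

theorem ct4_ok0 : (ct4_t0.all fun x => x.lin 7 [4, 1, 1, 1]) = true := by decide +kernel

/-- all certificates -/
def ct4_tb : List Entry := ct4_t0

theorem ct4_tabOK : TabOK [4] 7 ct4_tb :=
  (tabOK_of_lin (by decide) (by decide) (by decide) ct4_ok0)

theorem ct4_cov : covL (regParts (4 - 1) 7) ct4_tb = true := by
  decide +kernel

theorem ct4_hc : HC 4 [] := by unfold HC; decide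

theorem ct4_full (h : FullH []) : FullH [4] :=
  fullH_of_reg (by decide) ct4_hc h (by decide) (by decide) ct4_tabOK ct4_cov

end Crest.Agent.R195
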