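import Crest.Agent.R195.CertFull

/-! Row 195, certificate table (generated, helper895) for the shape with hooks [4, 1]. -/

set_option autoImplicit false
set_option maxRecDepth 100000

namespace Crest.Agent.R195

/-- certificates -/
def ct4_1_t0 : List Entry :=
 [
  ⟨[3, 3, 1, 1], 8, 0, 121416827814359866939766274441574129137585759058037116696758792702775991713080279168, 0⟩,
  ⟨[3, 3, 2], 8, 0, 29664489450393043171880369532659943790353192605884374204435598894823038297833600, 0⟩,
  ⟨[4, 1, 1, 1, 1], 8, 0, 121505734088725147042727574503347868333104403705292615722016037182557650748444770496, 0⟩,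
  ⟨[4, 2, 1, 1], 8, 0, 7772572706496569380534649209937440196997546577518514715514810652395079981277183475840, 0⟩]

theorem ct4_1_ok0 : (ct4_1_t0.all fun x => x.lin 8 [4, 2, 1, 1]) = true := by decide +kernel

/-- all certificates -/
def ct4_1_tb : List Entry := ct4_1_t0

theorem ct4_1_tabOK : TabOK [4, 1] 8 ct4_1_tb :=
  (tabOK_of_lin (by decide) (by decide) (by decide) ct4_1_ok0)

theorem ct4_1_cov : covL (regParts (4 - 1) 8) ct4_1_tb = true := by
  decide +kernel

theorem ct4_1_hc : HC 4 [1] := by unfold HC; decide

theorem ct4_1_full (h : FullH [1]) : FullH [4, 1] :=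
  fullH_of_reg (by decide) ct4_1_hc h (by decide) (by decide) ct4_1_tabOK ct4_1_cov

end Crest.Agent.R195
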