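import Crest.Agent.R195.CertFull

/-! Row 195, certificate table (generated, helper895) for the shape with hooks [5, 2]. -/

set_option autoImplicit false
set_option maxRecDepth 100000

namespace Crest.Agent.R195

/-- certificates -/
def ct5_2_t0 : List Entry :=
 [
  ⟨[3, 3, 3, 3], 12, 0, 178750856403246054482733486792283221755291528837463520973830220749600427491189139197885500337665585441300192678462161164419727424, 0⟩,
  ⟨[4, 3, 3, 1, 1], 12, 0, 693209741443767558833698962576281623361229033947216153392831625247026982247531409033608491711168071186888557282655584590580678656, 0⟩,
  ⟨[4, 3, 3, 2], 12, 0, 346583712415786597549196152926803157306831646788182017793640033977095760837554415618111228787573451894535330114713121732936073408, 0⟩,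
  ⟨[4, 4, 1, 1, 1, 1], 12, 0, 5416692933690313167223032262513073175601579478250500553493450449263720341589415050896549340636292065176292491852415277302284544, 0⟩,
  ⟨[4, 4, 2, 1, 1], 12, 0, 8165384145926204402827003681337700471856221884748159071548749910975787450718670473929114708853127272368210526162823897062309888, 0⟩,
  ⟨[4, 4, 2, 2], 12, 0, 178709880931794730366815640500274536494531856123491430869146884942871010124057659099945550712844881208536886829869496849427595520, 0⟩,
  ⟨[4, 3, 3, 2], 12, 0, 346583712415786597549196152926803157306831646788182017793640033977095760837554415618111228787573451894535330114713121732936073408, 0⟩,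
  ⟨[5, 3, 1, 1, 1, 1], 12, 0, 519917906229263166535669126274137875724054167607520583944781447950743059075635610928665091524189827660365417858362676512824492096, 0⟩,
  ⟨[5, 3, 2, 1, 1], 12, 0, 173291855885151480674838064954611612091635845249000069175320414800000430712294419119638511067459763766787042615774527206252085440, 0⟩,
  ⟨[6, 1, 1, 1, 1, 1, 1], 12, 0, 13539087781084986686410022455778343785951595086947789802116790161596116825218462741969001153320608176438306315697589710121074944, 0⟩,
  ⟨[6, 2, 1, 1, 1, 1], 12, 0, 10832734812347166856484393590596204217828362111030004619564634944660966731382149555490390932294606042114463174632573192554676480, 0⟩]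

theorem ct5_2_ok0 : (ct5_2_t0.all fun x => x.lin 12 [5, 3, 2, 1, 1]) = true := by decide +kernel

/-- all certificates -/
def ct5_2_tb : List Entry := ct5_2_t0

theorem ct5_2_tabOK : TabOK [5, 2] 12 ct5_2_tb :=
  (tabOK_of_lin (by decide) (by decide) (by decide) ct5_2_ok0)

theorem ct5_2_cov : covL (regParts (5 - 1) 12) ct5_2_tb = true := by
  decide +kernel

theorem ct5_2_hc : HC 5 [2] := by unfold HC; decide

theorem ct5_2_full (h : FullH [2]) : FullH [5, 2] :=
  fullH_of_reg (by decide) ct5_2_hc h (by decide) (by decide) ct5_2_tabOK ct5_2_cov

end Crest.Agent.R195
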