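import Crest.Agent.R195.CertFull

/-! Row 195, certificate table (generated, helper895) for the shape with hooks [5, 3]. -/

set_option autoImplicit false
set_option maxRecDepth 100000

namespace Crest.Agent.R195

/-- certificates -/
def ct5_3_t0 : List Entry :=
 [
  ⟨[4, 4, 3, 3], 14, 0, 12796048867765066249834160510132908738885478455255086148215083374988044481791734504040360192018012666124411884124011802365064338609678735286291140864, 0⟩,
  ⟨[4, 4, 4, 1, 1], 14, 0, 12796049606090751873445858220329972271342575875617279460483241309656152575891127661490650365519368961895363572367046688801391018920084796170591797249, 0⟩,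
  ⟨[4, 4, 3, 3], 14, 0, 12796048867765066249834160510132908738885478455255086148215083374988044481791734504040360192018012666124411884124011802365064338609678735286291140864, 0⟩]

theorem ct5_3_ok0 : (ct5_3_t0.all fun x => x.lin 14 [5, 4, 2, 2, 1]) = true := by decide +kernel

/-- all certificates -/
def ct5_3_tb : List Entry := ct5_3_t0

theorem ct5_3_tabOK : TabOK [5, 3] 14 ct5_3_tb :=
  (tabOK_of_lin (by decide) (by decide) (by decide) ct5_3_ok0)

theorem ct5_3_cov : covL (regParts (5 - 1) 14) ct5_3_tb = true := by
  decide +kernel

theorem ct5_3_hc : HC 5 [3] := by unfold HC; decide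

theorem ct5_3_full (h : FullH [3]) : FullH [5, 3] :=
  fullH_of_reg (by decide) ct5_3_hc h (by decide) (by decide) ct5_3_tabOK ct5_3_cov

end Crest.Agent.R195
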