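import Crest.Agent.R195.CertFull

/-! Row 195, certificate table (generated, helper895) for the shape with hooks [6, 4, 1]. -/

set_option autoImplicit false
set_option maxRecDepth 100000

namespace Crest.Agent.R195

/-- certificates -/
def ct6_4_1_t0 : List Entry :=
 [
  ⟨[4, 4, 4, 4, 3], 19, 0, 1293625727585932679625617190684228269790839649492195005636544931583777708623856727087088399463395774151820729688179961067095169934330283139760221285193444477354536591416000091494330404632599760135798390976, 0⟩,
  ⟨[5, 4, 4, 3, 3], 19, 0, 78401344039230556294262884641716944203159846596241109530530176072147540169367593192776909415698718455300460538826638832126911105113243114981698705534276900902434454587167884095812124993057486781618852160, 0⟩,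
  ⟨[5, 4, 4, 4, 1, 1], 19, 0, 78401344039239467379610980094509242658549405294502163053075936756765777052279685767797823700544608406380853475178840125922963170791633258049015503787567645729697324584204674786109885532139603051799904385, 0⟩,
  ⟨[5, 4, 4, 4, 2], 19, 0, 1312919940624346605396194857147939317763603124882384849826241629061519664563050538358191437935523551159566186946131901626427816920136840747769361583708672941681579780615428146848790595549831566166387065152, 0⟩,
  ⟨[5, 5, 3, 3, 3], 19, 0, 78396634742774335181118494548269678030274637423202014176977509562957195974595006138525608786518425335531280141536219233249949252148731651853122105965668655871776136363129787484109570335393525338441777472, 0⟩,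
  ⟨[5, 5, 4, 3, 1, 1], 19, 0, 2567340173590265720467029631406250463406593587154971776853858997384748170815898914982860461589472176930931194134125049920712403450323225881370785397294658596641088443365149415538057783146036600058617790593, 0⟩,
  ⟨[5, 5, 4, 3, 2], 19, 0, 1273714524332611876550774911160775571811294635931696046944136331596184332499806179135176294924394516531321057742267721530079106386819606478115661834567636499007700859428316579011714547994136453780783759680, 0⟩,
  ⟨[5, 4, 4, 4, 2], 19, 0, 1312919940624346605396194857147939317763603124882384849826241629061519664563050538358191437935523551159566186946131901626427816920136840747769361583708672941681579780615428146848790595549831566166387065152, 0⟩,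
  ⟨[5, 5, 5, 1, 1, 1, 1], 19, 0, 1314130382838139322407238680692537341089379781909040653704508161702214997377920123316873072978681472969586871069692413878529418131884877861651738110840590563784027622010780855151384519334037968009871491072, 0⟩,
  ⟨[5, 5, 5, 2, 1, 1], 19, 0, 78702744816708841861958755127382423276513524175970871067462375294790633727659007702862019878937039514132869725335313501813941730240906359339240912988214403937773914648509757582406074419761714569095151681, 0⟩,
  ⟨[5, 5, 3, 3, 3], 19, 0, 78396634742774335181118494548269678030274637423202014176977509562957195974595006138525608786518425335531280141536219233249949252148731651853122105965668655871776136363129787484109570335393525338441777472, 0⟩,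
  ⟨[5, 4, 4, 3, 3], 19, 0, 78401344039230556294262884641716944203159846596241109530530176072147540169367593192776909415698718455300460538826638832126911105113243114981698705534276900902434454587167884095812124993057486781618852160, 0⟩,
  ⟨[6, 4, 4, 3, 1, 1], 19, 0, 39506819495584878547446638437787890658113165805367064327991151346440185501132648076024075009652692726760362137358509535957683397867452318624672036689066433447143044474883294917325746840629461528477958400, 0⟩]

theorem ct6_4_1_ok0 : (ct6_4_1_t0.all fun x => x.lin 19 [6, 5, 3, 2, 2, 1]) = true := by decide +kernel

/-- all certificates -/
def ct6_4_1_tb : List Entry := ct6_4_1_t0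

theorem ct6_4_1_tabOK : TabOK [6, 4, 1] 19 ct6_4_1_tb :=
  (tabOK_of_lin (by decide) (by decide) (by decide) ct6_4_1_ok0)

theorem ct6_4_1_cov : covL (regParts (6 - 1) 19) ct6_4_1_tb = true := by
  decide +kernel

theorem ct6_4_1_hc : HC 6 [4, 1] := by unfold HC; decide

theorem ct6_4_1_full (h : FullH [4, 1]) : FullH [6, 4, 1] :=
  fullH_of_reg (by decide) ct6_4_1_hc h (by decide) (by decide) ct6_4_1_tabOK ct6_4_1_cov

end Crest.Agent.R195
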