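import Crest.Agent.R195.CertFull

/-! Row 195, certificate table (generated, helper895) for the shape with hooks [6, 4, 2, 1]. -/

set_option autoImplicit false
set_option maxRecDepth 100000

namespace Crest.Agent.R195

/-- certificates -/
def ct6_4_2_1_t0 : List Entry :=
 [
  ⟨[5, 5, 4, 4, 4], 22, 0, 302741419158098244742281084089534826645370406367086722182673847538156051701745270385225359136472302321933199439112539260251967590294755932835423127009526944832551639715803125422949624976181356243360981419395366224855378510637066879232, 0⟩,
  ⟨[5, 5, 5, 4, 3], 22, 0, 413348627730687246239049354978630239113521469125585537323267396992419245929285247644074888128781298349920472876525879286156501618234028640150438626246933914945022255860108507783076450031765985926039363571548608016389957787905071342686465, 0⟩,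
  ⟨[5, 5, 5, 5, 1, 1], 22, 0, 12722885772696891304018882773845297823498590129487168606508410041890088020776026592397741039562233865022173373292271312051546586404941570689063916592236581573534665611618364335784055727127607386812626884343098034290424515850075561525441, 0⟩,
  ⟨[5, 5, 5, 5, 2], 22, 0, 19375425792005498836168755512032136202362389827088339579833272716489212829087372923411797865615917137741219258381589344802797024158763327246767954285203635647626340766044158774102467878310894832190500043375008697357932087588332311150723, 0⟩]

theorem ct6_4_2_1_ok0 : (ct6_4_2_1_t0.all fun x => x.lin 22 [6, 5, 4, 4, 2, 1]) = true := by decide +kernel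

/-- all certificates -/
def ct6_4_2_1_tb : List Entry := ct6_4_2_1_t0

theorem ct6_4_2_1_tabOK : TabOK [6, 4, 2, 1] 22 ct6_4_2_1_tb :=
  (tabOK_of_lin (by decide) (by decide) (by decide) ct6_4_2_1_ok0)

theorem ct6_4_2_1_cov : covL (regParts (6 - 1) 22) ct6_4_2_1_tb = true := by
  decide +kernel

theorem ct6_4_2_1_hc : HC 6 [4, 2, 1] := by unfold HC; decide

theorem ct6_4_2_1_full (h : FullH [4, 2, 1]) : FullH [6, 4, 2, 1] :=
  fullH_of_reg (by decide) ct6_4_2_1_hc h (by decide) (by decide) ct6_4_2_1_tabOK ct6_4_2_1_cov

end Crest.Agent.R195
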