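import Crest.Agent.R195.CertFull

/-! Row 195, certificate table (generated, helper895) for the shape with hooks [7, 5, 4, 2, 1]. -/

set_option autoImplicit false
set_option maxRecDepth 100000

namespace Crest.Agent.R195

/-- certificates -/
def ct7_5_4_2_1_t0 : List Entry :=
 [
  ⟨[6, 6, 6, 5, 5, 5], 33, 0, 331496096133990911309063411418820971499767286761537228805315454437452041060453543302977255271104618449767615518563749963679396922236681604122771248800551197638477873608770275182933812899417699137900140068157639679488153981660721236770613894238927654821988106600693235694279645149395778184993503000582428919429737577375787305525042395125374904233241049571712, 0⟩,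
  ⟨[6, 6, 6, 6, 5, 4], 33, 0, 201188147025819225008575822430289358939337008757012207854404587270194582372847377916499905212238185631856988287756926097119989606105814486373157045768404253941388498389367014918851882419711731444136243783744147369063645002139219133816418122017399755430848532031679194399460428415539108380515162662738967166694513927095576883730303876054405207642746076799360, 0⟩,
  ⟨[6, 6, 6, 6, 6, 3], 33, 0, 1027057199716673204739884354304542420630101343057586643688480098312750419050530579234547101358157311518993120091488825797483581468794490482844900064171467879019295793055540755918024597175280968547790966201351494113619103341924841789197271171745216347004882783369215307300119904168150982656656668736761235656385922452876746883154052984901120358513386983808, 0⟩]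

theorem ct7_5_4_2_1_ok0 : (ct7_5_4_2_1_t0.all fun x => x.lin 33 [7, 6, 6, 5, 5, 3, 1]) = true := by decide +kernel

/-- all certificates -/
def ct7_5_4_2_1_tb : List Entry := ct7_5_4_2_1_t0

theorem ct7_5_4_2_1_tabOK : TabOK [7, 5, 4, 2, 1] 33 ct7_5_4_2_1_tb :=
  (tabOK_of_lin (by decide) (by decide) (by decide) ct7_5_4_2_1_ok0)

theorem ct7_5_4_2_1_cov : covL (regParts (7 - 1) 33) ct7_5_4_2_1_tb = true := by
  decide +kernel

theorem ct7_5_4_2_1_hc : HC 7 [5, 4, 2, 1] := by unfold HC; decide

theorem ct7_5_4_2_1_full (h : FullH [5, 4, 2, 1]) : FullH [7, 5, 4, 2, 1] :=
  fullH_of_reg (by decide) ct7_5_4_2_1_hc h (by decide) (by decide) ct7_5_4_2_1_tabOK ct7_5_4_2_1_cov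

end Crest.Agent.R195
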