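import Crest.Agent.R195.CT3
import Crest.Agent.R195.CT4
import Crest.Agent.R195.CT4_1
import Crest.Agent.R195.CT4_2_1
import Crest.Agent.R195.CT5_2
import Crest.Agent.R195.CT5_2_1
import Crest.Agent.R195.CT5_3
import Crest.Agent.R195.CT6_3
import Crest.Agent.R195.CT6_3_1
import Crest.Agent.R195.CT6_4
import Crest.Agent.R195.CT6_4_1
import Crest.Agent.R195.CT6_3_2_1
import Crest.Agent.R195.CT6_4_2_1
import Crest.Agent.R195.CT7_3
import Crest.Agent.R195.CT7_4_2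
import Crest.Agent.R195.CT7_4_2_1
import Crest.Agent.R195.CT7_5_2
import Crest.Agent.R195.CT7_5_2_1
import Crest.Agent.R195.CT7_5_3
import Crest.Agent.R195.CT8_5_3
import Crest.Agent.R195.CT8_5_3_1
import Crest.Agent.R195.CT8_6_3
import Crest.Agent.R195.CT8_6_3_1
import Crest.Agent.R195.CT8_6_4_1
import Crest.Agent.R195.CT8_6_4_2_1
import Crest.Agent.R195.CT9_5_3
import Crest.Agent.R195.CT9_6_3
import Crest.Agent.R195.CT9_7_3
import Crest.Agent.R195.CT9_6_4_2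
import Crest.Agent.R195.CT9_6_4_2_1
import Crest.Agent.R195.CT9_7_4_2_1

/-! Row 195: the small full shapes (helper895), from certificate tables. -/

set_option autoImplicit false

namespace Crest.Agent.R195

theorem fullH_nil : FullH [] := fullH_stair 0
theorem fullH_1 : FullH [1] := fullH_stair 1
theorem fullH_2 : FullH [2] := fullH_stair 2
theorem fullH_3_1 : FullH [3, 1] := fullH_stair 3
theorem fullH_3 : FullH [3] := ct3_full fullH_nil
theorem fullH_4 : FullH [4] := ct4_full fullH_nil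
theorem fullH_4_1 : FullH [4, 1] := ct4_1_full fullH_1
theorem fullH_4_2_1 : FullH [4, 2, 1] := ct4_2_1_full
theorem fullH_5_2 : FullH [5, 2] := ct5_2_full fullH_2
theorem fullH_5_2_1 : FullH [5, 2, 1] := ct5_2_1_full
theorem fullH_5_3 : FullH [5, 3] := ct5_3_full fullH_3
theorem fullH_6_3 : FullH [6, 3] := ct6_3_full fullH_3
theorem fullH_6_3_1 : FullH [6, 3, 1] := ct6_3_1_full fullH_3_1
theorem fullH_6_4 : FullH [6, 4] := ct6_4_full fullH_4
theorem fullH_6_4_1 : FullH [6, 4, 1] := ct6_4_1_full fullH_4_1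
theorem fullH_6_3_2_1 : FullH [6, 3, 2, 1] := ct6_3_2_1_full
theorem fullH_4_2 : FullH [4, 2] := fullH_stair 4
theorem fullH_5_3_1 : FullH [5, 3, 1] := fullH_stair 5
theorem fullH_6_4_2 : FullH [6, 4, 2] := fullH_stair 6
theorem fullH_7_5_3_1 : FullH [7, 5, 3, 1] := fullH_stair 7
theorem fullH_8_6_4_2 : FullH [8, 6, 4, 2] := fullH_stair 8
theorem fullH_6_4_2_1 : FullH [6, 4, 2, 1] := ct6_4_2_1_full fullH_4_2_1
theorem fullH_7_3 : FullH [7, 3] := ct7_3_full fullH_3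
theorem fullH_7_4_2 : FullH [7, 4, 2] := ct7_4_2_full fullH_4_2
theorem fullH_7_4_2_1 : FullH [7, 4, 2, 1] := ct7_4_2_1_full fullH_4_2_1
theorem fullH_7_5_2 : FullH [7, 5, 2] := ct7_5_2_full fullH_5_2
theorem fullH_7_5_2_1 : FullH [7, 5, 2, 1] := ct7_5_2_1_full fullH_5_2_1
theorem fullH_7_5_3 : FullH [7, 5, 3] := ct7_5_3_full fullH_5_3
theorem fullH_8_5_3 : FullH [8, 5, 3] := ct8_5_3_full fullH_5_3
theorem fullH_8_5_3_1 : FullH [8, 5, 3, 1] := ct8_5_3_1_full fullH_5_3_1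
theorem fullH_8_6_3 : FullH [8, 6, 3] := ct8_6_3_full fullH_6_3
theorem fullH_8_6_3_1 : FullH [8, 6, 3, 1] := ct8_6_3_1_full fullH_6_3_1
theorem fullH_8_6_4_1 : FullH [8, 6, 4, 1] := ct8_6_4_1_full fullH_6_4_1
theorem fullH_8_6_4_2_1 : FullH [8, 6, 4, 2, 1] := ct8_6_4_2_1_full fullH_6_4_2_1
theorem fullH_9_6_3 : FullH [9, 6, 3] := ct9_6_3_full fullH_6_3
theorem fullH_9_7_3 : FullH [9, 7, 3] := ct9_7_3_full fullH_7_3
theorem fullH_9_6_4_2 : FullH [9, 6, 4, 2] := ct9_6_4_2_full fullH_6_4_2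
theorem fullH_9_6_4_2_1 : FullH [9, 6, 4, 2, 1] := ct9_6_4_2_1_full fullH_6_4_2_1
theorem fullH_9_7_4_2_1 : FullH [9, 7, 4, 2, 1] := ct9_7_4_2_1_full fullH_7_4_2_1
theorem fullH_9_5_3 : FullH [9, 5, 3] := ct9_5_3_full fullH_5_3

end Crest.Agent.R195
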