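import Crest.Agent.R195.CT3
import Crest.Agent.R195.CT4
import Crest.Agent.R195.CT4_1
import Crest.Agent.R195.CT4_2_1
import Crest.Agent.R195.CT5_2
import Crest.Agent.R195.CT5_2_1
import Crest.Agent.R195.CT6_3
import Crest.Agent.R195.CT6_4
import Crest.Agent.R195.CT5_3
import Crest.Agent.R195.CT9_5_3

/-! Row 195: the small full shapes proved by certificate tables (helper895). -/

set_option autoImplicit false

namespace Crest.Agent.R195

theorem fullL_3 : FullH [3] := ct3_full (fullH_stair 0)
theorem fullL_4 : FullH [4] := ct4_full (fullH_stair 0)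
theorem fullL_4_1 : FullH [4, 1] := ct4_1_full (fullH_stair 1)
theorem fullL_4_2_1 : FullH [4, 2, 1] := ct4_2_1_full
theorem fullL_5_2 : FullH [5, 2] := ct5_2_full (fullH_stair 2)
theorem fullL_5_2_1 : FullH [5, 2, 1] := ct5_2_1_full
theorem fullL_5_3 : FullH [5, 3] := ct5_3_full fullL_3
theorem fullL_6_3 : FullH [6, 3] := ct6_3_full fullL_3
theorem fullL_6_4 : FullH [6, 4] := ct6_4_full fullL_4
theorem fullL_9_5_3 : FullH [9, 5, 3] := ct9_5_3_full fullL_5_3

end Crest.Agent.R195
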