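import Crest.Agent.R195.CT5_4_2_1
import Crest.Agent.R195.CT7_5_4_2_1
import Crest.Agent.R195.CT8_5_4_2_1

/-! Row 195: the bases of the chains X and Y of helper545 (helper895). -/

set_option autoImplicit false

namespace Crest.Agent.R195

theorem fullH_5_4_2_1 : FullH [5, 4, 2, 1] := ct5_4_2_1_full
theorem fullH_7_5_4_2_1 : FullH [7, 5, 4, 2, 1] := ct7_5_4_2_1_full fullH_5_4_2_1
theorem fullH_8_5_4_2_1 : FullH [8, 5, 4, 2, 1] := ct8_5_4_2_1_full fullH_5_4_2_1

end Crest.Agent.R195
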