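import Crest.Agent.R195.Transfer

/-! Row 195: James's submodule theorem, irreducibility of the Specht modules of
`Def_SpechtModule` for shapes whose columns are justified at the top. -/

set_option autoImplicit false

namespace Crest.Agent.R195

open Finset Function Crest.AlgebraR.Specht Representation

section nat

theorem sum_range_card_le (A : Finset ℕ) :
    ∑ k ∈ range A.card, k ≤ ∑ k ∈ A, k ∧ (∑ k ∈ A, k = ∑ k ∈ range A.card, k → A = range A.card) := by
  classical
  induction hn : A.card generalizing A with
  | zero =>
    rw [Finset.card_eq_zero] at hn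
    subst hn
    simp
  | succ n ih =>
    have hne : A.Nonempty := by
      rw [← Finset.card_pos, hn]; omega
    set M := A.max' hne with hM
    have hMA : M ∈ A := A.max'_mem hne
    have hsub : A ⊆ range (M + 1) := fun k hk => by
      rw [mem_range, Nat.lt_succ_iff]; exact A.le_max' k hk
    have hMn : n ≤ M := by
      have := card_le_card hsub
      rw [hn, card_range] at this
      omega
    have hcard : (A.erase M).card = n := by rw [card_erase_of_mem hMA, hn]; rfl
    obtain ⟨h1, h2⟩ := ih (A.erase M) hcard
    have hsum : ∑ k ∈ A, k = M + ∑ k ∈ A.erase M, k := (add_sum_erase A (fun k => k) hMA).symm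
    rw [sum_range_succ]
    refine ⟨by rw [hsum]; omega, fun h => ?_⟩
    rw [hsum] at h
    have hMeq : M = n := by omega
    apply eq_of_subset_of_card_le
    · rw [← hMeq]; exact hsub
    · rw [card_range, hn]

end nat

theorem perm_apply_inv {T : Type*} (g : Equiv.Perm T) (i : T) : g (g⁻¹ i) = i :=
  Equiv.apply_symm_apply g i

section main

variable {D : Finset (ℕ × ℕ)}

/-- row of a letter -/
def rowOf (t : D ≃ Fin D.card) (i : Fin D.card) : ℕ := (t.symm i).1.1

/-- column of a letter -/
def colOf (t : D ≃ Fin D.card) (i : Fin D.card) : ℕ := (t.symm i).1.2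

theorem mem_columnGroup (t : D ≃ Fin D.card) (σ : Equiv.Perm (Fin D.card)) :
    σ ∈ columnGroup t ↔ ∀ i, colOf t (σ i) = colOf t i := by
  unfold columnGroup colOf
  simp

/-- signed column sum -/
noncomputable def kap (t : D ≃ Fin D.card) :
    (RowWord D.card →₀ ℂ) →ₗ[ℂ] (RowWord D.card →₀ ℂ) :=
  ∑ σ ∈ columnGroup t, (((Equiv.Perm.sign σ : ℤˣ) : ℤ) : ℂ) • rowWordRep D.card σ

theorem kap_apply (t : D ≃ Fin D.card) (f : RowWord D.card →₀ ℂ) :
    kap t f = ∑ σ ∈ columnGroup t,
      (((Equiv.Perm.sign σ : ℤˣ) : ℤ) : ℂ) • rowWordRep D.card σ f := by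
  unfold kap
  simp [LinearMap.sum_apply]

theorem rowWordRep_single (n : ℕ) (g : Equiv.Perm (Fin n)) (w : RowWord n) :
    rowWordRep n g (Finsupp.single w 1) = Finsupp.single (g • w) 1 := by
  change Finsupp.mapDomain _ _ = _
  rw [Finsupp.mapDomain_single]

theorem kap_single (t : D ≃ Fin D.card) :
    kap t (Finsupp.single (rowWord t) 1) = polytabloid t := by
  rw [kap_apply]
  unfold polytabloid
  refine Finset.sum_congr rfl fun σ _ => ?_
  rw [rowWordRep_single]

theorem kap_rep (t : D ≃ Fin D.card) (g : Equiv.Perm (Fin D.card)) (hg : g ∈ columnGroup t)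
    (f : RowWord D.card →₀ ℂ) :
    kap t (rowWordRep D.card g f) = (((Equiv.Perm.sign g : ℤˣ) : ℤ) : ℂ) • kap t f := by
  rw [mem_columnGroup] at hg
  have hg' : ∀ i, colOf t (g⁻¹ i) = colOf t i := by
    intro i
    have := hg (g⁻¹ i)
    rw [perm_apply_inv] at this
    exact this.symm
  rw [kap_apply, kap_apply, Finset.smul_sum]
  refine Finset.sum_bij' (fun σ _ => σ * g) (fun σ _ => σ * g⁻¹) ?_ ?_ ?_ ?_ ?_
  · intro σ hσ
    rw [mem_columnGroup] at hσ ⊢
    intro i
    rw [Equiv.Perm.mul_apply, hσ, hg]
  · intro σ hσ
    rw [mem_columnGroup] at hσ ⊢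
    intro i
    rw [Equiv.Perm.mul_apply, hσ, hg']
  · intro σ _; simp
  · intro σ _; simp
  · intro σ _
    rw [← Module.End.mul_apply, ← map_mul, smul_smul]
    congr 1
    rw [Equiv.Perm.sign_mul]
    have h1 : ((Equiv.Perm.sign g : ℤˣ) : ℤ) * ((Equiv.Perm.sign g : ℤˣ) : ℤ) = 1 := by
      rw [← Units.val_mul, Int.units_mul_self, Units.val_one]
    push_cast
    have h2 : (((Equiv.Perm.sign g : ℤˣ) : ℤ) : ℂ) * (((Equiv.Perm.sign g : ℤˣ) : ℤ) : ℂ) = 1 := by
      exact_mod_cast h1
    linear_combination -(((Equiv.Perm.sign σ : ℤˣ) : ℤ) : ℂ) * h2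

/-- The image of a row word of the right content under the signed column sum. -/
theorem kap_word (hD : ∀ i j i', (i, j) ∈ D → i' ≤ i → (i', j) ∈ D) (t : D ≃ Fin D.card)
    (g : Equiv.Perm (Fin D.card)) :
    ∃ c : ℂ, kap t (Finsupp.single (g • rowWord t) 1) = c • polytabloid t := by
  classical
  set w : Fin D.card → ℕ := fun i => rowOf t (g.symm i) with hw
  have hww : (g • rowWord t : RowWord D.card) = w := rfl
  by_cases hinj : ∀ i j, colOf t i = colOf t j → w i = w j → i = j
  · -- the letters of each column have distinct rows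
    have hcell : ∀ i, (w i, colOf t i) ∈ D := by
      -- compare sums column by column
      set C : ℕ → Finset (Fin D.card) := fun j => univ.filter fun i => colOf t i = j with hC
      have hr : ∀ j, (C j).image (rowOf t) = range (C j).card := by
        intro j
        have hrinj : Set.InjOn (rowOf t) (C j) := by
          intro a ha b hb hab
          have ha' : colOf t a = j := by simpa [hC] using ha
          have hb' : colOf t b = j := by simpa [hC] using hb
          apply t.symm.injective
          apply Subtype.ext
          exact Prod.ext hab (ha'.trans hb'.symm)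
        have hcard : ((C j).image (rowOf t)).card = (C j).card := card_image_of_injOn hrinj
        have hlow : ∀ a b, a ∈ (C j).image (rowOf t) → b ≤ a → b ∈ (C j).image (rowOf t) := by
          intro a b ha hba
          rw [mem_image] at ha ⊢
          obtain ⟨i, hi, rfl⟩ := ha
          have hi' : colOf t i = j := by simpa [hC] using hi
          have hmem : (rowOf t i, j) ∈ D := by
            rw [← hi']; exact (t.symm i).2
          have hmem' : (b, j) ∈ D := hD _ _ _ hmem hba
          refine ⟨t ⟨(b, j), hmem'⟩, ?_, ?_⟩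
          · have : colOf t (t ⟨(b, j), hmem'⟩) = j := by
              unfold colOf
              rw [Equiv.symm_apply_apply]
            simpa [hC] using this
          · change (t.symm (t ⟨(b, j), hmem'⟩)).1.1 = b
            rw [Equiv.symm_apply_apply]
        -- a lower set of naturals is a range
        have hkey : (C j).image (rowOf t) = range ((C j).image (rowOf t)).card := by
          by_cases hemp : (C j).image (rowOf t) = ∅
          · rw [hemp]; rfl
          · have hne : ((C j).image (rowOf t)).Nonempty := Finset.nonempty_iff_ne_empty.mpr hemp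
            set M := ((C j).image (rowOf t)).max' hne with hM
            have heq : (C j).image (rowOf t) = range (M + 1) := by
              ext a
              rw [mem_range, Nat.lt_succ_iff]
              exact ⟨fun ha => Finset.le_max' _ a ha,
                fun ha => hlow M a (Finset.max'_mem _ hne) ha⟩
            rw [heq, card_range]
        rw [hkey, hcard]
      have hwinj : ∀ j, Set.InjOn w (C j) := by
        intro j a ha b hb hab
        have ha' : colOf t a = j := by simpa [hC] using ha
        have hb' : colOf t b = j := by simpa [hC] using hb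
        exact hinj a b (ha'.trans hb'.symm) hab
      have hrinj : ∀ j, Set.InjOn (rowOf t) (C j) := by
        intro j
        rw [← Finset.card_image_iff, hr j, card_range]
      have hle : ∀ j, ∑ i ∈ C j, rowOf t i ≤ ∑ i ∈ C j, w i := by
        intro j
        have h1 : ∑ i ∈ C j, rowOf t i = ∑ k ∈ range (C j).card, k := by
          rw [← hr j, sum_image (hrinj j)]
        have h2 : ∑ i ∈ C j, w i = ∑ k ∈ (C j).image w, k := by
          rw [sum_image (hwinj j)]
        rw [h1, h2]
        have := (sum_range_card_le ((C j).image w)).1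
        rwa [card_image_of_injOn (hwinj j)] at this
      set J : Finset ℕ := univ.image (colOf t) with hJ
      have hfib : ∀ f : Fin D.card → ℕ, ∑ i, f i = ∑ j ∈ J, ∑ i ∈ C j, f i := by
        intro f
        rw [hJ, ← Finset.sum_fiberwise_of_maps_to (s := univ) (t := univ.image (colOf t))
          (g := colOf t) (fun i _ => mem_image_of_mem _ (mem_univ i))]
      have htot : ∑ i, rowOf t i = ∑ i, w i := by
        rw [hw]
        exact (Equiv.sum_comp g.symm (rowOf t)).symm
      have heq : ∀ j ∈ J, ∑ i ∈ C j, rowOf t i = ∑ i ∈ C j, w i := by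
        rw [hfib, hfib] at htot
        exact (Finset.sum_eq_sum_iff_of_le (fun j _ => hle j)).mp htot
      intro i
      set j := colOf t i with hj
      have hjJ : j ∈ J := mem_image_of_mem _ (mem_univ i)
      have h1 : ∑ i ∈ C j, rowOf t i = ∑ k ∈ range (C j).card, k := by
        rw [← hr j, sum_image (hrinj j)]
      have h2 : ∑ i ∈ C j, w i = ∑ k ∈ (C j).image w, k := by
        rw [sum_image (hwinj j)]
      have h3 := (sum_range_card_le ((C j).image w)).2
      rw [card_image_of_injOn (hwinj j)] at h3
      have h4 := h3 (by rw [← h1, ← h2, heq j hjJ])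
      have h5 : w i ∈ (C j).image (rowOf t) := by
        rw [hr j, ← h4]
        exact mem_image_of_mem _ (by simp [hC, hj])
      obtain ⟨i', hi', hi''⟩ := mem_image.mp h5
      have hi3 : colOf t i' = j := by simpa [hC] using hi'
      rw [← hi'', ← hi3]
      exact (t.symm i').2
    -- the permutation
    set β : Fin D.card → D := fun i => ⟨(w i, colOf t i), hcell i⟩ with hβ
    have hβinj : Injective β := by
      intro a b hab
      have h : (w a, colOf t a) = (w b, colOf t b) := congrArg Subtype.val hab
      have h1 : w a = w b := (Prod.mk.inj h).1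
      have h2 : colOf t a = colOf t b := (Prod.mk.inj h).2
      exact hinj a b h2 h1
    have hβbij : Bijective β := by
      rw [Fintype.bijective_iff_injective_and_card]
      exact ⟨hβinj, by simp⟩
    set B := Equiv.ofBijective β hβbij with hB
    -- π with w ∘ π = rowWord t, col ∘ π = col
    set π : Equiv.Perm (Fin D.card) := t.symm.trans B.symm with hπ
    have hBπ : ∀ i, β (π i) = t.symm i := by
      intro i
      change B (B.symm (t.symm i)) = _
      rw [Equiv.apply_symm_apply]
    have hπcol : π ∈ columnGroup t := by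
      rw [mem_columnGroup]
      intro i
      have := congrArg (fun c : D => c.1.2) (hBπ i)
      exact this
    have hπw : (g • rowWord t : RowWord D.card) = π • rowWord t := by
      rw [hww]
      funext i
      change w i = rowOf t (π.symm i)
      have := congrArg (fun c : D => c.1.1) (hBπ (π.symm i))
      rw [Equiv.apply_symm_apply] at this
      exact this
    refine ⟨(((Equiv.Perm.sign π : ℤˣ) : ℤ) : ℂ), ?_⟩
    rw [hπw, ← rowWordRep_single, kap_rep t π hπcol, kap_single]
  · push Not at hinj
    obtain ⟨a, b, hab, hwab, hne⟩ := hinj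
    refine ⟨0, ?_⟩
    have hs : Equiv.swap a b ∈ columnGroup t := by
      rw [mem_columnGroup]
      intro i
      rcases eq_or_ne i a with rfl | hia
      · rw [Equiv.swap_apply_left, hab]
      · rcases eq_or_ne i b with rfl | hib
        · rw [Equiv.swap_apply_right, hab]
        · rw [Equiv.swap_apply_of_ne_of_ne hia hib]
    have hfix : (Equiv.swap a b • (g • rowWord t) : RowWord D.card) = g • rowWord t := by
      rw [hww]
      funext i
      change w ((Equiv.swap a b).symm i) = w i
      rw [Equiv.symm_swap]
      rcases eq_or_ne i a with rfl | hia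
      · rw [Equiv.swap_apply_left, hwab]
      · rcases eq_or_ne i b with rfl | hib
        · rw [Equiv.swap_apply_right, hwab]
        · rw [Equiv.swap_apply_of_ne_of_ne hia hib]
    have h1 := kap_rep t (Equiv.swap a b) hs (Finsupp.single (g • rowWord t) 1)
    rw [rowWordRep_single, hfix, Equiv.Perm.sign_swap hne] at h1
    rw [zero_smul]
    have h2 : (2 : ℂ) • kap t (Finsupp.single (g • rowWord t) 1) = 0 := by
      rw [two_smul]
      nth_rewrite 1 [h1]
      simp
    exact (smul_eq_zero.mp h2).resolve_left two_ne_zero

theorem kap_mem (hD : ∀ i j i', (i, j) ∈ D → i' ≤ i → (i', j) ∈ D) (t : D ≃ Fin D.card)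
    (f : RowWord D.card →₀ ℂ) (hf : f ∈ (spechtSubrep D).toSubmodule) :
    ∃ c : ℂ, kap t f = c • polytabloid t := by
  rw [spechtSubrep_toSubmodule] at hf
  induction hf using Submodule.span_induction with
  | mem x hx =>
    obtain ⟨t', rfl⟩ := hx
    have h : ∀ σ : Equiv.Perm (Fin D.card), ∃ c : ℂ,
        kap t (Finsupp.single (σ • rowWord t') 1) = c • polytabloid t := by
      intro σ
      have h1 : (σ • rowWord t' : RowWord D.card) = (σ * (t.symm.trans t')) • rowWord t := by
        rw [mul_smul]
        congr 1
        funext i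
        change (t'.symm i).1.1 = (t.symm ((t.symm.trans t').symm i)).1.1
        simp
      rw [h1]
      exact kap_word hD t _
    choose c hc using h
    refine ⟨∑ σ ∈ columnGroup t', (((Equiv.Perm.sign σ : ℤˣ) : ℤ) : ℂ) * c σ, ?_⟩
    simp only [polytabloid, map_sum, map_smul]
    rw [Finset.sum_smul]
    refine Finset.sum_congr rfl fun σ _ => ?_
    rw [hc σ, smul_smul]
    rfl
  | zero => exact ⟨0, by simp⟩
  | add x y _ _ hx hy =>
    obtain ⟨a, ha⟩ := hx
    obtain ⟨b, hb⟩ := hy
    exact ⟨a + b, by rw [map_add, ha, hb, add_smul]⟩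
  | smul a x _ hx =>
    obtain ⟨b, hb⟩ := hx
    exact ⟨a * b, by rw [map_smul, hb, smul_smul]⟩

/-- pairing with a polytabloid -/
theorem linearCombination_polytabloid (t : D ≃ Fin D.card) (u : RowWord D.card →₀ ℂ) :
    Finsupp.linearCombination ℂ (fun w => u w) (polytabloid t) = kap t u (rowWord t) := by
  rw [kap_apply, Finsupp.finsetSum_apply]
  unfold polytabloid
  rw [map_sum]
  refine Finset.sum_bij' (fun σ _ => σ⁻¹) (fun σ _ => σ⁻¹) ?_ ?_ ?_ ?_ ?_
  · intro σ hσ
    rw [mem_columnGroup] at hσ ⊢
    intro i
    have := hσ (σ⁻¹ i)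
    rw [perm_apply_inv] at this
    exact this.symm
  · intro σ hσ
    rw [mem_columnGroup] at hσ ⊢
    intro i
    have := hσ (σ⁻¹ i)
    rw [perm_apply_inv] at this
    exact this.symm
  · intro σ _; exact inv_inv σ
  · intro σ _; exact inv_inv σ
  · intro σ _
    rw [map_smul, Finsupp.linearCombination_single, Finsupp.smul_apply, Equiv.Perm.sign_inv,
      one_smul]
    congr 1
    exact (rowWordRep_apply _ σ⁻¹ u (rowWord t)).symm

/-- complex conjugation preserves the Specht module -/
theorem conj_mem (u : RowWord D.card →₀ ℂ) (hu : u ∈ (spechtSubrep D).toSubmodule) :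
    Finsupp.mapRange (starRingEnd ℂ) (map_zero _) u ∈ (spechtSubrep D).toSubmodule := by
  rw [spechtSubrep_toSubmodule] at hu ⊢
  induction hu using Submodule.span_induction with
  | mem x hx =>
    obtain ⟨t, rfl⟩ := hx
    have : Finsupp.mapRange (starRingEnd ℂ) (map_zero _) (polytabloid t) = polytabloid t := by
      refine Finsupp.ext fun w => ?_
      rw [Finsupp.mapRange_apply]
      have h := polytabloid_apply t w
      rw [h]
      unfold polyF
      rw [map_sum]
      refine Finset.sum_congr rfl fun σ _ => ?_
      split_ifs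
      · exact map_intCast _ _
      · exact map_zero _
    rw [this]
    exact Submodule.subset_span ⟨t, rfl⟩
  | zero => rw [Finsupp.mapRange_zero]; exact Submodule.zero_mem _
  | add x y _ _ hx hy =>
    rw [Finsupp.mapRange_add (fun a b => map_add _ a b)]
    exact Submodule.add_mem _ hx hy
  | smul a x _ hx =>
    have : Finsupp.mapRange (starRingEnd ℂ) (map_zero _) (a • x) =
        (starRingEnd ℂ a) • Finsupp.mapRange (starRingEnd ℂ) (map_zero _) x := by
      refine Finsupp.ext fun w => ?_
      rw [Finsupp.mapRange_apply, Finsupp.smul_apply, Finsupp.smul_apply, Finsupp.mapRange_apply,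
        smul_eq_mul, smul_eq_mul, map_mul]
    rw [this]
    exact Submodule.smul_mem _ _ hx

theorem eq_zero_of_kap (u : RowWord D.card →₀ ℂ) (hu : u ∈ (spechtSubrep D).toSubmodule)
    (h : ∀ t : D ≃ Fin D.card, kap t u = 0) : u = 0 := by
  classical
  have h1 : ∀ v ∈ (spechtSubrep D).toSubmodule,
      Finsupp.linearCombination ℂ (fun w => u w) v = 0 := by
    intro v hv
    rw [spechtSubrep_toSubmodule] at hv
    induction hv using Submodule.span_induction with
    | mem x hx =>
      obtain ⟨t, rfl⟩ := hx
      rw [linearCombination_polytabloid, h t, Finsupp.zero_apply]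
    | zero => exact map_zero _
    | add x y _ _ hx hy => rw [map_add, hx, hy, add_zero]
    | smul a x _ hx => rw [map_smul, hx, smul_zero]
  have h2 := h1 _ (conj_mem u hu)
  rw [Finsupp.linearCombination_apply, Finsupp.sum_mapRange_index (fun a => by simp)] at h2
  have h3 : ∑ w ∈ u.support, ((Complex.normSq (u w) : ℝ) : ℂ) = 0 := by
    rw [← h2]
    unfold Finsupp.sum
    refine Finset.sum_congr rfl fun w _ => ?_
    change _ = (starRingEnd ℂ) (u w) * u w
    rw [mul_comm, Complex.mul_conj]
  have h4 : ∑ w ∈ u.support, Complex.normSq (u w) = 0 := by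
    exact_mod_cast h3
  rw [Finset.sum_eq_zero_iff_of_nonneg (fun w _ => Complex.normSq_nonneg _)] at h4
  refine Finsupp.ext fun w => ?_
  rw [Finsupp.zero_apply]
  by_contra hw
  exact hw (Complex.normSq_eq_zero.mp (h4 w (Finsupp.mem_support_iff.mpr hw)))

theorem polytabloid_ne_zero (t : D ≃ Fin D.card) : polytabloid t ≠ 0 := by
  intro h
  have h1 := polytabloid_apply t (rowWord t)
  rw [h, Finsupp.zero_apply] at h1
  unfold polyF at h1
  rw [Finset.sum_eq_single (1 : Equiv.Perm (Fin D.card))] at h1
  · simp [rowWord] at h1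
  · intro σ _ hσ
    rw [if_neg]
    rintro ⟨ha, hb⟩
    apply hσ
    ext i
    have h2 : t.symm (σ i) = t.symm i := Subtype.ext (Prod.ext (hb i) (ha i))
    rw [t.symm.injective h2]
    rfl
  · intro h; exact absurd (mem_univ _) h

/-- Irreducibility of the Specht module of a column-justified shape. -/
theorem spechtIrred (hD : ∀ i j i', (i, j) ∈ D → i' ≤ i → (i', j) ∈ D) : SpechtIrred D := by
  classical
  have t0 : D ≃ Fin D.card := D.equivFin
  set e0 : (spechtSubrep D).toSubmodule := ⟨polytabloid t0, polytabloid_mem t0⟩ with he0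
  have hnt : (⊥ : Subrepresentation (spechtRep D)) ≠ ⊤ := by
    intro h
    have h1 : e0 ∈ (⊤ : Subrepresentation (spechtRep D)).toSubmodule := trivial
    rw [← h] at h1
    have h2 : e0 = 0 := h1
    exact polytabloid_ne_zero t0 (congrArg Subtype.val h2)
  unfold SpechtIrred
  have : Nontrivial (Subrepresentation (spechtRep D)) := ⟨⟨_, _, hnt⟩⟩
  refine ⟨fun U => ?_⟩
  by_cases hU : ∃ u ∈ U.toSubmodule, ∃ t : D ≃ Fin D.card, kap t u.1 ≠ 0
  · right
    obtain ⟨u, huU, t, hkt⟩ := hU
    obtain ⟨c, hc⟩ := kap_mem hD t u.1 u.2
    have hc0 : c ≠ 0 := by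
      rintro rfl
      rw [zero_smul] at hc
      exact hkt hc
    have hmemU : (⟨polytabloid t, polytabloid_mem t⟩ : (spechtSubrep D).toSubmodule) ∈
        U.toSubmodule := by
      have h1 : (⟨polytabloid t, polytabloid_mem t⟩ : (spechtSubrep D).toSubmodule) =
          c⁻¹ • ∑ σ ∈ columnGroup t,
            (((Equiv.Perm.sign σ : ℤˣ) : ℤ) : ℂ) • spechtRep D σ u := by
        apply Subtype.ext
        rw [Submodule.coe_smul, Submodule.coe_sum]
        have h2 : ∀ σ : Equiv.Perm (Fin D.card),
            ((((((Equiv.Perm.sign σ : ℤˣ) : ℤ) : ℂ) • spechtRep D σ u :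
              (spechtSubrep D).toSubmodule)) : RowWord D.card →₀ ℂ) =
            (((Equiv.Perm.sign σ : ℤˣ) : ℤ) : ℂ) • rowWordRep D.card σ u.1 := fun σ => rfl
        simp only [h2]
        rw [← kap_apply, hc, smul_smul, inv_mul_cancel₀ hc0, one_smul]
      rw [h1]
      refine Submodule.smul_mem _ _ (Submodule.sum_mem _ fun σ _ => Submodule.smul_mem _ _ ?_)
      exact U.apply_mem_toSubmodule σ huU
    apply top_unique
    intro x _
    -- all polytabloids are in `U`
    have hall : ∀ t' : D ≃ Fin D.card,
        (⟨polytabloid t', polytabloid_mem t'⟩ : (spechtSubrep D).toSubmodule) ∈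
          U.toSubmodule := by
      intro t'
      have h1 : (⟨polytabloid t', polytabloid_mem t'⟩ : (spechtSubrep D).toSubmodule) =
          spechtRep D (t.symm.trans t') ⟨polytabloid t, polytabloid_mem t⟩ := by
        apply Subtype.ext
        change polytabloid t' = rowWordRep D.card (t.symm.trans t') (polytabloid t)
        rw [rowWordRep_polytabloid]
        congr 1
        ext i
        simp
      rw [h1]
      exact U.apply_mem_toSubmodule _ hmemU
    have hsub : (spechtSubrep D).toSubmodule ≤ U.toSubmodule.map (Submodule.subtype _) := by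
      refine le_trans (le_of_eq (spechtSubrep_toSubmodule D)) ?_
      rw [Submodule.span_le]
      rintro f ⟨t', rfl⟩
      exact ⟨_, hall t', rfl⟩
    obtain ⟨y, hy, hyx⟩ := hsub x.2
    have : y = x := Subtype.ext hyx
    rw [← this]
    exact hy
  · left
    push Not at hU
    apply bot_unique
    intro x hx
    have h0 := eq_zero_of_kap x.1 x.2 (fun t => hU x hx t)
    have : x = 0 := Subtype.ext h0
    rw [this]
    exact Submodule.zero_mem _

end main

end Crest.Agent.R195
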