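import Mathlib

/-! Row 195, part (B): products of column minors as functions on words, the operators
`op` obtained by evaluating a rank one invariant at a reference pair of words, and the
covering property `Cov`. -/

set_option autoImplicit false

namespace Crest.Agent.R195

open Finset Function Equiv

/-- The `n × n` minor on the letters listed by `Fin n`, evaluated at a word with row
indices `u`: the signed indicator that `u` is a permutation of `0, …, n-1`. -/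
noncomputable def minor {n : ℕ} (u : Fin n → ℕ) : ℂ :=
  ∑ κ : Perm (Fin n), ((Perm.sign κ : ℤ) : ℂ) * (if ∀ x, u x = (κ x : ℕ) then 1 else 0)

theorem minor_ne_zero {n : ℕ} {u : Fin n → ℕ} (h : minor u ≠ 0) :
    ∃ κ : Perm (Fin n), ∀ x, u x = (κ x : ℕ) := by
  by_contra hcon
  apply h
  unfold minor
  refine Finset.sum_eq_zero fun κ _ => ?_
  rw [if_neg (fun hx => hcon ⟨κ, hx⟩), mul_zero]

section colFun

variable {T : Type} {ι : Type} [Fintype ι]

/-- product of the minors on the columns `x ↦ e ⟨i, x⟩` -/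
noncomputable def colFun (c : ι → ℕ) (e : (Σ i, Fin (c i)) ≃ T) (r : T → ℕ) : ℂ :=
  ∏ i, minor (fun x => r (e ⟨i, x⟩))

theorem colFun_ne_zero {c : ι → ℕ} {e : (Σ i, Fin (c i)) ≃ T} {r : T → ℕ}
    (h : colFun c e r ≠ 0) : ∀ i, ∃ κ : Perm (Fin (c i)), ∀ x, r (e ⟨i, x⟩) = (κ x : ℕ) := by
  intro i
  exact minor_ne_zero (Finset.prod_ne_zero_iff.1 h i (Finset.mem_univ i))

/-- sums over the letters of a function of the row index only depend on the column lengths -/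
theorem colFun_sum [Fintype T] {c : ι → ℕ} {e : (Σ i, Fin (c i)) ≃ T} {r : T → ℕ}
    (h : colFun c e r ≠ 0) (f : ℕ → ℤ) :
    ∑ t, f (r t) = ∑ i, ∑ x : Fin (c i), f x := by
  rw [← Equiv.sum_comp e, Fintype.sum_sigma]
  refine Finset.sum_congr rfl fun i _ => ?_
  obtain ⟨κ, hκ⟩ := colFun_ne_zero h i
  calc ∑ x, f (r (e ⟨i, x⟩)) = ∑ x, f ((κ x : Fin (c i)) : ℕ) :=
        Finset.sum_congr rfl fun x _ => by rw [hκ x]
    _ = ∑ x : Fin (c i), f x := Equiv.sum_comp κ (fun y : Fin (c i) => f y)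

end colFun

section op

variable {T : Type} [Fintype T] [DecidableEq T] {ι : Type} [Fintype ι]
variable {W : Type} [AddCommGroup W] [Module ℂ W]

/-- the coefficient function -/
noncomputable def coef (c : ι → ℕ) (r0 c0 : T → ℕ) (e e' : (Σ i, Fin (c i)) ≃ T)
    (g : Perm T) : ℂ := colFun c e (r0 ∘ g) * colFun c e' (c0 ∘ g)

/-- the operator `∑_g coef g • σ g⁻¹` -/
noncomputable def op (c : ι → ℕ) (r0 c0 : T → ℕ) (e e' : (Σ i, Fin (c i)) ≃ T)
    (σ : Representation ℂ (Perm T) W) : W →ₗ[ℂ] W :=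
  ∑ g : Perm T, coef c r0 c0 e e' g • σ g⁻¹

theorem op_apply (c : ι → ℕ) (r0 c0 : T → ℕ) (e e' : (Σ i, Fin (c i)) ≃ T)
    (σ : Representation ℂ (Perm T) W) (w : W) :
    op c r0 c0 e e' σ w = ∑ g : Perm T, coef c r0 c0 e e' g • σ g⁻¹ w := by
  simp [op, LinearMap.sum_apply, LinearMap.smul_apply]

/-- pairs of column systems -/
abbrev EPair (c : ι → ℕ) (T : Type) : Type :=
  ((Σ i, Fin (c i)) ≃ T) → ((Σ i, Fin (c i)) ≃ T) → Prop

/-- `Cov c r0 c0 A ν`: every representation of `Perm T` with a nonzero vector fixed by the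
stabiliser of the colouring `ν` is not killed by all the operators `op` (with a pair of
column systems allowed by `A`). -/
def Cov {K : Type} (c : ι → ℕ) (r0 c0 : T → ℕ) (A : EPair c T) (ν : T → K) : Prop :=
  ∀ (W : Type) [AddCommGroup W] [Module ℂ W] [FiniteDimensional ℂ W]
    (σ : Representation ℂ (Perm T) W),
    (∃ w : W, w ≠ 0 ∧ ∀ g : Perm T, (∀ t, ν (g t) = ν t) → σ g w = w) →
    ∃ (e e' : (Σ i, Fin (c i)) ≃ T), A e e' ∧ ∃ w : W, op c r0 c0 e e' σ w ≠ 0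

/-- the reference pair of words minimises the sum of squares -/
def Lo (c : ι → ℕ) (r0 c0 : T → ℕ) (A : EPair c T) : Prop :=
  ∀ (e e' : (Σ i, Fin (c i)) ≃ T), A e e' → ∀ (r s : T → ℕ),
    colFun c e r ≠ 0 → colFun c e' s ≠ 0 →
    ∑ t, ((r0 t : ℤ) + c0 t) ^ 2 ≤ ∑ t, ((r t : ℤ) + s t) ^ 2

/-- a block on the antidiagonals `a`, `b` (`|a - b| ≤ 1`): the reference words have all
antidiagonal indices in `{a, b}` -/
structure Blk (c : ι → ℕ) (r0 c0 : T → ℕ) (a b : ℤ) : Prop where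
  near : a = b ∨ a = b + 1
  mem : ∀ t, (r0 t : ℤ) + c0 t = a ∨ (r0 t : ℤ) + c0 t = b
  sum : ∑ t, ((r0 t : ℤ) + c0 t) = 2 * ∑ i, ∑ x : Fin (c i), (x : ℤ)

end op

theorem near_nonneg {a b s : ℤ} (h : a = b ∨ a = b + 1) : 0 ≤ (s - a) * (s - b) := by
  rcases h with h | h
  · subst h
    nlinarith [sq_nonneg (s - a)]
  · subst h
    rcases le_or_gt s b with h1 | h1
    · nlinarith
    · have : b + 1 ≤ s := h1
      nlinarith

section lo

variable {T : Type} [Fintype T] {ι : Type} [Fintype ι]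

theorem Blk.sum_eq {c : ι → ℕ} {r0 c0 : T → ℕ} {a b : ℤ} (h : Blk c r0 c0 a b)
    {e e' : (Σ i, Fin (c i)) ≃ T} {r s : T → ℕ} (hr : colFun c e r ≠ 0)
    (hs : colFun c e' s ≠ 0) :
    ∑ t, ((r t : ℤ) + s t) = ∑ t, ((r0 t : ℤ) + c0 t) := by
  rw [h.sum, Finset.sum_add_distrib, colFun_sum hr (fun n => (n : ℤ)),
    colFun_sum hs (fun n => (n : ℤ))]
  ring

theorem Blk.sq_eq {c : ι → ℕ} {r0 c0 : T → ℕ} {a b : ℤ} (h : Blk c r0 c0 a b)
    {e e' : (Σ i, Fin (c i)) ≃ T} {r s : T → ℕ} (hr : colFun c e r ≠ 0)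
    (hs : colFun c e' s ≠ 0) :
    ∑ t, ((r t : ℤ) + s t) ^ 2 = ∑ t, ((r0 t : ℤ) + c0 t) ^ 2
      + ∑ t, (((r t : ℤ) + s t) - a) * (((r t : ℤ) + s t) - b) := by
  have h1 : ∑ t, (((r t : ℤ) + s t) - a) * (((r t : ℤ) + s t) - b)
      = ∑ t, ((r t : ℤ) + s t) ^ 2 - (a + b) * ∑ t, ((r t : ℤ) + s t) + ∑ _t : T, a * b := by
    rw [Finset.mul_sum, ← Finset.sum_sub_distrib, ← Finset.sum_add_distrib]
    exact Finset.sum_congr rfl fun t _ => by ring
  have h2 : ∑ t, ((r0 t : ℤ) + c0 t) ^ 2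
      = (a + b) * ∑ t, ((r0 t : ℤ) + c0 t) - ∑ _t : T, a * b := by
    rw [Finset.mul_sum, ← Finset.sum_sub_distrib]
    refine Finset.sum_congr rfl fun t _ => ?_
    rcases h.mem t with h | h <;> rw [h] <;> ring
  rw [h1, h2, h.sum_eq hr hs]
  ring

theorem Blk.lo {c : ι → ℕ} {r0 c0 : T → ℕ} {a b : ℤ} (h : Blk c r0 c0 a b)
    (A : EPair c T) : Lo c r0 c0 A := by
  intro e e' _ r s hr hs
  rw [h.sq_eq hr hs]
  have : 0 ≤ ∑ t, (((r t : ℤ) + s t) - a) * (((r t : ℤ) + s t) - b) :=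
    Finset.sum_nonneg fun t _ => near_nonneg h.near
  linarith

end lo

end Crest.Agent.R195
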