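import Mathlib
import Crest.Agent.R195.ChainDefs

/-! Row 195: `colFun` as a signed sum over the column group, and transposition duality. -/

set_option autoImplicit false

namespace Crest.Agent.R195

open Finset Function Equiv

theorem sign_sigmaCongrRight' {ι : Type} [Fintype ι] [DecidableEq ι] {β : ι → Type}
    [∀ i, Fintype (β i)] [∀ i, DecidableEq (β i)] (κ : ∀ i, Perm (β i)) :
    Perm.sign (Perm.sigmaCongrRight κ) = ∏ i, Perm.sign (κ i) := by
  let f : (∀ i, Perm (β i)) →* ℤˣ := Perm.sign.comp (Perm.sigmaCongrRightHom β)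
  let g : (∀ i, Perm (β i)) →* ℤˣ :=
    { toFun := fun κ => ∏ i, Perm.sign (κ i)
      map_one' := by simp
      map_mul' := fun a b => by simp [Finset.prod_mul_distrib] }
  have hfg : f = g := by
    refine MonoidHom.pi_ext ?_
    intro i x
    induction x using Perm.swap_induction_on with
    | one => simp
    | swap_mul y a b hab ih =>
      rw [Pi.mulSingle_mul, map_mul, map_mul, ih]
      congr 1
      show Perm.sign (Perm.sigmaCongrRight (Pi.mulSingle i (swap a b)))
        = ∏ j, Perm.sign ((Pi.mulSingle i (swap a b) : ∀ i, Perm (β i)) j)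
      have h1 : Perm.sigmaCongrRight (Pi.mulSingle i (swap a b))
          = swap (⟨i, a⟩ : Σ i, β i) ⟨i, b⟩ := by
        ext ⟨j, x⟩ : 1
        show (⟨j, (Pi.mulSingle i (swap a b) : ∀ i, Perm (β i)) j x⟩ : Σ i, β i)
          = swap (⟨i, a⟩ : Σ i, β i) ⟨i, b⟩ ⟨j, x⟩
        by_cases hj : j = i
        · subst hj
          rw [Pi.mulSingle_eq_same]
          by_cases hxa : x = a
          · subst hxa; simp
          · by_cases hxb : x = b
            · subst hxb; simp
            · rw [swap_apply_of_ne_of_ne hxa hxb, swap_apply_of_ne_of_ne]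
              · intro h; exact hxa (by simpa using h)
              · intro h; exact hxb (by simpa using h)
        · rw [swap_apply_of_ne_of_ne]
          · simp [Pi.mulSingle_eq_of_ne hj]
          · intro h; exact hj (congrArg Sigma.fst h)
          · intro h; exact hj (congrArg Sigma.fst h)
      rw [h1, Perm.sign_swap (by simpa using hab), Finset.prod_eq_single i]
      · simp [Perm.sign_swap hab]
      · intro j _ hj
        simp [Pi.mulSingle_eq_of_ne hj]
      · simp
  exact DFunLike.congr_fun hfg κ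

/-- signed sum over the column group: `polyt row col r = ∑_{κ, col ∘ κ = col} sign κ [r = row ∘ κ]` -/
noncomputable def polyt {T : Type} [Fintype T] [DecidableEq T] (row col : T → ℕ) (r : T → ℕ) : ℂ :=
  ∑ κ : Perm T, if (∀ t, col (κ t) = col t) ∧ (∀ t, r t = row (κ t)) then
    ((Perm.sign κ : ℤ) : ℂ) else 0

section

variable {T : Type} [Fintype T] [DecidableEq T] {ι : Type} [Fintype ι] [DecidableEq ι]

omit [Fintype ι] [DecidableEq ι] in
/-- the permutations preserving the first component of a sigma type -/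
theorem exists_sigmaCongrRight {β : ι → Type} [∀ i, Finite (β i)] (κ : Perm (Σ i, β i))
    (h : ∀ p, (κ p).1 = p.1) : ∃ k : ∀ i, Perm (β i), Perm.sigmaCongrRight k = κ := by
  have h1 : ∀ i (x : β i), ∃ y : β i, κ ⟨i, x⟩ = ⟨i, y⟩ := by
    intro i x
    have h2 := h ⟨i, x⟩
    rcases hk : κ ⟨i, x⟩ with ⟨j, y⟩
    rw [hk] at h2
    dsimp at h2
    subst h2
    exact ⟨y, rfl⟩
  choose f hf using h1
  have hinj : ∀ i, Injective (f i) := by
    intro i x y hxy
    have := hf i x
    rw [hxy, ← hf i y] at this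
    simpa using κ.injective this
  refine ⟨fun i => Equiv.ofBijective (f i) (Finite.injective_iff_bijective.1 (hinj i)), ?_⟩
  ext ⟨i, x⟩ : 1
  rw [hf]
  rfl

theorem colFun_eq_polyt {c : ι → ℕ} (e : (Σ i, Fin (c i)) ≃ T) (idx : ι → ℕ)
    (hidx : Injective idx) (row col : T → ℕ) (hrow : ∀ i x, row (e ⟨i, x⟩) = x)
    (hcol : ∀ i x, col (e ⟨i, x⟩) = idx i) (r : T → ℕ) :
    colFun c e r = polyt row col r := by
  unfold colFun minor polyt
  rw [Fintype.prod_sum]
  -- conjugation by `e`
  let F : (∀ i, Perm (Fin (c i))) → Perm T := fun k => e.permCongr (Perm.sigmaCongrRight k)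
  have hF : Injective F := by
    intro a b hab
    exact Perm.sigmaCongrRightHom_injective (e.permCongr.injective hab)
  have hFapply : ∀ k i x, F k (e ⟨i, x⟩) = e ⟨i, k i x⟩ := by
    intro k i x
    simp only [F, Equiv.permCongr_apply, Equiv.symm_apply_apply]
    rfl
  have hforall : ∀ P : T → Prop, (∀ t, P t) ↔ ∀ i x, P (e ⟨i, x⟩) := by
    intro P
    constructor
    · intro h i x; exact h _
    · intro h t
      obtain ⟨⟨i, x⟩, rfl⟩ := e.surjective t
      exact h i x
  refine Fintype.sum_of_injective F hF _ _ ?_ ?_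
  · intro κ hκ
    rw [if_neg]
    rintro ⟨h1, -⟩
    apply hκ
    have h2 : ∀ p, ((e.permCongr.symm κ) p).1 = p.1 := by
      rintro ⟨i, x⟩
      apply hidx
      have h3 := h1 (e ⟨i, x⟩)
      rw [hcol] at h3
      rw [← h3]
      obtain ⟨⟨j, y⟩, hy⟩ := e.surjective (κ (e ⟨i, x⟩))
      have h4 : (e.permCongr.symm κ) ⟨i, x⟩ = ⟨j, y⟩ := by
        apply e.injective
        rw [hy]
        simp [Equiv.permCongr_symm, Equiv.permCongr_apply]
      rw [h4, ← hy, hcol]
    obtain ⟨k, hk⟩ := exists_sigmaCongrRight _ h2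
    refine ⟨k, ?_⟩
    show e.permCongr (Perm.sigmaCongrRight k) = κ
    rw [hk, Equiv.apply_symm_apply]
  · intro k
    rw [Finset.prod_mul_distrib]
    have hsign : (∏ i, (((Perm.sign (k i) : ℤˣ) : ℤ) : ℂ)) = ((Perm.sign (F k) : ℤ) : ℂ) := by
      simp only [F, Perm.sign_permCongr, sign_sigmaCongrRight']
      push_cast
      rfl
    rw [hsign]
    by_cases hc : ∀ i x, r (e ⟨i, x⟩) = (k i x : ℕ)
    · rw [Finset.prod_eq_one (fun i _ => if_pos (hc i)), mul_one, if_pos]
      constructor
      · rw [hforall]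
        intro i x
        rw [hFapply, hcol, hcol]
      · rw [hforall]
        intro i x
        rw [hFapply, hrow, hc]
    · rw [if_neg]
      · push Not at hc
        obtain ⟨i, x, hx⟩ := hc
        rw [Finset.prod_eq_zero (Finset.mem_univ i), mul_zero]
        rw [if_neg]
        intro h
        exact hx (h x)
      · rintro ⟨-, h⟩
        apply hc
        intro i x
        rw [h (e ⟨i, x⟩), hFapply, hrow]

omit [DecidableEq ι] [Fintype ι] in
/-- transposition duality -/
theorem polyt_dual (row col : T → ℕ) (g : Perm T) :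
    polyt row col (row ∘ g) = ((Perm.sign g : ℤ) : ℂ) * polyt col row (col ∘ g.symm) := by
  unfold polyt
  rw [Finset.mul_sum]
  conv_rhs => rw [← Equiv.sum_comp (Equiv.mulRight g⁻¹)]
  refine Finset.sum_congr rfl fun κ _ => ?_
  rw [mul_ite, mul_zero]
  have hiff : ((∀ t, col (κ t) = col t) ∧ (∀ t, (row ∘ g) t = row (κ t))) ↔
      ((∀ t, row ((Equiv.mulRight g⁻¹ κ) t) = row t) ∧
        (∀ t, (col ∘ g.symm) t = col ((Equiv.mulRight g⁻¹ κ) t))) := by
    simp only [Equiv.coe_mulRight, Perm.mul_apply, Function.comp]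
    constructor
    · rintro ⟨h1, h2⟩
      refine ⟨fun t => ?_, fun t => ?_⟩
      · rw [← h2]; simp
      · exact (h1 (g⁻¹ t)).symm
    · rintro ⟨h1, h2⟩
      refine ⟨fun t => ?_, fun t => ?_⟩
      · have := h2 (g t)
        simpa using this.symm
      · have := h1 (g t)
        simpa using this.symm
  by_cases h : (∀ t, col (κ t) = col t) ∧ (∀ t, (row ∘ g) t = row (κ t))
  · rw [if_pos h, if_pos (hiff.1 h)]
    simp only [Equiv.coe_mulRight, Perm.sign_mul, Perm.sign_inv]
    have hs : ((Perm.sign g : ℤ) : ℂ) * ((Perm.sign g : ℤ) : ℂ) = 1 := by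
      rcases Int.units_eq_one_or (Perm.sign g) with h | h <;> simp [h]
    push_cast
    linear_combination (-((Perm.sign κ : ℤ) : ℂ)) * hs
  · rw [if_neg h, if_neg (fun h' => h (hiff.2 h'))]

end

end Crest.Agent.R195
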