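import Mathlib
import Crest.Agent.R195.ChainDefs
import Crest.Agent.R195.ColSum

/-! Row 195, part (B2): the coefficient function of a pair of columns `(m+1, m)` at the
zigzag reference words is the chain functional `chainPsi`. -/

set_option autoImplicit false

namespace Crest.Agent.R195

open Finset Function Equiv

def eps2 : Matrix (Fin 2) (Fin 2) ℂ := !![0, 1; -1, 0]

/-- chain functional on label words over the positions `Fin (2*m+1)` -/
noncomputable def chainPsi (m : ℕ) (z : Fin (2*m+1) → Fin 2 × Fin 2) : ℂ :=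
  (if (z ⟨0, by omega⟩).2 = 0 then 1 else 0) * (if (z ⟨2*m, by omega⟩).1 = 0 then 1 else 0) *
  (∏ j : Fin m, eps2 (z ⟨2*(j:ℕ), by have := j.2; omega⟩).1 (z ⟨2*(j:ℕ)+1, by have := j.2; omega⟩).1) *
  (∏ j : Fin m, eps2 (z ⟨2*(j:ℕ)+1, by have := j.2; omega⟩).2 (z ⟨2*(j:ℕ)+2, by have := j.2; omega⟩).2)

/-- row part -/
noncomputable def epsRow (m : ℕ) (s : Fin (2*m+1) → Fin 2) : ℂ :=
  (if s ⟨2*m, by omega⟩ = 0 then 1 else 0) *
  ∏ j : Fin m, eps2 (s ⟨2*(j:ℕ), by have := j.2; omega⟩) (s ⟨2*(j:ℕ)+1, by have := j.2; omega⟩)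

/-- column part -/
noncomputable def epsCol (m : ℕ) (s : Fin (2*m+1) → Fin 2) : ℂ :=
  (if s ⟨0, by omega⟩ = 0 then 1 else 0) *
  ∏ j : Fin m, eps2 (s ⟨2*(j:ℕ)+1, by have := j.2; omega⟩) (s ⟨2*(j:ℕ)+2, by have := j.2; omega⟩)

theorem chainPsi_eq (m : ℕ) (z : Fin (2*m+1) → Fin 2 × Fin 2) :
    chainPsi m z = epsRow m (fun p => (z p).1) * epsCol m (fun p => (z p).2) := by
  unfold chainPsi epsRow epsCol
  ring

/-- the row word of the zigzag -/
def zRow (m : ℕ) (p : Fin (2*m+1)) : ℕ := (p : ℕ) / 2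
/-- the standard labels -/
def zLab (m : ℕ) (p : Fin (2*m+1)) : ℕ := (p : ℕ) % 2
/-- the column word of the zigzag -/
def zCol (m : ℕ) (p : Fin (2*m+1)) : ℕ := m - ((p : ℕ) + 1) / 2

/-- column lengths of the pair of columns -/
def cPair (m : ℕ) (b : Bool) : ℕ := cond b m (m+1)

/-- the standard column system -/
noncomputable def ePair (m : ℕ) : (Σ b : Bool, Fin (cPair m b)) ≃ Fin (2*m+1) :=
  Equiv.ofBijective (fun q => match q with
    | ⟨false, x⟩ => ⟨2 * (x : ℕ), by have := x.2; simp only [cPair, cond_false] at this; omega⟩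
    | ⟨true, x⟩ => ⟨2 * (x : ℕ) + 1, by have := x.2; simp only [cPair, cond_true] at this; omega⟩) (by
    rw [Fintype.bijective_iff_injective_and_card]
    constructor
    · rintro ⟨b, x⟩ ⟨b', x'⟩ h
      cases b <;> cases b' <;> simp only [Fin.mk.injEq] at h
      · have : x = x' := Fin.ext (by omega)
        rw [this]
      · omega
      · omega
      · have : x = x' := Fin.ext (by omega)
        rw [this]
    · have h : Fintype.card (Σ b : Bool, Fin (cPair m b)) = ∑ b : Bool, cPair m b := by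
        rw [Fintype.card_sigma]
        exact Finset.sum_congr rfl fun b _ => Fintype.card_fin _
      rw [h, Fintype.sum_bool, Fintype.card_fin]
      show m + (m + 1) = 2 * m + 1
      omega)

/-- row lengths -/
def cRows (m : ℕ) : Fin m ⊕ Unit → ℕ := Sum.elim (fun _ => 2) (fun _ => 1)

/-- the standard row system -/
noncomputable def eRows (m : ℕ) : (Σ j : Fin m ⊕ Unit, Fin (cRows m j)) ≃ Fin (2*m+1) :=
  Equiv.ofBijective (fun q => match q with
    | ⟨Sum.inl j, x⟩ => ⟨2 * (j : ℕ) + (x : ℕ), by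
        have := j.2; have := x.2; simp only [cRows, Sum.elim_inl] at this; omega⟩
    | ⟨Sum.inr _, x⟩ => ⟨2 * m + (x : ℕ), by
        have := x.2; simp only [cRows, Sum.elim_inr] at this; omega⟩) (by
    rw [Fintype.bijective_iff_injective_and_card]
    constructor
    · rintro ⟨j | j, x⟩ ⟨j' | j', x'⟩ h <;> simp only [Fin.mk.injEq] at h <;>
        have hx := x.2 <;> have hx' := x'.2 <;>
        simp only [cRows, Sum.elim_inl, Sum.elim_inr] at hx hx'
      · have h1 : j = j' := Fin.ext (by omega)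
        subst h1
        have : x = x' := Fin.ext (by omega)
        rw [this]
      · have := j.2; omega
      · have := j'.2; omega
      · have : x = x' := Fin.ext (by omega)
        rw [this]
    · have h : Fintype.card (Σ j : Fin m ⊕ Unit, Fin (cRows m j))
          = ∑ j : Fin m ⊕ Unit, cRows m j := by
        rw [Fintype.card_sigma]
        exact Finset.sum_congr rfl fun b _ => Fintype.card_fin _
      rw [h, Fintype.sum_sum_type, Fintype.card_fin]
      show ∑ j : Fin m, 2 + ∑ j : Unit, 1 = 2 * m + 1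
      simp
      ring)

theorem colFun_ePair (m : ℕ) (r : Fin (2*m+1) → ℕ) :
    colFun (cPair m) (ePair m) r = polyt (zRow m) (zLab m) r := by
  refine colFun_eq_polyt (ePair m) (fun b => cond b 1 0) ?_ _ _ ?_ ?_ r
  · intro a b h
    cases a <;> cases b <;> simp_all
  · intro b x
    cases b
    · show (2 * (x : ℕ)) / 2 = x
      omega
    · show (2 * (x : ℕ) + 1) / 2 = x
      omega
  · intro b x
    cases b
    · show (2 * (x : ℕ)) % 2 = 0
      omega
    · show (2 * (x : ℕ) + 1) % 2 = 1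
      omega

theorem colFun_eRows (m : ℕ) (r : Fin (2*m+1) → ℕ) :
    colFun (cRows m) (eRows m) r = polyt (zLab m) (zRow m) r := by
  refine colFun_eq_polyt (eRows m) (Sum.elim (fun j => (j : ℕ)) (fun _ => m)) ?_ _ _ ?_ ?_ r
  · rintro (a | a) (b | b) h
    · simpa [Fin.ext_iff] using h
    · simp at h; have := a.2; omega
    · simp at h; have := b.2; omega
    · rfl
  · rintro (j | j) x
    · have hx := x.2
      simp only [cRows, Sum.elim_inl] at hx
      show (2 * (j : ℕ) + (x : ℕ)) % 2 = x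
      omega
    · have hx := x.2
      simp only [cRows, Sum.elim_inr] at hx
      show (2 * m + (x : ℕ)) % 2 = x
      omega
  · rintro (j | j) x
    · have hx := x.2
      simp only [cRows, Sum.elim_inl] at hx
      show (2 * (j : ℕ) + (x : ℕ)) / 2 = j
      omega
    · have hx := x.2
      simp only [cRows, Sum.elim_inr] at hx
      show (2 * m + (x : ℕ)) / 2 = m
      omega

theorem minor_one (u : Fin 1 → Fin 2) :
    minor (fun x => (u x : ℕ)) = if u 0 = 0 then 1 else 0 := by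
  unfold minor
  rw [Fintype.sum_eq_single 1 (fun κ hκ => absurd (Subsingleton.elim κ 1) hκ)]
  simp only [Perm.sign_one, Units.val_one, Int.cast_one, one_mul]
  congr 1
  rw [eq_iff_iff]
  constructor
  · intro h
    have := h 0
    exact Fin.ext (by simpa using this)
  · intro h x
    have hx : x = 0 := Subsingleton.elim _ _
    subst hx
    simp [h]

theorem minor_two (u : Fin 2 → Fin 2) :
    minor (fun x => (u x : ℕ)) = eps2 (u 0) (u 1) := by
  unfold minor
  have huniv : (univ : Finset (Perm (Fin 2))) = {1, swap 0 1} := by decide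
  rw [huniv, Finset.sum_pair (by decide)]
  simp only [Perm.sign_one, Units.val_one, Int.cast_one, one_mul,
    Perm.sign_swap (show (0 : Fin 2) ≠ 1 by decide), Units.val_neg, Int.cast_neg, Fin.forall_fin_two,
    Perm.coe_one, id_eq, swap_apply_left, swap_apply_right]
  generalize u 0 = a
  generalize u 1 = b
  fin_cases a <;> fin_cases b <;> simp [eps2]

theorem colFun_eRows_eq (m : ℕ) (s : Fin (2*m+1) → Fin 2) :
    colFun (cRows m) (eRows m) (fun p => (s p : ℕ)) = epsRow m s := by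
  unfold colFun epsRow
  rw [Fintype.prod_sum_type, mul_comm]
  congr 1
  · rw [Fintype.prod_unique]
    exact minor_one (fun x : Fin 1 => s (eRows m ⟨Sum.inr (), x⟩))
  · refine Finset.prod_congr rfl fun j _ => ?_
    exact minor_two (fun x : Fin 2 => s (eRows m ⟨Sum.inl j, x⟩))

theorem colFun_std (m : ℕ) (g : Perm (Fin (2*m+1))) :
    colFun (cPair m) (ePair m) (zRow m ∘ g)
      = ((Perm.sign g : ℤ) : ℂ) * colFun (cRows m) (eRows m) (zLab m ∘ g.symm) := by
  rw [colFun_ePair, colFun_eRows, polyt_dual]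

theorem exists_row (m : ℕ) (s : Fin (2*m+1) → Fin 2)
    (hs : ∃ g : Perm (Fin (2*m+1)), epsRow m (s ∘ g) ≠ 0) :
    ∃ (e : (Σ b : Bool, Fin (cPair m b)) ≃ Fin (2*m+1)) (C : ℂ), C ≠ 0 ∧
      ∀ g : Perm (Fin (2*m+1)), colFun (cPair m) e (zRow m ∘ g)
        = C * (((Perm.sign g : ℤ) : ℂ) * epsRow m (s ∘ g.symm)) := by
  obtain ⟨g1, hg1⟩ := hs
  have h1 : polyt (zLab m) (zRow m) (fun p => ((s ∘ g1) p : ℕ)) ≠ 0 := by
    rw [← colFun_eRows, colFun_eRows_eq]
    exact hg1
  unfold polyt at h1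
  obtain ⟨ρ, -, hρ'⟩ := Finset.exists_ne_zero_of_sum_ne_zero h1
  have hρ : ∀ t, ((s (g1 t) : Fin 2) : ℕ) = zLab m (ρ t) := by
    by_contra hcon
    exact hρ' (if_neg (fun h => hcon h.2))
  -- `s ∘ θ = zLab`
  set θ : Perm (Fin (2*m+1)) := g1 * ρ⁻¹ with hθ
  have hsθ : ∀ p, ((s (θ p) : Fin 2) : ℕ) = zLab m p := by
    intro p
    have := hρ (ρ⁻¹ p)
    simpa [hθ] using this
  refine ⟨(ePair m).trans θ, ((Perm.sign θ : ℤ) : ℂ), ?_, ?_⟩
  · rcases Int.units_eq_one_or (Perm.sign θ) with h | h <;> simp [h]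
  · intro g
    have h2 : colFun (cPair m) ((ePair m).trans θ) (zRow m ∘ g)
        = colFun (cPair m) (ePair m) (zRow m ∘ (g * θ : Perm _)) := rfl
    rw [h2, colFun_std, ← colFun_eRows_eq, Perm.sign_mul]
    have h3 : (zLab m ∘ (g * θ : Perm _).symm) = fun p => (((s ∘ g.symm) p : Fin 2) : ℕ) := by
      funext p
      have := hsθ ((g * θ : Perm _).symm p)
      rw [comp_apply, ← this]
      have h4 : θ ((g * θ : Perm _).symm p) = g.symm p := by
        apply g.injective
        have : g (θ ((g * θ : Perm _).symm p)) = (g * θ) ((g * θ : Perm _).symm p) := rfl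
        rw [this, Equiv.apply_symm_apply, Equiv.apply_symm_apply]
      rw [h4]
      rfl
    rw [h3]
    push_cast
    ring

theorem zCol_eq (m : ℕ) (p : Fin (2*m+1)) : zCol m p = zRow m (Fin.revPerm p) := by
  have := p.2
  simp only [zCol, zRow, Fin.revPerm_apply, Fin.val_rev]
  omega

theorem epsRow_rev (m : ℕ) (s : Fin (2*m+1) → Fin 2) :
    epsRow m (s ∘ Fin.revPerm) = (-1) ^ m * epsCol m s := by
  unfold epsRow epsCol
  have h0 : (Fin.revPerm (⟨2*m, by omega⟩ : Fin (2*m+1))) = ⟨0, by omega⟩ := by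
    ext; simp
  have hanti : ∀ a b : Fin 2, eps2 a b = -eps2 b a := by
    intro a b
    fin_cases a <;> fin_cases b <;> simp [eps2]
  have h00 : (if (s ∘ Fin.revPerm) (⟨2*m, by omega⟩ : Fin (2*m+1)) = 0 then (1:ℂ) else 0)
      = if s ⟨0, by omega⟩ = 0 then 1 else 0 := by
    rw [comp_apply, h0]
  rw [h00]
  simp only [comp_apply]
  have h1 : (∏ j : Fin m, eps2 (s (Fin.revPerm ⟨2*(j:ℕ), by have := j.2; omega⟩))
      (s (Fin.revPerm ⟨2*(j:ℕ)+1, by have := j.2; omega⟩)))
      = ∏ j : Fin m, (-1 : ℂ) * eps2 (s ⟨2*(j:ℕ)+1, by have := j.2; omega⟩)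
          (s ⟨2*(j:ℕ)+2, by have := j.2; omega⟩) := by
    rw [← Equiv.prod_comp Fin.revPerm]
    refine Finset.prod_congr rfl fun j _ => ?_
    rw [hanti, neg_one_mul]
    congr 3
    · apply Fin.ext
      have := j.2
      simp only [Fin.revPerm_apply, Fin.val_rev]
      omega
    · apply Fin.ext
      have := j.2
      simp only [Fin.revPerm_apply, Fin.val_rev]
      omega
  rw [h1, Finset.prod_mul_distrib, Finset.prod_const, Finset.card_univ, Fintype.card_fin]
  ring

theorem exists_col (m : ℕ) (s : Fin (2*m+1) → Fin 2)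
    (hs : ∃ g : Perm (Fin (2*m+1)), epsCol m (s ∘ g) ≠ 0) :
    ∃ (e : (Σ b : Bool, Fin (cPair m b)) ≃ Fin (2*m+1)) (C : ℂ), C ≠ 0 ∧
      ∀ g : Perm (Fin (2*m+1)), colFun (cPair m) e (zCol m ∘ g)
        = C * (((Perm.sign g : ℤ) : ℂ) * epsCol m (s ∘ g.symm)) := by
  obtain ⟨g1, hg1⟩ := hs
  have h1 : ∃ g : Perm (Fin (2*m+1)), epsRow m (s ∘ g) ≠ 0 := by
    refine ⟨g1 * Fin.revPerm, ?_⟩
    have : (s ∘ (g1 * Fin.revPerm : Perm (Fin (2*m+1)))) = (s ∘ g1) ∘ Fin.revPerm := rfl
    rw [this, epsRow_rev]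
    exact mul_ne_zero (pow_ne_zero _ (by norm_num)) hg1
  obtain ⟨e, C, hC, he⟩ := exists_row m s h1
  refine ⟨e, C * ((Perm.sign (Fin.revPerm : Perm (Fin (2*m+1))) : ℤ) : ℂ) * (-1) ^ m, ?_, ?_⟩
  · refine mul_ne_zero (mul_ne_zero hC ?_) (pow_ne_zero _ (by norm_num))
    rcases Int.units_eq_one_or (Perm.sign (Fin.revPerm : Perm (Fin (2*m+1)))) with h | h <;>
      simp [h]
  · intro g
    have h2 : (zCol m ∘ g) = zRow m ∘ (Fin.revPerm * g : Perm (Fin (2*m+1))) := by
      funext p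
      simp only [comp_apply, zCol_eq, Perm.mul_apply]
    have h3 : s ∘ (Fin.revPerm * g : Perm (Fin (2*m+1))).symm = (s ∘ g.symm) ∘ Fin.revPerm := by
      funext p
      rfl
    rw [h2, he, h3, epsRow_rev, Perm.sign_mul]
    push_cast
    ring

/-- (B2) -/
theorem exists_pair (m : ℕ) (z : Fin (2*m+1) → Fin 2 × Fin 2)
    (hz : ∃ g : Perm (Fin (2*m+1)), chainPsi m (z ∘ g) ≠ 0) :
    ∃ (e e' : (Σ b : Bool, Fin (cPair m b)) ≃ Fin (2*m+1)) (C : ℂ), C ≠ 0 ∧
      ∀ g : Perm (Fin (2*m+1)), coef (cPair m) (zRow m) (zCol m) e e' g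
        = C * chainPsi m (z ∘ g.symm) := by
  obtain ⟨g, hg⟩ := hz
  rw [chainPsi_eq] at hg
  obtain ⟨e, C, hC, he⟩ := exists_row m (fun p => (z p).1) ⟨g, left_ne_zero_of_mul hg⟩
  obtain ⟨e', C', hC', he'⟩ := exists_col m (fun p => (z p).2) ⟨g, right_ne_zero_of_mul hg⟩
  refine ⟨e, e', C * C', mul_ne_zero hC hC', fun g => ?_⟩
  unfold coef
  rw [he, he', chainPsi_eq]
  have hs : ((Perm.sign g : ℤ) : ℂ) * ((Perm.sign g : ℤ) : ℂ) = 1 := by
    rcases Int.units_eq_one_or (Perm.sign g) with h | h <;> simp [h]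
  have h1 : ((fun p => (z p).1) ∘ g.symm) = fun p => ((z ∘ g.symm) p).1 := rfl
  have h2 : ((fun p => (z p).2) ∘ g.symm) = fun p => ((z ∘ g.symm) p).2 := rfl
  rw [h1, h2]
  linear_combination (C * C' * epsRow m (fun p => ((z ∘ g.symm) p).1)
    * epsCol m (fun p => ((z ∘ g.symm) p).2)) * hs

end Crest.Agent.R195
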