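import Mathlib
import Crest.Agent.R195.ChainB2

/-! Row 195, part (B1a): the chain functional on matrices. -/

set_option autoImplicit false

namespace Crest.Agent.R195

open Finset Function Equiv Matrix

/-- transpose or not -/
def opT (b : Bool) (M : Matrix (Fin 2) (Fin 2) ℂ) : Matrix (Fin 2) (Fin 2) ℂ :=
  match b with
  | true => M.transpose
  | false => M

/-- chain value after the first matrix -/
noncomputable def chainW :
    (b : Bool) → (v : Fin 2 → ℂ) → (n : ℕ) → (Fin n → Matrix (Fin 2) (Fin 2) ℂ) → ℂ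
  | _, v, 0, _ => v 0
  | b, v, n+1, N => chainW (!b) ((v ᵥ* eps2) ᵥ* opT (!b) (N 0)) n (fun i => N i.succ)

/-- chain value -/
noncomputable def chainV (b : Bool) (a : Fin 2 → ℂ) (n : ℕ)
    (M : Fin (n+1) → Matrix (Fin 2) (Fin 2) ℂ) : ℂ :=
  chainW b (a ᵥ* opT b (M 0)) n (fun i => M i.succ)

theorem chainV_zero (b : Bool) (a : Fin 2 → ℂ) (M : Fin 1 → Matrix (Fin 2) (Fin 2) ℂ) :
    chainV b a 0 M = (a ᵥ* opT b (M 0)) 0 := rfl

theorem chainV_succ (b : Bool) (a : Fin 2 → ℂ) (n : ℕ)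
    (M : Fin (n+2) → Matrix (Fin 2) (Fin 2) ℂ) :
    chainV b a (n+1) M = chainV (!b) ((a ᵥ* opT b (M 0)) ᵥ* eps2) n (fun i => M i.succ) := rfl

theorem chainW_smul (b : Bool) (c : ℂ) (v : Fin 2 → ℂ) (n : ℕ)
    (N : Fin n → Matrix (Fin 2) (Fin 2) ℂ) :
    chainW b (c • v) n N = c * chainW b v n N := by
  induction n generalizing b v with
  | zero => simp [chainW]
  | succ n ih =>
    simp only [chainW]
    rw [Matrix.smul_vecMul, Matrix.smul_vecMul, ih]

theorem chainW_add (b : Bool) (v v' : Fin 2 → ℂ) (n : ℕ)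
    (N : Fin n → Matrix (Fin 2) (Fin 2) ℂ) :
    chainW b (v + v') n N = chainW b v n N + chainW b v' n N := by
  induction n generalizing b v v' with
  | zero => simp [chainW]
  | succ n ih =>
    simp only [chainW]
    rw [Matrix.add_vecMul, Matrix.add_vecMul, ih]

theorem chainW_neg (b : Bool) (v : Fin 2 → ℂ) (n : ℕ)
    (N : Fin n → Matrix (Fin 2) (Fin 2) ℂ) :
    chainW b (-v) n N = -chainW b v n N := by
  rw [← neg_one_smul ℂ v, chainW_smul, neg_one_mul]

/-- incoming index -/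
def lin (b : Bool) (z : Fin 2 × Fin 2) : Fin 2 :=
  match b with
  | true => z.2
  | false => z.1

/-- weights of label words -/
noncomputable def chainR : (b : Bool) → (n : ℕ) → (Fin (n+1) → Fin 2 × Fin 2) → ℂ
  | b, 0, z => if lin (!b) (z 0) = 0 then 1 else 0
  | b, n+1, z => eps2 (lin (!b) (z 0)) (lin (!b) (z 1)) * chainR (!b) n (fun i => z i.succ)

theorem vec_key (b : Bool) (a : Fin 2 → ℂ) (M : Matrix (Fin 2) (Fin 2) ℂ) (t : Fin 2) :
    ((a ᵥ* opT b M) ᵥ* eps2) t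
      = ∑ x : Fin 2 × Fin 2, a (lin b x) * eps2 (lin (!b) x) t * M x.1 x.2 := by
  cases b <;>
  simp only [Fintype.sum_prod_type, Fin.sum_univ_two, Matrix.vecMul, dotProduct, opT, lin,
    Bool.not_true, Bool.not_false, Matrix.transpose_apply] <;>
  ring

theorem chainV_eq (b : Bool) (a : Fin 2 → ℂ) (n : ℕ)
    (M : Fin (n+1) → Matrix (Fin 2) (Fin 2) ℂ) :
    chainV b a n M = ∑ z : Fin (n+1) → Fin 2 × Fin 2,
      a (lin b (z 0)) * chainR b n z * ∏ p, M p (z p).1 (z p).2 := by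
  induction n generalizing b a with
  | zero =>
    refine Eq.trans ?_ (Equiv.sum_comp (Equiv.funUnique (Fin 1) (Fin 2 × Fin 2)).symm
      (fun z : Fin 1 → Fin 2 × Fin 2 =>
        a (lin b (z 0)) * chainR b 0 z * ∏ p, M p (z p).1 (z p).2))
    rw [chainV_zero]
    cases b <;>
    simp [Fintype.sum_prod_type, Fin.sum_univ_two, Matrix.vecMul, dotProduct, opT, lin,
      chainR, Equiv.funUnique]
  | succ n ih =>
    rw [chainV_succ, ih]
    refine Eq.trans ?_ (Equiv.sum_comp (Fin.consEquiv (n := n+1) (fun _ => Fin 2 × Fin 2))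
      (fun z : Fin (n+2) → Fin 2 × Fin 2 =>
        a (lin b (z 0)) * chainR b (n+1) z * ∏ p, M p (z p).1 (z p).2))
    rw [Fintype.sum_prod_type_right]
    refine Finset.sum_congr rfl fun z _ => ?_
    rw [vec_key, Finset.sum_mul, Finset.sum_mul]
    refine Finset.sum_congr rfl fun x _ => ?_
    simp only [Fin.consEquiv_apply, Fin.cons_zero, Fin.cons_succ, chainR]
    have h1 : (Fin.cons x z : Fin (n+2) → Fin 2 × Fin 2) 1 = z 0 := rfl
    have h2 : ∏ p : Fin (n+2), M p ((Fin.cons x z : Fin (n+2) → Fin 2 × Fin 2) p).1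
        ((Fin.cons x z : Fin (n+2) → Fin 2 × Fin 2) p).2
        = M 0 x.1 x.2 * ∏ p : Fin (n+1), M p.succ (z p).1 (z p).2 := by
      rw [Fin.prod_univ_succ]
      rfl
    rw [h1, h2]
    ring

theorem chainR_eq (m : ℕ) (z : Fin (2*m+1) → Fin 2 × Fin 2) :
    chainR true (2*m) z = (if (z ⟨2*m, by omega⟩).1 = 0 then 1 else 0) *
      (∏ j : Fin m, eps2 (z ⟨2*(j:ℕ), by have := j.2; omega⟩).1
        (z ⟨2*(j:ℕ)+1, by have := j.2; omega⟩).1) *
      (∏ j : Fin m, eps2 (z ⟨2*(j:ℕ)+1, by have := j.2; omega⟩).2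
        (z ⟨2*(j:ℕ)+2, by have := j.2; omega⟩).2) := by
  induction m with
  | zero =>
    simp [chainR, lin]
  | succ m ih =>
    have h1 : chainR true (2*(m+1)) z = eps2 (z ⟨0, by omega⟩).1 (z ⟨1, by omega⟩).1 *
        (eps2 (z ⟨1, by omega⟩).2 (z ⟨2, by omega⟩).2 *
          chainR true (2*m) (fun i => z ⟨i + 2, by have := i.2; omega⟩)) := rfl
    rw [h1, ih, Fin.prod_univ_succ, Fin.prod_univ_succ]
    simp only [Fin.val_zero, Fin.val_succ, mul_zero, zero_add, mul_add, mul_one]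
    ring

theorem chainPsi_eq_R (m : ℕ) (z : Fin (2*m+1) → Fin 2 × Fin 2) :
    chainPsi m z = (if (z 0).2 = 0 then 1 else 0) * chainR true (2*m) z := by
  rw [chainR_eq]
  unfold chainPsi
  have : (⟨0, by omega⟩ : Fin (2*m+1)) = 0 := rfl
  rw [this]
  ring

/-- matrix form of the chain functional -/
theorem chainV_psi (m : ℕ) (M : Fin (2*m+1) → Matrix (Fin 2) (Fin 2) ℂ) :
    chainV true (Pi.single 0 1) (2*m) M
      = ∑ z : Fin (2*m+1) → Fin 2 × Fin 2, chainPsi m z * ∏ p, M p (z p).1 (z p).2 := by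
  rw [chainV_eq]
  refine Finset.sum_congr rfl fun z _ => ?_
  rw [chainPsi_eq_R]
  congr 2
  show (Pi.single 0 1 : Fin 2 → ℂ) (z 0).2 = _
  rw [Pi.single_apply]

end Crest.Agent.R195
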