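import Mathlib
import Crest.Agent.R195.ChainB1a

/-! Row 195, part (B1b): antisymmetry of the chain functional in the four units, and
non-vanishing. -/

set_option autoImplicit false

namespace Crest.Agent.R195

open Finset Function Equiv Matrix

/-- orthogonality of two matrices for the determinant form, left and right -/
def Cond (X Y : Matrix (Fin 2) (Fin 2) ℂ) : Prop :=
  X.transpose * eps2 * Y = -(Y.transpose * eps2 * X) ∧
  X * eps2 * Y.transpose = -(Y * eps2 * X.transpose)

theorem Cond.opT {X Y : Matrix (Fin 2) (Fin 2) ℂ} (h : Cond X Y) (b : Bool) :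
    opT b Y * eps2 * opT (!b) X = -(opT b X * eps2 * opT (!b) Y) := by
  cases b
  · show Y * eps2 * X.transpose = -(X * eps2 * Y.transpose)
    rw [h.2, neg_neg]
  · show Y.transpose * eps2 * X = -(X.transpose * eps2 * Y)
    rw [h.1, neg_neg]

theorem chainV_swap (n : ℕ) : ∀ (b : Bool) (a : Fin 2 → ℂ)
    (M : Fin (n+1) → Matrix (Fin 2) (Fin 2) ℂ) (i : ℕ) (hi : i + 1 < n + 1),
    Cond (M ⟨i, by omega⟩) (M ⟨i+1, hi⟩) →
    chainV b a n (M ∘ swap ⟨i, by omega⟩ ⟨i+1, hi⟩) = -chainV b a n M := by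
  induction n with
  | zero => intro b a M i hi; omega
  | succ n ih =>
    intro b a M i hi hc
    cases i with
    | zero =>
      have h1 : ∀ N : Fin (n+2) → Matrix (Fin 2) (Fin 2) ℂ, chainV b a (n+1) N
          = chainW (!b) (a ᵥ* (opT b (N 0) * eps2 * opT (!b) (N 1))) n
            (fun i => N i.succ.succ) := by
        intro N
        rw [← Matrix.vecMul_vecMul, ← Matrix.vecMul_vecMul]
        rfl
      rw [h1, h1]
      have e0 : (M ∘ swap (⟨0, by omega⟩ : Fin (n+2)) ⟨0+1, hi⟩) 0 = M 1 := by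
        show M (swap 0 1 0) = M 1
        rw [swap_apply_left]
      have e1 : (M ∘ swap (⟨0, by omega⟩ : Fin (n+2)) ⟨0+1, hi⟩) 1 = M 0 := by
        show M (swap 0 1 1) = M 0
        rw [swap_apply_right]
      have e2 : (fun i : Fin n => (M ∘ swap (⟨0, by omega⟩ : Fin (n+2)) ⟨0+1, hi⟩) i.succ.succ)
          = fun i : Fin n => M i.succ.succ := by
        funext i
        show M (swap 0 1 i.succ.succ) = M i.succ.succ
        rw [swap_apply_of_ne_of_ne]
        · exact Fin.succ_ne_zero _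
        · intro h
          have := congrArg Fin.val h
          simp at this
      rw [e0, e1, e2]
      have hc' : Cond (M 0) (M 1) := hc
      rw [hc'.opT b, Matrix.vecMul_neg, chainW_neg]
    | succ i =>
      rw [chainV_succ, chainV_succ]
      have e0 : (M ∘ swap (⟨i+1, by omega⟩ : Fin (n+2)) ⟨i+1+1, hi⟩) 0 = M 0 := by
        show M (swap _ _ 0) = M 0
        rw [swap_apply_of_ne_of_ne]
        · intro h; exact absurd (congrArg Fin.val h) (by simp)
        · intro h; exact absurd (congrArg Fin.val h) (by simp)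
      have e1 : (fun j : Fin (n+1) =>
          (M ∘ swap (⟨i+1, by omega⟩ : Fin (n+2)) ⟨i+1+1, hi⟩) j.succ)
          = (fun j : Fin (n+1) => M j.succ) ∘ swap ⟨i, by omega⟩ ⟨i+1, by omega⟩ := by
        funext j
        show M (swap _ _ j.succ) = M (Fin.succ (swap _ _ j))
        congr 1
        have : (Fin.succ (swap (⟨i, by omega⟩ : Fin (n+1)) ⟨i+1, by omega⟩ j))
            = swap (Fin.succ ⟨i, by omega⟩) (Fin.succ ⟨i+1, by omega⟩) j.succ := by
          rw [← (Fin.succ_injective (n+1)).swap_apply]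
        rw [this]
        rfl
      rw [e0, e1]
      exact ih _ _ _ i (by omega) hc

/-- the four units -/
def qm (a : Fin 4) : Matrix (Fin 2) (Fin 2) ℂ :=
  match a with
  | 0 => !![1, 0; 0, 1]
  | 1 => !![1, 0; 0, -1]
  | 2 => !![0, 1; 1, 0]
  | 3 => !![0, 1; -1, 0]

def Jm : Matrix (Fin 2) (Fin 2) ℂ := !![0, 1; 1, 0]

theorem left_apply (X Y : Matrix (Fin 2) (Fin 2) ℂ) (i j : Fin 2) :
    (X.transpose * eps2 * Y) i j = X 0 i * Y 1 j - X 1 i * Y 0 j := by
  rw [Matrix.mul_apply, Fin.sum_univ_two, Matrix.mul_apply, Matrix.mul_apply, Fin.sum_univ_two,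
    Fin.sum_univ_two]
  simp only [Matrix.transpose_apply, eps2, Matrix.of_apply, Matrix.cons_val', Matrix.cons_val_zero,
    Matrix.cons_val_one, Matrix.cons_val_fin_one]
  ring

theorem right_apply (X Y : Matrix (Fin 2) (Fin 2) ℂ) (i j : Fin 2) :
    (X * eps2 * Y.transpose) i j = X i 0 * Y j 1 - X i 1 * Y j 0 := by
  rw [Matrix.mul_apply, Fin.sum_univ_two, Matrix.mul_apply, Matrix.mul_apply, Fin.sum_univ_two,
    Fin.sum_univ_two]
  simp only [Matrix.transpose_apply, eps2, Matrix.of_apply, Matrix.cons_val', Matrix.cons_val_zero,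
    Matrix.cons_val_one, Matrix.cons_val_fin_one]
  ring

theorem cond_iff (X Y : Matrix (Fin 2) (Fin 2) ℂ) : Cond X Y ↔
    (∀ i j, X 0 i * Y 1 j - X 1 i * Y 0 j = -(Y 0 i * X 1 j - Y 1 i * X 0 j)) ∧
    (∀ i j, X i 0 * Y j 1 - X i 1 * Y j 0 = -(Y i 0 * X j 1 - Y i 1 * X j 0)) := by
  unfold Cond
  constructor
  · rintro ⟨h1, h2⟩
    refine ⟨fun i j => ?_, fun i j => ?_⟩
    · have := congrFun (congrFun h1 i) j
      rwa [Matrix.neg_apply, left_apply, left_apply] at this
    · have := congrFun (congrFun h2 i) j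
      rwa [Matrix.neg_apply, right_apply, right_apply] at this
  · rintro ⟨h1, h2⟩
    constructor
    · ext i j
      rw [Matrix.neg_apply, left_apply, left_apply, h1]
    · ext i j
      rw [Matrix.neg_apply, right_apply, right_apply, h2]

theorem cond_qm {a b : Fin 4} (h : a ≠ b) : Cond (qm a) (qm b) := by
  rw [cond_iff]
  simp only [Fin.forall_fin_two]
  fin_cases a <;> fin_cases b <;> first
    | exact absurd rfl h
    | simp [qm]

theorem cond_qmJ {a b : Fin 4} (h : a ≠ b) : Cond (qm a * Jm) (qm b * Jm) := by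
  have hJ : ∀ (c : Fin 4) (i : Fin 2), (qm c * Jm) i 0 = qm c i 1 ∧ (qm c * Jm) i 1 = qm c i 0 := by
    intro c i
    rw [Matrix.mul_apply, Matrix.mul_apply, Fin.sum_univ_two, Fin.sum_univ_two]
    simp [Jm]
  rw [cond_iff]
  simp only [Fin.forall_fin_two, (hJ _ _).1, (hJ _ _).2]
  fin_cases a <;> fin_cases b <;> first
    | exact absurd rfl h
    | simp [qm]

theorem det_qm (a : Fin 4) : (qm a).det ≠ 0 := by
  fin_cases a <;> simp [qm, Matrix.det_fin_two]

/-- chain value of a word in the units -/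
noncomputable def psiQ (Q : Fin 4 → Matrix (Fin 2) (Fin 2) ℂ) (m : ℕ)
    (r : Fin (2*m+1) → Fin 4) : ℂ :=
  chainV true (Pi.single 0 1) (2*m) (fun p => Q (r p))

theorem psiQ_swap_adj {Q : Fin 4 → Matrix (Fin 2) (Fin 2) ℂ}
    (hQ : ∀ a b, a ≠ b → Cond (Q a) (Q b)) (m : ℕ) (r : Fin (2*m+1) → Fin 4)
    (i j : Fin (2*m+1)) (hij : (j : ℕ) = i + 1) (hr : r i ≠ r j) :
    psiQ Q m (r ∘ swap i j) = -psiQ Q m r := by
  have hi : (i : ℕ) + 1 < 2*m+1 := by have := j.2; omega
  have hj : j = ⟨i + 1, hi⟩ := Fin.ext hij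
  subst hj
  exact chainV_swap (2*m) true (Pi.single 0 1) (fun p => Q (r p)) i hi (hQ _ _ hr)

theorem psiQ_swap {Q : Fin 4 → Matrix (Fin 2) (Fin 2) ℂ}
    (hQ : ∀ a b, a ≠ b → Cond (Q a) (Q b)) (m : ℕ) (d : ℕ) :
    ∀ (i j : Fin (2*m+1)), (j : ℕ) = i + d + 1 → ∀ r : Fin (2*m+1) → Fin 4,
      (∀ x y, i ≤ x → x ≤ j → i ≤ y → y ≤ j → r x = r y → x = y) →
      psiQ Q m (r ∘ swap i j) = -psiQ Q m r := by
  induction d with
  | zero =>
    intro i j hij r hr
    refine psiQ_swap_adj hQ m r i j (by omega) ?_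
    intro h
    have := hr i j le_rfl (by rw [Fin.le_def]; omega) (by rw [Fin.le_def]; omega) le_rfl h
    rw [this] at hij
    omega
  | succ d ih =>
    intro i j hij r hr
    have hk : (i : ℕ) + 1 < 2*m+1 := by have := j.2; omega
    set k : Fin (2*m+1) := ⟨i + 1, hk⟩ with hkdef
    have hkval : (k : ℕ) = i + 1 := rfl
    have hlik : i ≤ k := Fin.le_def.2 (by omega)
    have hlkj : k ≤ j := Fin.le_def.2 (by omega)
    have hik : i ≠ k := by intro h; have := congrArg Fin.val h; simp [hkdef] at this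
    have hkj : k ≠ j := by intro h; have := congrArg Fin.val h; simp [hkdef] at this; omega
    have hij' : i ≠ j := by intro h; rw [h] at hij; omega
    -- r ∘ swap i k is injective on [i,j]
    have hmap : ∀ x, i ≤ x → x ≤ j → i ≤ swap i k x ∧ swap i k x ≤ j := by
      intro x h1 h2
      by_cases hx1 : x = i
      · rw [hx1, swap_apply_left]
        constructor <;> rw [Fin.le_def] <;> simp only [hkdef] <;> omega
      · by_cases hx2 : x = k
        · rw [hx2, swap_apply_right]
          constructor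
          · exact le_rfl
          · rw [Fin.le_def]; omega
        · rw [swap_apply_of_ne_of_ne hx1 hx2]
          exact ⟨h1, h2⟩
    have hr1 : ∀ x y, i ≤ x → x ≤ j → i ≤ y → y ≤ j → (r ∘ swap i k) x = (r ∘ swap i k) y →
        x = y := by
      intro x y hx1 hx2 hy1 hy2 h
      have := hr _ _ (hmap x hx1 hx2).1 (hmap x hx1 hx2).2 (hmap y hy1 hy2).1 (hmap y hy1 hy2).2 h
      exact (swap i k).injective this
    have hdec : r ∘ swap i j = ((r ∘ swap i k) ∘ swap k j) ∘ swap i k := by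
      have : swap i j = swap i k * swap k j * swap i k := by
        have h1 := Equiv.swap_mul_swap_mul_swap (x := j) (y := k) (z := i) hkj.symm hij'.symm
        rw [← h1, Equiv.swap_comm k i, Equiv.swap_comm j k]
      rw [this]
      rfl
    rw [hdec, psiQ_swap_adj hQ m _ i k rfl, ih k j (by show (j : ℕ) = (i + 1) + d + 1; omega),
      psiQ_swap_adj hQ m _ i k rfl]
    · ring
    · intro h
      exact hik (hr i k le_rfl (hlik.trans hlkj) hlik hlkj h)
    · intro x y hx1 hx2 hy1 hy2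
      exact hr1 x y (hlik.trans hx1) hx2 (hlik.trans hy1) hy2
    · intro h
      have h1 : ((r ∘ swap i k) ∘ swap k j) i = (r ∘ swap i k) i := by
        show (r ∘ swap i k) (swap k j i) = _
        rw [swap_apply_of_ne_of_ne hik hij']
      have h2 : ((r ∘ swap i k) ∘ swap k j) k = (r ∘ swap i k) j := by
        show (r ∘ swap i k) (swap k j k) = _
        rw [swap_apply_left]
      rw [h1, h2] at h
      exact hij' (hr1 i j le_rfl (by rw [Fin.le_def]; omega) (by rw [Fin.le_def]; omega) le_rfl h)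

theorem psiQ_perm {Q : Fin 4 → Matrix (Fin 2) (Fin 2) ℂ}
    (hQ : ∀ a b, a ≠ b → Cond (Q a) (Q b)) (m : ℕ) (col : Fin (2*m+1) → ℕ) (hcol : Monotone col)
    (κ : Perm (Fin (2*m+1))) (hκ : ∀ t, col (κ t) = col t) (r : Fin (2*m+1) → Fin 4)
    (hr : ∀ x y, col x = col y → r x = r y → x = y) :
    psiQ Q m (r ∘ κ) = ((Perm.sign κ : ℤ) : ℂ) * psiQ Q m r := by
  induction hn : κ.support.card using Nat.strong_induction_on generalizing κ r with
  | _ n ih =>
    by_cases h1 : κ = 1
    · subst h1; simp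
    · obtain ⟨x, hx⟩ : ∃ x, κ x ≠ x := by
        by_contra hcon
        push Not at hcon
        exact h1 (Equiv.ext hcon)
      have hlt := Perm.card_support_swap_mul hx
      have hcs : ∀ t, col (swap x (κ x) t) = col t := by
        intro t
        by_cases ht : t = x
        · rw [ht, swap_apply_left, hκ]
        · by_cases ht2 : t = κ x
          · rw [ht2, swap_apply_right, hκ]
          · rw [swap_apply_of_ne_of_ne ht ht2]
      have hr' : ∀ y z, col y = col z → (r ∘ swap x (κ x)) y = (r ∘ swap x (κ x)) z → y = z := by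
        intro y z hyz h
        exact (swap x (κ x)).injective (hr _ _ (by rw [hcs, hcs, hyz]) h)
      have hih := ih _ (hn ▸ hlt) (swap x (κ x) * κ) (by
        intro t
        rw [Perm.mul_apply, hcs, hκ]) (r ∘ swap x (κ x)) hr' rfl
      have e : (r ∘ swap x (κ x)) ∘ (swap x (κ x) * κ : Perm _) = r ∘ κ := by
        funext t
        show r (swap x (κ x) (swap x (κ x) (κ t))) = r (κ t)
        rw [swap_apply_self]
      rw [e] at hih
      rw [hih]
      -- the swap
      have hsw : psiQ Q m (r ∘ swap x (κ x)) = -psiQ Q m r := by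
        have hinj : ∀ i j : Fin (2*m+1), col i = col j → ∀ y z, i ≤ y → y ≤ j → i ≤ z → z ≤ j →
            r y = r z → y = z := by
          intro i j hij y z h1 h2 h3 h4 h
          have hy : col y = col i := le_antisymm ((hcol h2).trans hij.ge) (hcol h1)
          have hz : col z = col i := le_antisymm ((hcol h4).trans hij.ge) (hcol h3)
          exact hr y z (hy.trans hz.symm) h
        rcases lt_or_gt_of_ne (fun h => hx h.symm : x ≠ κ x) with hlt | hlt
        · exact psiQ_swap hQ m ((κ x : ℕ) - x - 1) x (κ x)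
            (by have := Fin.lt_def.1 hlt; omega) r (hinj x (κ x) (hκ x).symm)
        · rw [Equiv.swap_comm]
          exact psiQ_swap hQ m ((x : ℕ) - κ x - 1) (κ x) x
            (by have := Fin.lt_def.1 hlt; omega) r (hinj (κ x) x (hκ x))
      rw [hsw, Perm.sign_mul, Perm.sign_swap (Ne.symm hx)]
      push_cast
      ring

/-- non-vanishing for a suitable rotation -/
theorem chainW_surj (n : ℕ) : ∀ (b : Bool) (N : Fin n → Matrix (Fin 2) (Fin 2) ℂ),
    (∀ i, (N i).det ≠ 0) → ∃ v, chainW b v n N ≠ 0 := by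
  induction n with
  | zero =>
    intro b N _
    exact ⟨Pi.single 0 1, by simp [chainW]⟩
  | succ n ih =>
    intro b N hN
    obtain ⟨v, hv⟩ := ih (!b) (fun i => N i.succ) (fun i => hN _)
    have h1 : (opT (!b) (N 0)).det ≠ 0 := by
      cases b
      · show (N 0).transpose.det ≠ 0
        rw [Matrix.det_transpose]; exact hN 0
      · exact hN 0
    have h2 : (eps2 * opT (!b) (N 0)).det ≠ 0 := by
      rw [Matrix.det_mul]
      exact mul_ne_zero (by simp [eps2, Matrix.det_fin_two]) h1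
    refine ⟨v ᵥ* (eps2 * opT (!b) (N 0))⁻¹, ?_⟩
    have h3 : chainW b (v ᵥ* (eps2 * opT (!b) (N 0))⁻¹) (n+1) N = chainW (!b) v n
        (fun i => N i.succ) := by
      show chainW (!b) (((v ᵥ* (eps2 * opT (!b) (N 0))⁻¹) ᵥ* eps2) ᵥ* opT (!b) (N 0)) n _ = _
      rw [Matrix.vecMul_vecMul, Matrix.vecMul_vecMul,
        Matrix.nonsing_inv_mul _ (Ne.isUnit h2), Matrix.vecMul_one]
    rw [h3]
    exact hv

theorem chainV_J (m : ℕ) : ∀ (a : Fin 2 → ℂ) (M : Fin (2*m+1) → Matrix (Fin 2) (Fin 2) ℂ),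
    chainV true a (2*m) (fun p => M p * Jm)
      = (-1) ^ m * chainV true (a ᵥ* Jm) (2*m) M := by
  induction m with
  | zero =>
    intro a M
    have h1 : chainV true a (2*0) (fun p => M p * Jm) = (a ᵥ* (M 0 * Jm).transpose) 0 := rfl
    have h2 : chainV true (a ᵥ* Jm) (2*0) M = ((a ᵥ* Jm) ᵥ* (M 0).transpose) 0 := rfl
    rw [h1, h2, Matrix.transpose_mul, pow_zero, one_mul, Matrix.vecMul_vecMul]
    rfl
  | succ m ih =>
    intro a M
    have h1 : ∀ (a : Fin 2 → ℂ) (N : Fin (2*(m+1)+1) → Matrix (Fin 2) (Fin 2) ℂ),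
        chainV true a (2*(m+1)) N
        = chainV true (((a ᵥ* ((N 0).transpose)) ᵥ* eps2) ᵥ* (N 1) ᵥ* eps2) (2*m)
          (fun i => N i.succ.succ) := fun a N => rfl
    rw [h1, h1, ih]
    have h2 : ((((a ᵥ* ((M 0 * Jm).transpose)) ᵥ* eps2) ᵥ* (M 1 * Jm) ᵥ* eps2) ᵥ* Jm)
        = -((((a ᵥ* Jm) ᵥ* ((M 0).transpose)) ᵥ* eps2) ᵥ* (M 1) ᵥ* eps2) := by
      have h3 : Jm * eps2 * Jm = -eps2 := by
        ext i j
        fin_cases i <;> fin_cases j <;>
          simp [Jm, eps2, Matrix.mul_apply, Fin.sum_univ_two]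
      have h4 : Jm.transpose = Jm := by
        ext i j
        fin_cases i <;> fin_cases j <;> simp [Jm, Matrix.transpose_apply]
      rw [Matrix.transpose_mul, h4]
      simp only [Matrix.vecMul_vecMul]
      rw [← Matrix.vecMul_neg]
      congr 1
      calc Jm * (M 0).transpose * eps2 * (M 1 * Jm) * eps2 * Jm
          = Jm * (M 0).transpose * eps2 * M 1 * (Jm * eps2 * Jm) := by
            simp only [Matrix.mul_assoc]
        _ = _ := by rw [h3, Matrix.mul_neg]
    rw [h2]
    have h5 : ∀ (v : Fin 2 → ℂ) (N : Fin (2*m+1) → Matrix (Fin 2) (Fin 2) ℂ),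
        chainV true (-v) (2*m) N = -chainV true v (2*m) N := by
      intro v N
      unfold chainV
      rw [Matrix.neg_vecMul, chainW_neg]
    rw [h5, pow_succ]
    ring

theorem exists_Q (m : ℕ) (r : Fin (2*m+1) → Fin 4) :
    ∃ Q : Fin 4 → Matrix (Fin 2) (Fin 2) ℂ, (∀ a b, a ≠ b → Cond (Q a) (Q b)) ∧
      psiQ Q m r ≠ 0 := by
  by_contra hcon
  push Not at hcon
  have h1 := hcon qm (fun a b h => cond_qm h)
  have h2 := hcon (fun a => qm a * Jm) (fun a b h => cond_qmJ h)
  unfold psiQ at h1 h2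
  rw [chainV_J m (Pi.single 0 1) (fun p => qm (r p))] at h2
  have h3 : chainV true (Pi.single 0 1 ᵥ* Jm) (2*m) (fun p => qm (r p)) = 0 :=
    (mul_eq_zero.1 h2).resolve_left (pow_ne_zero _ (by norm_num))
  have h4 : (Pi.single 0 1 ᵥ* Jm : Fin 2 → ℂ) = Pi.single 1 1 := by
    funext j
    fin_cases j <;> simp [Jm, Matrix.vecMul, dotProduct, Fin.sum_univ_two]
  rw [h4] at h3
  have h5 : ∀ a : Fin 2 → ℂ, chainV true a (2*m) (fun p => qm (r p)) = 0 := by
    intro a
    have h6 : a = a 0 • (Pi.single 0 1 : Fin 2 → ℂ) + a 1 • (Pi.single 1 1 : Fin 2 → ℂ) := by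
      funext j
      fin_cases j <;> simp
    rw [h6]
    unfold chainV at h1 h3 ⊢
    rw [Matrix.add_vecMul, Matrix.smul_vecMul, Matrix.smul_vecMul, chainW_add, chainW_smul,
      chainW_smul, h1, h3]
    ring
  obtain ⟨v, hv⟩ := chainW_surj (2*m) true (fun i => qm (r i.succ)) (fun i => det_qm _)
  apply hv
  have h7 := h5 (v ᵥ* ((qm (r 0)).transpose)⁻¹)
  unfold chainV at h7
  have h8 : ((qm (r 0)).transpose).det ≠ 0 := by
    rw [Matrix.det_transpose]; exact det_qm _
  have h9 : (v ᵥ* ((qm (r 0)).transpose)⁻¹) ᵥ* opT true (qm (r 0)) = v := by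
    show (v ᵥ* ((qm (r 0)).transpose)⁻¹) ᵥ* (qm (r 0)).transpose = v
    rw [Matrix.vecMul_vecMul, Matrix.nonsing_inv_mul _ (Ne.isUnit h8), Matrix.vecMul_one]
  rw [h9] at h7
  exact h7

end Crest.Agent.R195
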