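import Mathlib

/-!
Row 195.  Shape lemma and transfer lemma for representations of symmetric groups.
-/

set_option autoImplicit false

namespace Crest.Agent.R195

open Equiv Finset

section core

variable {T : Type*} [Fintype T] [DecidableEq T]

omit [Fintype T] in
lemma swap_mul_swap_comm' {x x' y : T} (h : x ≠ x') (h1 : x ≠ y) (h2 : x' ≠ y) :
    swap x y * swap x' y = swap x' y * swap x x' := by
  ext t
  simp only [Perm.mul_apply, swap_apply_def]
  split_ifs <;> simp_all

/-- Core of the transfer lemma, for functions on the group. -/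
theorem transfer_core (F : Perm T → ℂ) (A B : Finset T) (hAB : Disjoint A B)
    (hcard : B.card < A.card)
    (hA : ∀ a ∈ A, ∀ a' ∈ A, ∀ g, F (g * swap a a') = F g)
    (hrel : ∀ x ∈ A, ∀ g, F g + ∑ y ∈ B, F (g * swap x y) = 0) : ∀ g, F g = 0 := by
  classical
  have hne : ∀ x ∈ A, ∀ y ∈ B, x ≠ y := fun x hx y hy h =>
    (Finset.disjoint_left.mp hAB hx) (h ▸ hy)
  set N : ℂ := ∑ g : Perm T, F g * (starRingEnd ℂ) (F g) with hN
  set s : T → T → ℂ := fun x y => ∑ g : Perm T, F (g * swap x y) * (starRingEnd ℂ) (F g) with hs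
  have h1 : ∀ x ∈ A, N + ∑ y ∈ B, s x y = 0 := by
    intro x hx
    rw [hN, hs]
    simp only
    rw [Finset.sum_comm, ← Finset.sum_add_distrib]
    apply Finset.sum_eq_zero
    intro g _
    rw [← Finset.sum_mul, ← add_mul, hrel x hx g, zero_mul]
  have h2 : ∀ y ∈ B, ∃ r : ℝ, 0 ≤ r ∧ (N + ∑ x ∈ A, s x y) = (r : ℂ) := by
    intro y hy
    set v : Perm T → ℂ := fun g => F g + ∑ x ∈ A, F (g * swap x y) with hv
    have hinv : ∀ x ∈ A, ∀ g, v (g * swap x y) = v g := by
      intro x hx g
      simp only [hv]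
      have e1 : ∀ x' ∈ A.erase x, F (g * swap x y * swap x' y) = F (g * swap x' y) := by
        intro x' hx'
        have hx'A := Finset.mem_of_mem_erase hx'
        rw [mul_assoc, swap_mul_swap_comm' (Finset.ne_of_mem_erase hx').symm
          (hne x hx y hy) (hne x' hx'A y hy), ← mul_assoc,
          hA x hx x' hx'A]
      rw [← Finset.add_sum_erase A _ hx, ← Finset.add_sum_erase A (fun x => F (g * swap x y)) hx,
        Finset.sum_congr rfl e1, mul_assoc, swap_mul_self, mul_one]
      ring
    have hsum : ∑ g : Perm T, v g * (starRingEnd ℂ) (v g)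
        = ((A.card : ℂ) + 1) * (N + ∑ x ∈ A, s x y) := by
      have hvF : ∑ g : Perm T, v g * (starRingEnd ℂ) (F g) = N + ∑ x ∈ A, s x y := by
        simp only [hv, hN, hs, add_mul, Finset.sum_add_distrib, Finset.sum_mul]
        rw [Finset.sum_comm]
      have hvx : ∀ x ∈ A, ∑ g : Perm T, v g * (starRingEnd ℂ) (F (g * swap x y))
          = ∑ g : Perm T, v g * (starRingEnd ℂ) (F g) := by
        intro x hx
        rw [← Equiv.sum_comp (Equiv.mulRight (swap x y))
          (fun g => v g * (starRingEnd ℂ) (F (g * swap x y)))]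
        apply Finset.sum_congr rfl
        intro g _
        simp only [Equiv.coe_mulRight]
        rw [hinv x hx, mul_assoc, swap_mul_self, mul_one]
      calc ∑ g : Perm T, v g * (starRingEnd ℂ) (v g)
          = ∑ g : Perm T, v g * (starRingEnd ℂ) (F g)
            + ∑ x ∈ A, ∑ g : Perm T, v g * (starRingEnd ℂ) (F (g * swap x y)) := by
            rw [Finset.sum_comm, ← Finset.sum_add_distrib]
            apply Finset.sum_congr rfl
            intro g _
            rw [← Finset.mul_sum, ← mul_add]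
            congr 1
            simp only [hv, map_add, map_sum]
        _ = ((A.card : ℂ) + 1) * (N + ∑ x ∈ A, s x y) := by
            rw [Finset.sum_congr rfl hvx, Finset.sum_const, hvF, nsmul_eq_mul]
            ring
    refine ⟨(∑ g : Perm T, Complex.normSq (v g)) / ((A.card : ℝ) + 1), ?_, ?_⟩
    · apply div_nonneg
      · exact Finset.sum_nonneg fun g _ => Complex.normSq_nonneg _
      · positivity
    · have : ∑ g : Perm T, v g * (starRingEnd ℂ) (v g)
          = ((∑ g : Perm T, Complex.normSq (v g) : ℝ) : ℂ) := by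
        rw [Complex.ofReal_sum]
        exact Finset.sum_congr rfl fun g _ => Complex.mul_conj (v g)
      rw [this] at hsum
      have hpos : ((A.card : ℂ) + 1) ≠ 0 := by
        exact_mod_cast (Nat.succ_ne_zero A.card)
      push_cast
      rw [eq_div_iff hpos, mul_comm, ← hsum]
      push_cast
      rfl
  choose! r hr0 hr using h2
  have hN' : N = ((∑ g : Perm T, Complex.normSq (F g) : ℝ) : ℂ) := by
    rw [hN, Complex.ofReal_sum]
    exact Finset.sum_congr rfl fun g _ => Complex.mul_conj (F g)
  set n : ℝ := ∑ g : Perm T, Complex.normSq (F g) with hn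
  have hA' : (A.card : ℂ) * N + ∑ x ∈ A, ∑ y ∈ B, s x y = 0 := by
    rw [← nsmul_eq_mul, ← Finset.sum_const, ← Finset.sum_add_distrib]
    exact Finset.sum_eq_zero h1
  have hB' : (B.card : ℂ) * N + ∑ x ∈ A, ∑ y ∈ B, s x y = ((∑ y ∈ B, r y : ℝ) : ℂ) := by
    rw [Finset.sum_comm, ← nsmul_eq_mul, ← Finset.sum_const, ← Finset.sum_add_distrib,
      Complex.ofReal_sum]
    exact Finset.sum_congr rfl hr
  have hfin : ((B.card : ℂ) - A.card) * N = ((∑ y ∈ B, r y : ℝ) : ℂ) := by
    rw [← hB']
    linear_combination -hA'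
  have hfin' : ((B.card : ℝ) - A.card) * n = ∑ y ∈ B, r y := by
    rw [hN'] at hfin
    exact_mod_cast hfin
  have hnn : 0 ≤ n := Finset.sum_nonneg fun g _ => Complex.normSq_nonneg _
  have hr' : 0 ≤ ∑ y ∈ B, r y := Finset.sum_nonneg fun y hy => hr0 y hy
  have hlt : (B.card : ℝ) < A.card := by exact_mod_cast hcard
  have hn0 : n = 0 := by nlinarith
  intro g
  have := (Finset.sum_eq_zero_iff_of_nonneg fun g _ => Complex.normSq_nonneg (F g)).mp hn0 g
    (Finset.mem_univ g)
  exact Complex.normSq_eq_zero.mp this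

end core

section rep

variable {T : Type*} [Fintype T] [DecidableEq T]
variable {U : Type*} [AddCommGroup U] [Module ℂ U]

/-- A vector is fixed by all swaps of equally coloured letters. -/
def SwapFixed {ι : Type*} (ρ : Representation ℂ (Perm T) U) (c : T → ι) (w : U) : Prop :=
  ∀ a b, c a = c b → ρ (swap a b) w = w

/-- A vector is negated by all swaps of distinct equally coloured letters. -/
def SwapAlt {ι : Type*} (ρ : Representation ℂ (Perm T) U) (c : T → ι) (w : U) : Prop :=
  ∀ a b, a ≠ b → c a = c b → ρ (swap a b) w = -w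

theorem SwapFixed.perm {ι : Type*} {ρ : Representation ℂ (Perm T) U} {c : T → ι} {w : U}
    (h : SwapFixed ρ c w) (σ : Perm T) (hσ : ∀ t, c (σ t) = c t) : ρ σ w = w := by
  classical
  induction hn : σ.support.card using Nat.strong_induction_on generalizing σ with
  | _ n ih =>
    by_cases h1 : σ = 1
    · subst h1; simp
    · obtain ⟨x, hx⟩ : ∃ x, σ x ≠ x := by
        by_contra hcon
        push Not at hcon
        exact h1 (Equiv.ext hcon)
      have hlt := Perm.card_support_swap_mul hx
      have := ih _ (hn ▸ hlt) (swap x (σ x) * σ) (by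
        intro t
        simp only [Perm.mul_apply]
        by_cases ht : σ t = x
        · rw [ht, swap_apply_left, hσ, ← ht, hσ]
        · by_cases ht2 : σ t = σ x
          · rw [ht2, swap_apply_right, ← hσ t, ht2, hσ]
          · rw [swap_apply_of_ne_of_ne ht ht2, hσ]) rfl
      have e : σ = swap x (σ x) * (swap x (σ x) * σ) := by
        rw [← mul_assoc, swap_mul_self, one_mul]
      rw [e, map_mul, Module.End.mul_apply, this]
      exact h _ _ (hσ x).symm

theorem SwapAlt.perm {ι : Type*} {ρ : Representation ℂ (Perm T) U} {c : T → ι} {w : U}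
    (h : SwapAlt ρ c w) (σ : Perm T) (hσ : ∀ t, c (σ t) = c t) :
    ρ σ w = (((Perm.sign σ : ℤˣ) : ℤ) : ℂ) • w := by
  classical
  induction hn : σ.support.card using Nat.strong_induction_on generalizing σ with
  | _ n ih =>
    by_cases h1 : σ = 1
    · subst h1; simp
    · obtain ⟨x, hx⟩ : ∃ x, σ x ≠ x := by
        by_contra hcon
        push Not at hcon
        exact h1 (Equiv.ext hcon)
      have hlt := Perm.card_support_swap_mul hx
      have := ih _ (hn ▸ hlt) (swap x (σ x) * σ) (by
        intro t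
        simp only [Perm.mul_apply]
        by_cases ht : σ t = x
        · rw [ht, swap_apply_left, hσ, ← ht, hσ]
        · by_cases ht2 : σ t = σ x
          · rw [ht2, swap_apply_right, ← hσ t, ht2, hσ]
          · rw [swap_apply_of_ne_of_ne ht ht2, hσ]) rfl
      have e : σ = swap x (σ x) * (swap x (σ x) * σ) := by
        rw [← mul_assoc, swap_mul_self, one_mul]
      have e2 : ρ σ w = ρ (swap x (σ x)) (ρ (swap x (σ x) * σ) w) := by
        rw [← Module.End.mul_apply, ← map_mul, ← e]
      rw [e2, this, map_smul, h _ _ (Ne.symm hx) (hσ x).symm, Perm.sign_mul,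
        Perm.sign_swap (Ne.symm hx)]
      simp

/-- Coset sum: adding the letter `b` to the block `B`. -/
noncomputable def addLetter (ρ : Representation ℂ (Perm T) U) (B : Finset T) (b : T) (w : U) : U :=
  w + ∑ a ∈ B, ρ (swap a b) w

omit [Fintype T] [DecidableEq T] in
lemma rho_mul (ρ : Representation ℂ (Perm T) U) (σ τ : Perm T) (w : U) :
    ρ σ (ρ τ w) = ρ (σ * τ) w := by
  rw [map_mul, Module.End.mul_apply]

omit [Fintype T] in
lemma swap_conj (σ : Perm T) (a b : T) : σ * swap a b = swap (σ a) (σ b) * σ := by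
  rw [Equiv.mul_swap_eq_swap_mul]

lemma addLetter_fixed_out (ρ : Representation ℂ (Perm T) U) (B : Finset T) (b : T) (w : U)
    {x y : T} (hx : x ∉ B) (hy : y ∉ B) (hxb : x ≠ b) (hyb : y ≠ b)
    (h : ρ (swap x y) w = w) : ρ (swap x y) (addLetter ρ B b w) = addLetter ρ B b w := by
  unfold addLetter
  rw [map_add, map_sum, h]
  congr 1
  apply Finset.sum_congr rfl
  intro a ha
  have hax : a ≠ x := fun e => hx (e ▸ ha)
  have hay : a ≠ y := fun e => hy (e ▸ ha)
  rw [rho_mul, swap_conj, swap_apply_of_ne_of_ne hax hay,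
    swap_apply_of_ne_of_ne (Ne.symm hxb) (Ne.symm hyb), ← rho_mul, h]

lemma addLetter_fixed_in (ρ : Representation ℂ (Perm T) U) (B : Finset T) (b : T) (w : U)
    (hb : b ∉ B) (hB : ∀ x ∈ B, ∀ y ∈ B, ρ (swap x y) w = w)
    {x y : T} (hx : x ∈ insert b B) (hy : y ∈ insert b B) :
    ρ (swap x y) (addLetter ρ B b w) = addLetter ρ B b w := by
  classical
  -- the case of two letters in `B`
  have hin : ∀ x ∈ B, ∀ y ∈ B, ρ (swap x y) (addLetter ρ B b w) = addLetter ρ B b w := by
    intro x hx y hy
    unfold addLetter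
    rw [map_add, map_sum, hB x hx y hy]
    congr 1
    have e1 : ∀ a ∈ B, ρ (swap x y) (ρ (swap a b) w) = ρ (swap (swap x y a) b) w := by
      intro a ha
      have hxb : b ≠ x := fun e => hb (e ▸ hx)
      have hyb : b ≠ y := fun e => hb (e ▸ hy)
      rw [rho_mul, swap_conj, swap_apply_of_ne_of_ne hxb hyb, ← rho_mul, hB x hx y hy]
    rw [Finset.sum_congr rfl e1]
    refine Finset.sum_bij' (fun a _ => swap x y a) (fun a _ => swap x y a) ?_ ?_ ?_ ?_ ?_
    · intro a ha
      by_cases h1 : a = x
      · rw [h1, swap_apply_left]; exact hy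
      · by_cases h2 : a = y
        · rw [h2, swap_apply_right]; exact hx
        · rw [swap_apply_of_ne_of_ne h1 h2]; exact ha
    · intro a ha
      by_cases h1 : a = x
      · rw [h1, swap_apply_left]; exact hy
      · by_cases h2 : a = y
        · rw [h2, swap_apply_right]; exact hx
        · rw [swap_apply_of_ne_of_ne h1 h2]; exact ha
    · intro a _; simp
    · intro a _; simp
    · intro a _; rfl
  -- the case of `b` and a letter in `B`
  have hbb : ∀ x ∈ B, ρ (swap x b) (addLetter ρ B b w) = addLetter ρ B b w := by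
    intro x hx
    have hxb : x ≠ b := fun e => hb (e ▸ hx)
    unfold addLetter
    rw [map_add, map_sum, ← Finset.add_sum_erase B _ hx,
      ← Finset.add_sum_erase B (fun a => ρ (swap a b) w) hx]
    have e1 : ∀ a ∈ B.erase x, ρ (swap x b) (ρ (swap a b) w) = ρ (swap a b) w := by
      intro a ha
      have haB := Finset.mem_of_mem_erase ha
      have hab : a ≠ b := fun e => hb (e ▸ haB)
      rw [rho_mul, swap_mul_swap_comm' (Finset.ne_of_mem_erase ha).symm hxb hab, ← rho_mul,
        hB x hx a haB]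
    rw [Finset.sum_congr rfl e1, rho_mul, swap_mul_self, map_one, Module.End.one_apply]
    abel
  rw [Finset.mem_insert] at hx hy
  rcases hx with rfl | hx <;> rcases hy with rfl | hy
  · rw [swap_self, ← Perm.one_def, map_one, Module.End.one_apply]
  · rw [swap_comm]; exact hbb y hy
  · exact hbb x hx
  · exact hin x hx y hy

/-- Transfer lemma, vector form. -/
theorem exists_addLetter_ne_zero (ρ : Representation ℂ (Perm T) U) (w : U) (hw : w ≠ 0)
    (A B : Finset T) (hAB : Disjoint A B) (hcard : B.card < A.card)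
    (hA : ∀ a ∈ A, ∀ a' ∈ A, ρ (swap a a') w = w) :
    ∃ x ∈ A, addLetter ρ B x w ≠ 0 := by
  by_contra hcon
  push Not at hcon
  apply hw
  rw [← Module.forall_dual_apply_eq_zero_iff ℂ w]
  intro l
  have := transfer_core (fun g => l (ρ g w)) A B hAB hcard ?_ ?_ 1
  · simpa using this
  · intro a ha a' ha' g
    change l (ρ (g * swap a a') w) = l (ρ g w)
    rw [← rho_mul, hA a ha a' ha']
  · intro x hx g
    have h := hcon x hx
    unfold addLetter at h
    have h2 := congrArg (fun u => l (ρ g u)) h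
    simp only [map_add, map_sum, map_zero, rho_mul] at h2
    change l (ρ g w) + ∑ y ∈ B, l (ρ (g * swap x y) w) = 0
    rw [← h2]
    congr 1
    apply Finset.sum_congr rfl
    intro y _
    rw [swap_comm]

/-- The antisymmetrizer of a finite set of letters. -/
noncomputable def asym (ρ : Representation ℂ (Perm T) U) (A : Finset T) : U →ₗ[ℂ] U :=
  ∑ σ ∈ Finset.univ.filter (fun σ : Perm T => ∀ t, t ∉ A → σ t = t),
    ((((Perm.sign σ : ℤˣ) : ℤ) : ℂ)) • ρ σ

lemma asym_apply (ρ : Representation ℂ (Perm T) U) (A : Finset T) (w : U) :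
    asym ρ A w = ∑ σ ∈ Finset.univ.filter (fun σ : Perm T => ∀ t, t ∉ A → σ t = t),
      ((((Perm.sign σ : ℤˣ) : ℤ) : ℂ)) • ρ σ w := by
  simp [asym, LinearMap.sum_apply]

lemma asym_empty (ρ : Representation ℂ (Perm T) U) (w : U) : asym ρ ∅ w = w := by
  rw [asym_apply]
  have : Finset.univ.filter (fun σ : Perm T => ∀ t, t ∉ (∅ : Finset T) → σ t = t) = {1} := by
    ext σ
    simp [Equiv.ext_iff]
  rw [this]
  simp

lemma asym_swap_left (ρ : Representation ℂ (Perm T) U) (A : Finset T) (w : U) {x y : T}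
    (hx : x ∈ A) (hy : y ∈ A) (hxy : x ≠ y) : ρ (swap x y) (asym ρ A w) = - asym ρ A w := by
  rw [asym_apply, map_sum, ← Finset.sum_neg_distrib]
  refine Finset.sum_bij' (fun σ _ => swap x y * σ) (fun σ _ => swap x y * σ) ?_ ?_ ?_ ?_ ?_
  · intro σ hσ
    simp only [Finset.mem_filter, Finset.mem_univ, true_and] at hσ ⊢
    intro t ht
    rw [Perm.mul_apply, hσ t ht, swap_apply_of_ne_of_ne (ne_of_mem_of_not_mem hx ht).symm
      (ne_of_mem_of_not_mem hy ht).symm]
  · intro σ hσ
    simp only [Finset.mem_filter, Finset.mem_univ, true_and] at hσ ⊢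
    intro t ht
    rw [Perm.mul_apply, hσ t ht, swap_apply_of_ne_of_ne (ne_of_mem_of_not_mem hx ht).symm
      (ne_of_mem_of_not_mem hy ht).symm]
  · intro σ _; simp
  · intro σ _; simp
  · intro σ _
    rw [map_smul, rho_mul, Perm.sign_mul, Perm.sign_swap hxy]
    simp

lemma asym_swap_right (ρ : Representation ℂ (Perm T) U) (A : Finset T) (w : U) {x y : T}
    (hx : x ∈ A) (hy : y ∈ A) (hxy : x ≠ y) : asym ρ A (ρ (swap x y) w) = - asym ρ A w := by
  rw [asym_apply, asym_apply, ← Finset.sum_neg_distrib]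
  refine Finset.sum_bij' (fun σ _ => σ * swap x y) (fun σ _ => σ * swap x y) ?_ ?_ ?_ ?_ ?_
  · intro σ hσ
    simp only [Finset.mem_filter, Finset.mem_univ, true_and] at hσ ⊢
    intro t ht
    rw [Perm.mul_apply, swap_apply_of_ne_of_ne (ne_of_mem_of_not_mem hx ht).symm
      (ne_of_mem_of_not_mem hy ht).symm, hσ t ht]
  · intro σ hσ
    simp only [Finset.mem_filter, Finset.mem_univ, true_and] at hσ ⊢
    intro t ht
    rw [Perm.mul_apply, swap_apply_of_ne_of_ne (ne_of_mem_of_not_mem hx ht).symm
      (ne_of_mem_of_not_mem hy ht).symm, hσ t ht]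
  · intro σ _; simp
  · intro σ _; simp
  · intro σ _
    rw [rho_mul, Perm.sign_mul, Perm.sign_swap hxy]
    simp

lemma asym_eq_zero (ρ : Representation ℂ (Perm T) U) (A : Finset T) (w : U) {x y : T}
    (hx : x ∈ A) (hy : y ∈ A) (hxy : x ≠ y) (h : ρ (swap x y) w = w) : asym ρ A w = 0 := by
  have h1 := asym_swap_right ρ A w hx hy hxy
  rw [h] at h1
  have h2 : (2 : ℂ) • asym ρ A w = 0 := by
    rw [two_smul]
    nth_rewrite 2 [h1]
    rw [add_neg_cancel]
  exact (smul_eq_zero.mp h2).resolve_left two_ne_zero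

lemma asym_swap_comm (ρ : Representation ℂ (Perm T) U) (A : Finset T) (w : U) {x y : T}
    (hx : x ∉ A) (hy : y ∉ A) : ρ (swap x y) (asym ρ A w) = asym ρ A (ρ (swap x y) w) := by
  rw [asym_apply, asym_apply, map_sum]
  apply Finset.sum_congr rfl
  intro σ hσ
  simp only [Finset.mem_filter, Finset.mem_univ, true_and] at hσ
  rw [map_smul, rho_mul, rho_mul, swap_conj, hσ x hx, hσ y hy]

lemma asym_insert (ρ : Representation ℂ (Perm T) U) (A : Finset T) (w : U) {a : T}
    (ha : a ∉ A) :
    asym ρ (insert a A) w = asym ρ A w - ∑ x ∈ A, asym ρ A (ρ (swap a x) w) := by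
  have key : asym ρ (insert a A) w = ∑ x ∈ insert a A,
      ∑ τ ∈ Finset.univ.filter (fun σ : Perm T => ∀ t, t ∉ A → σ t = t),
        ((((Perm.sign (τ * swap a x) : ℤˣ) : ℤ) : ℂ)) • ρ (τ * swap a x) w := by
    rw [asym_apply, ← Finset.sum_product']
    refine Finset.sum_bij' (fun σ _ => (σ.symm a, σ * swap a (σ.symm a)))
      (fun p _ => p.2 * swap a p.1) ?_ ?_ ?_ ?_ ?_
    · intro σ hσ
      simp only [Finset.mem_filter, Finset.mem_univ, true_and, Finset.mem_product] at hσ ⊢
      constructor
      · by_contra hcon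
        have := hσ _ hcon
        rw [apply_symm_apply] at this
        exact hcon (this ▸ Finset.mem_insert_self a A)
      · intro t ht
        rw [Perm.mul_apply]
        by_cases h1 : t = a
        · subst h1; rw [swap_apply_left, apply_symm_apply]
        · have ht' : t ∉ insert a A := by
            rw [Finset.mem_insert]; push Not; exact ⟨h1, ht⟩
          have h2 : t ≠ σ.symm a := by
            intro e
            have := hσ t ht'
            rw [e, apply_symm_apply] at this
            exact h1 (e.trans this.symm)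
          rw [swap_apply_of_ne_of_ne h1 h2, hσ t ht']
    · rintro ⟨x, τ⟩ hp
      simp only [Finset.mem_filter, Finset.mem_univ, true_and, Finset.mem_product] at hp ⊢
      intro t ht
      have h1 : t ≠ a := fun e => ht (e ▸ Finset.mem_insert_self a A)
      have h2 : t ≠ x := fun e => ht (e ▸ hp.1)
      rw [Perm.mul_apply, swap_apply_of_ne_of_ne h1 h2, hp.2 t (fun h => ht (Finset.mem_insert_of_mem h))]
    · intro σ _
      simp
    · rintro ⟨x, τ⟩ hp
      simp only [Finset.mem_filter, Finset.mem_univ, true_and, Finset.mem_product] at hp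
      have h1 : (τ * swap a x).symm a = x := by
        rw [Equiv.symm_apply_eq, Perm.mul_apply, swap_apply_right, hp.2 a ha]
      simp [h1]
    · intro σ _
      simp
  rw [key, Finset.sum_insert ha]
  have e0 : ∑ τ ∈ Finset.univ.filter (fun σ : Perm T => ∀ t, t ∉ A → σ t = t),
        ((((Perm.sign (τ * swap a a) : ℤˣ) : ℤ) : ℂ)) • ρ (τ * swap a a) w = asym ρ A w := by
    rw [asym_apply]
    apply Finset.sum_congr rfl
    intro τ _
    rw [swap_self, ← Perm.one_def, mul_one]
  rw [e0, sub_eq_add_neg, ← Finset.sum_neg_distrib]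
  congr 1
  apply Finset.sum_congr rfl
  intro x hx
  have hax : a ≠ x := fun e => ha (e ▸ hx)
  rw [asym_apply, ← Finset.sum_neg_distrib]
  apply Finset.sum_congr rfl
  intro τ _
  rw [← rho_mul, Perm.sign_mul, Perm.sign_swap hax]
  simp

/-- The block of colour `i` inside `S`. -/
def blk (S : Finset T) (c : T → ℕ) (i : ℕ) : Finset T := S.filter fun t => c t = i

lemma mem_blk {S : Finset T} {c : T → ℕ} {i : ℕ} {t : T} : t ∈ blk S c i ↔ t ∈ S ∧ c t = i := by
  simp [blk]

/-- Highest weight condition on the letters of `S`, coloured by `c`. -/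
structure HW (ρ : Representation ℂ (Perm T) U) (S : Finset T) (c : T → ℕ) (w : U) : Prop where
  fixed : ∀ a ∈ S, ∀ b ∈ S, c a = c b → ρ (swap a b) w = w
  raise : ∀ b ∈ S, ∀ i, i < c b → w + ∑ a ∈ blk S c i, ρ (swap a b) w = 0

lemma HW.blk_nonempty {ρ : Representation ℂ (Perm T) U} {S : Finset T} {c : T → ℕ} {w : U}
    (h : HW ρ S c w) (hw : w ≠ 0) {b : T} (hb : b ∈ S) {i : ℕ} (hi : i ≤ c b) :
    ∃ a ∈ S, c a = i := by
  rcases hi.lt_or_eq with hi | hi
  · by_contra hcon
    push Not at hcon
    have : blk S c i = ∅ := by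
      ext t; simp only [mem_blk, Finset.notMem_empty, iff_false, not_and]; exact hcon t
    have h2 := h.raise b hb i hi
    rw [this] at h2
    simp at h2
    exact hw h2
  · exact ⟨b, hb, hi.symm⟩

/-- Existence of a transversal with nonzero antisymmetrizer. -/
theorem HW.exists_transversal {ρ : Representation ℂ (Perm T) U} {S : Finset T} {c : T → ℕ}
    {w : U} (h : HW ρ S c w) (hw : w ≠ 0) (I : Finset ℕ) (hI : ∀ i ∈ I, ∃ a ∈ S, c a = i) :
    ∃ A : Finset T, A ⊆ S ∧ (∀ x ∈ A, ∀ y ∈ A, c x = c y → x = y) ∧ (∀ x ∈ A, c x ∈ I) ∧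
      (∀ i ∈ I, ∃ x ∈ A, c x = i) ∧ asym ρ A w ≠ 0 := by
  induction I using Finset.induction_on_min with
  | empty => exact ⟨∅, by simp, by simp, by simp, by simp, by rw [asym_empty]; exact hw⟩
  | insert i I hmin ih =>
    obtain ⟨A, hAS, hinj, hAI, hIA, hne⟩ := ih (fun j hj => hI j (Finset.mem_insert_of_mem hj))
    have hiI : i ∉ I := fun hh => lt_irrefl _ (hmin i hh)
    have hnotin : ∀ a ∈ blk S c i, a ∉ A := by
      intro a ha haA
      rw [mem_blk] at ha
      exact hiI (ha.2 ▸ hAI a haA)
    have hsum : ∑ a ∈ blk S c i, asym ρ (insert a A) w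
        = (((blk S c i).card : ℂ) + A.card) • asym ρ A w := by
      have e1 : ∀ a ∈ blk S c i, asym ρ (insert a A) w
          = asym ρ A w - ∑ x ∈ A, asym ρ A (ρ (swap a x) w) :=
        fun a ha => asym_insert ρ A w (hnotin a ha)
      rw [Finset.sum_congr rfl e1, Finset.sum_sub_distrib, Finset.sum_comm]
      have e2 : ∀ x ∈ A, ∑ a ∈ blk S c i, asym ρ A (ρ (swap a x) w) = - asym ρ A w := by
        intro x hx
        have h3 := h.raise x (hAS hx) i (hmin _ (hAI x hx))
        have h4 : ∑ a ∈ blk S c i, ρ (swap a x) w = - w := by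
          rw [add_comm] at h3
          exact eq_neg_of_add_eq_zero_left h3
        rw [← map_sum, h4, map_neg]
      rw [Finset.sum_congr rfl e2, Finset.sum_const, Finset.sum_const, add_smul,
        ← Nat.cast_smul_eq_nsmul ℂ, ← Nat.cast_smul_eq_nsmul ℂ, smul_neg, sub_neg_eq_add]
    have hpos : (((blk S c i).card : ℂ) + A.card) ≠ 0 := by
      obtain ⟨a, haS, hai⟩ := hI i (Finset.mem_insert_self i I)
      have : 0 < (blk S c i).card := Finset.card_pos.mpr ⟨a, mem_blk.mpr ⟨haS, hai⟩⟩
      have h5 : ((blk S c i).card + A.card : ℕ) ≠ 0 := by omega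
      exact_mod_cast h5
    have hsne : ∑ a ∈ blk S c i, asym ρ (insert a A) w ≠ 0 := by
      rw [hsum]; exact smul_ne_zero hpos hne
    obtain ⟨a, ha, hane⟩ := Finset.exists_ne_zero_of_sum_ne_zero hsne
    rw [mem_blk] at ha
    refine ⟨insert a A, ?_, ?_, ?_, ?_, hane⟩
    · intro x hx
      rw [Finset.mem_insert] at hx
      rcases hx with rfl | hx
      · exact ha.1
      · exact hAS hx
    · intro x hx y hy hxy
      rw [Finset.mem_insert] at hx hy
      rcases hx with rfl | hx <;> rcases hy with rfl | hy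
      · rfl
      · exact absurd (ha.2 ▸ hxy ▸ hAI y hy) hiI
      · exact absurd (ha.2 ▸ hxy ▸ hAI x hx) hiI
      · exact hinj x hx y hy hxy
    · intro x hx
      rw [Finset.mem_insert] at hx
      rcases hx with rfl | hx
      · exact ha.2 ▸ Finset.mem_insert_self i I
      · exact Finset.mem_insert_of_mem (hAI x hx)
    · intro j hj
      rw [Finset.mem_insert] at hj
      rcases hj with rfl | hj
      · exact ⟨a, Finset.mem_insert_self _ _, ha.2⟩
      · obtain ⟨x, hx, hxj⟩ := hIA j hj
        exact ⟨x, Finset.mem_insert_of_mem hx, hxj⟩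

/-- Removing one column keeps the highest weight condition. -/
theorem HW.remove {ρ : Representation ℂ (Perm T) U} {S : Finset T} {c : T → ℕ}
    {w : U} (h : HW ρ S c w) (hw : w ≠ 0) (A : Finset T) (hAS : A ⊆ S)
    (hall : ∀ t ∈ S, ∃ x ∈ A, c x = c t) (hinj : ∀ x ∈ A, ∀ y ∈ A, c x = c y → x = y) :
    HW ρ (S \ A) c (asym ρ A w) := by
  constructor
  · intro a ha b hb hab
    rw [Finset.mem_sdiff] at ha hb
    rw [asym_swap_comm ρ A w ha.2 hb.2, h.fixed a ha.1 b hb.1 hab]
  · intro b hb i hi
    rw [Finset.mem_sdiff] at hb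
    obtain ⟨a0, ha0S, ha0⟩ := h.blk_nonempty hw hb.1 hi.le
    obtain ⟨ai, haiA, hai⟩ := hall a0 ha0S
    rw [ha0] at hai
    obtain ⟨aj, hajA, haj⟩ := hall b hb.1
    have hne : ai ≠ aj := by
      intro e; rw [e, haj] at hai; omega
    have hblk : blk S c i = insert ai (blk (S \ A) c i) := by
      ext t
      rw [Finset.mem_insert, mem_blk, mem_blk, Finset.mem_sdiff]
      constructor
      · rintro ⟨htS, hti⟩
        by_cases htA : t ∈ A
        · left; exact hinj t htA ai haiA (hti.trans hai.symm)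
        · right; exact ⟨⟨htS, htA⟩, hti⟩
      · rintro (rfl | ⟨⟨htS, _⟩, hti⟩)
        · exact ⟨hAS haiA, hai⟩
        · exact ⟨htS, hti⟩
    have hnot : ai ∉ blk (S \ A) c i := by
      rw [mem_blk, Finset.mem_sdiff]; exact fun hh => hh.1.2 haiA
    have hr := h.raise b hb.1 i hi
    rw [hblk, Finset.sum_insert hnot] at hr
    have hz : asym ρ A (ρ (swap ai b) w) = 0 := by
      refine asym_eq_zero ρ A _ haiA hajA hne ?_
      have hajb : aj ≠ b := fun e => hb.2 (e ▸ hajA)
      have haib : ai ≠ b := fun e => hb.2 (e ▸ haiA)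
      -- (ai aj)(ai b) = (ai b)(b aj)
      have hcomm : swap ai aj * swap ai b = swap ai b * swap aj b := by
        ext t
        simp only [Perm.mul_apply, swap_apply_def]
        split_ifs <;> simp_all
      rw [rho_mul, hcomm, ← rho_mul, h.fixed aj (hAS hajA) b hb.1 haj]
    have hr2 := congrArg (asym ρ A) hr
    rw [map_add, map_add, map_sum, map_zero, hz, zero_add] at hr2
    rw [← hr2]
    congr 1
    apply Finset.sum_congr rfl
    intro a ha
    rw [mem_blk, Finset.mem_sdiff] at ha
    rw [asym_swap_comm ρ A w ha.1.2 hb.2]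

/-- A linear map which is alternating on a set of letters. -/
lemma alt_perm {V : Type*} [AddCommGroup V] [Module ℂ V] (ρ : Representation ℂ (Perm T) U)
    (L : U →ₗ[ℂ] V) (A : Finset T)
    (hL : ∀ x ∈ A, ∀ y ∈ A, x ≠ y → ∀ u, L (ρ (swap x y) u) = - L u) (σ : Perm T)
    (hσ : ∀ t, t ∉ A → σ t = t) (u : U) :
    L (ρ σ u) = (((Perm.sign σ : ℤˣ) : ℤ) : ℂ) • L u := by
  classical
  induction hn : σ.support.card using Nat.strong_induction_on generalizing σ with
  | _ n ih =>
    by_cases h1 : σ = 1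
    · subst h1; simp
    · obtain ⟨x, hx⟩ : ∃ x, σ x ≠ x := by
        by_contra hcon
        push Not at hcon
        exact h1 (Equiv.ext hcon)
      have hxA : x ∈ A := by
        by_contra hcon; exact hx (hσ x hcon)
      have hxA' : σ x ∈ A := by
        by_contra hcon
        exact hx (σ.injective (hσ _ hcon))
      have hlt := Perm.card_support_swap_mul hx
      have := ih _ (hn ▸ hlt) (swap x (σ x) * σ) (by
        intro t ht
        rw [Perm.mul_apply, hσ t ht, swap_apply_of_ne_of_ne (ne_of_mem_of_not_mem hxA ht).symm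
          (ne_of_mem_of_not_mem hxA' ht).symm]) rfl
      have e : σ = swap x (σ x) * (swap x (σ x) * σ) := by
        rw [← mul_assoc, swap_mul_self, one_mul]
      have e2 : ρ σ u = ρ (swap x (σ x)) (ρ (swap x (σ x) * σ) u) := by
        rw [← Module.End.mul_apply, ← map_mul, ← e]
      rw [e2, hL _ hxA _ hxA' (Ne.symm hx), this, Perm.sign_mul, Perm.sign_swap (Ne.symm hx)]
      simp

lemma alt_asym {V : Type*} [AddCommGroup V] [Module ℂ V] (ρ : Representation ℂ (Perm T) U)
    (L : U →ₗ[ℂ] V) (A : Finset T)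
    (hL : ∀ x ∈ A, ∀ y ∈ A, x ≠ y → ∀ u, L (ρ (swap x y) u) = - L u) (u : U) :
    ∃ k : ℂ, L (asym ρ A u) = k • L u := by
  refine ⟨(Finset.univ.filter (fun σ : Perm T => ∀ t, t ∉ A → σ t = t)).card, ?_⟩
  rw [asym_apply, map_sum, Nat.cast_smul_eq_nsmul, ← Finset.sum_const]
  apply Finset.sum_congr rfl
  intro σ hσ
  simp only [Finset.mem_filter, Finset.mem_univ, true_and] at hσ
  rw [map_smul, alt_perm ρ L A hL σ hσ u, smul_smul]
  have : ((((Perm.sign σ : ℤˣ) : ℤ) : ℂ)) * ((((Perm.sign σ : ℤˣ) : ℤ) : ℂ)) = 1 := by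
    rcases Int.units_eq_one_or (Perm.sign σ) with h | h <;> simp [h]
  rw [this, one_smul]

/-- Removing all columns. -/
theorem HW.exists_columns {ρ : Representation ℂ (Perm T) U} {c : T → ℕ} (n : ℕ) :
    ∀ (S : Finset T), S.card = n → ∀ w : U, w ≠ 0 → HW ρ S c w →
    ∃ (d : T → ℕ) (v : U), v ≠ 0 ∧
      (∀ x, x ∉ S → ∀ y, y ∉ S → ∀ ε : ℂ, ρ (swap x y) w = ε • w → ρ (swap x y) v = ε • v) ∧
      (∀ x ∈ S, ∀ y ∈ S, x ≠ y → d x = d y → ρ (swap x y) v = - v) ∧
      (∀ x ∈ S, ∀ y ∈ S, c x = c y → d x = d y → x = y) ∧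
      (∀ x ∈ S, ∀ i, i ≤ c x → ∀ k, k ≤ d x → ∃ y ∈ S, c y = i ∧ d y = k) ∧
      (∀ L : U →ₗ[ℂ] U, (∀ x ∈ S, ∀ y ∈ S, x ≠ y → d x = d y →
        ∀ u, L (ρ (swap x y) u) = - L u) → ∃ k : ℂ, L v = k • L w) := by
  induction n using Nat.strong_induction_on with
  | _ n ih =>
    intro S hS w hw h
    rcases S.eq_empty_or_nonempty with rfl | hne
    · exact ⟨fun _ => 0, w, hw, fun x _ y _ ε he => he, by simp, by simp, by simp,
        fun L _ => ⟨1, (one_smul ℂ _).symm⟩⟩
    · obtain ⟨A, hAS, hinj, hAI, hIA, hA0⟩ := h.exists_transversal hw (S.image c) (by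
        intro i hi
        rw [Finset.mem_image] at hi
        exact hi)
      have hall : ∀ t ∈ S, ∃ x ∈ A, c x = c t := fun t ht =>
        hIA (c t) (Finset.mem_image_of_mem c ht)
      have h' := h.remove hw A hAS hall hinj
      obtain ⟨s, hs⟩ := hne
      obtain ⟨x0, hx0, _⟩ := hall s hs
      have hlt : (S \ A).card < n := by
        rw [← hS]
        apply Finset.card_lt_card
        rw [Finset.ssubset_iff_of_subset Finset.sdiff_subset]
        exact ⟨x0, hAS hx0, fun hh => (Finset.mem_sdiff.mp hh).2 hx0⟩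
      obtain ⟨d', v, hv, hout, halt, hinj', hlow, hL'⟩ := ih _ hlt (S \ A) rfl _ hA0 h'
      refine ⟨fun t => if t ∈ A then 0 else d' t + 1, v, hv, ?_, ?_, ?_, ?_, ?_⟩
      · intro x hx y hy ε he
        have hxA : x ∉ A := fun hh => hx (hAS hh)
        have hyA : y ∉ A := fun hh => hy (hAS hh)
        refine hout x (fun hh => hx (Finset.mem_sdiff.mp hh).1) y
          (fun hh => hy (Finset.mem_sdiff.mp hh).1) ε ?_
        rw [asym_swap_comm ρ A w hxA hyA, he, map_smul]
      · intro x hx y hy hxy hd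
        simp only at hd
        by_cases hxA : x ∈ A <;> by_cases hyA : y ∈ A <;> simp only [hxA, hyA, if_true, if_false] at hd
        · have := hout x (fun hh => (Finset.mem_sdiff.mp hh).2 hxA) y
            (fun hh => (Finset.mem_sdiff.mp hh).2 hyA) (-1) (by
              rw [asym_swap_left ρ A w hxA hyA hxy, neg_one_smul])
          rw [this, neg_one_smul]
        · omega
        · omega
        · exact halt x (Finset.mem_sdiff.mpr ⟨hx, hxA⟩) y (Finset.mem_sdiff.mpr ⟨hy, hyA⟩) hxy
            (by omega)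
      · intro x hx y hy hc hd
        simp only at hd
        by_cases hxA : x ∈ A <;> by_cases hyA : y ∈ A <;> simp only [hxA, hyA, if_true, if_false] at hd
        · exact hinj x hxA y hyA hc
        · omega
        · omega
        · exact hinj' x (Finset.mem_sdiff.mpr ⟨hx, hxA⟩) y (Finset.mem_sdiff.mpr ⟨hy, hyA⟩) hc
            (by omega)
      · intro x hx i hi k hk
        have hzero : ∃ y ∈ S, c y = i ∧ (if y ∈ A then 0 else d' y + 1) = 0 := by
          obtain ⟨a0, ha0S, ha0⟩ := h.blk_nonempty hw hx hi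
          obtain ⟨y, hyA, hy⟩ := hall a0 ha0S
          exact ⟨y, hAS hyA, hy.trans ha0, by rw [if_pos hyA]⟩
        by_cases hxA : x ∈ A
        · simp only [hxA, if_true] at hk
          obtain rfl : k = 0 := by omega
          exact hzero
        · simp only [hxA, if_false] at hk
          rcases Nat.eq_zero_or_pos k with rfl | hkpos
          · exact hzero
          · obtain ⟨y, hyS, hyi, hyk⟩ := hlow x (Finset.mem_sdiff.mpr ⟨hx, hxA⟩) i hi (k - 1)
              (by omega)
            rw [Finset.mem_sdiff] at hyS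
            refine ⟨y, hyS.1, hyi, ?_⟩
            change (if y ∈ A then 0 else d' y + 1) = k
            rw [if_neg hyS.2]; omega
      · intro L hL
        obtain ⟨k1, hk1⟩ := hL' L (by
          intro x hx y hy hxy hd u
          rw [Finset.mem_sdiff] at hx hy
          refine hL x hx.1 y hy.1 hxy ?_ u
          simp only [hx.2, hy.2, if_false, hd])
        obtain ⟨k2, hk2⟩ := alt_asym ρ L A (by
          intro x hx y hy hxy u
          refine hL x (hAS hx) y (hAS hy) hxy ?_ u
          simp only [hx, hy, if_true]) w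
        exact ⟨k1 * k2, by rw [hk1, hk2, smul_smul]⟩

/-- Existence of a highest weight colouring. -/
theorem exists_HW (ρ : Representation ℂ (Perm T) U) [Nontrivial U] :
    ∃ (c : T → ℕ) (w : U), w ≠ 0 ∧ HW ρ Finset.univ c w := by
  classical
  let Q : ℕ → Prop := fun N => ∃ c : T → ℕ, (∑ t, c t = N) ∧ ∃ w : U, w ≠ 0 ∧ SwapFixed ρ c w
  have hQ : ∃ N, Q N := by
    obtain ⟨w, hw⟩ := exists_ne (0 : U)
    refine ⟨_, fun t => (Fintype.equivFin T t : ℕ), rfl, w, hw, ?_⟩
    intro a b hab
    have : a = b := (Fintype.equivFin T).injective (Fin.ext hab)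
    rw [this, swap_self, ← Perm.one_def, map_one, Module.End.one_apply]
  obtain ⟨c, hc, w, hw, hfix⟩ := Nat.find_spec hQ
  have hmin : ∀ (c' : T → ℕ) (w' : U), SwapFixed ρ c' w' → ∑ t, c' t < ∑ t, c t → w' = 0 := by
    intro c' w' hw' hlt
    by_contra hne
    exact Nat.find_min hQ (m := ∑ t, c' t) (hc ▸ hlt) ⟨c', rfl, w', hne, hw'⟩
  refine ⟨c, w, hw, fun a _ b _ hab => hfix a b hab, ?_⟩
  intro b _ i hi
  change addLetter ρ (blk Finset.univ c i) b w = 0
  have hb : b ∉ blk Finset.univ c i := by rw [mem_blk]; intro hh; omega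
  have hblk : ∀ t, t ∈ blk Finset.univ c i ↔ c t = i := by intro t; simp [mem_blk]
  refine hmin (Function.update c b i) _ ?_ ?_
  · intro x y hxy
    by_cases hx : x ∈ insert b (blk Finset.univ c i)
    · have hy : y ∈ insert b (blk Finset.univ c i) := by
        rw [Finset.mem_insert, hblk] at hx ⊢
        have hxi : Function.update c b i x = i := by
          rcases hx with rfl | hx
          · simp
          · by_cases e : x = b
            · rw [e]; simp
            · rw [Function.update_of_ne e]; exact hx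
        rw [hxi] at hxy
        by_cases e : y = b
        · left; exact e
        · right; rw [Function.update_of_ne e] at hxy; exact hxy.symm
      exact addLetter_fixed_in ρ _ b w hb
        (fun x hx y hy => hfix x y (((hblk x).mp hx).trans ((hblk y).mp hy).symm)) hx hy
    · have hx' := hx
      rw [Finset.mem_insert, hblk] at hx
      push Not at hx
      have hy : y ≠ b ∧ c y ≠ i := by
        rw [Function.update_of_ne hx.1] at hxy
        by_cases e : y = b
        · rw [e] at hxy; simp at hxy; exact absurd hxy hx.2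
        · rw [Function.update_of_ne e] at hxy
          exact ⟨e, fun h => hx.2 (hxy.trans h)⟩
      refine addLetter_fixed_out ρ _ b w ?_ ?_ hx.1 hy.1 ?_
      · rw [hblk]; exact hx.2
      · rw [hblk]; exact hy.2
      · rw [Function.update_of_ne hx.1, Function.update_of_ne hy.1] at hxy
        exact hfix x y hxy
  · apply Finset.sum_lt_sum
    · intro t _
      by_cases e : t = b
      · rw [e]; simp; exact hi.le
      · rw [Function.update_of_ne e]
    · exact ⟨b, Finset.mem_univ b, by simp; exact hi⟩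

/-- Column antisymmetrizer of a colouring. -/
noncomputable def colAsym (ρ : Representation ℂ (Perm T) U) (d : T → ℕ) : U →ₗ[ℂ] U :=
  ∑ σ ∈ Finset.univ.filter (fun σ : Perm T => ∀ t, d (σ t) = d t),
    ((((Perm.sign σ : ℤˣ) : ℤ) : ℂ)) • ρ σ

lemma colAsym_apply (ρ : Representation ℂ (Perm T) U) (d : T → ℕ) (w : U) :
    colAsym ρ d w = ∑ σ ∈ Finset.univ.filter (fun σ : Perm T => ∀ t, d (σ t) = d t),
      ((((Perm.sign σ : ℤˣ) : ℤ) : ℂ)) • ρ σ w := by
  simp [colAsym, LinearMap.sum_apply]

lemma colAsym_alt (ρ : Representation ℂ (Perm T) U) (d : T → ℕ) (w : U) :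
    SwapAlt ρ d (colAsym ρ d w) := by
  intro x y hxy hd
  rw [colAsym_apply, map_sum, ← Finset.sum_neg_distrib]
  have hsw : ∀ t, d (swap x y t) = d t := by
    intro t
    by_cases h1 : t = x
    · rw [h1, swap_apply_left, hd]
    · by_cases h2 : t = y
      · rw [h2, swap_apply_right, hd]
      · rw [swap_apply_of_ne_of_ne h1 h2]
  refine Finset.sum_bij' (fun σ _ => swap x y * σ) (fun σ _ => swap x y * σ) ?_ ?_ ?_ ?_ ?_
  · intro σ hσ
    simp only [Finset.mem_filter, Finset.mem_univ, true_and] at hσ ⊢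
    intro t
    rw [Perm.mul_apply, hsw, hσ]
  · intro σ hσ
    simp only [Finset.mem_filter, Finset.mem_univ, true_and] at hσ ⊢
    intro t
    rw [Perm.mul_apply, hsw, hσ]
  · intro σ _; simp
  · intro σ _; simp
  · intro σ _
    rw [map_smul, rho_mul, Perm.sign_mul, Perm.sign_swap hxy]
    simp

lemma colAsym_swap_right (ρ : Representation ℂ (Perm T) U) (d : T → ℕ) (w : U) {x y : T}
    (hxy : x ≠ y) (hd : d x = d y) :
    colAsym ρ d (ρ (swap x y) w) = - colAsym ρ d w := by
  rw [colAsym_apply, colAsym_apply, ← Finset.sum_neg_distrib]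
  have hsw : ∀ t, d (swap x y t) = d t := by
    intro t
    by_cases h1 : t = x
    · rw [h1, swap_apply_left, hd]
    · by_cases h2 : t = y
      · rw [h2, swap_apply_right, hd]
      · rw [swap_apply_of_ne_of_ne h1 h2]
  refine Finset.sum_bij' (fun σ _ => σ * swap x y) (fun σ _ => σ * swap x y) ?_ ?_ ?_ ?_ ?_
  · intro σ hσ
    simp only [Finset.mem_filter, Finset.mem_univ, true_and] at hσ ⊢
    intro t
    rw [Perm.mul_apply, hσ, hsw]
  · intro σ hσ
    simp only [Finset.mem_filter, Finset.mem_univ, true_and] at hσ ⊢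
    intro t
    rw [Perm.mul_apply, hσ, hsw]
  · intro σ _; simp
  · intro σ _; simp
  · intro σ _
    rw [rho_mul, Perm.sign_mul, Perm.sign_swap hxy]
    simp

lemma colAsym_of_alt (ρ : Representation ℂ (Perm T) U) (d : T → ℕ) (v : U)
    (hv : SwapAlt ρ d v) : ∃ k : ℂ, k ≠ 0 ∧ colAsym ρ d v = k • v := by
  refine ⟨(Finset.univ.filter (fun σ : Perm T => ∀ t, d (σ t) = d t)).card, ?_, ?_⟩
  · rw [Nat.cast_ne_zero, Finset.card_ne_zero]
    exact ⟨1, by simp⟩
  · rw [colAsym_apply, Nat.cast_smul_eq_nsmul, ← Finset.sum_const]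
    apply Finset.sum_congr rfl
    intro σ hσ
    simp only [Finset.mem_filter, Finset.mem_univ, true_and] at hσ
    rw [hv.perm σ hσ, smul_smul]
    have : ((((Perm.sign σ : ℤˣ) : ℤ) : ℂ)) * ((((Perm.sign σ : ℤˣ) : ℤ) : ℂ)) = 1 := by
      rcases Int.units_eq_one_or (Perm.sign σ) with h | h <;> simp [h]
    rw [this, one_smul]

/-- **Shape lemma.**  Every nonzero representation of a finite symmetric group admits a Young
diagram, a bijection from the letters to its cells, a nonzero vector fixed by the row group and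
a nonzero vector transforming by the sign under the column group. -/
theorem shape_lemma (ρ : Representation ℂ (Perm T) U) [Nontrivial U] :
    ∃ (μ : YoungDiagram) (e : T ≃ μ.cells) (w : U), SwapFixed ρ (fun t => (e t).1.1) w ∧
      colAsym ρ (fun t => (e t).1.2) w ≠ 0 := by
  classical
  obtain ⟨c, w, hw, h⟩ := exists_HW ρ
  obtain ⟨d, v, hv, -, halt, hinj, hlow, hL⟩ := HW.exists_columns (ρ := ρ) (c := c) _ Finset.univ rfl w hw h
  let f : T → ℕ × ℕ := fun t => (c t, d t)
  have hf : Function.Injective f := by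
    intro x y hxy
    simp only [f, Prod.mk.injEq] at hxy
    exact hinj x (Finset.mem_univ x) y (Finset.mem_univ y) hxy.1 hxy.2
  let μ : YoungDiagram :=
    { cells := Finset.univ.image f
      isLowerSet := by
        intro p q hqp hp
        simp only [Finset.coe_image, Finset.coe_univ, Set.image_univ, Set.mem_range] at hp ⊢
        obtain ⟨x, rfl⟩ := hp
        obtain ⟨y, _, hy1, hy2⟩ := hlow x (Finset.mem_univ x) q.1 hqp.1 q.2 hqp.2
        exact ⟨y, Prod.ext hy1 hy2⟩ }
  have hmem : ∀ t, f t ∈ μ.cells := fun t => Finset.mem_image_of_mem f (Finset.mem_univ t)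
  let e : T ≃ μ.cells := Equiv.ofBijective (fun t => ⟨f t, hmem t⟩) (by
    constructor
    · intro x y hxy
      exact hf (congrArg Subtype.val hxy)
    · rintro ⟨p, hp⟩
      obtain ⟨x, _, hx⟩ := Finset.mem_image.mp hp
      exact ⟨x, Subtype.ext hx⟩)
  refine ⟨μ, e, w, ?_, ?_⟩
  · intro a b hab
    exact h.fixed a (Finset.mem_univ a) b (Finset.mem_univ b) hab
  · change colAsym ρ d w ≠ 0
    obtain ⟨k, hk⟩ := hL (colAsym ρ d) (fun x _ y _ hxy hd u => colAsym_swap_right ρ d u hxy hd)
    obtain ⟨k', hk', hk'v⟩ := colAsym_of_alt ρ d v (fun a b hne hab =>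
      halt a (Finset.mem_univ a) b (Finset.mem_univ b) hne hab)
    intro h0
    rw [h0, smul_zero, hk'v] at hk
    exact (smul_ne_zero hk' hv) hk

/-- Weak form of the shape lemma. -/
theorem shape_lemma' (ρ : Representation ℂ (Perm T) U) [Nontrivial U] :
    ∃ (μ : YoungDiagram) (e : T ≃ μ.cells),
      (∃ w : U, w ≠ 0 ∧ SwapFixed ρ (fun t => (e t).1.1) w) ∧
      (∃ v : U, v ≠ 0 ∧ SwapAlt ρ (fun t => (e t).1.2) v) := by
  obtain ⟨μ, e, w, hw, hne⟩ := shape_lemma ρ
  refine ⟨μ, e, ⟨w, ?_, hw⟩, ⟨_, hne, colAsym_alt ρ _ w⟩⟩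
  rintro rfl
  exact hne (map_zero _)

end rep

end Crest.Agent.R195
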