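import Mathlib
import Crest.Agent.R195.Shape

/-! Row 195, part (B1c): James' lemma, `R A w ≠ 0`, and the abstract core of the chain state
argument. -/

set_option autoImplicit false

namespace Crest.Agent.R195

open Finset Function Equiv

section james

variable {T : Type*} [Fintype T] [DecidableEq T]

theorem james (row col z : T → ℕ)
    (hinj : ∀ s t, row s = row t → col s = col t → s = t)
    (htop : ∀ t a, a < row t → ∃ s, row s = a ∧ col s = col t)
    (hcard : ∀ a, (univ.filter fun t => z t = a).card = (univ.filter fun t => row t = a).card)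
    (hz : ∀ s t, col s = col t → z s = z t → s = t) :
    ∃ κ : Perm T, (∀ t, col (κ t) = col t) ∧ ∀ t, row (κ t) = z t := by
  classical
  have key : ∀ a, (univ.filter fun t => z t = a).image col
      = (univ.filter fun t => row t = a).image col := by
    intro a
    induction a using Nat.strong_induction_on with
    | _ a ih =>
      apply Finset.eq_of_subset_of_card_le
      · intro γ hγ
        rw [mem_image] at hγ ⊢
        obtain ⟨t, ht, rfl⟩ := hγ
        rw [mem_filter] at ht
        by_contra hcon
        have hno : ∀ s, row s = a → col s ≠ col t := by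
          intro s hs hs'
          exact hcon ⟨s, by simp [hs], hs'⟩
        -- rows in the column of `t` are `< a`
        have hlt : ∀ s, col s = col t → row s < a := by
          intro s hs
          rcases lt_trichotomy (row s) a with h | h | h
          · exact h
          · exact absurd hs (hno s h)
          · obtain ⟨s', h1, h2⟩ := htop s a h
            exact absurd (h2.trans hs) (hno s' h1)
        have hex : ∀ s, col s = col t → ∃ s', col s' = col t ∧ z s' = row s := by
          intro s hs
          have h1 : col s ∈ (univ.filter fun t => row t = row s).image col :=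
            mem_image_of_mem _ (by simp)
          rw [← ih _ (hlt s hs), mem_image] at h1
          obtain ⟨s', h2, h3⟩ := h1
          exact ⟨s', h3.trans hs, (mem_filter.1 h2).2⟩
        choose! f hf1 hf2 using hex
        have hmaps : ∀ s ∈ univ.filter (fun s => col s = col t),
            f s ∈ univ.filter (fun s => col s = col t) := by
          intro s hs
          rw [mem_filter] at hs ⊢
          exact ⟨mem_univ _, hf1 s hs.2⟩
        have hfinj : Set.InjOn f (univ.filter (fun s => col s = col t) : Finset T) := by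
          intro x hx y hy hxy
          rw [mem_coe, mem_filter] at hx hy
          have h1 := hf2 x hx.2
          have h2 := hf2 y hy.2
          rw [hxy, h2] at h1
          exact hinj x y h1.symm (hx.2.trans hy.2.symm)
        have himg : (univ.filter (fun s => col s = col t)).image f
            = univ.filter (fun s => col s = col t) := by
          apply Finset.eq_of_subset_of_card_le
          · intro x hx
            rw [mem_image] at hx
            obtain ⟨s, hs, rfl⟩ := hx
            exact hmaps s hs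
          · rw [card_image_of_injOn hfinj]
        have ht' : t ∈ (univ.filter (fun s => col s = col t)).image f := by
          rw [himg]; simp
        rw [mem_image] at ht'
        obtain ⟨s, hs, hst⟩ := ht'
        rw [mem_filter] at hs
        have h1 := hf2 s hs.2
        rw [hst, ht.2] at h1
        have h2 := hlt s hs.2
        omega
      · rw [card_image_of_injOn, card_image_of_injOn, hcard]
        · intro x hx y hy hxy
          simp only [coe_filter, mem_univ, true_and, Set.mem_ofPred_eq] at hx hy
          exact hz x y hxy (hx.trans hy.symm)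
        · intro x hx y hy hxy
          simp only [coe_filter, mem_univ, true_and, Set.mem_ofPred_eq] at hx hy
          exact hinj x y (hx.trans hy.symm) hxy
  have hex : ∀ t, ∃ s, row s = z t ∧ col s = col t := by
    intro t
    have h1 : col t ∈ (univ.filter fun s => z s = z t).image col :=
      mem_image_of_mem _ (by simp)
    rw [key, mem_image] at h1
    obtain ⟨s, hs, hs'⟩ := h1
    exact ⟨s, (mem_filter.1 hs).2, hs'⟩
  choose k hk1 hk2 using hex
  have hkinj : Injective k := by
    intro x y hxy
    have h1 := hk1 x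
    have h2 := hk2 x
    rw [hxy, hk1] at h1
    rw [hxy, hk2] at h2
    exact hz x y h2.symm h1.symm
  exact ⟨Equiv.ofBijective k (Finite.injective_iff_bijective.1 hkinj), hk2, hk1⟩

end james

section core

variable {T : Type*} [Fintype T] [DecidableEq T]
variable {U : Type*} [AddCommGroup U] [Module ℂ U]

/-- `R A w ≠ 0` when `w` is fixed by the row group and `A w ≠ 0`. -/
theorem rowSum_colAsym_ne_zero {ι : Type*} [DecidableEq ι] (ρ : Representation ℂ (Perm T) U)
    (row : T → ι) (col : T → ℕ) (w : U)
    (hw : ∀ g : Perm T, (∀ t, row (g t) = row t) → ρ g w = w)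
    (hA : colAsym ρ col w ≠ 0) :
    ∑ g ∈ univ.filter (fun g : Perm T => ∀ t, row (g t) = row t), ρ g (colAsym ρ col w) ≠ 0 := by
  classical
  intro h0
  obtain ⟨l, hl⟩ : ∃ l : Module.Dual ℂ U, l (colAsym ρ col w) ≠ 0 := by
    by_contra hcon
    push Not at hcon
    exact hA ((Module.forall_dual_apply_eq_zero_iff ℂ _).1 hcon)
  set R := univ.filter (fun g : Perm T => ∀ t, row (g t) = row t) with hR
  set C := univ.filter (fun g : Perm T => ∀ t, col (g t) = col t) with hC
  set H : Perm T → ℂ := fun g => l (ρ g w) with hH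
  set HA : Perm T → ℂ := fun g => l (ρ g (colAsym ρ col w)) with hHA
  have hHR : ∀ g, ∀ r ∈ R, H (g * r) = H g := by
    intro g r hr
    simp only [hH]
    rw [map_mul, Module.End.mul_apply, hw r (by simpa [hR] using hr)]
  have hRinv : ∀ r ∈ R, r⁻¹ ∈ R := by
    intro r hr
    simp only [hR, mem_filter, mem_univ, true_and] at hr ⊢
    intro t
    have := hr (r⁻¹ t)
    rw [← Perm.mul_apply, mul_inv_cancel, Perm.one_apply] at this
    exact this.symm
  have hHA_eq : ∀ g, HA g = ∑ κ ∈ C, ((Perm.sign κ : ℤ) : ℂ) * H (g * κ) := by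
    intro g
    simp only [hHA, hH, hC]
    rw [colAsym_apply, map_sum, map_sum]
    refine Finset.sum_congr rfl fun κ _ => ?_
    rw [map_smul, map_smul, smul_eq_mul, map_mul, Module.End.mul_apply]
  have hHAC : ∀ g, ∀ κ ∈ C, HA (g * κ) = ((Perm.sign κ : ℤ) : ℂ) * HA g := by
    intro g κ hκ
    simp only [hHA]
    rw [map_mul, Module.End.mul_apply, (colAsym_alt ρ col w).perm κ (by simpa [hC] using hκ),
      map_smul, map_smul, smul_eq_mul]
  have hsgn : ∀ κ : Perm T, ((Perm.sign κ : ℤ) : ℂ) * ((Perm.sign κ : ℤ) : ℂ) = 1 := by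
    intro κ
    rcases Int.units_eq_one_or (Perm.sign κ) with h | h <;> simp [h]
  -- first relation
  have h1 : ∀ g, ∑ r ∈ R, HA (g * r) = 0 := by
    intro g
    have := congrArg (fun v => l (ρ g v)) h0
    simp only [map_sum, map_zero] at this
    rw [← this]
    refine Finset.sum_congr rfl fun r _ => ?_
    simp only [hHA]
    rw [map_mul, Module.End.mul_apply]
  set S : ℂ := ∑ g, HA g * (starRingEnd ℂ) (H g) with hS
  have hS0 : (R.card : ℂ) * S = 0 := by
    have h2 : ∑ g, (∑ r ∈ R, HA (g * r)) * (starRingEnd ℂ) (H g) = 0 :=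
      Finset.sum_eq_zero fun g _ => by rw [h1, zero_mul]
    rw [← h2]
    simp only [Finset.sum_mul]
    rw [Finset.sum_comm]
    have h3 : ∀ r ∈ R, ∑ g, HA (g * r) * (starRingEnd ℂ) (H g) = S := by
      intro r hr
      rw [hS]
      rw [← Equiv.sum_comp (Equiv.mulRight r) (fun g => HA g * (starRingEnd ℂ) (H g))]
      refine Finset.sum_congr rfl fun g _ => ?_
      simp only [Equiv.coe_mulRight]
      rw [hHR g r hr]
    rw [Finset.sum_congr rfl h3, Finset.sum_const, nsmul_eq_mul]
  have hRc : (R.card : ℂ) ≠ 0 := by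
    rw [Nat.cast_ne_zero, Finset.card_ne_zero]
    exact ⟨1, by simp [hR]⟩
  have hS1 : S = 0 := (mul_eq_zero.1 hS0).resolve_left hRc
  have hN : ∑ g, HA g * (starRingEnd ℂ) (HA g) = (C.card : ℂ) * S := by
    have h4 : ∀ g, HA g * (starRingEnd ℂ) (HA g)
        = ∑ κ ∈ C, ((Perm.sign κ : ℤ) : ℂ) * HA g * (starRingEnd ℂ) (H (g * κ)) := by
      intro g
      conv_lhs => rw [hHA_eq g]
      rw [← hHA_eq g]
      conv_lhs => arg 2; rw [hHA_eq g]
      rw [map_sum, Finset.mul_sum]
      refine Finset.sum_congr rfl fun κ _ => ?_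
      rw [map_mul]
      have : (starRingEnd ℂ) ((Perm.sign κ : ℤ) : ℂ) = ((Perm.sign κ : ℤ) : ℂ) := by
        rcases Int.units_eq_one_or (Perm.sign κ) with h | h <;> simp [h]
      rw [this]
      ring
    rw [Finset.sum_congr rfl fun g _ => h4 g, Finset.sum_comm]
    have h5 : ∀ κ ∈ C, ∑ g, ((Perm.sign κ : ℤ) : ℂ) * HA g * (starRingEnd ℂ) (H (g * κ)) = S := by
      intro κ hκ
      rw [hS]
      rw [← Equiv.sum_comp (Equiv.mulRight κ) (fun g => HA g * (starRingEnd ℂ) (H g))]
      refine Finset.sum_congr rfl fun g _ => ?_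
      simp only [Equiv.coe_mulRight]
      rw [hHAC g κ hκ]
    rw [Finset.sum_congr rfl h5, Finset.sum_const, nsmul_eq_mul]
  rw [hS1, mul_zero] at hN
  have h6 : ∑ g, Complex.normSq (HA g) = 0 := by
    have h7 : ((∑ g, Complex.normSq (HA g) : ℝ) : ℂ) = 0 := by
      rw [← hN]
      push_cast
      refine Finset.sum_congr rfl fun g _ => ?_
      rw [Complex.mul_conj]
    exact_mod_cast h7
  rw [Finset.sum_eq_zero_iff_of_nonneg (fun g _ => Complex.normSq_nonneg _)] at h6
  have h8 := h6 1 (mem_univ _)
  rw [Complex.normSq_eq_zero] at h8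
  apply hl
  simpa [hHA] using h8

/-- abstract core -/
theorem core_abs (ρ : Representation ℂ (Perm T) U) (row : T → Fin 4) (col : T → ℕ)
    (hinj : ∀ s t, row s = row t → col s = col t → s = t)
    (htop : ∀ t a, a < row t → ∃ s, row s = a ∧ col s = col t)
    (ψ : (T → Fin 4) → ℂ)
    (hψ : ∀ κ : Perm T, (∀ t, col (κ t) = col t) → ∀ r : T → Fin 4,
      (∀ x y, col x = col y → r x = r y → x = y) →
      ψ (r ∘ κ) = ((Perm.sign κ : ℤ) : ℂ) * ψ r)
    (hψ0 : ψ row ≠ 0) (w : U)
    (hw : ∀ g : Perm T, (∀ t, row (g t) = row t) → ρ g w = w)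
    (hA : colAsym ρ col w ≠ 0) :
    ∑ g : Perm T, ψ (row ∘ g) • ρ g (colAsym ρ col w) ≠ 0 := by
  classical
  set R := univ.filter (fun g : Perm T => ∀ t, row (g t) = row t) with hR
  set C := univ.filter (fun g : Perm T => ∀ t, col (g t) = col t) with hC
  have hCinv : ∀ r ∈ C, r⁻¹ ∈ C := by
    intro r hr
    simp only [hC, mem_filter, mem_univ, true_and] at hr ⊢
    intro t
    have := hr (r⁻¹ t)
    rw [← Perm.mul_apply, mul_inv_cancel, Perm.one_apply] at this
    exact this.symm
  have hsgn : ∀ κ : Perm T, ((Perm.sign κ : ℤ) : ℂ) * ((Perm.sign κ : ℤ) : ℂ) = 1 := by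
    intro κ
    rcases Int.units_eq_one_or (Perm.sign κ) with h | h <;> simp [h]
  -- antisymmetrised functional
  set A : (T → Fin 4) → ℂ := fun z => ∑ κ ∈ C, ((Perm.sign κ : ℤ) : ℂ) * ψ (z ∘ (κ⁻¹ : Perm T))
    with hAdef
  have step1 : ∑ g : Perm T, ψ (row ∘ g) • ρ g (colAsym ρ col w)
      = ∑ g : Perm T, A (row ∘ g) • ρ g w := by
    have e1 : ∀ g : Perm T, ψ (row ∘ g) • ρ g (colAsym ρ col w)
        = ∑ κ ∈ C, (((Perm.sign κ : ℤ) : ℂ) * ψ (row ∘ g)) • ρ (g * κ) w := by
      intro g
      rw [colAsym_apply, map_sum, Finset.smul_sum]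
      refine Finset.sum_congr rfl fun κ _ => ?_
      rw [map_smul, smul_smul, map_mul, Module.End.mul_apply, mul_comm]
    have e2 : ∀ g : Perm T, A (row ∘ g) • ρ g w
        = ∑ κ ∈ C, (((Perm.sign κ : ℤ) : ℂ) * ψ ((row ∘ g) ∘ (κ⁻¹ : Perm T))) • ρ g w := by
      intro g
      rw [hAdef, Finset.sum_smul]
    rw [Finset.sum_congr rfl fun g _ => e1 g, Finset.sum_congr rfl fun g _ => e2 g,
      Finset.sum_comm]
    conv_rhs => rw [Finset.sum_comm]
    refine Finset.sum_congr rfl fun κ _ => ?_
    rw [← Equiv.sum_comp (Equiv.mulRight κ)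
      (fun g : Perm T => (((Perm.sign κ : ℤ) : ℂ) * ψ ((row ∘ g) ∘ (κ⁻¹ : Perm T))) • ρ g w)]
    refine Finset.sum_congr rfl fun g _ => ?_
    simp only [Equiv.coe_mulRight]
    have : (row ∘ (g * κ : Perm T)) ∘ (κ⁻¹ : Perm T) = row ∘ g := by
      funext t
      simp
    rw [this]
  -- the value of `A`
  have hcard : ∀ g : Perm T, ∀ a : ℕ, (univ.filter fun t => ((row (g t) : Fin 4) : ℕ) = a).card
      = (univ.filter fun t => ((row t : Fin 4) : ℕ) = a).card := by
    intro g a
    refine Finset.card_bij (fun t _ => g t) ?_ ?_ ?_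
    · intro t ht; simpa using ht
    · intro x _ y _ hxy; exact g.injective hxy
    · intro t ht; exact ⟨g.symm t, by simpa using ht, by simp⟩
  set s : Perm T → ℂ := fun g => ∑ κ ∈ C, if (∀ t, row (g t) = row (κ t)) then
    ((Perm.sign κ : ℤ) : ℂ) else 0 with hs
  have hrowinj : ∀ x y, col x = col y → row x = row y → x = y := fun x y h1 h2 => hinj x y h2 h1
  have step2 : ∀ g : Perm T, A (row ∘ g) = ((C.card : ℂ) * ψ row) * s g := by
    intro g
    by_cases hg : ∀ x y, col x = col y → row (g x) = row (g y) → x = y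
    · obtain ⟨κ0, hκ1, hκ2⟩ := james (fun t => ((row t : Fin 4) : ℕ)) col
        (fun t => ((row (g t) : Fin 4) : ℕ))
        (fun x y h1 h2 => hinj x y (Fin.ext h1) h2)
        (fun t a ha => by
          obtain ⟨s, hs1, hs2⟩ := htop t ⟨a, by have := (row t).2; omega⟩ (Fin.lt_def.2 ha)
          exact ⟨s, by rw [hs1], hs2⟩)
        (hcard g) (fun x y h1 h2 => hg x y h1 (Fin.ext h2))
      have hκ0 : κ0 ∈ C := by simp [hC, hκ1]
      have hgκ : row ∘ g = row ∘ κ0 := by
        funext t
        exact Fin.ext (hκ2 t).symm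
      have hs0 : s g = ((Perm.sign κ0 : ℤ) : ℂ) := by
        simp only [hs]
        rw [Finset.sum_eq_single κ0]
        · exact if_pos (fun t => congrFun hgκ t)
        · intro κ hκ hne
          rw [if_neg]
          intro h
          apply hne
          ext t : 1
          apply hinj
          · rw [← h t]
            exact congrFun hgκ t
          · have : col (κ t) = col t := by
              have := (mem_filter.1 hκ).2
              exact this t
            rw [this, hκ1]
        · intro h; exact absurd hκ0 h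
      rw [hs0, hAdef, hgκ]
      simp only
      have e3 : ∀ κ ∈ C, ((Perm.sign κ : ℤ) : ℂ) * ψ ((row ∘ κ0) ∘ (κ⁻¹ : Perm T))
          = ψ row * ((Perm.sign κ0 : ℤ) : ℂ) := by
        intro κ hκ
        have hκ' := (mem_filter.1 (hCinv κ hκ)).2
        have e4 : (row ∘ κ0) ∘ (κ⁻¹ : Perm T) = row ∘ (κ0 * κ⁻¹ : Perm T) := rfl
        rw [e4, hψ (κ0 * κ⁻¹) (fun t => by rw [Perm.mul_apply, hκ1, hκ' t]) row hrowinj,
          Perm.sign_mul, Perm.sign_inv]
        push_cast
        linear_combination (ψ row * ((Perm.sign κ0 : ℤ) : ℂ)) * hsgn κ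
      rw [Finset.sum_congr rfl e3, Finset.sum_const, nsmul_eq_mul]
      ring
    · push Not at hg
      obtain ⟨x, y, hxy1, hxy2, hxy3⟩ := hg
      have hs0 : s g = 0 := by
        simp only [hs]
        refine Finset.sum_eq_zero fun κ hκ => ?_
        rw [if_neg]
        intro h
        have hκ' := (mem_filter.1 hκ).2
        have h1 : κ x = κ y := hinj _ _ (by rw [← h, ← h, hxy2]) (by rw [hκ' x, hκ' y, hxy1])
        exact hxy3 (κ.injective h1)
      rw [hs0, mul_zero, hAdef]
      simp only
      -- the swap symmetry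
      have hsw : ∀ t, col (swap x y t) = col t := by
        intro t
        by_cases h1 : t = x
        · rw [h1, swap_apply_left, hxy1]
        · by_cases h2 : t = y
          · rw [h2, swap_apply_right, hxy1]
          · rw [swap_apply_of_ne_of_ne h1 h2]
      have hinv : (row ∘ g) ∘ (swap x y : Perm T) = row ∘ g := by
        funext t
        show row (g (swap x y t)) = row (g t)
        by_cases h1 : t = x
        · rw [h1, swap_apply_left, hxy2]
        · by_cases h2 : t = y
          · rw [h2, swap_apply_right, hxy2]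
          · rw [swap_apply_of_ne_of_ne h1 h2]
      have e5 : ∑ κ ∈ C, ((Perm.sign κ : ℤ) : ℂ) * ψ ((row ∘ g) ∘ (κ⁻¹ : Perm T))
          = -∑ κ ∈ C, ((Perm.sign κ : ℤ) : ℂ) * ψ ((row ∘ g) ∘ (κ⁻¹ : Perm T)) := by
        rw [← Finset.sum_neg_distrib]
        refine Finset.sum_bij' (fun κ _ => κ * swap x y) (fun κ _ => κ * swap x y) ?_ ?_ ?_ ?_ ?_
        · intro κ hκ
          simp only [hC, mem_filter, mem_univ, true_and] at hκ ⊢
          intro t
          rw [Perm.mul_apply, hκ, hsw]
        · intro κ hκ
          simp only [hC, mem_filter, mem_univ, true_and] at hκ ⊢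
          intro t
          rw [Perm.mul_apply, hκ, hsw]
        · intro κ _; simp [mul_assoc]
        · intro κ _; simp [mul_assoc]
        · intro κ _
          have e6 : (row ∘ g) ∘ ((κ * swap x y)⁻¹ : Perm T) = (row ∘ g) ∘ (κ⁻¹ : Perm T) := by
            rw [mul_inv_rev, swap_inv]
            have : (row ∘ g) ∘ (swap x y * κ⁻¹ : Perm T)
                = ((row ∘ g) ∘ (swap x y : Perm T)) ∘ (κ⁻¹ : Perm T) := rfl
            rw [this, hinv]
          rw [e6, Perm.sign_mul, Perm.sign_swap hxy3]
          push_cast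
          ring
      have e7 : (2 : ℂ) * ∑ κ ∈ C, ((Perm.sign κ : ℤ) : ℂ) * ψ ((row ∘ g) ∘ (κ⁻¹ : Perm T)) = 0 := by
        linear_combination e5
      exact (mul_eq_zero.1 e7).resolve_left two_ne_zero
  have step3 : ∑ g : Perm T, s g • ρ g w = ∑ r ∈ R, ρ r (colAsym ρ col w) := by
    have e8 : ∀ g : Perm T, s g • ρ g w = ∑ κ ∈ C, (if (∀ t, row (g t) = row (κ t)) then
        ((Perm.sign κ : ℤ) : ℂ) else 0) • ρ g w := by
      intro g
      rw [hs, Finset.sum_smul]
    have e9 : ∀ r ∈ R, ρ r (colAsym ρ col w)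
        = ∑ κ ∈ C, ((Perm.sign κ : ℤ) : ℂ) • ρ (r * κ) w := by
      intro r _
      rw [colAsym_apply, map_sum]
      refine Finset.sum_congr rfl fun κ _ => ?_
      rw [map_smul, map_mul, Module.End.mul_apply]
    rw [Finset.sum_congr rfl fun g _ => e8 g, Finset.sum_congr rfl e9, Finset.sum_comm]
    conv_rhs => rw [Finset.sum_comm]
    refine Finset.sum_congr rfl fun κ _ => ?_
    rw [← Equiv.sum_comp (Equiv.mulRight κ) (fun g : Perm T =>
      (if (∀ t, row (g t) = row (κ t)) then ((Perm.sign κ : ℤ) : ℂ) else 0) • ρ g w)]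
    rw [hR, Finset.sum_filter]
    refine Finset.sum_congr rfl fun g _ => ?_
    by_cases h : ∀ t, row (g t) = row t
    · have h2 : ∀ t, row ((Equiv.mulRight κ g) t) = row (κ t) := fun t => by
        rw [Equiv.coe_mulRight, Perm.mul_apply, h]
      rw [if_pos h, if_pos h2]
      rfl
    · rw [if_neg h]
      refine (congrArg (fun c : ℂ => c • ρ (Equiv.mulRight κ g) w) (if_neg ?_)).trans
        (zero_smul ℂ _)
      intro h'
      apply h
      intro t
      have := h' (κ⁻¹ t)
      rw [Equiv.coe_mulRight, Perm.mul_apply, ← Perm.mul_apply κ, mul_inv_cancel,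
        Perm.one_apply] at this
      exact this
  rw [step1]
  have e10 : ∑ g : Perm T, A (row ∘ g) • ρ g w
      = ((C.card : ℂ) * ψ row) • ∑ g : Perm T, s g • ρ g w := by
    rw [Finset.smul_sum]
    refine Finset.sum_congr rfl fun g _ => ?_
    rw [step2, smul_smul]
  rw [e10, step3]
  refine smul_ne_zero (mul_ne_zero ?_ hψ0) (rowSum_colAsym_ne_zero ρ row col w hw hA)
  rw [Nat.cast_ne_zero, Finset.card_ne_zero]
  exact ⟨1, by simp [hC]⟩

end core

end Crest.Agent.R195
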