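import Mathlib
import Crest.Agent.R195.SpDefs
import Crest.Agent.R195.Shape
import Crest.Agent.R195.ChainB1b
import Crest.Agent.R195.ChainB1c

/-! Row 195, part (B): the pair gadget in the definitions of `SpDefs`. -/

set_option autoImplicit false

namespace Crest.Agent.R195

open Finset Function Equiv

section tableau4

variable {T : Type*} [Fintype T] [DecidableEq T]
variable {U : Type*} [AddCommGroup U] [Module ℂ U]

/-- restriction of a representation to an invariant subspace -/
noncomputable def subRep (ρ : Representation ℂ (Perm T) U) (V : Submodule ℂ U)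
    (hV : ∀ g, ∀ u ∈ V, ρ g u ∈ V) : Representation ℂ (Perm T) V where
  toFun g := (ρ g).restrict (hV g)
  map_one' := by ext x; simp [LinearMap.restrict_apply]
  map_mul' g h := by ext x; simp [LinearMap.restrict_apply]

theorem subRep_coe (ρ : Representation ℂ (Perm T) U) (V : Submodule ℂ U)
    (hV : ∀ g, ∀ u ∈ V, ρ g u ∈ V) (g : Perm T) (u : V) :
    ((subRep ρ V hV g u : V) : U) = ρ g u := rfl

/-- a nonzero vector fixed by a colouring with four colours gives a tableau with at most four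
rows -/
theorem exists_tableau4 (ρ : Representation ℂ (Perm T) U) (f : T → Fin 4) (w : U) (hw0 : w ≠ 0)
    (hw : SwapFixed ρ f w) :
    ∃ (row : T → Fin 4) (col : T → ℕ) (x : U),
      (∀ s t, row s = row t → col s = col t → s = t) ∧
      (∀ t a, a < row t → ∃ s, row s = a ∧ col s = col t) ∧
      (∀ g : Perm T, (∀ t, row (g t) = row t) → ρ g x = x) ∧
      colAsym ρ col x ≠ 0 := by
  classical
  set V : Submodule ℂ U := Submodule.span ℂ (Set.range fun g : Perm T => ρ g w) with hVdef
  have hV : ∀ g, ∀ u ∈ V, ρ g u ∈ V := by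
    intro g u hu
    rw [hVdef] at hu ⊢
    induction hu using Submodule.span_induction with
    | mem x hx =>
      obtain ⟨h, rfl⟩ := hx
      refine Submodule.subset_span ⟨g * h, ?_⟩
      show ρ (g * h) w = ρ g (ρ h w)
      rw [map_mul, Module.End.mul_apply]
    | zero => rw [map_zero]; exact Submodule.zero_mem _
    | add x y _ _ hx hy => rw [map_add]; exact Submodule.add_mem _ hx hy
    | smul a x _ hx => rw [map_smul]; exact Submodule.smul_mem _ a hx
  have hwV : w ∈ V := Submodule.subset_span ⟨1, by simp⟩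
  have : Nontrivial V := ⟨⟨⟨w, hwV⟩, 0, fun h => hw0 (congrArg Subtype.val h)⟩⟩
  obtain ⟨μ, e, x, hx, hA⟩ := shape_lemma (subRep ρ V hV)
  set col : T → ℕ := fun t => (e t).1.2 with hcol
  -- antisymmetrisers of five letters vanish on `V`
  have hkill : ∀ A : Finset T, 4 < A.card → ∀ v ∈ V, asym ρ A v = 0 := by
    intro A hAc v hv
    rw [hVdef] at hv
    induction hv using Submodule.span_induction with
    | mem x hx =>
      obtain ⟨g, rfl⟩ := hx
      obtain ⟨a, ha, b, hb, hab, hfab⟩ := Finset.exists_ne_map_eq_of_card_lt_of_maps_to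
        (s := A) (t := (univ : Finset (Fin 4))) (f := fun t => f (g⁻¹ t)) (by simpa using hAc)
        (fun _ _ => mem_univ _)
      refine asym_eq_zero ρ A _ ha hb hab ?_
      show ρ (swap a b) (ρ g w) = ρ g w
      have h1 : swap a b * g = g * swap (g⁻¹ a) (g⁻¹ b) := by
        rw [swap_conj g (g⁻¹ a) (g⁻¹ b)]
        simp
      rw [rho_mul, h1, ← rho_mul, hw _ _ hfab]
    | zero => rw [map_zero]
    | add x y _ _ hx hy => rw [map_add, hx, hy, add_zero]
    | smul a x _ hx => rw [map_smul, hx, smul_zero]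
  -- the column antisymmetrised vector in `U`
  have hcoe : ((colAsym (subRep ρ V hV) col x : V) : U) = colAsym ρ col x := by
    rw [colAsym_apply, colAsym_apply, Submodule.coe_sum]
    rfl
  have hAne : colAsym ρ col x ≠ 0 := by
    rw [← hcoe]
    intro h
    exact hA (Subtype.ext h)
  -- at most four rows
  have hrow : ∀ t, (e t).1.1 < 4 := by
    intro t
    by_contra hcon
    push Not at hcon
    have hmem : ∀ i : Fin 5, (((i : ℕ), col t) : ℕ × ℕ) ∈ μ.cells := by
      intro i
      refine μ.isLowerSet (a := (e t).1) ?_ (e t).2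
      refine Prod.mk_le_mk.2 ⟨?_, le_rfl⟩
      have := i.2
      show (i : ℕ) ≤ (e t).1.1
      omega
    let a : Fin 5 → T := fun i => e.symm ⟨((i : ℕ), col t), hmem i⟩
    have hacol : ∀ i, col (a i) = col t := by
      intro i
      simp [a, hcol]
    have hainj : Injective a := by
      intro i j hij
      have h1 := e.symm.injective hij
      have h2 := congrArg (fun z : μ.cells => z.1.1) h1
      exact Fin.ext h2
    set A : Finset T := univ.image a with hAdef
    have hAc : A.card = 5 := by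
      rw [hAdef, card_image_of_injective _ hainj]
      simp
    have hAcol : ∀ s ∈ A, col s = col t := by
      intro s hs
      rw [hAdef, mem_image] at hs
      obtain ⟨i, -, rfl⟩ := hs
      exact hacol i
    have h0 := hkill A (by omega) (colAsym ρ col x) (hcoe ▸ Submodule.coe_mem _)
    rw [asym_apply] at h0
    have h1 : ∀ σ ∈ univ.filter (fun σ : Perm T => ∀ t, t ∉ A → σ t = t),
        ((((Perm.sign σ : ℤˣ) : ℤ) : ℂ)) • ρ σ (colAsym ρ col x) = colAsym ρ col x := by
      intro σ hσ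
      simp only [mem_filter, mem_univ, true_and] at hσ
      have h2 : ∀ s, col (σ s) = col s := by
        intro s
        by_cases hs : s ∈ A
        · have hσs : σ s ∈ A := by
            by_contra hcon'
            have h3 := hσ _ hcon'
            have h4 : σ s = s := σ.injective h3
            rw [h4] at hcon'
            exact hcon' hs
          rw [hAcol _ hσs, hAcol _ hs]
        · rw [hσ s hs]
      rw [(colAsym_alt ρ col x).perm σ h2, smul_smul]
      have : ((((Perm.sign σ : ℤˣ) : ℤ) : ℂ)) * ((((Perm.sign σ : ℤˣ) : ℤ) : ℂ)) = 1 := by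
        rcases Int.units_eq_one_or (Perm.sign σ) with h | h <;> simp [h]
      rw [this, one_smul]
    rw [Finset.sum_congr rfl h1, Finset.sum_const, ← Nat.cast_smul_eq_nsmul ℂ] at h0
    rcases smul_eq_zero.1 h0 with h | h
    · rw [Nat.cast_eq_zero, Finset.card_eq_zero] at h
      have : (1 : Perm T) ∈ univ.filter (fun σ : Perm T => ∀ t, t ∉ A → σ t = t) := by simp
      rw [h] at this
      exact absurd this (Finset.notMem_empty _)
    · exact hAne h
  refine ⟨fun t => ⟨(e t).1.1, hrow t⟩, col, x, ?_, ?_, ?_, hAne⟩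
  · intro s t h1 h2
    apply e.injective
    apply Subtype.ext
    apply Prod.ext
    · exact congrArg Fin.val h1
    · exact h2
  · intro t a ha
    have hm : (((a : ℕ), col t) : ℕ × ℕ) ∈ μ.cells := by
      refine μ.isLowerSet (a := (e t).1) ?_ (e t).2
      refine Prod.mk_le_mk.2 ⟨?_, le_rfl⟩
      exact (Fin.lt_def.1 ha).le
    refine ⟨e.symm ⟨((a : ℕ), col t), hm⟩, ?_, ?_⟩
    · apply Fin.ext
      simp
    · simp [hcol]
  · intro g hg
    have h1 := hx.perm g (fun t => congrArg Fin.val (hg t))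
    have h2 := congrArg Subtype.val h1
    exact h2

end tableau4

/-- the shape with columns `c`, `c-1` -/
def pairD (c : ℕ) : Finset (ℕ × ℕ) :=
  (Finset.range c ×ˢ Finset.range 2).filter fun x => x.1 + x.2 < c

theorem mem_pairD {c : ℕ} {x : ℕ × ℕ} : x ∈ pairD c ↔ x.2 < 2 ∧ x.1 + x.2 < c := by
  unfold pairD
  rw [mem_filter, mem_product, mem_range, mem_range]
  constructor
  · rintro ⟨⟨-, h⟩, h'⟩; exact ⟨h, h'⟩
  · rintro ⟨h, h'⟩; exact ⟨⟨by omega, h⟩, h'⟩

section gadget

variable {T : Type} [Fintype T] [DecidableEq T]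

theorem polyF_eq_polyt (τ : T → ℕ × ℕ) (w : T → ℕ) :
    polyF τ w = polyt (fun t => (τ t).1) (fun t => (τ t).2) w := by
  unfold polyF polyt
  rw [← Equiv.sum_comp (Equiv.inv (Perm T))]
  refine Finset.sum_congr rfl fun κ _ => ?_
  simp only [Equiv.inv_apply, Perm.sign_inv]
  have hiff : ((∀ i, (τ (κ⁻¹ i)).2 = (τ i).2) ∧ ∀ i, w (κ⁻¹ i) = (τ i).1) ↔
      ((∀ t, (τ (κ t)).2 = (τ t).2) ∧ ∀ t, w t = (τ (κ t)).1) := by
    constructor
    · rintro ⟨h1, h2⟩
      refine ⟨fun t => ?_, fun t => ?_⟩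
      · have := h1 (κ t)
        simpa using this.symm
      · have := h2 (κ t)
        simpa using this
    · rintro ⟨h1, h2⟩
      refine ⟨fun t => ?_, fun t => ?_⟩
      · have := h1 (κ⁻¹ t)
        simpa using this.symm
      · have := h2 (κ⁻¹ t)
        simpa using this
  by_cases h : (∀ t, (τ (κ t)).2 = (τ t).2) ∧ ∀ t, w t = (τ (κ t)).1
  · rw [if_pos h, if_pos (hiff.2 h)]
  · rw [if_neg h, if_neg (fun h' => h (hiff.1 h'))]

/-- the tableau of a pair of columns -/
def tabOf (m : ℕ) (e : (Σ b : Bool, Fin (cPair m b)) ≃ T) (t : T) : ℕ × ℕ :=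
  (((e.symm t).2 : ℕ), cond (e.symm t).1 1 0)

theorem isTab_tabOf (m : ℕ) (e : (Σ b : Bool, Fin (cPair m b)) ≃ T) :
    IsTab (pairD (m+1)) (tabOf m e) := by
  constructor
  · intro s t h
    apply e.symm.injective
    have h1 : (((e.symm s).2 : ℕ), cond (e.symm s).1 1 0)
      = (((e.symm t).2 : ℕ), cond (e.symm t).1 1 0) := h
    rcases hs : e.symm s with ⟨b, x⟩
    rcases ht : e.symm t with ⟨b', x'⟩
    rw [hs, ht] at h1
    simp only [Prod.mk.injEq] at h1
    obtain ⟨h2, h3⟩ := h1
    have hb : b = b' := by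
      cases b <;> cases b' <;> simp_all
    subst hb
    have : x = x' := Fin.ext h2
    rw [this]
  · ext ⟨i, j⟩
    rw [mem_pairD, mem_image]
    constructor
    · rintro ⟨t, -, ht⟩
      rcases hs : e.symm t with ⟨b, x⟩
      have h1 : tabOf m e t = ((x : ℕ), cond b 1 0) := by
        unfold tabOf; rw [hs]
      rw [h1] at ht
      simp only [Prod.mk.injEq] at ht
      obtain ⟨rfl, rfl⟩ := ht
      have hx := x.2
      cases b
      · have hx' : (x : ℕ) < m + 1 := hx
        show (0 : ℕ) < 2 ∧ (x : ℕ) + 0 < m + 1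
        omega
      · have hx' : (x : ℕ) < m := hx
        show (1 : ℕ) < 2 ∧ (x : ℕ) + 1 < m + 1
        omega
    · rintro ⟨h1, h2⟩
      simp only at h1 h2
      rcases Nat.lt_or_ge j 1 with hj | hj
      · have hj0 : j = 0 := by omega
        subst hj0
        refine ⟨e ⟨false, ⟨i, h2⟩⟩, mem_univ _, ?_⟩
        unfold tabOf
        rw [Equiv.symm_apply_apply]
        rfl
      · have hj1 : j = 1 := by omega
        subst hj1
        refine ⟨e ⟨true, ⟨i, by show i < m; omega⟩⟩, mem_univ _, ?_⟩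
        unfold tabOf
        rw [Equiv.symm_apply_apply]
        rfl

theorem polyF_tabOf (m : ℕ) (e : (Σ b : Bool, Fin (cPair m b)) ≃ T) (w : T → ℕ) :
    polyF (tabOf m e) w = colFun (cPair m) e w := by
  rw [polyF_eq_polyt]
  symm
  refine colFun_eq_polyt e (fun b => cond b 1 0) ?_ _ _ ?_ ?_ w
  · intro a b h
    cases a <;> cases b <;> simp_all
  · intro i x
    unfold tabOf
    rw [Equiv.symm_apply_apply]
  · intro i x
    unfold tabOf
    rw [Equiv.symm_apply_apply]

/-- **pair gadget** -/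
theorem pair_gadget' (m : ℕ) (hT : Fintype.card T = 2*m+1)
    {U : Type*} [AddCommGroup U] [Module ℂ U] (ρ : Representation ℂ (Perm T) U)
    (f : T → Fin 4) (w : U) (hw0 : w ≠ 0) (hw : SwapFixed ρ f w) :
    ∃ E ∈ Kr T (pairD (m+1)) (pairD (m+1)), ∃ u : T → ℕ × ℕ,
      (∀ t, (u t).1 + (u t).2 + 1 = m+1 ∨ (u t).1 + (u t).2 + 2 = m+1) ∧
      ∃ x : U, ∑ g : Perm T, E (u ∘ g) • ρ g⁻¹ x ≠ 0 := by
  classical
  obtain ⟨row, col, x, hinj, htop, hfix, hA⟩ := exists_tableau4 ρ f w hw0 hw
  -- sort the letters by columns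
  obtain ⟨pos, hpos⟩ : ∃ pos : T ≃ Fin (2*m+1), Monotone (col ∘ pos.symm) := by
    let p0 : T ≃ Fin (2*m+1) := Fintype.equivFinOfCardEq hT
    refine ⟨p0.trans (Tuple.sort (col ∘ p0.symm)).symm, ?_⟩
    exact Tuple.monotone_sort (col ∘ p0.symm)
  obtain ⟨Q, hQ, hQ0⟩ := exists_Q m (row ∘ pos.symm)
  set ψ : (T → Fin 4) → ℂ := fun r => psiQ Q m (r ∘ pos.symm) with hψ
  have hcore := core_abs ρ row col hinj htop ψ (by
    intro κ hκ r hr
    have h1 : (r ∘ κ) ∘ pos.symm = (r ∘ pos.symm) ∘ (pos.permCongr κ : Perm _) := by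
      funext t
      simp [Equiv.permCongr_apply]
    simp only [hψ]
    rw [h1, psiQ_perm hQ m (col ∘ pos.symm) hpos (pos.permCongr κ) ?_ (r ∘ pos.symm) ?_,
      Perm.sign_permCongr]
    · intro t
      simp [Equiv.permCongr_apply, hκ]
    · intro a b h2 h3
      exact pos.symm.injective (hr _ _ h2 h3)) hQ0 x hfix hA
  -- expand in label words
  set y := colAsym ρ col x with hy
  have hexp : ∀ g : Perm T, ψ (row ∘ g) = ∑ z : T → Fin 2 × Fin 2,
      (∏ t, Q (row t) (z t).1 (z t).2) * chainPsi m ((z ∘ g) ∘ pos.symm) := by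
    intro g
    simp only [hψ]
    unfold psiQ
    rw [chainV_psi]
    let φ : (T → Fin 2 × Fin 2) ≃ (Fin (2*m+1) → Fin 2 × Fin 2) :=
      Equiv.arrowCongr (g.symm.trans pos) (Equiv.refl _)
    rw [← Equiv.sum_comp φ]
    refine Finset.sum_congr rfl fun z _ => ?_
    have h1 : φ z = (z ∘ g) ∘ pos.symm := by
      funext p
      rfl
    rw [h1, mul_comm]
    congr 1
    rw [← Equiv.prod_comp (g.symm.trans pos)]
    refine Finset.prod_congr rfl fun t _ => ?_
    simp
  have hz : ∃ z : T → Fin 2 × Fin 2,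
      ∑ g : Perm T, chainPsi m ((z ∘ g) ∘ pos.symm) • ρ g y ≠ 0 := by
    by_contra hcon
    push Not at hcon
    apply hcore
    calc ∑ g : Perm T, ψ (row ∘ g) • ρ g y
        = ∑ z : T → Fin 2 × Fin 2, (∏ t, Q (row t) (z t).1 (z t).2) •
            ∑ g : Perm T, chainPsi m ((z ∘ g) ∘ pos.symm) • ρ g y := by
          simp only [Finset.smul_sum, smul_smul]
          rw [Finset.sum_comm]
          refine Finset.sum_congr rfl fun g _ => ?_
          rw [hexp g, Finset.sum_smul]
      _ = 0 := Finset.sum_eq_zero fun z _ => by rw [hcon z, smul_zero]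
  obtain ⟨z, hz⟩ := hz
  have hcomp : ∀ g : Perm T, (z ∘ g) ∘ pos.symm = (z ∘ pos.symm) ∘ (pos.permCongr g : Perm _) := by
    intro g
    funext t
    simp [Equiv.permCongr_apply]
  obtain ⟨g0, -, hg0⟩ := Finset.exists_ne_zero_of_sum_ne_zero hz
  have hg0' : chainPsi m ((z ∘ pos.symm) ∘ (pos.permCongr g0 : Perm _)) ≠ 0 := by
    rw [← hcomp]
    intro h
    exact hg0 (by rw [h, zero_smul])
  obtain ⟨e, e', C, hC, hcoef⟩ := exists_pair m (z ∘ pos.symm) ⟨_, hg0'⟩
  refine ⟨prodF (polyF (tabOf m (e.trans pos.symm))) (polyF (tabOf m (e'.trans pos.symm))),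
    Submodule.subset_span ⟨_, _, isTab_tabOf m _, isTab_tabOf m _, rfl⟩,
    fun t => (zRow m (pos t), zCol m (pos t)), ?_, y, ?_⟩
  · intro t
    have h1 := (pos t).2
    show zRow m (pos t) + zCol m (pos t) + 1 = m + 1 ∨ zRow m (pos t) + zCol m (pos t) + 2 = m + 1
    unfold zRow zCol
    omega
  · have hE : ∀ g : Perm T, prodF (polyF (tabOf m (e.trans pos.symm)))
        (polyF (tabOf m (e'.trans pos.symm))) ((fun t => (zRow m (pos t), zCol m (pos t))) ∘ g)
        = C * chainPsi m ((z ∘ (g⁻¹ : Perm T)) ∘ pos.symm) := by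
      intro g
      unfold prodF
      rw [polyF_tabOf, polyF_tabOf, hcomp g⁻¹]
      have h2 := hcoef (pos.permCongr g)
      have h3 : ((pos.permCongr g).symm : Perm _) = (pos.permCongr g⁻¹ : Perm _) := by
        ext t : 1
        simp [Equiv.permCongr_apply, Equiv.permCongr_symm]
        rfl
      rw [h3] at h2
      rw [← h2]
      unfold coef colFun
      simp only [Function.comp_apply, Equiv.trans_apply, Equiv.permCongr_apply]
    have h4 : ∑ g : Perm T, prodF (polyF (tabOf m (e.trans pos.symm)))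
        (polyF (tabOf m (e'.trans pos.symm))) ((fun t => (zRow m (pos t), zCol m (pos t))) ∘ g)
          • ρ g⁻¹ y = C • ∑ g : Perm T, chainPsi m ((z ∘ g) ∘ pos.symm) • ρ g y := by
      rw [Finset.smul_sum, ← Equiv.sum_comp (Equiv.inv (Perm T))
        (fun g : Perm T => C • chainPsi m ((z ∘ g) ∘ pos.symm) • ρ g y)]
      refine Finset.sum_congr rfl fun g _ => ?_
      rw [hE, smul_smul]
      rfl
    rw [h4]
    exact smul_ne_zero hC hz

theorem pair_gadget (c : ℕ) (hc : 1 ≤ c) (hT : Fintype.card T = 2*c-1)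
    (D : Finset (ℕ × ℕ)) (hD : ∀ x, x ∈ D ↔ x.2 < 2 ∧ x.1 + x.2 < c)
    {U : Type*} [AddCommGroup U] [Module ℂ U] (ρ : Representation ℂ (Perm T) U)
    (f : T → Fin 4) (w : U) (hw0 : w ≠ 0) (hw : SwapFixed ρ f w) :
    ∃ E ∈ Kr T D D, ∃ u : T → ℕ × ℕ,
      (∀ t, (u t).1 + (u t).2 + 1 = c ∨ (u t).1 + (u t).2 + 2 = c) ∧
      ∃ x : U, ∑ g : Perm T, E (u ∘ g) • ρ g⁻¹ x ≠ 0 := by
  obtain ⟨m, rfl⟩ : ∃ m, c = m + 1 := ⟨c - 1, by omega⟩
  have hDe : D = pairD (m+1) := by
    ext x
    rw [hD, mem_pairD]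
  rw [hDe]
  exact pair_gadget' m (by omega) ρ f w hw0 hw

end gadget

end Crest.Agent.R195
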