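import Crest.Agent.R195.Major

/-!
Row 195.  Convenient dominance criteria.
-/

set_option autoImplicit false

namespace Crest.Agent.R195

open Equiv Finset

section major2

variable {T : Type*} [Fintype T] [DecidableEq T]
variable {U : Type*} [AddCommGroup U] [Module ℂ U]

omit [DecidableEq T] in
lemma sizes_total {f : ℕ → ℕ} {c : T → ℕ}
    (hc : ∀ i, (Finset.univ.filter fun t => c t = i).card = f i) :
    ∃ N, (∀ k, N ≤ k → f k = 0) ∧ ∀ M, N ≤ M → ∑ l ∈ range M, f l = Fintype.card T := by
  classical
  refine ⟨(Finset.univ.image c).sup id + 1, ?_, ?_⟩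
  · intro k hk
    rw [← hc k, Finset.card_eq_zero]
    ext t
    simp only [Finset.mem_filter, Finset.mem_univ, true_and, Finset.notMem_empty, iff_false]
    intro h
    have : c t ≤ (Finset.univ.image c).sup id :=
      Finset.le_sup (f := id) (Finset.mem_image_of_mem c (Finset.mem_univ t))
    omega
  · intro M hM
    have h1 : ∀ l ∈ range M, f l = (Finset.univ.filter fun t => c t = l).card :=
      fun l _ => (hc l).symm
    rw [Finset.sum_congr rfl h1, ← Finset.card_univ]
    rw [← Finset.card_eq_sum_card_fiberwise (f := c) (s := Finset.univ) (t := range M)]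
    intro t _
    have : c t ≤ (Finset.univ.image c).sup id :=
      Finset.le_sup (f := id) (Finset.mem_image_of_mem c (Finset.mem_univ t))
    simp only [Finset.coe_range, Set.mem_Iio]
    omega

/-- Sorting the values of a function on a finite type. -/
lemma exists_sorted {ι : Type*} [Fintype ι] (g : ι → ℕ) :
    ∃ e : Fin (Fintype.card ι) ≃ ι, Antitone (fun k => g (e k)) := by
  classical
  let e0 := (Fintype.equivFin ι).symm
  let σ := Tuple.sort (fun k => OrderDual.toDual (g (e0 k)))
  refine ⟨σ.trans e0, ?_⟩
  have := Tuple.monotone_sort (fun k => OrderDual.toDual (g (e0 k)))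
  intro a b hab
  exact this hab

/-- Dominance criterion for arbitrary index types. -/
theorem FixSizes.fixed_of_dominates {ρ : Representation ℂ (Perm T) U} {f : ℕ → ℕ}
    (h : FixSizes ρ f) {ι : Type*} [Fintype ι] [DecidableEq ι] (c' : T → ι)
    (hJ : ∀ J : Finset ι, (Finset.univ.filter fun t => c' t ∈ J).card ≤ ∑ l ∈ range J.card, f l) :
    ∃ w : U, w ≠ 0 ∧ SwapFixed ρ c' w := by
  classical
  obtain ⟨c, hc, w0, hw0, hfix0⟩ := id h
  obtain ⟨N0, hN0, hN0'⟩ := sizes_total hc
  set g : ι → ℕ := fun i => (Finset.univ.filter fun t => c' t = i).card with hg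
  have hJ' : ∀ J : Finset ι, ∑ j ∈ J, g j ≤ ∑ l ∈ range J.card, f l := by
    intro J
    refine le_trans (le_of_eq ?_) (hJ J)
    rw [Finset.card_eq_sum_card_fiberwise (f := c') (t := J)]
    · apply Finset.sum_congr rfl
      intro j hj
      rw [hg]
      simp only
      congr 1
      ext t
      simp only [Finset.mem_filter, Finset.mem_univ, true_and]
      constructor
      · intro hh; exact ⟨hh ▸ hj, hh⟩
      · exact fun hh => hh.2
    · intro t ht
      simp only [Finset.coe_filter, Finset.mem_univ, true_and, Set.mem_ofPred_eq] at ht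
      exact ht
  obtain ⟨n1, e, he⟩ : ∃ (n1 : ℕ) (e : Fin n1 ≃ ι), Antitone (fun k => g (e k)) :=
    ⟨_, exists_sorted g⟩
  let g' : ℕ → ℕ := fun k => if hk : k < n1 then g (e ⟨k, hk⟩) else 0
  have hg'anti : Antitone g' := by
    intro a b hab
    simp only [g']
    by_cases hb : b < n1
    · rw [dif_pos hb, dif_pos (lt_of_le_of_lt hab hb)]
      exact he (show (⟨a, lt_of_le_of_lt hab hb⟩ : Fin n1) ≤ ⟨b, hb⟩ from hab)
    · rw [dif_neg hb]; exact Nat.zero_le _
  have hsum : ∀ k, k ≤ n1 → ∑ l ∈ range k, g' l
      = ∑ j ∈ (Finset.univ.filter fun i : Fin n1 => (i : ℕ) < k).map e.toEmbedding, g j := by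
    intro k hk
    rw [Finset.sum_map]
    refine Finset.sum_bij' (fun l hl => (⟨l, by have := mem_range.mp hl; omega⟩ : Fin n1))
      (fun i _ => (i : ℕ)) ?_ ?_ ?_ ?_ ?_
    · intro l hl; simpa using hl
    · intro i hi; simpa using hi
    · intro l _; rfl
    · intro i _; rfl
    · intro l hl
      have : l < n1 := by have := mem_range.mp hl; omega
      simp only [g', dif_pos this]
      rfl
  have hcardk : ∀ k, k ≤ n1 →
      ((Finset.univ.filter fun i : Fin n1 => (i : ℕ) < k).map e.toEmbedding).card = k := by
    intro k hk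
    rw [Finset.card_map]
    have : (Finset.univ.filter fun i : Fin n1 => (i : ℕ) < k)
        = (Finset.univ : Finset (Fin k)).map (Fin.castLEEmb hk) := by
      ext i
      simp only [Finset.mem_filter, Finset.mem_univ, true_and, Finset.mem_map]
      constructor
      · intro hi; exact ⟨⟨i, hi⟩, rfl⟩
      · rintro ⟨j, rfl⟩; exact j.2
    rw [this, Finset.card_map, Finset.card_univ, Fintype.card_fin]
  have hpart : ∀ k, ∑ l ∈ range k, g' l ≤ ∑ l ∈ range k, f l := by
    intro k
    by_cases hk : k ≤ n1
    · rw [hsum k hk]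
      refine le_trans (hJ' _) ?_
      rw [hcardk k hk]
    · push Not at hk
      have h1 : ∑ l ∈ range k, g' l = ∑ l ∈ range n1, g' l := by
        symm
        apply Finset.sum_subset (Finset.range_mono hk.le)
        intro l _ hl
        rw [mem_range] at hl
        simp only [g', dif_neg hl]
      rw [h1, hsum n1 le_rfl]
      refine le_trans (hJ' _) ?_
      rw [hcardk n1 le_rfl]
      exact Finset.sum_le_sum_of_subset (Finset.range_mono hk.le)
  have hmapuniv : (Finset.univ.filter fun i : Fin n1 => (i : ℕ) < n1).map e.toEmbedding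
      = (Finset.univ : Finset ι) := by
    ext j
    simp only [Finset.mem_map, Finset.mem_filter, Finset.mem_univ, true_and, iff_true]
    exact ⟨e.symm j, (e.symm j).2, by simp⟩
  have hgtot : ∑ l ∈ range n1, g' l = Fintype.card T := by
    rw [hsum n1 le_rfl, hmapuniv, ← Finset.card_univ]
    rw [Finset.card_eq_sum_card_fiberwise (f := c') (t := Finset.univ) (s := Finset.univ)]
    intro t _; simp
  have hfix : FixSizes ρ g' := by
    refine h.dominance (max N0 n1) (fun k hk => hN0 k (le_trans (le_max_left _ _) hk)) ?_
      hg'anti hpart ?_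
    · intro k hk
      have : ¬ k < n1 := by have := le_max_right N0 n1; omega
      simp only [g', dif_neg this]
    · rw [hN0' _ (le_max_left _ _), ← hgtot]
      symm
      apply Finset.sum_subset (Finset.range_mono (le_max_right _ _))
      intro l _ hl
      rw [mem_range] at hl
      simp only [g', dif_neg hl]
  obtain ⟨w, hw, hwfix⟩ := hfix.coloring (fun t => (e.symm (c' t) : ℕ)) (by
    intro k
    by_cases hk : k < n1
    · simp only [g', dif_pos hk]
      rw [hg]
      simp only
      congr 1
      ext t
      simp only [Finset.mem_filter, Finset.mem_univ, true_and]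
      constructor
      · intro hh
        have : e.symm (c' t) = ⟨k, hk⟩ := Fin.ext hh
        rw [← this]; simp
      · intro hh; rw [hh]; simp
    · simp only [g', dif_neg hk]
      rw [Finset.card_eq_zero]
      ext t
      simp only [Finset.mem_filter, Finset.mem_univ, true_and, Finset.notMem_empty, iff_false]
      intro hh
      exact hk (hh ▸ (e.symm (c' t)).2))
  exact ⟨w, hw, hwfix.mono (fun a b hab => by rw [hab])⟩

/-- Partial sums of an antitone sequence with few terms are large. -/
lemma partial_sum_ge {f : ℕ → ℕ} (hf : Antitone f) {R M n : ℕ}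
    (hn : ∑ l ∈ range R, f l = n) (hRM : R * M ≤ n) (s : ℕ) (hs : s ≤ R) :
    s * M ≤ ∑ l ∈ range s, f l := by
  rcases Nat.eq_zero_or_pos s with rfl | hpos
  · simp
  by_cases h : M ≤ f (s - 1)
  · calc s * M = ∑ _l ∈ range s, M := by simp
      _ ≤ ∑ l ∈ range s, f l := Finset.sum_le_sum (fun l hl => h.trans (hf (by
          have := mem_range.mp hl; omega)))
  · push Not at h
    have h1 : ∑ l ∈ Finset.Ico s R, f l ≤ (R - s) * M := by
      calc ∑ l ∈ Finset.Ico s R, f l ≤ ∑ _l ∈ Finset.Ico s R, M := by
            apply Finset.sum_le_sum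
            intro l hl
            have := hf (show s - 1 ≤ l by have := (Finset.mem_Ico.mp hl).1; omega)
            omega
        _ = (R - s) * M := by simp
    have h2 := Finset.sum_range_add_sum_Ico f hs
    have h3 : R * M = s * M + (R - s) * M := by rw [← add_mul]; congr 1; omega
    omega

lemma rowLen_eq_zero (μ : YoungDiagram) {k : ℕ} (hk : μ.colLen 0 ≤ k) : μ.rowLen k = 0 := by
  by_contra hne
  have h1 : (k, 0) ∈ μ := YoungDiagram.mem_iff_lt_rowLen.mpr (Nat.pos_of_ne_zero hne)
  have h2 := YoungDiagram.mem_iff_lt_colLen.mp h1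
  omega

/-- If the shape has at most `R` rows and all blocks have at most `M` letters, `R * M ≤ n`, then
the corresponding Young subgroup has fixed vectors. -/
theorem fixed_of_small_blocks {ρ : Representation ℂ (Perm T) U} {μ : YoungDiagram}
    (h : FixSizes ρ μ.rowLen) {R M : ℕ} (hR : μ.colLen 0 ≤ R) (hRM : R * M ≤ Fintype.card T)
    {ι : Type*} (c' : T → ι) [DecidableEq ι]
    (hM : ∀ i, (Finset.univ.filter fun t => c' t = i).card ≤ M) :
    ∃ w : U, w ≠ 0 ∧ SwapFixed ρ c' w := by
  classical
  obtain ⟨c, hc, -⟩ := id h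
  obtain ⟨N0, hN0, hN0'⟩ := sizes_total hc
  have hanti : Antitone μ.rowLen := fun a b hab => μ.rowLen_anti a b hab
  have hzero : ∀ k, R ≤ k → μ.rowLen k = 0 := fun k hk => rowLen_eq_zero μ (hR.trans hk)
  have htotR : ∀ s, R ≤ s → ∑ l ∈ range s, μ.rowLen l = Fintype.card T := by
    intro s hs
    rw [← hN0' (max N0 s) (le_max_left _ _)]
    apply Finset.sum_subset (Finset.range_mono (le_max_right _ _))
    intro l _ hl
    rw [mem_range] at hl
    exact hzero l (by omega)
  obtain ⟨w, hw, hwfix⟩ := h.fixed_of_dominates (ι := Set.range c')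
    (fun t => ⟨c' t, Set.mem_range_self t⟩) (by
      intro J
      by_cases hJR : J.card ≤ R
      · refine le_trans ?_ (partial_sum_ge hanti (htotR R le_rfl) hRM J.card hJR)
        rw [Finset.card_eq_sum_card_fiberwise (f := fun t => (⟨c' t, Set.mem_range_self t⟩ : Set.range c'))
          (t := J)]
        · rw [← smul_eq_mul]
          apply Finset.sum_le_card_nsmul
          intro j hj
          refine le_trans (Finset.card_le_card ?_) (hM j.1)
          intro t ht
          simp only [Finset.mem_filter, Finset.mem_univ, true_and] at ht ⊢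
          exact congrArg Subtype.val ht.2
        · intro t ht
          simp only [Finset.coe_filter, Finset.mem_univ, true_and, Set.mem_ofPred_eq] at ht
          exact ht
      · push Not at hJR
        rw [htotR _ hJR.le, ← Finset.card_univ]
        exact Finset.card_le_univ _)
  exact ⟨w, hw, hwfix.mono (fun a b hab => by simp [hab])⟩

end major2

end Crest.Agent.R195
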