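import Crest.Agent.R195.SpDefs

/-! Row 195: transfer from the word model (`Full D D`) to the representation
`tprod (spechtRep D) (spechtRep D)`. -/

set_option autoImplicit false

namespace Crest.Agent.R195

open Finset Function Crest.AlgebraR.Specht Representation

open scoped TensorProduct

section lift

variable {G : Type*} [Group G] [Fintype G]
variable {V X W : Type*} [AddCommMonoid V] [Module ℂ V] [AddCommMonoid X] [Module ℂ X]
  [AddCommGroup W] [Module ℂ W]

/-- equivariant lifting by averaging -/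
theorem exists_equivariant_lift (ρV : Representation ℂ G V) (ρX : Representation ℂ G X)
    (ρW : Representation ℂ G W) (Θ : V →ₗ[ℂ] X) (hΘ : ∀ g v, Θ (ρV g v) = ρX g (Θ v))
    (φ : W →ₗ[ℂ] X) (hφ : ∀ g v, φ (ρW g v) = ρX g (φ v)) (hr : ∀ v, φ v ∈ LinearMap.range Θ) :
    ∃ ψ : W →ₗ[ℂ] V, (∀ g v, ψ (ρW g v) = ρV g (ψ v)) ∧ ∀ v, Θ (ψ v) = φ v := by
  classical
  obtain ⟨s, hs⟩ := Module.projective_lifting_property Θ.rangeRestrict
    (φ.codRestrict (LinearMap.range Θ) hr) (LinearMap.surjective_rangeRestrict Θ)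
  have hs' : ∀ v, Θ (s v) = φ v := by
    intro v
    have := congrArg Subtype.val (LinearMap.congr_fun hs v)
    simpa using this
  refine ⟨((Fintype.card G : ℂ)⁻¹) • ∑ g : G, (ρV g) ∘ₗ s ∘ₗ (ρW g⁻¹), ?_, ?_⟩
  · intro h v
    simp only [LinearMap.smul_apply, LinearMap.sum_apply, LinearMap.comp_apply, map_smul, map_sum]
    congr 1
    refine Fintype.sum_equiv (Equiv.mulLeft h⁻¹) _ _ fun g => ?_
    simp only [Equiv.coe_mulLeft, mul_inv_rev, inv_inv]
    rw [← Module.End.mul_apply (ρV h), ← map_mul, mul_inv_cancel_left,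
      ← Module.End.mul_apply (ρW _), ← map_mul]
  · intro v
    have hc : (Fintype.card G : ℂ) ≠ 0 := Nat.cast_ne_zero.mpr Fintype.card_ne_zero
    simp only [LinearMap.smul_apply, LinearMap.sum_apply, LinearMap.comp_apply, map_smul, map_sum]
    have : ∀ g : G, Θ (ρV g (s (ρW g⁻¹ v))) = φ v := by
      intro g
      rw [hΘ, hs', hφ, ← Module.End.mul_apply, ← map_mul, mul_inv_cancel, map_one,
        Module.End.one_apply]
    simp only [this, sum_const, card_univ, ← Nat.cast_smul_eq_nsmul ℂ, smul_smul]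
    rw [inv_mul_cancel₀ hc, one_smul]

end lift

/-- evaluation of a tensor of finitely supported functions on row words -/
noncomputable def evalTensor (n : ℕ) :
    ((RowWord n →₀ ℂ) ⊗[ℂ] (RowWord n →₀ ℂ)) →ₗ[ℂ] ((Fin n → ℕ × ℕ) → ℂ) :=
  TensorProduct.lift
    { toFun := fun f =>
        { toFun := fun g w => f (fun t => (w t).1) * g (fun t => (w t).2)
          map_add' := fun g g' => by
            funext w
            exact mul_add _ _ _
          map_smul' := fun a g => by
            funext w
            exact mul_left_comm _ a _ }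
      map_add' := fun f f' => by
        refine LinearMap.ext fun g => ?_
        funext w
        exact add_mul _ _ _
      map_smul' := fun a f => by
        refine LinearMap.ext fun g => ?_
        funext w
        exact mul_assoc a _ _ }

@[simp] theorem evalTensor_tmul (n : ℕ) (f g : RowWord n →₀ ℂ) (w : Fin n → ℕ × ℕ) :
    evalTensor n (f ⊗ₜ g) w = f (fun t => (w t).1) * g (fun t => (w t).2) := rfl

theorem rowWordRep_apply (n : ℕ) (g : Equiv.Perm (Fin n)) (f : RowWord n →₀ ℂ) (w : RowWord n) :
    rowWordRep n g f w = f (fun i => w (g i)) := by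
  set u : RowWord n := fun i => w (g i) with hu
  have h : w = g • u := by
    funext i
    change w i = w (g (g.symm i))
    rw [Equiv.apply_symm_apply]
  have hinj : Function.Injective (fun x : RowWord n => g • x) := MulAction.injective g
  conv_lhs => rw [h]
  exact Finsupp.mapDomain_apply hinj f _

theorem polytabloid_apply {D : Finset (ℕ × ℕ)} (t : D ≃ Fin D.card) (w : RowWord D.card) :
    polytabloid t w = polyF (fun i => (t.symm i : ℕ × ℕ)) w := by
  classical
  unfold polytabloid polyF
  rw [Finsupp.finsetSum_apply]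
  unfold columnGroup
  rw [Finset.sum_filter]
  refine Finset.sum_congr rfl fun σ _ => ?_
  have h1 : (σ • rowWord t = w) ↔ ∀ i, w (σ i) = (t.symm i : ℕ × ℕ).1 := by
    constructor
    · intro h i
      rw [← h]
      change rowWord t (σ.symm (σ i)) = _
      rw [Equiv.symm_apply_apply]
      rfl
    · intro h
      funext i
      change rowWord t (σ.symm i) = w i
      have := h (σ.symm i)
      rw [Equiv.apply_symm_apply] at this
      rw [this]
      rfl
  by_cases hc : ∀ i, (t.symm (σ i) : ℕ × ℕ).2 = (t.symm i : ℕ × ℕ).2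
  · rw [if_pos hc]
    by_cases hw : ∀ i, w (σ i) = (t.symm i : ℕ × ℕ).1
    · rw [if_pos ⟨hc, hw⟩, Finsupp.smul_apply, Finsupp.single_apply, if_pos (h1.mpr hw)]
      simp
    · rw [if_neg (fun h => hw h.2), Finsupp.smul_apply, Finsupp.single_apply,
        if_neg (fun h => hw (h1.mp h))]
      simp
  · rw [if_neg hc, if_neg (fun h => hc h.1)]

/-- tableaux in the two models -/
theorem IsTab.exists_equiv {D : Finset (ℕ × ℕ)} {τ : Fin D.card → ℕ × ℕ} (h : IsTab D τ) :
    ∃ t : D ≃ Fin D.card, τ = fun i => (t.symm i : ℕ × ℕ) := by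
  have hmem : ∀ i, τ i ∈ D := fun i => by
    rw [← h.2]; exact mem_image_of_mem _ (mem_univ _)
  have hbij : Function.Bijective (fun i : Fin D.card => (⟨τ i, hmem i⟩ : D)) := by
    constructor
    · intro i j hij
      exact h.1 (congrArg Subtype.val hij)
    · rintro ⟨c, hc⟩
      rw [← h.2] at hc
      obtain ⟨i, -, hi⟩ := mem_image.mp hc
      exact ⟨i, Subtype.ext hi⟩
  refine ⟨(Equiv.ofBijective _ hbij).symm, ?_⟩
  funext i
  simp

theorem isTab_equiv {D : Finset (ℕ × ℕ)} (t : D ≃ Fin D.card) :
    IsTab D (fun i => (t.symm i : ℕ × ℕ)) := by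
  refine ⟨fun i j h => t.symm.injective (Subtype.ext h), ?_⟩
  ext c
  simp only [mem_image, mem_univ, true_and]
  exact ⟨fun ⟨i, hi⟩ => hi ▸ (t.symm i).2, fun hc => ⟨t ⟨c, hc⟩, by simp⟩⟩

theorem polytabloid_mem {D : Finset (ℕ × ℕ)} (t : D ≃ Fin D.card) :
    polytabloid t ∈ (spechtSubrep D).toSubmodule := by
  change _ ∈ sInf _
  rw [Submodule.mem_sInf]
  intro p hp
  exact hp.1 ⟨t, rfl⟩

/-- the evaluation map on the tensor square of the Specht module -/
noncomputable def evalSpecht (D : Finset (ℕ × ℕ)) :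
    ((spechtSubrep D).toSubmodule ⊗[ℂ] (spechtSubrep D).toSubmodule) →ₗ[ℂ]
      ((Fin D.card → ℕ × ℕ) → ℂ) :=
  evalTensor D.card ∘ₗ TensorProduct.map (Submodule.subtype _) (Submodule.subtype _)

theorem evalSpecht_tmul (D : Finset (ℕ × ℕ)) (f g : (spechtSubrep D).toSubmodule)
    (w : Fin D.card → ℕ × ℕ) :
    evalSpecht D (f ⊗ₜ g) w =
      (f : RowWord D.card →₀ ℂ) (fun t => (w t).1) * (g : RowWord D.card →₀ ℂ) (fun t => (w t).2) :=
  rfl

/-- words representation -/
def wordAct (T X : Type*) : Representation ℂ (Equiv.Perm T) ((T → X) → ℂ) where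
  toFun g :=
    { toFun := fun f w => f (w ∘ g)
      map_add' := fun _ _ => rfl
      map_smul' := fun _ _ => rfl }
  map_one' := rfl
  map_mul' _ _ := rfl

theorem wordAct_apply {T X : Type*} (g : Equiv.Perm T) (f : (T → X) → ℂ) (w : T → X) :
    wordAct T X g f w = f (w ∘ g) := rfl

theorem evalSpecht_act (D : Finset (ℕ × ℕ)) (g : Equiv.Perm (Fin D.card))
    (x : (spechtSubrep D).toSubmodule ⊗[ℂ] (spechtSubrep D).toSubmodule) :
    evalSpecht D (tprod (spechtRep D) (spechtRep D) g x) =
      wordAct (Fin D.card) (ℕ × ℕ) g (evalSpecht D x) := by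
  induction x using TensorProduct.induction_on with
  | zero => simp
  | add x y hx hy => rw [map_add, map_add, hx, hy, map_add, map_add]
  | tmul f f' =>
    funext w
    rw [wordAct_apply, Representation.tprod_apply, TensorProduct.map_tmul, evalSpecht_tmul, evalSpecht_tmul]
    congr 1
    · exact rowWordRep_apply _ g (f : RowWord D.card →₀ ℂ) _
    · exact rowWordRep_apply _ g (f' : RowWord D.card →₀ ℂ) _

theorem Kr_le_range (D : Finset (ℕ × ℕ)) :
    Kr (Fin D.card) D D ≤ LinearMap.range (evalSpecht D) := by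
  unfold Kr
  rw [Submodule.span_le]
  rintro f ⟨τ, τ', hτ, hτ', rfl⟩
  obtain ⟨t, rfl⟩ := hτ.exists_equiv
  obtain ⟨t', rfl⟩ := hτ'.exists_equiv
  refine ⟨(⟨polytabloid t, polytabloid_mem t⟩ : (spechtSubrep D).toSubmodule) ⊗ₜ
    (⟨polytabloid t', polytabloid_mem t'⟩ : (spechtSubrep D).toSubmodule), ?_⟩
  funext w
  rw [evalSpecht_tmul]
  exact congrArg₂ (· * ·) (polytabloid_apply t _) (polytabloid_apply t' _)

/-- A nonzero equivariant map into `Kr` gives a nonzero intertwining map into the tensor square. -/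
theorem nontrivial_of_occ (D : Finset (ℕ × ℕ)) {W : Type*} [AddCommGroup W] [Module ℂ W]
    (σ : Representation ℂ (Equiv.Perm (Fin D.card)) W) (h : Occ σ (Kr (Fin D.card) D D)) :
    Nontrivial (IntertwiningMap σ (tprod (spechtRep D) (spechtRep D))) := by
  obtain ⟨φ, hφ0, hφK, hφ⟩ := h
  obtain ⟨ψ, hψ, hψΘ⟩ := exists_equivariant_lift (tprod (spechtRep D) (spechtRep D))
    (wordAct (Fin D.card) (ℕ × ℕ)) σ (evalSpecht D) (evalSpecht_act D) φ
    (fun g v => by funext w; rw [hφ, wordAct_apply]) (fun v => Kr_le_range D (hφK v))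
  refine ⟨⟨⟨ψ, fun g => LinearMap.ext fun v => hψ g v⟩, 0, ?_⟩⟩
  intro h0
  apply hφ0
  refine LinearMap.ext fun v => ?_
  rw [← hψΘ v]
  have h1 : ψ = 0 := congrArg IntertwiningMap.toLinearMap h0
  rw [h1, LinearMap.zero_apply, map_zero, LinearMap.zero_apply]

theorem nontrivial_of_full (D : Finset (ℕ × ℕ)) (hD : Full D D) (W : Type) [AddCommGroup W]
    [Module ℂ W] (σ : Representation ℂ (Equiv.Perm (Fin D.card)) W)
    (hσ : Representation.IsIrreducible σ) :
    Nontrivial (IntertwiningMap σ (tprod (spechtRep D) (spechtRep D))) := by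
  refine nontrivial_of_occ D σ (hD (Fin D.card) (by simp) W σ ?_)
  by_contra hcon
  push Not at hcon
  have hne : (⊥ : Subrepresentation σ) ≠ ⊤ := hσ.toNontrivial.exists_pair_ne.elim
    fun a ⟨b, hab⟩ h => by
      have ha : ∀ c : Subrepresentation σ, c = ⊥ := fun c => by
        rcases hσ.eq_bot_or_eq_top c with h' | h'
        · exact h'
        · rw [h', ← h]
      exact hab ((ha a).trans (ha b).symm)
  apply hne
  ext v
  rw [hcon v]
  simp

theorem rowWordRep_polytabloid {D : Finset (ℕ × ℕ)} (t : D ≃ Fin D.card)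
    (g : Equiv.Perm (Fin D.card)) :
    rowWordRep D.card g (polytabloid t) = polytabloid (t.trans g) := by
  refine Finsupp.ext fun w => ?_
  refine (rowWordRep_apply _ g _ w).trans ((polytabloid_apply t _).trans ?_)
  refine Eq.trans ?_ (polytabloid_apply (t.trans g) w).symm
  exact polyF_act (fun i => (t.symm i : ℕ × ℕ)) g w

theorem spechtSubrep_toSubmodule (D : Finset (ℕ × ℕ)) :
    (spechtSubrep D).toSubmodule =
      Submodule.span ℂ (Set.range fun t : D ≃ Fin D.card => polytabloid t) := by
  apply le_antisymm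
  · change sInf _ ≤ _
    refine sInf_le ⟨Submodule.subset_span, fun g v hv => ?_⟩
    induction hv using Submodule.span_induction with
    | mem x hx =>
      obtain ⟨t, rfl⟩ := hx
      rw [rowWordRep_polytabloid]
      exact Submodule.subset_span ⟨_, rfl⟩
    | zero => rw [map_zero]; exact Submodule.zero_mem _
    | add x y _ _ hx hy => rw [map_add]; exact Submodule.add_mem _ hx hy
    | smul a x _ hx => rw [map_smul]; exact Submodule.smul_mem _ a hx
  · rw [Submodule.span_le]
    rintro f ⟨t, rfl⟩
    exact polytabloid_mem t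

instance specht_finiteDimensional (D : Finset (ℕ × ℕ)) :
    FiniteDimensional ℂ (spechtSubrep D).toSubmodule := by
  rw [spechtSubrep_toSubmodule]
  exact FiniteDimensional.span_of_finite ℂ (Set.finite_range _)

/-- irreducibility of the Specht module (with all instances explicit) -/
def SpechtIrred (D : Finset (ℕ × ℕ)) : Prop :=
  @Representation.IsIrreducible (Equiv.Perm (Fin D.card)) ℂ (spechtSubrep D).toSubmodule _ _ _ _
    (spechtRep D)

/-- Packaging for S0298. -/
theorem exists_of_full (n : ℕ) (D : Finset (ℕ × ℕ)) (hn : D.card = n)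
    (hirr : SpechtIrred D) (hD : Full D D) :
    ∃ (V : Type) (_ : AddCommGroup V) (_ : Module ℂ V) (_ : FiniteDimensional ℂ V)
      (ρ : Representation ℂ (Equiv.Perm (Fin n)) V), Representation.IsIrreducible ρ ∧
      ∀ (W : Type) [AddCommGroup W] [Module ℂ W] [FiniteDimensional ℂ W]
        (σ : Representation ℂ (Equiv.Perm (Fin n)) W), Representation.IsIrreducible σ →
        Nontrivial (Representation.IntertwiningMap σ (Representation.tprod ρ ρ)) := by
  subst hn
  refine ⟨(spechtSubrep D).toSubmodule, inferInstance, inferInstance, inferInstance,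
    spechtRep D, hirr, ?_⟩
  intro W _ _ _ σ hσ
  exact nontrivial_of_full D hD W σ hσ

end Crest.Agent.R195
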