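import Crest.Agent.R195.Shape

/-!
Row 195.  Fixed vectors of Young subgroups and the dominance (majorization) order.
-/

set_option autoImplicit false

namespace Crest.Agent.R195

open Equiv Finset

section major

variable {T : Type*} [Fintype T] [DecidableEq T]
variable {U : Type*} [AddCommGroup U] [Module ℂ U]

/-- There is a nonzero vector fixed by a Young subgroup with block sizes `f`. -/
def FixSizes (ρ : Representation ℂ (Perm T) U) (f : ℕ → ℕ) : Prop :=
  ∃ c : T → ℕ, (∀ i, (Finset.univ.filter fun t => c t = i).card = f i) ∧
    ∃ w : U, w ≠ 0 ∧ SwapFixed ρ c w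

omit [Fintype T] in
lemma SwapFixed.mono {ι κ : Type*} {ρ : Representation ℂ (Perm T) U} {c : T → ι} {c' : T → κ}
    {w : U} (h : SwapFixed ρ c w) (hcc : ∀ a b, c' a = c' b → c a = c b) :
    SwapFixed ρ c' w := fun a b hab => h a b (hcc a b hab)

omit [Fintype T] in
lemma SwapFixed.conj {ι κ : Type*} {ρ : Representation ℂ (Perm T) U} {c : T → ι} {c' : T → κ}
    {w : U} (h : SwapFixed ρ c w) (σ : Perm T) (hσ : ∀ a b, c' a = c' b → c (σ a) = c (σ b)) :
    SwapFixed ρ c' (ρ σ⁻¹ w) := by
  intro a b hab
  rw [rho_mul, Equiv.swap_mul_eq_mul_swap, inv_inv, ← rho_mul, h _ _ (hσ a b hab)]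

lemma exists_perm_of_card_fiber {ι : Type*} [DecidableEq ι] (c c' : T → ι)
    (h : ∀ i, (Finset.univ.filter fun t => c t = i).card
      = (Finset.univ.filter fun t => c' t = i).card) : ∃ σ : Perm T, ∀ t, c (σ t) = c' t := by
  have e : ∀ i, Nonempty ({a // c' a = i} ≃ {b // c b = i}) := by
    intro i
    refine ⟨Fintype.equivOfCardEq ?_⟩
    rw [Fintype.card_subtype, Fintype.card_subtype, h i]
  refine ⟨Equiv.ofFiberEquiv (fun i => (e i).some), fun t => ?_⟩
  exact Equiv.ofFiberEquiv_map _ t

/-- Any colouring with the right block sizes works. -/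
theorem FixSizes.coloring {ρ : Representation ℂ (Perm T) U} {f : ℕ → ℕ} (h : FixSizes ρ f)
    (c' : T → ℕ) (hc' : ∀ i, (Finset.univ.filter fun t => c' t = i).card = f i) :
    ∃ w : U, w ≠ 0 ∧ SwapFixed ρ c' w := by
  obtain ⟨c, hc, w, hw, hfix⟩ := h
  obtain ⟨σ, hσ⟩ := exists_perm_of_card_fiber c c' (fun i => (hc i).trans (hc' i).symm)
  refine ⟨ρ σ⁻¹ w, ?_, hfix.conj σ (fun a b hab => by rw [hσ, hσ, hab])⟩
  intro h0
  apply hw
  have := congrArg (ρ σ) h0
  rw [rho_mul, mul_inv_cancel, map_one, Module.End.one_apply, map_zero] at this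
  exact this

/-- Unit transfer from a bigger to a smaller block. -/
theorem FixSizes.transfer {ρ : Representation ℂ (Perm T) U} {f : ℕ → ℕ} (h : FixSizes ρ f)
    {i j : ℕ} (hij : i ≠ j) (hlt : f j < f i) :
    FixSizes ρ (Function.update (Function.update f i (f i - 1)) j (f j + 1)) := by
  obtain ⟨c, hc, w, hw, hfix⟩ := h
  set A := Finset.univ.filter fun t => c t = i with hA
  set B := Finset.univ.filter fun t => c t = j with hB
  have hAB : Disjoint A B := by
    rw [Finset.disjoint_left]
    intro t ht ht'
    simp only [hA, hB, Finset.mem_filter, Finset.mem_univ, true_and] at ht ht'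
    exact hij (ht.symm.trans ht')
  have memA : ∀ t, t ∈ A ↔ c t = i := by intro t; simp [hA]
  have memB : ∀ t, t ∈ B ↔ c t = j := by intro t; simp [hB]
  obtain ⟨x, hxA, hx0⟩ := exists_addLetter_ne_zero ρ w hw A B hAB (by rw [hA, hB, hc, hc]; exact hlt)
    (fun a ha a' ha' => hfix a a' (((memA a).mp ha).trans ((memA a').mp ha').symm))
  have hxi : c x = i := (memA x).mp hxA
  have hxB : x ∉ B := Finset.disjoint_left.mp hAB hxA
  refine ⟨Function.update c x j, ?_, addLetter ρ B x w, hx0, ?_⟩
  · intro k
    by_cases hkj : k = j
    · subst hkj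
      rw [Function.update_self]
      have : (Finset.univ.filter fun t => Function.update c x k t = k) = insert x B := by
        ext t
        rw [Finset.mem_insert, memB]
        simp only [Finset.mem_filter, Finset.mem_univ, true_and]
        by_cases e : t = x
        · simp [e]
        · simp [e]
      rw [this, Finset.card_insert_of_notMem hxB, hB, hc]
    · rw [Function.update_of_ne hkj]
      by_cases hki : k = i
      · subst hki
        rw [Function.update_self]
        have : (Finset.univ.filter fun t => Function.update c x j t = k) = A.erase x := by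
          ext t
          rw [Finset.mem_erase, memA]
          simp only [Finset.mem_filter, Finset.mem_univ, true_and]
          by_cases e : t = x
          · simp [e, Ne.symm hkj]
          · simp [e]
        rw [this, Finset.card_erase_of_mem hxA, hA, hc]
      · rw [Function.update_of_ne hki, ← hc k]
        congr 1
        ext t
        simp only [Finset.mem_filter, Finset.mem_univ, true_and]
        by_cases e : t = x
        · subst e
          simp only [Function.update_self]
          constructor
          · intro hh; exact absurd hh.symm hkj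
          · intro hh; exact absurd (hh.symm.trans hxi) hki
        · simp [e]
  · intro a b hab
    by_cases ha : a ∈ insert x B
    · have hb : b ∈ insert x B := by
        rw [Finset.mem_insert, memB] at ha ⊢
        have hai : Function.update c x j a = j := by
          by_cases e : a = x
          · rw [e]; simp
          · rw [Function.update_of_ne e]; exact ha.resolve_left e
        rw [hai] at hab
        by_cases e : b = x
        · left; exact e
        · right; rw [Function.update_of_ne e] at hab; exact hab.symm
      exact addLetter_fixed_in ρ B x w hxB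
        (fun a ha b hb => hfix a b (((memB a).mp ha).trans ((memB b).mp hb).symm)) ha hb
    · rw [Finset.mem_insert, memB] at ha
      push Not at ha
      have hb : b ≠ x ∧ c b ≠ j := by
        rw [Function.update_of_ne ha.1] at hab
        by_cases e : b = x
        · rw [e] at hab; simp at hab; exact absurd hab ha.2
        · rw [Function.update_of_ne e] at hab
          exact ⟨e, fun h => ha.2 (hab.trans h)⟩
      refine addLetter_fixed_out ρ B x w ?_ ?_ ha.1 hb.1 ?_
      · rw [memB]; exact ha.2
      · rw [memB]; exact hb.2
      · rw [Function.update_of_ne ha.1, Function.update_of_ne hb.1] at hab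
        exact hfix a b hab

lemma sum_transfer (f : ℕ → ℕ) {i j : ℕ} (hij : i ≠ j) (hi : 1 ≤ f i) (k : ℕ) :
    (∑ l ∈ range k, Function.update (Function.update f i (f i - 1)) j (f j + 1) l)
      + (if i < k then 1 else 0) = (∑ l ∈ range k, f l) + (if j < k then 1 else 0) := by
  have e1 : ∀ l, Function.update (Function.update f i (f i - 1)) j (f j + 1) l
      + (if l = i then 1 else 0) = f l + (if l = j then 1 else 0) := by
    intro l
    by_cases h1 : l = j
    · subst h1
      rw [Function.update_self, if_neg (Ne.symm hij), if_pos rfl]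
    · rw [Function.update_of_ne h1, if_neg h1]
      by_cases h2 : l = i
      · subst h2
        rw [Function.update_self, if_pos rfl]
        omega
      · rw [Function.update_of_ne h2, if_neg h2]
  have e2 := Finset.sum_congr (rfl : range k = range k) (fun l _ => e1 l)
  rw [Finset.sum_add_distrib, Finset.sum_add_distrib] at e2
  have e3 : ∀ m, ∑ l ∈ range k, (if l = m then 1 else 0) = if m < k then 1 else 0 := by
    intro m
    rw [Finset.sum_ite_eq' (range k) m (fun _ => 1)]
    simp
  rw [e3, e3] at e2
  exact e2

/-- Dominance: going down in the dominance order keeps fixed vectors. -/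
theorem FixSizes.dominance {ρ : Representation ℂ (Perm T) U} {f g : ℕ → ℕ} (h : FixSizes ρ f)
    (N : ℕ) (hf : ∀ k, N ≤ k → f k = 0) (hg : ∀ k, N ≤ k → g k = 0) (hanti : Antitone g)
    (hle : ∀ k, ∑ l ∈ range k, g l ≤ ∑ l ∈ range k, f l)
    (htot : ∑ l ∈ range N, g l = ∑ l ∈ range N, f l) : FixSizes ρ g := by
  induction hD : ∑ l ∈ range N, (f l - g l) using Nat.strong_induction_on generalizing f with
  | _ D ih =>
    by_cases hfg : f = g
    · rw [← hfg]; exact h
    -- smallest index with `f j < g j`
    have hex : ∃ j, f j < g j := by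
      by_contra hcon
      push Not at hcon
      apply hfg
      funext k
      by_cases hk : k < N
      · by_contra hne
        have : ∑ l ∈ range N, g l < ∑ l ∈ range N, f l :=
          Finset.sum_lt_sum (fun l _ => hcon l) ⟨k, mem_range.mpr hk, lt_of_le_of_ne (hcon k) (Ne.symm hne)⟩
        omega
      · push Not at hk
        rw [hf k hk, hg k hk]
    classical
    let j := Nat.find hex
    have hj : f j < g j := Nat.find_spec hex
    have hjmin : ∀ l, l < j → g l ≤ f l := fun l hl => not_lt.mp (Nat.find_min hex hl)
    have hjN : j < N := by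
      by_contra hcon
      push Not at hcon
      rw [hf j hcon, hg j hcon] at hj
      exact lt_irrefl _ hj
    have hexi : ∃ i, i < j ∧ g i < f i := by
      by_contra hcon
      push Not at hcon
      have h1 : ∑ l ∈ range (j + 1), f l < ∑ l ∈ range (j + 1), g l := by
        rw [Finset.sum_range_succ, Finset.sum_range_succ]
        have : ∑ l ∈ range j, f l ≤ ∑ l ∈ range j, g l :=
          Finset.sum_le_sum (fun l hl => hcon l (mem_range.mp hl))
        omega
      exact absurd (hle (j + 1)) (not_le.mpr h1)
    obtain ⟨i, hij, hi⟩ := hexi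
    have hgij : g j ≤ g i := hanti hij.le
    have hlt : f j < f i := by omega
    have hne : i ≠ j := hij.ne
    have htr := h.transfer hne hlt
    set f' := Function.update (Function.update f i (f i - 1)) j (f j + 1) with hf'
    have hsum := sum_transfer f hne (by omega)
    rw [← hf'] at hsum
    have hf'j : f' j = f j + 1 := by rw [hf']; simp
    have hf'i : f' i = f i - 1 := by rw [hf', Function.update_of_ne hne]; simp
    have hf'o : ∀ k, k ≠ i → k ≠ j → f' k = f k := by
      intro k hki hkj
      rw [hf', Function.update_of_ne hkj, Function.update_of_ne hki]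
    refine ih (∑ l ∈ range N, (f' l - g l)) ?_ htr ?_ ?_ ?_ rfl
    · rw [← hD]
      apply Finset.sum_lt_sum
      · intro l _
        by_cases hl : l = j
        · rw [hl, hf'j]; omega
        · by_cases hl2 : l = i
          · rw [hl2, hf'i]; omega
          · rw [hf'o l hl2 hl]
      · exact ⟨i, mem_range.mpr (by omega), by rw [hf'i]; omega⟩
    · intro k hk
      rw [hf'o k (by omega) (by omega)]
      exact hf k hk
    · intro k
      have hs := hsum k
      have hk := hle k
      by_cases h1 : i < k
      · by_cases h2 : j < k
        · simp only [h1, h2, if_true] at hs; omega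
        · simp only [h1, h2, if_true, if_false] at hs
          have hstrict : ∑ l ∈ range k, g l < ∑ l ∈ range k, f l :=
            Finset.sum_lt_sum (fun l hl => hjmin l (by have := mem_range.mp hl; omega))
              ⟨i, mem_range.mpr h1, hi⟩
          omega
      · by_cases h2 : j < k
        · omega
        · simp only [h1, h2, if_false] at hs; omega
    · have hs := hsum N
      have h1 : i < N := by omega
      simp only [h1, hjN, if_true] at hs
      omega

/-- The sign twist of a representation of the symmetric group. -/
noncomputable def signTwist (ρ : Representation ℂ (Perm T) U) : Representation ℂ (Perm T) U where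
  toFun σ := (((Perm.sign σ : ℤˣ) : ℤ) : ℂ) • ρ σ
  map_one' := by simp
  map_mul' σ τ := by
    ext u
    simp only [map_mul, LinearMap.smul_apply, Module.End.mul_apply, map_smul,
      smul_smul, Units.val_mul, Int.cast_mul]
    rw [mul_comm]

lemma signTwist_apply (ρ : Representation ℂ (Perm T) U) (σ : Perm T) (u : U) :
    signTwist ρ σ u = (((Perm.sign σ : ℤˣ) : ℤ) : ℂ) • ρ σ u := rfl

lemma signTwist_signTwist (ρ : Representation ℂ (Perm T) U) : signTwist (signTwist ρ) = ρ := by
  ext σ u
  rw [signTwist_apply, signTwist_apply, smul_smul]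
  have : ((((Perm.sign σ : ℤˣ) : ℤ) : ℂ)) * ((((Perm.sign σ : ℤˣ) : ℤ) : ℂ)) = 1 := by
    rcases Int.units_eq_one_or (Perm.sign σ) with h | h <;> simp [h]
  rw [this, one_smul]

lemma SwapAlt.signTwist {ι : Type*} {ρ : Representation ℂ (Perm T) U} {c : T → ι} {w : U}
    (h : SwapAlt ρ c w) : SwapFixed (signTwist ρ) c w := by
  intro a b hab
  rw [signTwist_apply]
  by_cases hne : a = b
  · rw [hne, swap_self, ← Perm.one_def, map_one, map_one]; simp
  · rw [Perm.sign_swap hne, h a b hne hab]; simp

lemma SwapFixed.signTwist {ι : Type*} {ρ : Representation ℂ (Perm T) U} {c : T → ι} {w : U}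
    (h : SwapFixed ρ c w) : SwapAlt (signTwist ρ) c w := by
  intro a b hne hab
  rw [signTwist_apply, Perm.sign_swap hne, h a b hab]; simp

omit [DecidableEq T] in
lemma card_fiber_row {μ : YoungDiagram} (e : T ≃ μ.cells) (i : ℕ) :
    (Finset.univ.filter fun t => (e t).1.1 = i).card = μ.rowLen i := by
  classical
  rw [YoungDiagram.rowLen_eq_card]
  refine Finset.card_bij (fun t _ => (e t).1) ?_ ?_ ?_
  · intro t ht
    rw [Finset.mem_filter] at ht
    rw [YoungDiagram.mem_row_iff]
    exact ⟨(YoungDiagram.mem_cells _).mp (e t).2, ht.2⟩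
  · intro a _ b _ hab
    exact e.injective (Subtype.ext hab)
  · intro p hp
    rw [YoungDiagram.mem_row_iff] at hp
    refine ⟨e.symm ⟨p, (YoungDiagram.mem_cells _).mpr hp.1⟩, ?_, by simp⟩
    rw [Finset.mem_filter]
    exact ⟨Finset.mem_univ _, by simpa using hp.2⟩

omit [DecidableEq T] in
lemma card_fiber_col {μ : YoungDiagram} (e : T ≃ μ.cells) (i : ℕ) :
    (Finset.univ.filter fun t => (e t).1.2 = i).card = μ.colLen i := by
  classical
  rw [YoungDiagram.colLen_eq_card]
  refine Finset.card_bij (fun t _ => (e t).1) ?_ ?_ ?_
  · intro t ht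
    rw [Finset.mem_filter] at ht
    rw [YoungDiagram.mem_col_iff]
    exact ⟨(YoungDiagram.mem_cells _).mp (e t).2, ht.2⟩
  · intro a _ b _ hab
    exact e.injective (Subtype.ext hab)
  · intro p hp
    rw [YoungDiagram.mem_col_iff] at hp
    refine ⟨e.symm ⟨p, (YoungDiagram.mem_cells _).mpr hp.1⟩, ?_, by simp⟩
    rw [Finset.mem_filter]
    exact ⟨Finset.mem_univ _, by simpa using hp.2⟩

/-- **Shape theorem**: every nonzero representation has a Young diagram `μ` with as many cells as
letters such that Young subgroups of shape `μ` have fixed vectors, and Young subgroups of the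
transposed shape have fixed vectors in the sign twist. -/
theorem exists_shape (ρ : Representation ℂ (Perm T) U) [Nontrivial U] :
    ∃ μ : YoungDiagram, μ.card = Fintype.card T ∧ FixSizes ρ μ.rowLen ∧
      FixSizes (signTwist ρ) μ.colLen := by
  obtain ⟨μ, e, ⟨w, hw, hfix⟩, ⟨v, hv, halt⟩⟩ := shape_lemma' ρ
  refine ⟨μ, ?_, ⟨_, card_fiber_row e, w, hw, hfix⟩, ⟨_, card_fiber_col e, v, hv, halt.signTwist⟩⟩
  rw [Fintype.card_congr e]
  simp [YoungDiagram.card]

/-- A nonzero vector fixed by the permutations of a set of letters. -/
lemma exists_fixed_subset_of_fixSizes {ρ : Representation ℂ (Perm T) U} {f : ℕ → ℕ}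
    (h : FixSizes ρ f) {i : ℕ} {K : Finset T} (hK : K.card ≤ f i) :
    ∃ w : U, w ≠ 0 ∧ ∀ a ∈ K, ∀ b ∈ K, ρ (swap a b) w = w := by
  classical
  obtain ⟨c, hc, w, hw, hfix⟩ := h
  obtain ⟨K', hK', hcard⟩ := Finset.exists_subset_card_eq
    (s := Finset.univ.filter fun t => c t = i) (n := K.card) (by rw [hc]; exact hK)
  -- a permutation carrying `K` onto `K'`
  obtain ⟨σ, hσ⟩ := exists_perm_of_card_fiber (fun t => if t ∈ K' then 1 else 0)
    (fun t => if t ∈ K then 1 else 0) (by
      intro k
      have e1 : ∀ L : Finset T, (Finset.univ.filter fun t => (if t ∈ L then 1 else 0) = (1 : ℕ)) = L := by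
        intro L; ext t; simp
      have e0 : ∀ L : Finset T, (Finset.univ.filter fun t => (if t ∈ L then 1 else 0) = (0 : ℕ)) = Lᶜ := by
        intro L; ext t; simp
      by_cases h1 : k = 1
      · subst h1; rw [e1, e1, hcard]
      · by_cases h0 : k = 0
        · subst h0; rw [e0, e0, Finset.card_compl, Finset.card_compl, hcard]
        · have e2 : ∀ L : Finset T, (Finset.univ.filter fun t => (if t ∈ L then 1 else 0) = k) = ∅ := by
            intro L; ext t
            simp only [Finset.mem_filter, Finset.mem_univ, true_and, Finset.notMem_empty, iff_false]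
            split_ifs <;> omega
          rw [e2, e2])
  refine ⟨ρ σ⁻¹ w, ?_, ?_⟩
  · intro h0
    apply hw
    have := congrArg (ρ σ) h0
    rw [rho_mul, mul_inv_cancel, map_one, Module.End.one_apply, map_zero] at this
    exact this
  · intro a ha b hb
    have hin : ∀ x ∈ K, c (σ x) = i := by
      intro x hx
      have hx' : σ x ∈ K' := by
        have := hσ x
        simp only [hx, if_true] at this
        by_contra hcon
        simp [hcon] at this
      have := hK' hx'
      rw [Finset.mem_filter] at this
      exact this.2
    rw [rho_mul, Equiv.swap_mul_eq_mul_swap, inv_inv, ← rho_mul,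
      hfix _ _ ((hin a ha).trans (hin b hb).symm)]

end major

end Crest.Agent.R195
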