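import Crest.Agent.R195.HGen
import Crest.Agent.R195.Major2
import Crest.Agent.R195.Transfer
import Crest.Agent.R195.Twist

/-! Row 195: assembly of Saxl's theorem for staircases, from

* the sign twist (`Occ.of_signTwist`),
* `BlockCover`: the zigzag blocks of the staircase (every block has at most `(m+1)/2` letters). -/

set_option autoImplicit false
set_option linter.unusedSectionVars false
set_option linter.unusedDecidableInType false

namespace Crest.Agent.R195

open Finset Function Crest.AlgebraR.Specht

/-- There is a colouring with blocks of at most `M` letters such that every rep with a nonzero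
vector fixed by the Young subgroup of the colouring occurs in `Kr T D D`. -/
def BlockCover (D : Finset (ℕ × ℕ)) (M : ℕ) : Prop :=
  ∀ (T : Type) [Fintype T] [DecidableEq T], Fintype.card T = D.card →
    ∃ (ι : Type) (_ : DecidableEq ι) (c : T → ι),
      (∀ i, (Finset.univ.filter fun t => c t = i).card ≤ M) ∧
      ∀ (W : Type) [AddCommGroup W] [Module ℂ W] (ρ : Representation ℂ (Equiv.Perm T) W) (w : W),
        w ≠ 0 → SwapFixed ρ c w → Occ ρ (Kr T D D)

theorem card_staircase_succ (m : ℕ) :
    (staircaseShape (m + 1)).card = (m + 1) + (staircaseShape m).card := by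
  rw [staircase_succ, card_addCol]

theorem two_mul_card_staircase (m : ℕ) : 2 * (staircaseShape m).card = m * (m + 1) := by
  induction m with
  | zero =>
    have : staircaseShape 0 = ∅ := by
      ext c; rw [mem_stair]; simp
    rw [this]; simp
  | succ m ih => rw [card_staircase_succ]; linarith

/-- the empty shape is full -/
theorem full_empty : Full ∅ ∅ := by
  intro T _ _ hT W _ _ ρ hv
  have hTe : IsEmpty T := Fintype.card_eq_zero_iff.mp (by simpa using hT)
  have hK : ∀ f : (T → ℕ × ℕ) → ℂ, f ∈ Kr T ∅ ∅ := by
    intro f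
    have h1 : f = (f (fun t => (hTe.false t).elim)) • prodF (polyF (fun t : T => (hTe.false t).elim))
        (polyF (fun t : T => (hTe.false t).elim)) := by
      funext w
      have hw : w = (fun t => (hTe.false t).elim) := funext fun t => (hTe.false t).elim
      subst hw
      simp [prodF, polyF]
    rw [h1]
    refine Submodule.smul_mem _ _ (Submodule.subset_span ⟨_, _, ?_, ?_, rfl⟩)
    · exact ⟨fun t => (hTe.false t).elim, by simp⟩
    · exact ⟨fun t => (hTe.false t).elim, by simp⟩
  obtain ⟨v, hv⟩ := hv
  obtain ⟨l, hl⟩ : ∃ l : W →ₗ[ℂ] ℂ, l v ≠ 0 := by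
    by_contra hcon
    push Not at hcon
    exact hv ((Module.forall_dual_apply_eq_zero_iff ℂ v).mp hcon)
  refine ⟨LinearMap.pi (fun _ => l), ?_, fun v => hK _, ?_⟩
  · intro h0
    apply hl
    have := congrFun (LinearMap.congr_fun h0 v) (fun t => (hTe.false t).elim)
    simpa using this
  · intro g u w
    have hg : g = 1 := by ext t; exact (hTe.false t).elim
    subst hg
    simp

/-- One step of the induction for Saxl's theorem. -/
theorem full_stair_step (m : ℕ) (hfull : Full (staircaseShape m) (staircaseShape m))
    (hcov : BlockCover (staircaseShape (m + 1)) ((m + 2) / 2)) :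
    Full (staircaseShape (m + 1)) (staircaseShape (m + 1)) := by
  classical
  intro T _ _ hT W _ _ ρ hv
  obtain ⟨v, hv⟩ := hv
  have : Nontrivial W := ⟨⟨v, 0, hv⟩⟩
  obtain ⟨μ, hμ, hrow, hcol⟩ := exists_shape ρ
  by_cases hlen : m + 1 ≤ μ.colLen 0
  · -- many rows: H-step for the sign twist
    apply Occ.of_signTwist (image_swap_stair (m + 1))
    obtain ⟨K, hK⟩ : ∃ K : Finset T, K.card = m + 1 := by
      have h1 : m + 1 ≤ (Finset.univ : Finset T).card := by
        rw [Finset.card_univ, hT, card_staircase_succ]; omega
      obtain ⟨K, -, hK⟩ := Finset.exists_subset_card_eq h1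
      exact ⟨K, hK⟩
    obtain ⟨w, hw, hfix⟩ := exists_fixed_subset_of_fixSizes hcol (i := 0) (K := K)
      (by rw [hK]; exact hlen)
    exact hstep_stair m hfull hT K hK (signTwist ρ) w hw hfix
  · -- few rows: zigzag blocks
    obtain ⟨ι, hι, c, hc, hocc⟩ := hcov T hT
    have h2 := two_mul_card_staircase (m + 1)
    obtain ⟨w, hw, hfix⟩ := fixed_of_small_blocks hrow (R := m + 1) (M := (m + 2) / 2)
      (by omega) (by
        rw [hT]
        have h3 : 2 * ((m + 2) / 2) ≤ m + 2 := Nat.mul_div_le _ _
        have h4 : 2 * ((m + 1) * ((m + 2) / 2)) ≤ 2 * (staircaseShape (m + 1)).card := by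
          rw [h2]
          calc 2 * ((m + 1) * ((m + 2) / 2)) = (m + 1) * (2 * ((m + 2) / 2)) := by ring
            _ ≤ (m + 1) * (m + 2) := Nat.mul_le_mul_left _ h3
            _ = (m + 1) * (m + 1 + 1) := by ring
        omega) c hc
    exact hocc W ρ w hw hfix

theorem full_stair_of (hcov : ∀ m, BlockCover (staircaseShape (m + 1)) ((m + 2) / 2)) (m : ℕ) :
    Full (staircaseShape m) (staircaseShape m) := by
  induction m with
  | zero =>
    have : staircaseShape 0 = ∅ := by
      ext c; rw [mem_stair]; simp
    rw [this]; exact full_empty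
  | succ m ih => exact full_stair_step m ih (hcov m)

end Crest.Agent.R195
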