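import Crest.Agent.R195.Zig5
import Crest.Agent.R195.Saxl

/-! Row 195, L4.  `BlockCover` for lists of groups and for the staircase. -/

set_option autoImplicit false
set_option linter.unusedSectionVars false
set_option linter.unusedDecidableInType false

namespace Crest.Agent.R195

open Finset Function Crest.AlgebraR.Specht

theorem card_shiftC (k : ℕ) (D : Finset (ℕ × ℕ)) : (shiftC k D).card = D.card := by
  refine Finset.card_image_of_injective _ ?_
  rintro ⟨a, b⟩ ⟨c, d⟩ h
  simpa using h

theorem card_addC {k : ℕ} {D E : Finset (ℕ × ℕ)} (hD : ∀ c ∈ D, c.2 < k) :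
    (addC k D E).card = D.card + E.card := by
  unfold addC
  rw [Finset.card_union_of_disjoint, card_shiftC]
  rw [Finset.disjoint_left]
  rintro ⟨i, j⟩ h1 h2
  simp only [shiftC, mem_image, Prod.mk.injEq, Prod.exists] at h2
  obtain ⟨a, b, -, rfl, rfl⟩ := h2
  have := hD _ h1
  simp only at this
  omega

theorem card_pairShape {c : ℕ} (hc : 1 ≤ c) : (pairShape c).card = 2 * c - 1 := by
  obtain ⟨n, rfl⟩ : ∃ n, c = n + 1 := ⟨c - 1, by omega⟩
  have : pairShape (n + 1) = (range (n + 1)).image (fun i => (i, 0)) ∪
      (range n).image (fun i => (i, 1)) := by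
    ext ⟨i, j⟩
    simp only [pairShape, mem_filter, mem_product, mem_range, mem_union, mem_image,
      Prod.mk.injEq]
    constructor
    · intro h
      have : j = 0 ∨ j = 1 := by omega
      rcases this with rfl | rfl
      · left; exact ⟨i, by omega, rfl, rfl⟩
      · right; exact ⟨i, by omega, rfl, rfl⟩
    · rintro (⟨a, h1, h2, h3⟩ | ⟨a, h1, h2, h3⟩) <;> omega
  rw [this, Finset.card_union_of_disjoint, Finset.card_image_of_injective,
    Finset.card_image_of_injective, card_range, card_range]
  · omega
  · intro a b h; simpa using h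
  · intro a b h; simpa using h
  · rw [Finset.disjoint_left]
    intro c hc hc'
    simp only [mem_image] at hc hc'
    obtain ⟨a, -, rfl⟩ := hc
    obtain ⟨b, -, hb⟩ := hc'
    simp at hb

theorem Grp.card_shape (g : Grp) (hg : 1 ≤ g.top) : g.shape.card = g.size := by
  cases g with
  | pair c => exact card_pairShape hg
  | rect c k => simp [Grp.shape, Grp.size, rectShape]

theorem card_shapeL {L : List Grp} (hL : validL L) :
    (shapeL L).card = (L.map Grp.size).sum := by
  induction L with
  | nil => simp [shapeL]
  | cons g L ih =>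
    simp only [shapeL, List.map_cons, List.sum_cons]
    rw [card_addC g.shape_lt, ih hL.2.2, g.card_shape hL.1]

/-- standard colouring of a list of groups, all representations at once -/
theorem exists_cover (hpair : ∀ c, 1 ≤ c → PairGadget c) (L : List Grp) (hL : validL L)
    {T : Type} [Fintype T] [DecidableEq T] (hT : Fintype.card T = (shapeL L).card) :
    ∃ f : T → Fin L.length × Fin 4,
      (∀ q : Fin L.length × Fin 4,
        (univ.filter fun t => f t = q).card = (L[q.1.1]).part q.2) ∧
      ∀ (W : Type) [AddCommGroup W] [Module ℂ W] (ρ : Representation ℂ (Equiv.Perm T) W) (w : W),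
        w ≠ 0 → SwapFixed ρ f w → Occ ρ (Kr T (shapeL L) (shapeL L)) := by
  classical
  obtain ⟨f', hf'⟩ := exists_coloring_of_sizes (T := T) (K := Fin L.length × Fin 4)
    (fun q => (L[q.1.1]).part q.2) (by
      rw [hT, card_shapeL hL, Fintype.sum_prod_type, ← List.sum_ofFn]
      congr 1
      apply List.ext_getElem
      · simp
      · intro i h1 h2
        simp only [List.getElem_map, List.getElem_ofFn]
        exact (Grp.sum_part _).symm)
  refine ⟨f', hf', ?_⟩
  intro W _ _ ρ w hw hfix
  let f : T → ℕ × Fin 4 := fun t => ((f' t).1.1, (f' t).2)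
  have hlt : ∀ t, (f t).1 < L.length := fun t => (f' t).1.2
  have hpart : ∀ (j : ℕ) (hj : j < L.length) (a : Fin 4),
      (univ.filter fun t => f t = (j, a)).card = (L[j]).part a := by
    intro j hj a
    rw [← hf' (⟨j, hj⟩, a)]
    congr 1
    ext t
    simp only [mem_filter, mem_univ, true_and, f, Prod.ext_iff, Fin.ext_iff]
  refine occ_of_groups hpair L hL ρ f hlt ?_ ?_ w hw ?_
  · intro j hj
    rw [← Grp.sum_part, ← Finset.sum_congr rfl (fun a _ => hpart j hj a), ← Finset.card_biUnion]
    · congr 1
      ext t
      simp only [mem_biUnion, mem_univ, true_and, mem_filter]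
      constructor
      · intro h; exact ⟨(f t).2, Prod.ext h rfl⟩
      · rintro ⟨a, ha⟩; rw [ha]
    · intro a _ b _ hab
      rw [Function.onFun, Finset.disjoint_left]
      intro t ht1 ht2
      simp only [mem_filter, mem_univ, true_and] at ht1 ht2
      rw [ht1] at ht2
      exact hab (Prod.ext_iff.1 ht2).2
  · intro t hr
    by_contra hne
    have h1 := hpart (f t).1 (hlt t) (f t).2
    have h2 : (univ.filter fun t' => f t' = ((f t).1, (f t).2)).card ≠ 0 :=
      Finset.card_ne_zero.2 ⟨t, by simp⟩
    rw [h1] at h2
    apply h2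
    revert hr
    cases hg : L[(f t).1]'(hlt t) with
    | pair c => intro h; exact h.elim
    | rect c k => intro _; simp [Grp.part, hne]
  · intro a b hab
    refine hfix a b ?_
    simp only [f, Prod.mk.injEq] at hab
    exact Prod.ext (Fin.ext hab.1) hab.2

/-- `BlockCover` for a list of groups. -/
theorem blockCover_list (hpair : ∀ c, 1 ≤ c → PairGadget c) (L : List Grp) (hL : validL L)
    (M : ℕ) (hM : ∀ g ∈ L, ∀ a, g.part a ≤ M) : BlockCover (shapeL L) M := by
  intro T _ _ hT
  obtain ⟨f, hf, hocc⟩ := exists_cover hpair L hL hT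
  refine ⟨Fin L.length × Fin 4, inferInstance, f, ?_, hocc⟩
  intro q
  rw [hf q]
  exact hM _ (List.getElem_mem _) _

/-- `BlockCover` for the staircases. -/
theorem blockCover_stair (hpair : ∀ c, 1 ≤ c → PairGadget c) (m : ℕ) :
    BlockCover (staircaseShape (m + 1)) ((m + 2) / 2) := by
  rw [← shapeL_stairL]
  exact blockCover_list hpair _ (validL_stairL _) _ fun g hg a => stairL_part (m + 1) g hg a

end Crest.Agent.R195
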