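import Crest.Agent.R195.Saxl
import Crest.Agent.R195.Zig6
import Crest.Agent.R195.ChainGadget

/-! Row 195: the tensor square of the staircase Specht module contains everything. -/

set_option autoImplicit false

namespace Crest.Agent.R195

open Finset Function Crest.AlgebraR.Specht

/-- The pair gadget in the form used by the block machinery. -/
theorem pairGadget (c : ℕ) (hc : 1 ≤ c) : PairGadget c := by
  intro T _ _ hT U _ _ ρ f w hw hfix
  obtain ⟨G, hG, u, hu, x, hx⟩ := pair_gadget c hc (T := T) (by omega) (pairShape c) (fun x => by
    unfold pairShape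
    simp only [mem_filter, mem_product, Finset.mem_range]
    constructor
    · rintro ⟨⟨-, h2⟩, h3⟩
      exact ⟨h2, h3⟩
    · rintro ⟨h2, h3⟩
      exact ⟨⟨by omega, h2⟩, h3⟩) ρ f w hw hfix
  exact ⟨G, hG, u, hu, x, hx⟩

/-- **Saxl's conjecture** in the word model. -/
theorem full_stair (m : ℕ) : Full (staircaseShape m) (staircaseShape m) :=
  full_stair_of (blockCover_stair pairGadget) m

end Crest.Agent.R195
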