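import Crest.Agent.R195.HookStep
import Crest.Agent.R195.Irred
import Crest.Agent.R195.SaxlFull

/-! Row 195, S0298: self-conjugate shapes given by the list of their principal hooks
`p₁ > p₂ > …` (the `i`-th principal hook has arm and leg `p_i`, `2 p_i - 1` cells). -/

set_option autoImplicit false
set_option linter.unusedSectionVars false
set_option linter.unusedDecidableInType false

namespace Crest.Agent.R195

open Finset Function Crest.AlgebraR.Specht

/-- the shape with principal hooks `ps` -/
def hk : List ℕ → Finset (ℕ × ℕ)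
  | [] => ∅
  | p :: ps => hookS p (hk ps)

/-- column lengths of `hk ps` (valid lists) -/
def cl : List ℕ → ℕ → ℕ
  | [], _ => 0
  | p :: _, 0 => p
  | p :: ps, s + 1 => if s + 1 < p then cl ps s + 1 else 0

/-- strictly decreasing lists of positive numbers -/
def ValidH : List ℕ → Prop
  | [] => True
  | p :: ps => ps.headD 0 < p ∧ ValidH ps

instance decValidH : ∀ ps, Decidable (ValidH ps)
  | [] => isTrue trivial
  | _ :: ps => @instDecidableAnd _ _ _ (decValidH ps)

/-- number of cells -/
def hsize : List ℕ → ℕ
  | [] => 0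
  | p :: ps => p + (p - 1) + hsize ps

theorem card_hk (ps : List ℕ) : (hk ps).card = hsize ps := by
  induction ps with
  | nil => rfl
  | cons p ps ih => rw [hk, card_hookS, hsize, ih]

theorem hk_swap (ps : List ℕ) : (hk ps).image Prod.swap = hk ps := by
  induction ps with
  | nil => rfl
  | cons p ps ih => exact hookS_swap ih

theorem cl_zero (ps : List ℕ) : cl ps 0 = ps.headD 0 := by
  cases ps <;> rfl

theorem cl_succ (p : ℕ) (ps : List ℕ) (s : ℕ) :
    cl (p :: ps) (s + 1) = if s + 1 < p then cl ps s + 1 else 0 := rfl

theorem cl_eq_zero {ps : List ℕ} (h : ValidH ps) : ∀ {s : ℕ}, cl ps 0 ≤ s → cl ps s = 0 := by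
  induction ps with
  | nil => intro s _; cases s <;> rfl
  | cons p ps ih =>
    intro s hs
    cases s with
    | zero => exact Nat.le_zero.mp hs
    | succ s =>
      have h1 : p ≤ s + 1 := hs
      rw [cl_succ, if_neg (by omega)]

theorem cl_pos {ps : List ℕ} (h : ValidH ps) : ∀ {s : ℕ}, s < cl ps 0 → 0 < cl ps s := by
  cases ps with
  | nil => intro s hs; exact absurd hs (Nat.not_lt_zero _)
  | cons p ps =>
    intro s hs
    cases s with
    | zero => exact hs
    | succ s =>
      have h1 : s + 1 < p := hs
      rw [cl_succ, if_pos h1]; omega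

theorem mem_hk {ps : List ℕ} (h : ValidH ps) : ∀ {c : ℕ × ℕ}, c ∈ hk ps ↔ c.1 < cl ps c.2 := by
  induction ps with
  | nil =>
    intro c
    simp [hk, cl]
  | cons p ps ih =>
    intro c
    obtain ⟨h1, h2⟩ := h
    rw [← cl_zero] at h1
    rw [hk, mem_hookS, ih h2]
    obtain ⟨i, j⟩ := c
    simp only
    cases j with
    | zero =>
      have h3 : cl (p :: ps) 0 = p := rfl
      rw [h3]
      simp
    | succ j =>
      rw [cl_succ]
      constructor
      · rintro (⟨-, h3⟩ | ⟨h3, h4, -⟩ | ⟨h3, -, h4⟩)
        · omega
        · rw [if_pos h3]; omega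
        · simp only [Nat.add_sub_cancel] at h4
          have h5 : j < cl ps 0 := by
            by_contra hcon
            rw [cl_eq_zero h2 (by omega)] at h4
            omega
          rw [if_pos (by omega)]; omega
      · intro h3
        right
        by_cases hj : j + 1 < p
        · rw [if_pos hj] at h3
          rcases Nat.eq_zero_or_pos i with h0 | h0
          · left; exact ⟨hj, h0, by omega⟩
          · right; exact ⟨h0, by omega, by simp only [Nat.add_sub_cancel]; omega⟩
        · rw [if_neg hj] at h3; omega

theorem cl_anti {ps : List ℕ} (h : ValidH ps) : Antitone (cl ps) := by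
  induction ps with
  | nil => intro a b _; exact (by simp [cl] : cl [] b ≤ cl [] a)
  | cons p ps ih =>
    obtain ⟨h1, h2⟩ := h
    rw [← cl_zero] at h1
    refine antitone_nat_of_succ_le fun s => ?_
    cases s with
    | zero =>
      have h3 : cl (p :: ps) 0 = p := rfl
      rw [h3, cl_succ]
      split_ifs <;> omega
    | succ s =>
      rw [cl_succ, cl_succ]
      have h3 := ih h2 (Nat.le_succ s)
      rw [Nat.succ_eq_add_one] at h3
      split_ifs <;> omega

/-- the Young diagram with principal hooks `ps` -/
def hkY (ps : List ℕ) (h : ValidH ps) : YoungDiagram where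
  cells := hk ps
  isLowerSet := by
    intro c d hdc hc
    rw [Finset.mem_coe, mem_hk h] at hc ⊢
    have h1 : d.1 ≤ c.1 := hdc.1
    have h2 := cl_anti h (show d.2 ≤ c.2 from hdc.2)
    omega

theorem hkY_cells (ps : List ℕ) (h : ValidH ps) : (hkY ps h).cells = hk ps := rfl

theorem hkY_colLen (ps : List ℕ) (h : ValidH ps) (s : ℕ) : (hkY ps h).colLen s = cl ps s := by
  have key : ∀ i, i < (hkY ps h).colLen s ↔ i < cl ps s := by
    intro i
    rw [← YoungDiagram.mem_iff_lt_colLen]
    exact mem_hk h
  have h1 := key ((hkY ps h).colLen s)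
  have h2 := key (cl ps s)
  omega

theorem hkY_transpose (ps : List ℕ) (h : ValidH ps) : (hkY ps h).transpose = hkY ps h := by
  apply YoungDiagram.ext
  rw [transpose_cells]
  exact hk_swap ps

theorem hkY_rowLen (ps : List ℕ) (h : ValidH ps) (s : ℕ) : (hkY ps h).rowLen s = cl ps s := by
  rw [← YoungDiagram.colLen_transpose, hkY_transpose, hkY_colLen]

theorem hkY_card (ps : List ℕ) (h : ValidH ps) : (hkY ps h).card = hsize ps := card_hk ps

theorem hk_young {ps : List ℕ} (h : ValidH ps) (i j i' : ℕ) (hij : (i, j) ∈ hk ps) (hi : i' ≤ i) :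
    (i', j) ∈ hk ps := by
  rw [mem_hk h] at hij ⊢
  simp only at hij ⊢
  omega

/-- fullness of the self-conjugate shape with hooks `ps` -/
def FullH (ps : List ℕ) : Prop := Full (hk ps) (hk ps)

/-- hooks of the staircase with `m` rows: `m, m-2, m-4, …` -/
def stairH : ℕ → List ℕ
  | 0 => []
  | 1 => [1]
  | m + 2 => (m + 2) :: stairH m

theorem stairH_head (m : ℕ) : (stairH m).headD 0 = m := by
  match m with
  | 0 => rfl
  | 1 => rfl
  | m + 2 => rfl

theorem validH_stairH (m : ℕ) : ValidH (stairH m) := by
  induction m using Nat.twoStepInduction with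
  | zero => trivial
  | one => exact ⟨by decide, trivial⟩
  | more m ih _ => exact ⟨by rw [stairH_head]; omega, ih⟩

theorem hk_stairH (m : ℕ) : hk (stairH m) = staircaseShape m := by
  induction m using Nat.twoStepInduction with
  | zero =>
    ext c
    rw [mem_stair]; simp [stairH, hk]
  | one =>
    ext c
    rw [mem_stair]
    simp only [stairH, hk]
    rw [mem_hookS]
    simp only [Finset.notMem_empty, and_false, or_false]
    omega
  | more m ih _ =>
    ext c
    rw [stairH, hk, mem_hookS, ih, mem_stair, mem_stair]
    omega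

theorem fullH_stair (m : ℕ) : FullH (stairH m) := by
  unfold FullH
  rw [hk_stairH]
  exact full_stair m

/-- The conclusion of S0298 for `n`. -/
def Good298 (n : ℕ) : Prop :=
  ∃ (V : Type) (_ : AddCommGroup V) (_ : Module ℂ V) (_ : FiniteDimensional ℂ V)
      (ρ : Representation ℂ (Equiv.Perm (Fin n)) V), Representation.IsIrreducible ρ ∧
      ∀ (W : Type) [AddCommGroup W] [Module ℂ W] [FiniteDimensional ℂ W]
        (σ : Representation ℂ (Equiv.Perm (Fin n)) W), Representation.IsIrreducible σ →
        Nontrivial (Representation.IntertwiningMap σ (Representation.tprod ρ ρ))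

theorem good_of_fullH {n : ℕ} (ps : List ℕ) (h : ValidH ps) (hn : hsize ps = n)
    (hf : FullH ps) : Good298 n :=
  exists_of_full n (hk ps) ((card_hk ps).trans hn) (spechtIrred (hk_young h)) hf

end Crest.Agent.R195
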