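import Mathlib
import Crest.Agent.R195.DupGadget

/-! Row 195: the gadget for two columns `(c, c-2)`: tableaux with at most four rows whose columns are
matched in pairs of equal height, with at least one matched pair of columns of height exactly two. -/

set_option autoImplicit false

namespace Crest.Agent.R195

open Finset Function Equiv

theorem sign_eq_one_of_comm {T : Type*} [Fintype T] [DecidableEq T] (π : T → T)
    (hπ : ∀ t, π (π t) = t) (col : T → ℕ) (hcπ : ∀ t, col (π t) ≠ col t) (κ : Perm T)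
    (hκ : ∀ t, col (κ t) = col t) (hcomm : ∀ t, κ (π t) = π (κ t)) : Perm.sign κ = 1 := by
  classical
  let p : T → Prop := fun t => col t < col (π t)
  have hpκ : ∀ t, p (κ t) ↔ p t := by
    intro t
    show col (κ t) < col (π (κ t)) ↔ col t < col (π t)
    rw [hκ, ← hcomm, hκ]
  have hpπ : ∀ t, p (π t) ↔ ¬ p t := by
    intro t
    show col (π t) < col (π (π t)) ↔ ¬ col t < col (π t)
    rw [hπ]
    have := hcπ t
    omega
  let πe : Perm T := ⟨π, π, hπ, hπ⟩
  have hπe : ∀ t, πe t = π t := fun t => rfl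
  let κ1 : Perm T := Perm.ofSubtype (κ.subtypePerm (p := p) hpκ)
  have hκ1p : ∀ t, p t → κ1 t = κ t := by
    intro t ht
    simp only [κ1]
    rw [Perm.ofSubtype_apply_of_mem _ ht]
    rfl
  have hκ1n : ∀ t, ¬ p t → κ1 t = t := by
    intro t ht
    simp only [κ1]
    exact Perm.ofSubtype_apply_of_not_mem _ ht
  have hfac : κ = κ1 * (πe * κ1 * πe⁻¹) := by
    ext t : 1
    have h2 : πe⁻¹ t = π t := by
      rw [Perm.inv_eq_iff_eq, hπe, hπ]
    rw [Perm.mul_apply, Perm.mul_apply, Perm.mul_apply, h2]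
    by_cases ht : p t
    · have h3 : ¬ p (π t) := by rw [hpπ]; exact not_not.2 ht
      rw [hκ1n _ h3, hπe, hπ, hκ1p _ ht]
    · have h3 : p (π t) := (hpπ t).2 ht
      rw [hκ1p _ h3, hcomm, hπe, hπ, hκ1n]
      rw [hpκ]
      exact ht
  rw [hfac, Perm.sign_mul, Perm.sign_mul, Perm.sign_mul, Perm.sign_inv]
  rcases Int.units_eq_one_or (Perm.sign κ1) with h | h <;>
    rcases Int.units_eq_one_or (Perm.sign πe) with h' | h' <;> simp [h, h']

/-- rotated orthonormal frame up to the factor `2` -/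
noncomputable def qg (a : Fin 4) : Matrix (Fin 2) (Fin 2) ℂ :=
  match a with
  | 0 => !![1, 0; 0, 1]
  | 1 => !![0, 1; -1, 0]
  | 2 => !![Complex.I, 0; 0, -Complex.I]
  | 3 => !![0, Complex.I; Complex.I, 0]

/-- indicator of the label `0` -/
noncomputable def dl (a : Fin 2) : ℂ := if a = 0 then 1 else 0

/-- the weight of a pair of letters -/
noncomputable def gapW (n : ℕ) (i : Fin (n+2)) (y0 y1 : Fin 2 × Fin 2) : ℂ :=
  (if i = Fin.last (n+1) then dl y0.1 * dl y1.1 else eps2 y0.1 y1.1) *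
  (if i = 0 then dl y0.2 * dl y1.2 else eps2 y0.2 y1.2)

/-- the form of a pair of letters -/
noncomputable def gapF (n : ℕ) (i : Fin (n+2)) (a b : Fin 4) : ℂ :=
  ∑ y : Fin 2 → Fin 2 × Fin 2, (∏ k : Fin 2, qg (![a, b] k) (y k).1 (y k).2) *
    gapW n i (y 0) (y 1)

theorem gapF_eq (n : ℕ) (i : Fin (n+2)) (a b : Fin 4) : gapF n i a b =
    ∑ x1 : Fin 2, ∑ x2 : Fin 2, ∑ y1 : Fin 2, ∑ y2 : Fin 2,
      (qg a x1 x2 * qg b y1 y2) * gapW n i (x1, x2) (y1, y2) := by
  unfold gapF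
  rw [← Equiv.sum_comp (finTwoArrowEquiv (Fin 2 × Fin 2)).symm, Fintype.sum_prod_type]
  simp only [Fintype.sum_prod_type, Fin.prod_univ_two, finTwoArrowEquiv, Equiv.coe_fn_symm_mk,
    Matrix.cons_val_zero, Matrix.cons_val_one]

theorem gapF_mid (n : ℕ) (i : Fin (n+2)) (h0 : i ≠ 0) (h1 : i ≠ Fin.last (n+1)) (a b : Fin 4) :
    gapF n i a b = if a = b then 2 else 0 := by
  rw [gapF_eq]
  unfold gapW
  simp only [h0, h1, if_false, Fin.sum_univ_two]
  fin_cases a <;> fin_cases b <;> simp [qg, eps2] <;> norm_num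

theorem gapF_zero (n : ℕ) (a b : Fin 4) :
    gapF n 0 a b = qg a 0 0 * qg b 1 0 - qg a 1 0 * qg b 0 0 := by
  rw [gapF_eq]
  unfold gapW
  have h1 : (0 : Fin (n+2)) ≠ Fin.last (n+1) := by
    intro h
    have := congrArg Fin.val h
    simp at this
  simp only [h1, if_false, if_true, Fin.sum_univ_two, dl]
  simp [eps2]
  ring

theorem gapF_last (n : ℕ) (a b : Fin 4) :
    gapF n (Fin.last (n+1)) a b = qg a 0 0 * qg b 0 1 - qg a 0 1 * qg b 0 0 := by
  rw [gapF_eq]
  unfold gapW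
  have h1 : Fin.last (n+1) ≠ 0 := by
    intro h
    have := congrArg Fin.val h
    simp at this
  simp only [h1, if_false, if_true, Fin.sum_univ_two, dl]
  simp [eps2]
  ring

theorem gapF_zero_swap (n : ℕ) (a b : Fin 4) : gapF n 0 b a = - gapF n 0 a b := by
  rw [gapF_zero, gapF_zero]; ring

theorem gapF_last_swap (n : ℕ) (a b : Fin 4) :
    gapF n (Fin.last (n+1)) b a = - gapF n (Fin.last (n+1)) a b := by
  rw [gapF_last, gapF_last]; ring

theorem gapF_zero_01 (n : ℕ) : gapF n 0 0 1 = -1 := by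
  rw [gapF_zero]; simp [qg]

theorem gapF_last_01 (n : ℕ) : gapF n (Fin.last (n+1)) 0 1 = 1 := by
  rw [gapF_last]; simp [qg]

/-- the shape with columns `n + 3` and `n + 1` -/
def gapD (n : ℕ) : Finset (ℕ × ℕ) :=
  (range (n+3) ×ˢ range 2).filter fun x => x.1 + 2 * x.2 < n + 3

theorem mem_gapD {n : ℕ} {x : ℕ × ℕ} : x ∈ gapD n ↔ x.2 < 2 ∧ x.1 + 2 * x.2 < n + 3 := by
  unfold gapD
  rw [mem_filter, mem_product, mem_range, mem_range]
  constructor
  · rintro ⟨⟨-, h⟩, h'⟩; exact ⟨h, h'⟩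
  · rintro ⟨h, h'⟩; exact ⟨⟨by omega, h⟩, h'⟩

section X

variable {T : Type} [Fintype T] [DecidableEq T] {n : ℕ}

/-- first product -/
noncomputable def gapX1 (e : (Σ _ : Fin (n+2), Fin 2) ≃ T) (s : T → Fin 2) : ℂ :=
  ∏ i : Fin (n+2), if i = Fin.last (n+1) then dl (s (e ⟨i, 0⟩)) * dl (s (e ⟨i, 1⟩)) else
    eps2 (s (e ⟨i, 0⟩)) (s (e ⟨i, 1⟩))

/-- second product -/
noncomputable def gapX2 (e : (Σ _ : Fin (n+2), Fin 2) ≃ T) (s : T → Fin 2) : ℂ :=
  ∏ i : Fin (n+2), if i = 0 then dl (s (e ⟨i, 0⟩)) * dl (s (e ⟨i, 1⟩)) else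
    eps2 (s (e ⟨i, 0⟩)) (s (e ⟨i, 1⟩))

/-- row word of a position -/
def gapR (p : Σ _ : Fin (n+2), Fin 2) : ℕ := (p.1 : ℕ) + if p.1 = Fin.last (n+1) then (p.2 : ℕ) else 0

/-- label word of a position -/
def gapL (p : Σ _ : Fin (n+2), Fin 2) : ℕ := if p.1 = Fin.last (n+1) then 0 else (p.2 : ℕ)

/-- row word -/
def gapRow (e : (Σ _ : Fin (n+2), Fin 2) ≃ T) (t : T) : ℕ := gapR (e.symm t)

/-- label word -/
def gapCol (e : (Σ _ : Fin (n+2), Fin 2) ≃ T) (t : T) : ℕ := gapL (e.symm t)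

/-- sizes of the rows -/
def gapSz (n : ℕ) : Fin (n+1) ⊕ Fin 2 → ℕ := Sum.elim (fun _ => 2) (fun _ => 1)

omit [DecidableEq T] in
theorem exists_gapE (e : (Σ _ : Fin (n+2), Fin 2) ≃ T) :
    ∃ e' : (Σ j : Fin (n+1) ⊕ Fin 2, Fin (gapSz n j)) ≃ T,
      (∀ (j : Fin (n+1)) (x : Fin 2), e' ⟨Sum.inl j, x⟩ = e ⟨j.castSucc, x⟩) ∧
      ∀ (k : Fin 2) (x : Fin 1), e' ⟨Sum.inr k, x⟩ = e ⟨Fin.last (n+1), k⟩ := by
  let f : (Σ j : Fin (n+1) ⊕ Fin 2, Fin (gapSz n j)) → T := fun q => match q with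
    | ⟨Sum.inl j, x⟩ => e ⟨j.castSucc, x⟩
    | ⟨Sum.inr k, _⟩ => e ⟨Fin.last (n+1), k⟩
  have hf : Bijective f := by
    rw [Fintype.bijective_iff_injective_and_card]
    constructor
    · rintro ⟨j | k, x⟩ ⟨j' | k', x'⟩ h
      · have h1 := e.injective h
        simp only [Sigma.mk.injEq, Fin.castSucc_inj, heq_eq_eq] at h1
        obtain ⟨rfl, h2⟩ := h1
        have h3 : x = x' := h2
        rw [h3]
      · have h1 := e.injective h
        simp only [Sigma.mk.injEq] at h1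
        exact absurd h1.1 (Fin.castSucc_lt_last j).ne
      · have h1 := e.injective h
        simp only [Sigma.mk.injEq] at h1
        exact absurd h1.1.symm (Fin.castSucc_lt_last j').ne
      · have h1 := e.injective h
        simp only [Sigma.mk.injEq, heq_eq_eq, true_and] at h1
        obtain rfl := h1
        have h3 : x = x' := Subsingleton.elim (α := Fin 1) x x'
        rw [h3]
    · have h : Fintype.card (Σ j : Fin (n+1) ⊕ Fin 2, Fin (gapSz n j))
          = ∑ j : Fin (n+1) ⊕ Fin 2, gapSz n j := by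
        rw [Fintype.card_sigma]
        exact Finset.sum_congr rfl fun b _ => Fintype.card_fin _
      rw [h, ← Fintype.card_congr e, Fintype.card_sigma, Fintype.sum_sum_type]
      show ∑ j : Fin (n+1), 2 + ∑ j : Fin 2, 1 = ∑ i : Fin (n+2), Fintype.card (Fin 2)
      simp only [Finset.sum_const, Finset.card_univ, Fintype.card_fin, smul_eq_mul]
      ring
  exact ⟨Equiv.ofBijective f hf, fun _ _ => rfl, fun _ _ => rfl⟩

theorem gapX1_eq (e : (Σ _ : Fin (n+2), Fin 2) ≃ T) (s : T → Fin 2) :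
    polyt (gapCol e) (gapRow e) (fun t => (s t : ℕ)) = gapX1 e s := by
  obtain ⟨e', he1, he2⟩ := exists_gapE e
  have hcast : ∀ j : Fin (n+1), j.castSucc ≠ Fin.last (n+1) := fun j => (Fin.castSucc_lt_last j).ne
  rw [← colFun_eq_polyt (c := gapSz n) e'
    (Sum.elim (fun j : Fin (n+1) => (j : ℕ)) (fun k : Fin 2 => n + 1 + (k : ℕ))) ?_
    (gapCol e) (gapRow e)]
  · unfold colFun gapX1
    rw [Fintype.prod_sum_type]
    conv_rhs => rw [Fin.prod_univ_castSucc, if_pos rfl]
    congr 1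
    · refine Finset.prod_congr rfl fun j _ => ?_
      rw [if_neg (hcast j)]
      have h1 := he1 j 0
      have h2 := he1 j 1
      have h3 := minor_two (fun x : Fin 2 => s (e' ⟨Sum.inl j, x⟩))
      exact h3.trans (congrArg₂ (fun a b => eps2 (s a) (s b)) h1 h2)
    · rw [Fin.prod_univ_two]
      have h1 := minor_one (fun x : Fin 1 => s (e' ⟨Sum.inr 0, x⟩))
      have h2 := minor_one (fun x : Fin 1 => s (e' ⟨Sum.inr 1, x⟩))
      exact congrArg₂ (· * ·) (h1.trans (congrArg (fun a => dl (s a)) (he2 0 0)))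
        (h2.trans (congrArg (fun a => dl (s a)) (he2 1 0)))
  · rintro (j | k) x
    · rw [he1 j x]
      simp [gapCol, gapL, hcast]
    · rw [he2 k x]
      have hx : x = (0 : Fin 1) := Subsingleton.elim (α := Fin 1) x 0
      subst hx
      simp [gapCol, gapL]
  · rintro (j | k) x
    · rw [he1 j x]
      simp [gapRow, gapR, hcast]
    · rw [he2 k x]
      simp [gapRow, gapR]
  · rintro (a | a) (b | b) h
    · simpa [Fin.ext_iff] using h
    · simp only [Sum.elim_inl, Sum.elim_inr] at h; have := a.2; omega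
    · simp only [Sum.elim_inl, Sum.elim_inr] at h; have := b.2; omega
    · simpa [Fin.ext_iff] using h

/-- the standard tableau -/
def gapTab (e : (Σ _ : Fin (n+2), Fin 2) ≃ T) (t : T) : ℕ × ℕ := (gapRow e t, gapCol e t)

omit [DecidableEq T] in
theorem isTab_gapTab (e : (Σ _ : Fin (n+2), Fin 2) ≃ T) : IsTab (gapD n) (gapTab e) := by
  constructor
  · intro s t h
    apply e.symm.injective
    have h1 := congrArg Prod.fst h
    have h2 := congrArg Prod.snd h
    simp only [gapTab, gapRow, gapCol, gapR, gapL] at h1 h2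
    rcases hs : e.symm s with ⟨i, x⟩
    rcases ht : e.symm t with ⟨j, y⟩
    rw [hs, ht] at h1 h2
    simp only at h1 h2
    have hi := i.2
    have hj := j.2
    have hx := x.2
    have hy := y.2
    by_cases hi1 : i = Fin.last (n+1) <;> by_cases hj1 : j = Fin.last (n+1)
    · subst hi1
      subst hj1
      simp only [if_true] at h1 h2
      have : x = y := Fin.ext (by omega)
      rw [this]
    · subst hi1
      simp only [hj1, if_true, if_false] at h1 h2
      have h3 : (j : ℕ) ≠ n + 1 := fun h => hj1 (Fin.ext h)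
      simp only [Fin.val_last] at h1
      omega
    · subst hj1
      simp only [hi1, if_true, if_false] at h1 h2
      have h3 : (i : ℕ) ≠ n + 1 := fun h => hi1 (Fin.ext h)
      simp only [Fin.val_last] at h1
      omega
    · simp only [hi1, hj1, if_false] at h1 h2
      have h3 : i = j := Fin.ext (by omega)
      have h4 : x = y := Fin.ext h2
      rw [h3, h4]
  · ext ⟨i, j⟩
    rw [mem_gapD]
    simp only [mem_image, mem_univ, true_and]
    constructor
    · rintro ⟨t, ht⟩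
      have h1 := congrArg Prod.fst ht
      have h2 := congrArg Prod.snd ht
      simp only [gapTab, gapRow, gapCol, gapR, gapL] at h1 h2
      have h3 := (e.symm t).1.2
      have h4 := (e.symm t).2.2
      by_cases h : (e.symm t).1 = Fin.last (n+1)
      · rw [if_pos h] at h1 h2
        omega
      · rw [if_neg h] at h1 h2
        have h5 : ((e.symm t).1 : ℕ) ≠ n + 1 := fun h' => h (Fin.ext h')
        omega
    · rintro ⟨hi, hj⟩
      by_cases h : i < n + 1
      · refine ⟨e ⟨⟨i, by omega⟩, ⟨j, hi⟩⟩, ?_⟩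
        have h5 : (⟨i, by omega⟩ : Fin (n+2)) ≠ Fin.last (n+1) := by
          intro h'
          have := congrArg Fin.val h'
          simp only [Fin.val_last] at this
          omega
        simp [gapTab, gapRow, gapCol, gapR, gapL, h5]
      · refine ⟨e ⟨Fin.last (n+1), ⟨i - (n+1), by omega⟩⟩, ?_⟩
        simp only [gapTab, gapRow, gapCol, gapR, gapL, Equiv.symm_apply_apply, if_true,
          Fin.val_last]
        ext
        · simp only; omega
        · simp only; omega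

/-- evaluation of polytabloids at permuted row words -/
theorem polyF_word (row col : T → ℕ) (s : T → Fin 2)
    (hs : ∃ g : Perm T, polyt col row (fun t => ((s (g t) : Fin 2) : ℕ)) ≠ 0) :
    ∃ θ : Perm T, ∀ g : Perm T, polyF ((fun t => (row t, col t)) ∘ θ.symm) (row ∘ g)
      = ((Perm.sign θ : ℤ) : ℂ) * (((Perm.sign g : ℤ) : ℂ) *
        polyt col row (fun t => ((s (g.symm t) : Fin 2) : ℕ))) := by
  obtain ⟨g1, h1⟩ := hs
  unfold polyt at h1
  obtain ⟨ρ, -, hρ'⟩ := Finset.exists_ne_zero_of_sum_ne_zero h1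
  have hρ : ∀ t, ((s (g1 t) : Fin 2) : ℕ) = col (ρ t) := by
    by_contra hcon
    exact hρ' (if_neg (fun h => hcon h.2))
  set θ : Perm T := g1 * ρ⁻¹ with hθ
  have hsθ : ∀ p, ((s (θ p) : Fin 2) : ℕ) = col p := by
    intro p
    have := hρ (ρ⁻¹ p)
    simpa [hθ] using this
  refine ⟨θ, fun g => ?_⟩
  rw [← polyF_act, polyF_eq_polyt]
  have h2 : ((row ∘ g) ∘ θ) = row ∘ (g * θ : Perm T) := rfl
  have h3 := polyt_dual row col (g * θ)
  rw [h2]
  change polyt row col _ = _
  rw [h3, Perm.sign_mul]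
  have h4 : (col ∘ (g * θ : Perm T).symm) = fun p => ((s (g.symm p) : Fin 2) : ℕ) := by
    funext p
    have := hsθ ((g * θ : Perm T).symm p)
    rw [comp_apply, ← this]
    have h5 : θ ((g * θ : Perm T).symm p) = g.symm p := by
      apply g.injective
      have : g (θ ((g * θ : Perm T).symm p)) = (g * θ) ((g * θ : Perm T).symm p) := rfl
      rw [this, Equiv.apply_symm_apply, Equiv.apply_symm_apply]
    rw [h5]
  rw [h4]
  push_cast
  ring

/-- reversal of the positions -/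
def gapRevP (n : ℕ) : Perm (Σ _ : Fin (n+2), Fin 2) where
  toFun p := ⟨Fin.rev p.1, Fin.rev p.2⟩
  invFun p := ⟨Fin.rev p.1, Fin.rev p.2⟩
  left_inv p := by simp
  right_inv p := by simp

/-- reversal of the letters -/
def gapRev (e : (Σ _ : Fin (n+2), Fin 2) ≃ T) : Perm T := (e.symm.trans (gapRevP n)).trans e

omit [Fintype T] [DecidableEq T] in
theorem gapRev_apply (e : (Σ _ : Fin (n+2), Fin 2) ≃ T) (i : Fin (n+2)) (k : Fin 2) :
    gapRev e (e ⟨i, k⟩) = e ⟨Fin.rev i, Fin.rev k⟩ := by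
  simp [gapRev, gapRevP]

omit [Fintype T] [DecidableEq T] in
theorem gapRev_symm (e : (Σ _ : Fin (n+2), Fin 2) ≃ T) (t : T) :
    (gapRev e).symm t = gapRev e t := by
  rw [Equiv.symm_apply_eq]
  simp [gapRev, gapRevP]

theorem eps2_swap (a b : Fin 2) : eps2 a b = -eps2 b a := by
  fin_cases a <;> fin_cases b <;> simp [eps2]

theorem exists_gapX_rev (n : ℕ) : ∃ C : ℂ, C ≠ 0 ∧
    ∀ {T : Type} [Fintype T] [DecidableEq T] (e : (Σ _ : Fin (n+2), Fin 2) ≃ T) (s : T → Fin 2),
      gapX1 e (fun t => s (gapRev e t)) = C * gapX2 e s := by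
  refine ⟨∏ i : Fin (n+2), if i = 0 then (1 : ℂ) else -1, ?_, ?_⟩
  · rw [Finset.prod_ne_zero_iff]
    intro i _
    split_ifs <;> norm_num
  · intro T _ _ e s
    unfold gapX1 gapX2
    rw [← Finset.prod_mul_distrib, ← Equiv.prod_comp Fin.revPerm]
    refine Finset.prod_congr rfl fun i _ => ?_
    have hr1 : Fin.rev (1 : Fin 2) = 0 := rfl
    have hr0 : Fin.rev (0 : Fin 2) = 1 := rfl
    simp only [Fin.revPerm_apply, gapRev_apply, Fin.rev_rev, hr0, hr1]
    have h1 : Fin.rev i = Fin.last (n+1) ↔ i = 0 := by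
      rw [← Fin.rev_zero, Fin.rev_inj]
    by_cases h : i = 0
    · rw [if_pos (h1.2 h), if_pos h, if_pos h]
      ring
    · rw [if_neg (fun h' => h (h1.1 h')), if_neg h, if_neg h, eps2_swap]
      ring

theorem exists_gap_row1 (e : (Σ _ : Fin (n+2), Fin 2) ≃ T) (s : T → Fin 2)
    (hs : ∃ g : Perm T, gapX1 e (fun t => s (g t)) ≠ 0) :
    ∃ τ : T → ℕ × ℕ, IsTab (gapD n) τ ∧ ∃ C : ℂ, C ≠ 0 ∧ ∀ g : Perm T,
      polyF τ (fun t => gapRow e (g t))
        = C * (((Perm.sign g : ℤ) : ℂ) * gapX1 e (fun t => s (g.symm t))) := by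
  obtain ⟨g1, hg1⟩ := hs
  obtain ⟨θ, hθ⟩ := polyF_word (gapRow e) (gapCol e) s ⟨g1, by rw [gapX1_eq]; exact hg1⟩
  refine ⟨(fun t => (gapRow e t, gapCol e t)) ∘ θ.symm, (isTab_gapTab e).comp θ.symm,
    ((Perm.sign θ : ℤ) : ℂ), ?_, ?_⟩
  · rcases Int.units_eq_one_or (Perm.sign θ) with h | h <;> simp [h]
  · intro g
    have := hθ g
    rw [gapX1_eq] at this
    exact this

theorem exists_gap_row2 (e : (Σ _ : Fin (n+2), Fin 2) ≃ T) (s : T → Fin 2)
    (hs : ∃ g : Perm T, gapX2 e (fun t => s (g t)) ≠ 0) :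
    ∃ τ : T → ℕ × ℕ, IsTab (gapD n) τ ∧ ∃ C : ℂ, C ≠ 0 ∧ ∀ g : Perm T,
      polyF τ (fun t => gapRow e (gapRev e (g t)))
        = C * (((Perm.sign g : ℤ) : ℂ) * gapX2 e (fun t => s (g.symm t))) := by
  obtain ⟨g1, hg1⟩ := hs
  obtain ⟨C0, hC0, hrev⟩ := exists_gapX_rev n
  obtain ⟨τ, hτ, C, hC, hτC⟩ := exists_gap_row1 e s ⟨g1 * gapRev e, by
    have h1 : (fun t => s ((g1 * gapRev e : Perm T) t)) = fun t => (fun x => s (g1 x)) (gapRev e t) :=
      rfl
    rw [h1, hrev e (fun x => s (g1 x))]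
    exact mul_ne_zero hC0 hg1⟩
  refine ⟨τ, hτ, C * ((Perm.sign (gapRev e) : ℤ) : ℂ) * C0, ?_, ?_⟩
  · refine mul_ne_zero (mul_ne_zero hC ?_) hC0
    rcases Int.units_eq_one_or (Perm.sign (gapRev e)) with h | h <;> simp [h]
  · intro g
    have h1 := hτC (gapRev e * g)
    have h2 : (fun t => gapRow e ((gapRev e * g : Perm T) t)) =
      fun t => gapRow e (gapRev e (g t)) := rfl
    have h3 : (fun t => s ((gapRev e * g : Perm T).symm t)) =
        fun t => (fun x => s (g.symm x)) (gapRev e t) := by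
      funext t
      show s (g.symm ((gapRev e).symm t)) = s (g.symm (gapRev e t))
      rw [gapRev_symm]
    rw [h2, h3, hrev e (fun x => s (g.symm x)), Perm.sign_mul] at h1
    rw [h1]
    push_cast
    ring

/-- the functional of the gap piece -/
noncomputable def gapPsi0 (e : (Σ _ : Fin (n+2), Fin 2) ≃ T) (r : T → Fin 4) : ℂ :=
  ∏ i : Fin (n+2), gapF n i (r (e ⟨i, 0⟩)) (r (e ⟨i, 1⟩))

theorem gap_expand (e : (Σ _ : Fin (n+2), Fin 2) ≃ T) (r : T → Fin 4) :
    ∑ z : T → Fin 2 × Fin 2, (∏ t, qg (r t) (z t).1 (z t).2) *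
      (gapX1 e (fun t => (z t).1) * gapX2 e (fun t => (z t).2)) = gapPsi0 e r := by
  let φ : (T → Fin 2 × Fin 2) ≃ (Fin (n+2) → Fin 2 → Fin 2 × Fin 2) :=
    (Equiv.arrowCongr e.symm (Equiv.refl _)).trans
      (Equiv.piCurry (fun (_ : Fin (n+2)) (_ : Fin 2) => Fin 2 × Fin 2))
  have hφ : ∀ z i k, φ z i k = z (e ⟨i, k⟩) := fun z i k => rfl
  have h1 : ∀ z : T → Fin 2 × Fin 2, (∏ t, qg (r t) (z t).1 (z t).2) *
      (gapX1 e (fun t => (z t).1) * gapX2 e (fun t => (z t).2))
      = ∏ i : Fin (n+2), ((∏ k : Fin 2, qg (![r (e ⟨i, 0⟩), r (e ⟨i, 1⟩)] k) (φ z i k).1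
        (φ z i k).2) * gapW n i (φ z i 0) (φ z i 1)) := by
    intro z
    rw [Finset.prod_mul_distrib]
    congr 1
    · rw [← Equiv.prod_comp e, Fintype.prod_sigma]
      refine Finset.prod_congr rfl fun i _ => ?_
      rw [Fin.prod_univ_two, Fin.prod_univ_two]
      rfl
    · unfold gapX1 gapX2
      rw [← Finset.prod_mul_distrib]
      rfl
  simp only [h1]
  rw [Equiv.sum_comp φ (fun y : Fin (n+2) → Fin 2 → Fin 2 × Fin 2 =>
    ∏ i : Fin (n+2), ((∏ k : Fin 2, qg (![r (e ⟨i, 0⟩), r (e ⟨i, 1⟩)] k) (y i k).1 (y i k).2) *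
        gapW n i (y i 0) (y i 1)))]
  rw [← Fintype.prod_sum (fun (i : Fin (n+2)) (y : Fin 2 → Fin 2 × Fin 2) =>
    ((∏ k : Fin 2, qg (![r (e ⟨i, 0⟩), r (e ⟨i, 1⟩)] k) (y k).1 (y k).2) *
        gapW n i (y 0) (y 1)))]
  rfl

/-- antisymmetrised functional -/
noncomputable def gapPsi (e : (Σ _ : Fin (n+2), Fin 2) ≃ T) (col : T → ℕ) (r : T → Fin 4) : ℂ :=
  ∑ κ : Perm T, if ∀ t, col (κ t) = col t then
    ((Perm.sign κ : ℤ) : ℂ) * gapPsi0 e (fun t => r (κ t)) else 0

theorem gapPsi_alt (e : (Σ _ : Fin (n+2), Fin 2) ≃ T) (col : T → ℕ) (κ : Perm T)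
    (hκ : ∀ t, col (κ t) = col t) (r : T → Fin 4) :
    gapPsi e col (r ∘ κ) = ((Perm.sign κ : ℤ) : ℂ) * gapPsi e col r := by
  unfold gapPsi
  conv_rhs => rw [← Equiv.sum_comp (Equiv.mulLeft κ)]
  rw [Finset.mul_sum]
  refine Finset.sum_congr rfl fun g _ => ?_
  have h1 : (∀ t, col ((Equiv.mulLeft κ g) t) = col t) ↔ ∀ t, col (g t) = col t := by
    simp only [Equiv.coe_mulLeft, Perm.mul_apply, hκ]
  have hs : ((Perm.sign κ : ℤ) : ℂ) * ((Perm.sign κ : ℤ) : ℂ) = 1 := by
    rcases Int.units_eq_one_or (Perm.sign κ) with h | h <;> simp [h]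
  by_cases h : ∀ t, col (g t) = col t
  · rw [if_pos h, if_pos (h1.2 h)]
    have h2 : (fun t => r ((Equiv.mulLeft κ g) t)) = fun t => (r ∘ κ) (g t) := rfl
    rw [h2, Equiv.coe_mulLeft, Perm.sign_mul]
    push_cast
    linear_combination (-((Perm.sign g : ℤ) : ℂ) * gapPsi0 e (fun t => (r ∘ κ) (g t))) * hs
  · rw [if_neg h, if_neg (fun h' => h (h1.1 h')), mul_zero]

omit [Fintype T] in
theorem gapPsi0_swap (e : (Σ _ : Fin (n+2), Fin 2) ≃ T) (i0 : Fin (n+2))
    (hi : ∀ a b, gapF n i0 b a = - gapF n i0 a b) (r : T → Fin 4) :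
    gapPsi0 e (fun t => r (swap (e ⟨i0, 0⟩) (e ⟨i0, 1⟩) t)) = - gapPsi0 e r := by
  unfold gapPsi0
  rw [← Finset.mul_prod_erase univ _ (mem_univ i0), ← Finset.mul_prod_erase univ _ (mem_univ i0)]
  beta_reduce
  rw [swap_apply_left, swap_apply_right, hi, neg_mul]
  congr 2
  refine Finset.prod_congr rfl fun i hi' => ?_
  have hne : i ≠ i0 := (mem_erase.1 hi').1
  have h1 : ∀ k k', e ⟨i, k⟩ ≠ e ⟨i0, k'⟩ := by
    intro k k' h
    exact hne (congrArg Sigma.fst (e.injective h))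
  rw [swap_apply_of_ne_of_ne (h1 _ _) (h1 _ _), swap_apply_of_ne_of_ne (h1 _ _) (h1 _ _)]

theorem gapPsi_ne_zero (e : (Σ _ : Fin (n+2), Fin 2) ≃ T) (π : T → T)
    (hπ : ∀ t, π (π t) = t) (row : T → Fin 4) (col : T → ℕ)
    (hinj : ∀ s t, row s = row t → col s = col t → s = t)
    (hπr : ∀ t, row (π t) = row t) (hπ0 : ∀ t, π t ≠ t)
    (hπc : ∀ s t, col s = col t → col (π s) = col (π t))
    (hmid : ∀ i : Fin (n+2), i ≠ 0 → i ≠ Fin.last (n+1) → π (e ⟨i, 0⟩) = e ⟨i, 1⟩)
    (hend : ∀ k, π (e ⟨0, k⟩) = e ⟨Fin.last (n+1), k⟩)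
    (hr : ∀ k : Fin 2, row (e ⟨0, k⟩) = ⟨k, by omega⟩)
    (hcol : ∀ t, col t = col (e ⟨0, 0⟩) ↔ (t = e ⟨0, 0⟩ ∨ t = e ⟨0, 1⟩)) :
    gapPsi e col row ≠ 0 := by
  classical
  have h0l : (0 : Fin (n+2)) ≠ Fin.last (n+1) := by
    intro h
    have := congrArg Fin.val h
    simp at this
  have hend' : ∀ k, π (e ⟨Fin.last (n+1), k⟩) = e ⟨0, k⟩ := by
    intro k; rw [← hend, hπ]
  have hrl : ∀ k : Fin 2, row (e ⟨Fin.last (n+1), k⟩) = ⟨k, by omega⟩ := by
    intro k; rw [← hend, hπr, hr]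
  have hcolπ : ∀ t, col (π t) ≠ col t := by
    intro t h
    exact hπ0 t (hinj _ _ (hπr t) h)
  have hcol01 : col (e ⟨0, 1⟩) = col (e ⟨0, 0⟩) := (hcol _).2 (Or.inr rfl)
  have hcoll : ∀ t, col t = col (e ⟨Fin.last (n+1), 0⟩) ↔
      (t = e ⟨Fin.last (n+1), 0⟩ ∨ t = e ⟨Fin.last (n+1), 1⟩) := by
    intro t
    constructor
    · intro h
      have h1 := hπc _ _ h
      rw [hend', hcol] at h1
      rcases h1 with h1 | h1
      · left; rw [← hend, ← h1, hπ]
      · right; rw [← hend, ← h1, hπ]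
    · rintro (rfl | rfl)
      · rfl
      · rw [← hend, ← hend]
        exact hπc _ _ hcol01
  have hcoll01 : col (e ⟨Fin.last (n+1), 1⟩) = col (e ⟨Fin.last (n+1), 0⟩) :=
    (hcoll _).2 (Or.inr rfl)
  -- the value at the identity
  have hval : gapPsi0 e row = -2 ^ n := by
    unfold gapPsi0
    rw [Fin.prod_univ_castSucc, Fin.prod_univ_succ]
    have h1 : ∀ i : Fin n, gapF n (i.succ.castSucc) (row (e ⟨i.succ.castSucc, 0⟩))
        (row (e ⟨i.succ.castSucc, 1⟩)) = 2 := by
      intro i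
      have h2 : i.succ.castSucc ≠ 0 := by
        intro h
        have := congrArg Fin.val h
        simp at this
      have h3 : i.succ.castSucc ≠ Fin.last (n+1) := (Fin.castSucc_lt_last _).ne
      rw [gapF_mid n _ h2 h3, if_pos]
      rw [← hmid _ h2 h3, hπr]
    rw [Finset.prod_congr rfl fun i _ => h1 i, Fin.castSucc_zero, hr, hr, hrl, hrl]
    have h4 : gapF n 0 ⟨((0 : Fin 2) : ℕ), by omega⟩ ⟨((1 : Fin 2) : ℕ), by omega⟩ = -1 :=
      gapF_zero_01 n
    have h5 : gapF n (Fin.last (n+1)) ⟨((0 : Fin 2) : ℕ), by omega⟩ ⟨((1 : Fin 2) : ℕ), by omega⟩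
      = 1 := gapF_last_01 n
    rw [h4, h5]
    simp
  set tm : Perm T → ℂ := fun κ => ((Perm.sign κ : ℤ) : ℂ) * gapPsi0 e (fun t => row (κ t)) with htm
  -- invariance under the two swaps
  have hswap : ∀ i0 : Fin (n+2), (∀ a b, gapF n i0 b a = - gapF n i0 a b) → ∀ κ : Perm T,
      tm (κ * swap (e ⟨i0, 0⟩) (e ⟨i0, 1⟩)) = tm κ := by
    intro i0 hi κ
    simp only [htm]
    have hne : e ⟨i0, 0⟩ ≠ e ⟨i0, 1⟩ := by
      intro h
      have := e.injective h
      simp at this
    have h1 := gapPsi0_swap e i0 hi (fun t => row (κ t))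
    simp only [Perm.mul_apply] at h1 ⊢
    rw [h1, Perm.sign_mul, Perm.sign_swap hne]
    push_cast
    ring
  -- normalised permutations
  have hfixed : ∀ κ : Perm T, (∀ t, col (κ t) = col t) → (∀ k, κ (e ⟨0, k⟩) = e ⟨0, k⟩) →
      (∀ k, κ (e ⟨Fin.last (n+1), k⟩) = e ⟨Fin.last (n+1), k⟩) → tm κ = 0 ∨ tm κ = -2 ^ n := by
    intro κ hκ hf0 hfl
    by_cases hz : gapPsi0 e (fun t => row (κ t)) = 0
    · left; simp only [htm]; rw [hz, mul_zero]
    · right
      have hfac : ∀ i, gapF n i (row (κ (e ⟨i, 0⟩))) (row (κ (e ⟨i, 1⟩))) ≠ 0 := by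
        intro i h
        exact hz (Finset.prod_eq_zero (mem_univ i) h)
      have hrow : ∀ i : Fin (n+2), i ≠ 0 → i ≠ Fin.last (n+1) →
          row (κ (e ⟨i, 0⟩)) = row (κ (e ⟨i, 1⟩)) := by
        intro i h1 h2
        by_contra h3
        exact hfac i (by rw [gapF_mid n i h1 h2, if_neg h3])
      have hcomm : ∀ t, κ (π t) = π (κ t) := by
        intro t
        obtain ⟨⟨i, k⟩, rfl⟩ := e.surjective t
        by_cases h1 : i = 0
        · subst h1
          rw [hf0, hend, hfl]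
        · by_cases h2 : i = Fin.last (n+1)
          · subst h2
            rw [hfl, hend', hf0]
          · apply hinj
            · rw [hπr]
              have hk : k = 0 ∨ k = 1 := by omega
              rcases hk with rfl | rfl
              · rw [hmid i h1 h2, hrow i h1 h2]
              · rw [← hmid i h1 h2, hπ, hrow i h1 h2, hmid i h1 h2]
            · rw [hκ]
              exact hπc _ _ (hκ _).symm
      have hsign := sign_eq_one_of_comm π hπ col hcolπ κ hκ hcomm
      simp only [htm]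
      rw [hsign, Units.val_one, Int.cast_one, one_mul, ← hval]
      unfold gapPsi0
      refine Finset.prod_congr rfl fun i _ => ?_
      beta_reduce
      by_cases h1 : i = 0
      · subst h1
        rw [hf0, hf0]
      · by_cases h2 : i = Fin.last (n+1)
        · subst h2
          rw [hfl, hfl]
        · rw [gapF_mid n i h1 h2, gapF_mid n i h1 h2, if_pos (hrow i h1 h2), if_pos]
          rw [← hmid i h1 h2, hπr]
  -- a permutation preserving the columns acts on a column of two letters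
  have hnorm : ∀ (i0 : Fin (n+2)), (∀ a b, gapF n i0 b a = - gapF n i0 a b) →
      (∀ t, col t = col (e ⟨i0, 0⟩) ↔ (t = e ⟨i0, 0⟩ ∨ t = e ⟨i0, 1⟩)) →
      ∀ κ : Perm T, (∀ t, col (κ t) = col t) → ∃ κ' : Perm T, (∀ t, col (κ' t) = col t) ∧
        tm κ' = tm κ ∧ (∀ k, κ' (e ⟨i0, k⟩) = e ⟨i0, k⟩) ∧
        ∀ t, t ≠ e ⟨i0, 0⟩ → t ≠ e ⟨i0, 1⟩ → κ' t = κ t := by
    intro i0 hi hci κ hκ
    have hc01 : col (e ⟨i0, 1⟩) = col (e ⟨i0, 0⟩) := (hci _).2 (Or.inr rfl)
    have hne : e ⟨i0, 0⟩ ≠ e ⟨i0, 1⟩ := by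
      intro h
      have := e.injective h
      simp at this
    have h0 := (hci (κ (e ⟨i0, 0⟩))).1 (hκ _)
    have h1 := (hci (κ (e ⟨i0, 1⟩))).1 (by rw [hκ, hc01])
    rcases h0 with h0 | h0
    · have h1' : κ (e ⟨i0, 1⟩) = e ⟨i0, 1⟩ := by
        rcases h1 with h1 | h1
        · exact absurd (κ.injective (h0.trans h1.symm)) hne
        · exact h1
      refine ⟨κ, hκ, rfl, ?_, fun t _ _ => rfl⟩
      intro k
      have hk : k = 0 ∨ k = 1 := by omega
      rcases hk with rfl | rfl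
      · exact h0
      · exact h1'
    · have h1' : κ (e ⟨i0, 1⟩) = e ⟨i0, 0⟩ := by
        rcases h1 with h1 | h1
        · exact h1
        · exact absurd (κ.injective (h0.trans h1.symm)) hne
      refine ⟨κ * swap (e ⟨i0, 0⟩) (e ⟨i0, 1⟩), ?_, hswap i0 hi κ, ?_, ?_⟩
      · intro t
        rw [Perm.mul_apply, hκ]
        by_cases ht0 : t = e ⟨i0, 0⟩
        · rw [ht0, swap_apply_left, hc01]
        · by_cases ht1 : t = e ⟨i0, 1⟩
          · rw [ht1, swap_apply_right, hc01]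
          · rw [swap_apply_of_ne_of_ne ht0 ht1]
      · intro k
        have hk : k = 0 ∨ k = 1 := by omega
        rcases hk with rfl | rfl
        · rw [Perm.mul_apply, swap_apply_left, h1']
        · rw [Perm.mul_apply, swap_apply_right, h0]
      · intro t ht0 ht1
        rw [Perm.mul_apply, swap_apply_of_ne_of_ne ht0 ht1]
  have hterm : ∀ κ : Perm T, (∀ t, col (κ t) = col t) → tm κ = 0 ∨ tm κ = -2 ^ n := by
    intro κ hκ
    obtain ⟨κ1, h11, h12, h13, -⟩ := hnorm 0 (gapF_zero_swap n) hcol κ hκ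
    obtain ⟨κ2, h21, h22, h23, h24⟩ := hnorm (Fin.last (n+1)) (gapF_last_swap n) hcoll κ1 h11
    rw [← h12, ← h22]
    refine hfixed κ2 h21 ?_ h23
    intro k
    rw [h24, h13]
    · intro h
      exact h0l (congrArg Sigma.fst (e.injective h))
    · intro h
      exact h0l (congrArg Sigma.fst (e.injective h))
  let S : Finset (Perm T) := univ.filter fun κ => (∀ t, col (κ t) = col t) ∧ tm κ ≠ 0
  have hsum : gapPsi e col row = (S.card : ℂ) * (-2 ^ n) := by
    unfold gapPsi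
    rw [← nsmul_eq_mul, ← Finset.sum_const, Finset.sum_filter]
    refine Finset.sum_congr rfl fun κ _ => ?_
    by_cases hκ : ∀ t, col (κ t) = col t
    · rw [if_pos hκ]
      show tm κ = _
      rcases hterm κ hκ with h | h
      · rw [if_neg (fun h' => h'.2 h), h]
      · have h2 : tm κ ≠ 0 := by
          rw [h]; exact neg_ne_zero.2 (pow_ne_zero _ two_ne_zero)
        rw [if_pos ⟨hκ, h2⟩, h]
    · rw [if_neg hκ, if_neg (fun h' => hκ h'.1)]
  rw [hsum]
  refine mul_ne_zero ?_ (neg_ne_zero.2 (pow_ne_zero _ two_ne_zero))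
  rw [Nat.cast_ne_zero, Finset.card_ne_zero]
  refine ⟨1, ?_⟩
  simp only [S, mem_filter, mem_univ, true_and, Perm.coe_one, id]
  refine ⟨fun _ => trivial, ?_⟩
  have h1 : tm 1 = -2 ^ n := by
    simp only [htm, Perm.sign_one, Units.val_one, Int.cast_one, one_mul, Perm.coe_one, id]
    exact hval
  rw [h1]
  exact neg_ne_zero.2 (pow_ne_zero _ two_ne_zero)

theorem exists_gap_e (n : ℕ) (hT : Fintype.card T = 2 * (n+2)) (π : T → T)
    (hπ : ∀ t, π (π t) = t) (col : T → ℕ) (hcπ : ∀ t, col (π t) ≠ col t) (a0 a1 : T)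
    (ha : a0 ≠ a1) (hac : col a0 = col a1) :
    ∃ e : (Σ _ : Fin (n+2), Fin 2) ≃ T,
      (∀ i : Fin (n+2), i ≠ 0 → i ≠ Fin.last (n+1) → π (e ⟨i, 0⟩) = e ⟨i, 1⟩) ∧
      (∀ k, π (e ⟨0, k⟩) = e ⟨Fin.last (n+1), k⟩) ∧ e ⟨0, 0⟩ = a0 ∧ e ⟨0, 1⟩ = a1 := by
  classical
  have h0l : (0 : Fin (n+2)) ≠ Fin.last (n+1) := by
    intro h
    have := congrArg Fin.val h
    simp at this
  have hπinj : Injective π := fun s t h => by rw [← hπ s, ← hπ t, h]
  have hπa : ∀ k l : Fin 2, π (![a0, a1] k) ≠ ![a0, a1] l := by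
    intro k l h
    have h1 := hcπ (![a0, a1] k)
    rw [h] at h1
    apply h1
    have hk : k = 0 ∨ k = 1 := by omega
    have hl : l = 0 ∨ l = 1 := by omega
    rcases hk with rfl | rfl <;> rcases hl with rfl | rfl <;> simp [hac]
  let A : Finset T := {a0, a1, π a0, π a1}
  have hAc : A.card = 4 := by
    have h1 := hπa 0 0
    have h2 := hπa 0 1
    have h3 := hπa 1 0
    have h4 := hπa 1 1
    simp only [Matrix.cons_val_zero, Matrix.cons_val_one] at h1 h2 h3 h4
    have h5 : π a0 ≠ π a1 := fun h => ha (hπinj h)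
    simp only [A]
    rw [card_insert_of_notMem, card_insert_of_notMem, card_insert_of_notMem, card_singleton]
    · simpa using h5
    · simp only [mem_insert, mem_singleton, not_or]
      exact ⟨h2.symm, h4.symm⟩
    · simp only [mem_insert, mem_singleton, not_or]
      exact ⟨ha, h1.symm, h3.symm⟩
  have hAπ : ∀ t, t ∈ A → π t ∈ A := by
    intro t ht
    simp only [A, mem_insert, mem_singleton] at ht ⊢
    rcases ht with rfl | rfl | rfl | rfl
    · simp
    · simp
    · simp [hπ]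
    · simp [hπ]
  let T' := {t : T // t ∉ A}
  let π' : T' → T' := fun t => ⟨π t, fun h => t.2 (by have := hAπ _ h; rwa [hπ] at this)⟩
  have hT' : Fintype.card T' = 2 * n := by
    have h1 : Fintype.card T' = Fintype.card T - A.card := by
      rw [Fintype.card_subtype_compl, Fintype.card_coe]
    rw [h1, hT, hAc]
    omega
  obtain ⟨e', he'⟩ := exists_dup_e n hT' π' (fun t => Subtype.ext (hπ t))
    (fun t => col (t : T) < col (π t)) (by
      intro t
      show col (π (t : T)) < col (π (π t)) ↔ ¬ col (t : T) < col (π t)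
      rw [hπ]
      have := hcπ (t : T)
      omega)
  let f : (Σ _ : Fin (n+2), Fin 2) → T := fun q =>
    if h0 : q.1 = 0 then ![a0, a1] q.2 else
      if h1 : q.1 = Fin.last (n+1) then π (![a0, a1] q.2) else
        (e' ⟨⟨(q.1 : ℕ) - 1, by
          have := q.1.2
          have h2 : (q.1 : ℕ) ≠ 0 := fun h => h0 (Fin.ext h)
          have h3 : (q.1 : ℕ) ≠ n + 1 := fun h => h1 (Fin.ext h)
          omega⟩, q.2⟩ : T)
  have hf0 : ∀ k, f ⟨0, k⟩ = ![a0, a1] k := fun k => dif_pos rfl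
  have hfl : ∀ k, f ⟨Fin.last (n+1), k⟩ = π (![a0, a1] k) := by
    intro k
    exact (dif_neg h0l.symm).trans (dif_pos rfl)
  have hfm : ∀ (i : Fin (n+2)) (h0 : i ≠ 0) (h1 : i ≠ Fin.last (n+1)), ∃ j : Fin n,
      (j : ℕ) + 1 = i ∧ ∀ k, f ⟨i, k⟩ = (e' ⟨j, k⟩ : T) := by
    intro i h0 h1
    have h2 : (i : ℕ) ≠ 0 := fun h => h0 (Fin.ext h)
    have h3 : (i : ℕ) ≠ n + 1 := fun h => h1 (Fin.ext h)
    refine ⟨⟨(i : ℕ) - 1, by have := i.2; omega⟩, by simp only; omega, fun k => ?_⟩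
    exact (dif_neg h0).trans (dif_neg h1)
  have haA : ∀ k : Fin 2, ![a0, a1] k ∈ A := by
    intro k
    have hk : k = 0 ∨ k = 1 := by omega
    rcases hk with rfl | rfl <;> simp [A]
  have hainj : ∀ k l : Fin 2, ![a0, a1] k = ![a0, a1] l → k = l := by
    intro k l h
    have hk : k = 0 ∨ k = 1 := by omega
    have hl : l = 0 ∨ l = 1 := by omega
    rcases hk with rfl | rfl <;> rcases hl with rfl | rfl
    · rfl
    · exact absurd h ha
    · exact absurd h.symm ha
    · rfl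
  have hfinj : Injective f := by
    rintro ⟨i, k⟩ ⟨j, l⟩ h
    by_cases hi0 : i = 0
    · subst hi0
      rw [hf0] at h
      by_cases hj0 : j = 0
      · subst hj0
        rw [hf0] at h
        rw [hainj _ _ h]
      · by_cases hjl : j = Fin.last (n+1)
        · subst hjl
          rw [hfl] at h
          exact absurd h.symm (hπa _ _)
        · obtain ⟨j', -, hj'⟩ := hfm j hj0 hjl
          rw [hj'] at h
          exact absurd (h ▸ haA k) (e' ⟨j', l⟩).2
    · by_cases hil : i = Fin.last (n+1)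
      · subst hil
        rw [hfl] at h
        by_cases hj0 : j = 0
        · subst hj0
          rw [hf0] at h
          exact absurd h (hπa _ _)
        · by_cases hjl : j = Fin.last (n+1)
          · subst hjl
            rw [hfl] at h
            rw [hainj _ _ (hπinj h)]
          · obtain ⟨j', -, hj'⟩ := hfm j hj0 hjl
            rw [hj'] at h
            exact absurd (h ▸ hAπ _ (haA k)) (e' ⟨j', l⟩).2
      · obtain ⟨i', hi1, hi'⟩ := hfm i hi0 hil
        rw [hi'] at h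
        by_cases hj0 : j = 0
        · subst hj0
          rw [hf0] at h
          exact absurd (h ▸ haA l) (e' ⟨i', k⟩).2
        · by_cases hjl : j = Fin.last (n+1)
          · subst hjl
            rw [hfl] at h
            exact absurd (h ▸ hAπ _ (haA l)) (e' ⟨i', k⟩).2
          · obtain ⟨j', hj1, hj'⟩ := hfm j hj0 hjl
            rw [hj'] at h
            have h2 := e'.injective (Subtype.ext h)
            simp only [Sigma.mk.injEq, heq_eq_eq] at h2
            obtain ⟨h3, h4⟩ := h2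
            have h5 : i = j := Fin.ext (by rw [← hi1, ← hj1, h3])
            rw [h5, h4]
  refine ⟨Equiv.ofBijective f ((Fintype.bijective_iff_injective_and_card f).2 ⟨hfinj, ?_⟩),
    ?_, ?_, ?_, ?_⟩
  · rw [Fintype.card_sigma, hT]
    simp
    ring
  · intro i h0 h1
    show π (f ⟨i, 0⟩) = f ⟨i, 1⟩
    obtain ⟨j, -, hj⟩ := hfm i h0 h1
    rw [hj, hj, ← he']
  · intro k
    show π (f ⟨0, k⟩) = f ⟨Fin.last (n+1), k⟩
    rw [hf0, hfl]
  · exact hf0 0
  · exact hf0 1

/-- **gap gadget** (columns `n + 3` and `n + 1`) -/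
theorem gap_gadget_aux (n : ℕ) (hT : Fintype.card T = 2 * (n + 2))
    {U : Type*} [AddCommGroup U] [Module ℂ U] (ρ : Representation ℂ (Perm T) U)
    (row : T → Fin 4) (col : T → ℕ)
    (hinj : ∀ s t, row s = row t → col s = col t → s = t)
    (htop : ∀ t a, a < row t → ∃ s, row s = a ∧ col s = col t)
    (π : T → T) (hπ : ∀ t, π (π t) = t) (hπ0 : ∀ t, π t ≠ t) (hπr : ∀ t, row (π t) = row t)
    (hπc : ∀ s t, col s = col t → col (π s) = col (π t))
    (a0 a1 : T) (ha0 : row a0 = 0) (ha1 : row a1 = 1) (hac : col a1 = col a0)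
    (haa : ∀ t, col t = col a0 → t = a0 ∨ t = a1)
    (x : U) (hfix : ∀ g : Perm T, (∀ t, row (g t) = row t) → ρ g x = x)
    (hA : colAsym ρ col x ≠ 0) :
    ∃ E ∈ Kr T (gapD n) (gapD n), ∃ u : T → ℕ × ℕ,
      (∀ t, (u t).1 + (u t).2 + 1 = n + 3 ∨ (u t).1 + (u t).2 + 2 = n + 3) ∧
      ∃ x : U, ∑ g : Perm T, E (u ∘ g) • ρ g⁻¹ x ≠ 0 := by
  classical
  have hcπ : ∀ t, col (π t) ≠ col t := by
    intro t h
    exact hπ0 t (hinj _ _ (hπr t) h)
  have haane : a0 ≠ a1 := by
    intro h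
    rw [h, ha1] at ha0
    exact absurd ha0 (by decide)
  obtain ⟨e, hmid, hend, he0, he1⟩ := exists_gap_e n hT π hπ col hcπ a0 a1 haane hac.symm
  set y := colAsym ρ col x with hy
  have hne : gapPsi e col row ≠ 0 := by
    refine gapPsi_ne_zero e π hπ row col hinj hπr hπ0 hπc hmid hend ?_ ?_
    · intro k
      have hk : k = 0 ∨ k = 1 := by omega
      rcases hk with rfl | rfl
      · rw [he0, ha0]; rfl
      · rw [he1, ha1]; rfl
    · intro t
      rw [he0, he1]
      constructor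
      · exact haa t
      · rintro (rfl | rfl)
        · rfl
        · exact hac
  have hcore := core_abs ρ row col hinj htop (gapPsi e col)
    (fun κ hκ r _ => gapPsi_alt e col κ hκ r) hne x hfix hA
  rw [← hy] at hcore
  -- the plain functional
  have h0 : ∑ g : Perm T, gapPsi0 e (fun t => row (g t)) • ρ g y ≠ 0 := by
    intro h0
    apply hcore
    have h1 : ∀ g : Perm T, gapPsi e col (row ∘ g) • ρ g y = ∑ κ : Perm T,
        (if ∀ t, col (κ t) = col t then (gapPsi0 e (fun t => row ((g * κ : Perm T) t))) •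
          ρ (g * κ) y else 0) := by
      intro g
      unfold gapPsi
      rw [Finset.sum_smul]
      refine Finset.sum_congr rfl fun κ _ => ?_
      split_ifs with hκ
      · rw [map_mul, Module.End.mul_apply, (colAsym_alt ρ col x).perm κ hκ, map_smul, smul_smul,
          mul_comm]
        rfl
      · rw [zero_smul]
    rw [Finset.sum_congr rfl fun g _ => h1 g, Finset.sum_comm]
    refine Finset.sum_eq_zero fun κ _ => ?_
    split_ifs with hκ
    · rw [← h0]
      exact Equiv.sum_comp (Equiv.mulRight κ)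
        (fun g : Perm T => gapPsi0 e (fun t => row (g t)) • ρ g y)
    · exact Finset.sum_const_zero
  -- the expansion
  set χ : (T → Fin 2 × Fin 2) → ℂ := fun z =>
    gapX1 e (fun t => (z t).1) * gapX2 e (fun t => (z t).2) with hχ
  have hz : ∃ z : T → Fin 2 × Fin 2, ∑ g : Perm T, χ (z ∘ g) • ρ g y ≠ 0 := by
    by_contra hcon
    push Not at hcon
    apply h0
    calc ∑ g : Perm T, gapPsi0 e (fun t => row (g t)) • ρ g y
        = ∑ g : Perm T, ∑ z : T → Fin 2 × Fin 2,
            ((∏ t, qg (row t) (z t).1 (z t).2) * χ (z ∘ g)) • ρ g y := by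
          refine Finset.sum_congr rfl fun g _ => ?_
          rw [← gap_expand, Finset.sum_smul]
          refine (Equiv.sum_comp (Equiv.arrowCongr g.symm (Equiv.refl (Fin 2 × Fin 2)))
            (fun z : T → Fin 2 × Fin 2 => ((∏ t, qg (row (g t)) (z t).1 (z t).2) * χ z) •
              ρ g y)).symm.trans ?_
          refine Finset.sum_congr rfl fun z _ => ?_
          have h4 : (Equiv.arrowCongr g.symm (Equiv.refl (Fin 2 × Fin 2))) z = z ∘ g := by
            funext t
            rfl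
          rw [h4, ← Equiv.prod_comp g (fun t => qg (row t) (z t).1 (z t).2)]
          rfl
      _ = ∑ z : T → Fin 2 × Fin 2, (∏ t, qg (row t) (z t).1 (z t).2) •
          ∑ g : Perm T, χ (z ∘ g) • ρ g y := by
        rw [Finset.sum_comm]
        refine Finset.sum_congr rfl fun z _ => ?_
        rw [Finset.smul_sum]
        refine Finset.sum_congr rfl fun g _ => ?_
        rw [smul_smul]
      _ = 0 := Finset.sum_eq_zero fun z _ => by rw [hcon z, smul_zero]
  obtain ⟨z, hz⟩ := hz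
  obtain ⟨g0, -, hg0⟩ := Finset.exists_ne_zero_of_sum_ne_zero hz
  have hg0' : χ (z ∘ g0) ≠ 0 := by
    intro h
    exact hg0 (by rw [h, zero_smul])
  obtain ⟨τ, hτ, C, hC, hτC⟩ := exists_gap_row1 e (fun t => (z t).1)
    ⟨g0, left_ne_zero_of_mul hg0'⟩
  obtain ⟨τ', hτ', C', hC', hτC'⟩ := exists_gap_row2 e (fun t => (z t).2)
    ⟨g0, right_ne_zero_of_mul hg0'⟩
  refine ⟨prodF (polyF τ) (polyF τ'), Submodule.subset_span ⟨_, _, hτ, hτ', rfl⟩,
    fun t => (gapRow e t, gapRow e (gapRev e t)), ?_, y, ?_⟩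
  · intro t
    obtain ⟨⟨i, k⟩, rfl⟩ := e.surjective t
    show gapRow e (e ⟨i, k⟩) + gapRow e (gapRev e (e ⟨i, k⟩)) + 1 = n + 3 ∨
      gapRow e (e ⟨i, k⟩) + gapRow e (gapRev e (e ⟨i, k⟩)) + 2 = n + 3
    rw [gapRev_apply]
    simp only [gapRow, gapR, Equiv.symm_apply_apply]
    have hi := i.2
    have hk := k.2
    have h1 : (Fin.rev i : ℕ) = n + 1 - i := by rw [Fin.val_rev]; omega
    have h2 : (Fin.rev k : ℕ) = 1 - k := by rw [Fin.val_rev]; omega
    have h3 : (Fin.rev i = Fin.last (n+1)) ↔ i = 0 := by rw [← Fin.rev_zero, Fin.rev_inj]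
    rw [h1, h2]
    by_cases hi0 : i = 0
    · have h4 : (0 : Fin (n+2)) ≠ Fin.last (n+1) := by
        intro h
        have := congrArg Fin.val h
        simp at this
      rw [if_pos (h3.2 hi0), hi0, if_neg h4]
      simp only [Fin.val_zero]
      omega
    · rw [if_neg (fun h => hi0 (h3.1 h))]
      by_cases hil : i = Fin.last (n+1)
      · rw [if_pos hil, hil]
        simp only [Fin.val_last]
        omega
      · rw [if_neg hil]
        omega
  · have hE : ∀ g : Perm T, prodF (polyF τ) (polyF τ')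
        ((fun t => (gapRow e t, gapRow e (gapRev e t))) ∘ g) = (C * C') * χ (z ∘ g.symm) := by
      intro g
      unfold prodF
      have h5 := hτC g
      have h6 := hτC' g
      have h7 : polyF τ (fun t => (((fun t => (gapRow e t, gapRow e (gapRev e t))) ∘ g) t).1)
        = polyF τ (fun t => gapRow e (g t)) := rfl
      have h8 : polyF τ' (fun t => (((fun t => (gapRow e t, gapRow e (gapRev e t))) ∘ g) t).2)
        = polyF τ' (fun t => gapRow e (gapRev e (g t))) := rfl
      rw [h7, h8, h5, h6]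
      have hs : ((Perm.sign g : ℤ) : ℂ) * ((Perm.sign g : ℤ) : ℂ) = 1 := by
        rcases Int.units_eq_one_or (Perm.sign g) with h | h <;> simp [h]
      have h9 : χ (z ∘ g.symm) = gapX1 e (fun t => (z (g.symm t)).1) *
        gapX2 e (fun t => (z (g.symm t)).2) := rfl
      rw [h9]
      linear_combination (C * C' * gapX1 e (fun t => (z (g.symm t)).1) *
        gapX2 e (fun t => (z (g.symm t)).2)) * hs
    have h10 : ∑ g : Perm T, prodF (polyF τ) (polyF τ')
        ((fun t => (gapRow e t, gapRow e (gapRev e t))) ∘ g) • ρ g⁻¹ y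
        = (C * C') • ∑ g : Perm T, χ (z ∘ g) • ρ g y := by
      rw [Finset.smul_sum, ← Equiv.sum_comp (Equiv.inv (Perm T))
        (fun g : Perm T => (C * C') • χ (z ∘ g) • ρ g y)]
      refine Finset.sum_congr rfl fun g _ => ?_
      rw [hE, smul_smul]
      rfl
    rw [h10]
    exact smul_ne_zero (mul_ne_zero hC hC') hz

end X

end Crest.Agent.R195
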