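import Crest.Agent.R195.Eng4
import Crest.Agent.R195.GapGadget

/-! Row 195.  The gap block and the final form of the engine with four block types. -/

set_option autoImplicit false
set_option linter.unusedSectionVars false
set_option linter.unusedDecidableInType false

namespace Crest.Agent.R195

open Finset Function Equiv

universe u

theorem gapD_eq (n : ℕ) : gapD n = colS [n + 3, n + 3 - 2] := by
  ext ⟨i, j⟩
  rw [mem_gapD, mem_colS]
  match j with
  | 0 => simp
  | 1 => simp
  | (j + 2) => simp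

theorem hits_gap (c : ℕ) (hc : 3 ≤ c) : Hits.{u} (.gap c) := by
  intro T _ _ W _ _ ρ rk col hinj htop hok x hfix hA
  classical
  obtain ⟨n, rfl⟩ : ∃ n, c = n + 3 := ⟨c - 3, by omega⟩
  obtain ⟨h1, h2, ⟨π, h3, h4, h5, h6⟩, a0, a1, h7, h8, h9, h10⟩ := hok
  change HitZ ρ (colS [n + 3, n + 3 - 2]) (colS [n + 3, n + 3 - 2]) (zigZ (n + 3)) x
  rw [← gapD_eq]
  refine hitZ_of_cert (N := 2) (by norm_num) _ _ (zig_le (n + 3)) (zig_eq (n + 3)) ?_
  obtain ⟨G, hG, u, hu, hex⟩ := gap_gadget_aux n (by omega) (subRep ρ (cyc ρ x) (cyc_stable ρ x))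
    (fun t => (⟨rk t, h2 t⟩ : Fin 4)) col (fun s t h1 h2 => hinj s t (congrArg Fin.val h1) h2)
    (fun t a ha => by
      obtain ⟨s, h1, h2⟩ := htop t a.1 ha
      exact ⟨s, Fin.ext h1, h2⟩)
    π h3 h4 (fun t => Fin.ext (h5 t)) h6 a0 a1 (Fin.ext h8) (Fin.ext h9) h7.symm h10
    ⟨x, mem_cyc ρ x⟩ (by
      intro g hg
      apply Subtype.ext
      rw [subRep_coe]
      exact hfix.perm g fun t => congrArg Fin.val (hg t)) (by
      intro h0
      apply hA
      have h1 := congrArg Subtype.val h0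
      rw [colAsym_apply, Submodule.coe_sum] at h1
      rw [colAsym_apply]
      simpa [subRep_coe] using h1)
  obtain ⟨k, hk⟩ := hit_cyc ρ x G u hex
  exact ⟨G, hG, u ∘ k, fun t => hu (k t), hk⟩

theorem hits_all (κ : Bk4) (h : κ.low ≤ κ.top) : Hits.{u} κ := by
  cases κ with
  | pair c => exact hits_pair c h
  | rect c k => exact hits_rect c k
  | dup c => exact hits_dup c
  | gap c => exact hits_gap c h

theorem validB.low_le {L : List Bk4} (h : validB L) : ∀ g ∈ L, g.low ≤ g.top := by
  induction L with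
  | nil => intro g hg; simp at hg
  | cons a L ih =>
    obtain ⟨h1, -, h3⟩ := h
    intro g hg
    rcases List.mem_cons.1 hg with rfl | hg
    · exact h1
    · exact ih h3 g hg

/-- **Matrix form, letters version, four block types.** -/
theorem occ_of_blocks4 (L : List Bk4) (hL : validB L)
    {T : Type} [Fintype T] [DecidableEq T] {W : Type u} [AddCommGroup W] [Module ℂ W]
    (ρ : Representation ℂ (Perm T) W) (γ rk col : T → ℕ) (hγ : ∀ t, γ t < L.length)
    (hinj : ∀ s t, γ s = γ t → rk s = rk t → col s = col t → s = t)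
    (htop : ∀ t a, a < rk t → ∃ s, γ s = γ t ∧ rk s = a ∧ col s = col t)
    (hok : ∀ (i : ℕ) (hi : i < L.length),
      (L[i]).OK {t // γ t = i} (fun t => rk t) (fun t => col t))
    (x : W) (hfix : SwapFixed ρ (fun t => (γ t, rk t)) x)
    (hA : colAsym ρ (fun t => Nat.pair (γ t) (col t)) x ≠ 0) :
    Occ ρ (Kr T (colS (colsB L)) (colS (colsB L))) :=
  (hit4_list L hL (fun κ hκ => hits_all κ (hL.low_le κ hκ)) ρ γ rk col hγ hinj htop hok x hfix
    hA).occ

end Crest.Agent.R195
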