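import Crest.Agent.R195.Hit2

/-! Row 195.  The sequential engine: lists of blocks. -/

set_option autoImplicit false
set_option linter.unusedSectionVars false
set_option linter.unusedDecidableInType false

namespace Crest.Agent.R195

open Finset Function Equiv

section split

variable {T : Type*} [Fintype T] [DecidableEq T]
variable {W : Type*} [AddCommGroup W] [Module ℂ W]

theorem colAsym_congr (ρ : Representation ℂ (Perm T) W) {d d' : T → ℕ}
    (h : ∀ s t, d s = d t ↔ d' s = d' t) : colAsym ρ d = colAsym ρ d' := by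
  unfold colAsym
  have : (univ.filter fun σ : Perm T => ∀ t, d (σ t) = d t) =
      univ.filter fun σ : Perm T => ∀ t, d' (σ t) = d' t := by
    ext σ
    simp only [mem_filter, mem_univ, true_and]
    exact forall_congr' fun t => h _ _
  rw [this]

theorem colAsym_split (p : T → Prop) [DecidablePred p] (ρ : Representation ℂ (Perm T) W)
    (d : T → ℕ) (hd : ∀ s t, d s = d t → (p s ↔ p t)) (x : W) :
    colAsym ρ d x = colAsym (resRepP p ρ) (resP p d) (colAsym (resRepN p ρ) (resN p d) x) := by
  classical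
  rw [colAsym_apply, Finset.sum_filter, sum_perm_preserving p]
  · rw [colAsym_apply, Finset.sum_filter]
    refine Finset.sum_congr rfl fun a _ => ?_
    have hiff : ∀ b : Perm {t // ¬ p t}, (∀ t, d (Equiv.Perm.subtypeCongr a b t) = d t) ↔
        (∀ t, resP p d (a t) = resP p d t) ∧ (∀ t, resN p d (b t) = resN p d t) := by
      intro b
      constructor
      · intro h
        refine ⟨fun t => ?_, fun t => ?_⟩
        · have := h t
          rwa [Equiv.Perm.subtypeCongr.left_apply _ _ t.2] at this
        · have := h t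
          rwa [Equiv.Perm.subtypeCongr.right_apply _ _ t.2] at this
      · rintro ⟨h1, h2⟩ t
        by_cases ht : p t
        · rw [Equiv.Perm.subtypeCongr.left_apply _ _ ht]
          exact h1 ⟨t, ht⟩
        · rw [Equiv.Perm.subtypeCongr.right_apply _ _ ht]
          exact h2 ⟨t, ht⟩
    simp only [hiff]
    by_cases ha : ∀ t, resP p d (a t) = resP p d t
    · rw [if_pos ha, colAsym_apply, map_sum, Finset.sum_filter, Finset.smul_sum]
      refine Finset.sum_congr rfl fun b _ => ?_
      by_cases hb : ∀ t, resN p d (b t) = resN p d t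
      · rw [if_pos ⟨ha, hb⟩, if_pos hb, rho_subtypeCongr, Equiv.Perm.sign_subtypeCongr, map_smul,
          smul_smul]
        push_cast
        rfl
      · rw [if_neg (fun h => hb h.2), if_neg hb, smul_zero]
    · rw [if_neg ha]
      refine Finset.sum_eq_zero fun b _ => ?_
      rw [if_neg (fun h => ha h.1)]
  · intro g hg
    rw [if_neg]
    intro h
    exact hg fun i => hd _ _ (h i)

theorem SwapFixed.resP {ι : Type*} {ρ : Representation ℂ (Perm T) W} {f : T → ι} {x : W}
    (h : SwapFixed ρ f x) (p : T → Prop) [DecidablePred p] :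
    SwapFixed (resRepP p ρ) (fun t : {t // p t} => f t) x := by
  intro a b hab
  have hab' : f a = f b := hab
  rw [resRepP_apply]
  refine h.perm _ fun t => ?_
  by_cases ht : p t
  · rw [Equiv.Perm.subtypeCongr.left_apply _ _ ht]
    by_cases h1 : (⟨t, ht⟩ : {t // p t}) = a
    · rw [h1, swap_apply_left, ← hab', ← h1]
    · by_cases h2 : (⟨t, ht⟩ : {t // p t}) = b
      · rw [h2, swap_apply_right, hab', ← h2]
      · rw [swap_apply_of_ne_of_ne h1 h2]
  · rw [Equiv.Perm.subtypeCongr.right_apply _ _ ht]
    rfl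

theorem SwapFixed.resN {ι : Type*} {ρ : Representation ℂ (Perm T) W} {f : T → ι} {x : W}
    (h : SwapFixed ρ f x) (p : T → Prop) [DecidablePred p] :
    SwapFixed (resRepN p ρ) (fun t : {t // ¬ p t} => f t) x := by
  intro a b hab
  have hab' : f a = f b := hab
  rw [resRepN_apply]
  refine h.perm _ fun t => ?_
  by_cases ht : p t
  · rw [Equiv.Perm.subtypeCongr.left_apply _ _ ht]
    rfl
  · rw [Equiv.Perm.subtypeCongr.right_apply _ _ ht]
    by_cases h1 : (⟨t, ht⟩ : {t // ¬ p t}) = a
    · rw [h1, swap_apply_left, ← hab', ← h1]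
    · by_cases h2 : (⟨t, ht⟩ : {t // ¬ p t}) = b
      · rw [h2, swap_apply_right, hab', ← h2]
      · rw [swap_apply_of_ne_of_ne h1 h2]

theorem colAsymP_comm (p : T → Prop) [DecidablePred p] (ρ : Representation ℂ (Perm T) W)
    (d : {t // p t} → ℕ) (b : Perm {t // ¬ p t}) (x : W) :
    resRepN p ρ b (colAsym (resRepP p ρ) d x) = colAsym (resRepP p ρ) d (resRepN p ρ b x) := by
  rw [colAsym_apply, colAsym_apply, map_sum]
  refine Finset.sum_congr rfl fun a _ => ?_
  rw [map_smul, resRep_comm]

theorem colAsymN_comm (p : T → Prop) [DecidablePred p] (ρ : Representation ℂ (Perm T) W)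
    (d : {t // ¬ p t} → ℕ) (a : Perm {t // p t}) (x : W) :
    resRepP p ρ a (colAsym (resRepN p ρ) d x) = colAsym (resRepN p ρ) d (resRepP p ρ a x) := by
  rw [colAsym_apply, colAsym_apply, map_sum]
  refine Finset.sum_congr rfl fun b _ => ?_
  rw [map_smul, resRep_comm]

theorem hitOpN_comm (p : T → Prop) [DecidablePred p] (ρ : Representation ℂ (Perm T) W)
    (G : ({t // ¬ p t} → ℕ × ℕ) → ℂ) (u : {t // ¬ p t} → ℕ × ℕ) (a : Perm {t // p t}) (x : W) :
    resRepP p ρ a (hitOp (resRepN p ρ) G u x) = hitOp (resRepN p ρ) G u (resRepP p ρ a x) := by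
  rw [hitOp_apply, hitOp_apply, map_sum]
  refine Finset.sum_congr rfl fun b _ => ?_
  rw [map_smul, resRep_comm]

theorem colAsym_comm (p : T → Prop) [DecidablePred p] (ρ : Representation ℂ (Perm T) W)
    (d : {t // p t} → ℕ) (d' : {t // ¬ p t} → ℕ) (x : W) :
    colAsym (resRepP p ρ) d (colAsym (resRepN p ρ) d' x) =
      colAsym (resRepN p ρ) d' (colAsym (resRepP p ρ) d x) := by
  rw [colAsym_apply, colAsym_apply (resRepP p ρ) d x, map_sum]
  refine Finset.sum_congr rfl fun a _ => ?_
  rw [map_smul, colAsymN_comm]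

theorem colAsym_hitOp (p : T → Prop) [DecidablePred p] (ρ : Representation ℂ (Perm T) W)
    (d : {t // p t} → ℕ) (G : ({t // ¬ p t} → ℕ × ℕ) → ℂ) (u : {t // ¬ p t} → ℕ × ℕ) (x : W) :
    colAsym (resRepP p ρ) d (hitOp (resRepN p ρ) G u x) =
      hitOp (resRepN p ρ) G u (colAsym (resRepP p ρ) d x) := by
  rw [colAsym_apply, colAsym_apply, map_sum]
  refine Finset.sum_congr rfl fun a _ => ?_
  rw [map_smul, hitOpN_comm]

/-- **Sequential step.** -/
theorem HitZ.step {p : T → Prop} [DecidablePred p] {ρ : Representation ℂ (Perm T) W}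
    {D E D' E' : Finset (ℕ × ℕ)} {m n : ℕ} (hm : ∀ c ∈ D, c.2 < m) (hn : ∀ c ∈ D', c.2 < n)
    {Z' Z'' : Set (ℕ × ℕ)} (hZ : Disjoint Z' Z'') {d : T → ℕ}
    (hd : ∀ s t, d s = d t → (p s ↔ p t)) {x : W} (hx : colAsym ρ d x ≠ 0)
    (h'' : colAsym (resRepN p ρ) (resN p d) (colAsym (resRepP p ρ) (resP p d) x) ≠ 0 →
      HitZ (resRepN p ρ) E E' Z'' (colAsym (resRepP p ρ) (resP p d) x))
    (h' : ∀ (G : ({t // ¬ p t} → ℕ × ℕ) → ℂ) (u : {t // ¬ p t} → ℕ × ℕ),
      colAsym (resRepP p ρ) (resP p d) (hitOp (resRepN p ρ) G u x) ≠ 0 →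
      HitZ (resRepP p ρ) D D' Z' (hitOp (resRepN p ρ) G u x)) :
    HitZ ρ (addC m D E) (addC n D' E') (Z' ∪ Z'') x := by
  have h1 : colAsym (resRepN p ρ) (resN p d) (colAsym (resRepP p ρ) (resP p d) x) ≠ 0 := by
    rw [← colAsym_comm, ← colAsym_split p ρ d hd]
    exact hx
  obtain ⟨c'', G'', hG'', hB'', u'', hu'', hZu'', hne''⟩ := h'' h1
  rw [← colAsym_hitOp] at hne''
  obtain ⟨c', G', hG', hB', u', hu', hZu', hne'⟩ := h' G'' u'' hne''
  refine ⟨c' + c'', mulG p G' G'', Kr_glue hm hn hG' hG'', hB'.mul hB'', glueW p u' u'', ?_, ?_, ?_⟩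
  · rw [cost_res p, resP_glueW, resN_glueW, hu', hu'']
  · intro t
    by_cases ht : p t
    · left
      simpa [glueW, ht] using hZu' ⟨t, ht⟩
    · right
      simpa [glueW, ht] using hZu'' ⟨t, ht⟩
  · rw [hitOp_mul ρ hB' hB'' hZ hu' hu'' hZu' hZu'']
    exact hne'

end split

/-- blocks: `pair c` = two columns `c, c - 1`; `rect c k` = `k` columns of length `c`, to be hit by
one-row arrangements; `dup c` = two columns of length `c`, to be hit by arrangements whose columns
are matched in pairs of equal height. -/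
inductive Bk3
  | pair (c : ℕ)
  | rect (c k : ℕ)
  | dup (c : ℕ)
  deriving DecidableEq

namespace Bk3

/-- underlying group of columns -/
def grp : Bk3 → Grp
  | pair c => Grp.pair c
  | rect c k => Grp.rect c k
  | dup c => Grp.rect c 2

/-- condition on the arrangement of the letters of one block: `rk` = row, `col` = column. -/
def OK (κ : Bk3) (T : Type) [Fintype T] (rk col : T → ℕ) : Prop :=
  match κ with
  | pair c => Fintype.card T + 1 = 2 * c ∧ ∀ t, rk t < 4
  | rect c k => Fintype.card T = c * k ∧ ∀ t, rk t = 0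
  | dup c => Fintype.card T = 2 * c ∧ (∀ t, rk t < 4) ∧ ∃ π : T → T, (∀ t, π (π t) = t) ∧
      (∀ t, π t ≠ t) ∧ (∀ t, rk (π t) = rk t) ∧ (∀ s t, col s = col t → col (π s) = col (π t))

theorem OK.congr {κ : Bk3} {S T : Type} [Fintype S] [Fintype T] (e : S ≃ T) {rk col : T → ℕ}
    (h : κ.OK T rk col) : κ.OK S (fun s => rk (e s)) (fun s => col (e s)) := by
  cases κ with
  | pair c =>
    refine ⟨?_, fun s => h.2 _⟩
    rw [Fintype.card_congr e]; exact h.1
  | rect c k =>
    refine ⟨?_, fun s => h.2 _⟩
    rw [Fintype.card_congr e]; exact h.1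
  | dup c =>
    obtain ⟨h1, h2, π, h3, h4, h5, h6⟩ := h
    refine ⟨?_, fun s => h2 _, fun s => e.symm (π (e s)), ?_, ?_, ?_, ?_⟩
    · rw [Fintype.card_congr e]; exact h1
    · intro s; simp [h3]
    · intro s hs
      apply h4 (e s)
      have := congrArg e hs
      simpa using this
    · intro s; simp [h5]
    · intro s t hst; simpa using h6 _ _ hst

/-- one block -/
theorem hit (κ : Bk3) {T : Type} [Fintype T] [DecidableEq T] {W : Type*} [AddCommGroup W]
    [Module ℂ W] (ρ : Representation ℂ (Perm T) W) (rk col : T → ℕ)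
    (hinj : ∀ s t, rk s = rk t → col s = col t → s = t)
    (htop : ∀ t a, a < rk t → ∃ s, rk s = a ∧ col s = col t)
    (hok : κ.OK T rk col) (x : W) (hfix : SwapFixed ρ rk x) (hA : colAsym ρ col x ≠ 0) :
    HitZ ρ κ.grp.shape κ.grp.shape κ.grp.Z x := by
  have hx : x ≠ 0 := by
    rintro rfl
    exact hA (map_zero _)
  cases κ with
  | pair c =>
    obtain ⟨h1, h2⟩ := hok
    exact hitZ_pair c (by omega) h1 ρ rk h2 x hx hfix
  | rect c k =>
    obtain ⟨h1, h2⟩ := hok
    exact hitZ_rect c k h1 ρ rk h2 x hx hfix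
  | dup c =>
    obtain ⟨h1, h2, π, h3, h4, h5, h6⟩ := hok
    exact hitZ_dup c h1 ρ rk col h2 hinj htop π h3 h4 h5 h6 x hfix hA

end Bk3

/-- **The engine**: a list of blocks. -/
theorem hit_list : ∀ (L : List Bk3), validL (L.map Bk3.grp) →
    ∀ {T : Type} [Fintype T] [DecidableEq T] {W : Type*} [AddCommGroup W] [Module ℂ W]
      (ρ : Representation ℂ (Perm T) W) (γ rk col : T → ℕ) (_ : ∀ t, γ t < L.length)
      (_ : ∀ s t, γ s = γ t → rk s = rk t → col s = col t → s = t)
      (_ : ∀ t a, a < rk t → ∃ s, γ s = γ t ∧ rk s = a ∧ col s = col t)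
      (_ : ∀ (i : ℕ) (hi : i < L.length), (L[i]).OK {t // γ t = i} (fun t => rk t) (fun t => col t))
      (x : W) (_ : SwapFixed ρ (fun t => (γ t, rk t)) x)
      (_ : colAsym ρ (fun t => Nat.pair (γ t) (col t)) x ≠ 0),
      HitZ ρ (shapeL (L.map Bk3.grp)) (shapeL (L.map Bk3.grp)) (ZL (L.map Bk3.grp)) x := by
  intro L
  induction L with
  | nil =>
    intro _ T _ _ W _ _ ρ γ rk col hγ _ _ _ x _ hA
    have hT : IsEmpty T := ⟨fun t => by simpa using hγ t⟩
    have hx : x ≠ 0 := by
      rintro rfl
      exact hA (map_zero _)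
    have htab : IsTab (∅ : Finset (ℕ × ℕ)) (fun _ : T => ((0, 0) : ℕ × ℕ)) := by
      constructor
      · intro s; exact (hT.false s).elim
      · ext c
        simp
    refine ⟨0, prodF (polyF fun _ : T => (0, 0)) (polyF fun _ : T => (0, 0)),
      Submodule.subset_span ⟨_, _, htab, htab, rfl⟩, ?_, fun _ => (0, 0), ?_, ?_, ?_⟩
    · intro v _
      exact ⟨Nat.zero_le _, fun _ t => (hT.false t).elim⟩
    · unfold cost
      simp
    · intro t; exact (hT.false t).elim
    · have hone : ∀ w : T → ℕ, polyF (fun _ : T => ((0, 0) : ℕ × ℕ)) w = 1 := by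
        intro w
        unfold polyF
        rw [Fintype.sum_unique]
        have : (default : Perm T) = 1 := Subsingleton.elim _ _
        rw [if_pos ⟨fun i => (hT.false i).elim, fun i => (hT.false i).elim⟩, this]
        simp
      rw [hitOp_apply, Fintype.sum_unique]
      have : (default : Perm T) = 1 := Subsingleton.elim _ _
      rw [this]
      unfold prodF
      rw [hone, hone]
      simpa using hx
  | cons κ L ih =>
    intro hL T _ _ W _ _ ρ γ rk col hγ hinj htop hok x hfix hA
    rw [List.map_cons] at hL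
    obtain ⟨h1, h2, h3⟩ := hL
    let p : T → Prop := fun t => γ t = 0
    have hd : ∀ s t, Nat.pair (γ s) (col s) = Nat.pair (γ t) (col t) → (p s ↔ p t) := by
      intro s t h
      have := (Nat.pair_eq_pair.1 h).1
      simp only [p, this]
    have hdis : Disjoint κ.grp.Z (ZL (L.map Bk3.grp)) := by
      rw [Set.disjoint_left]
      intro c hc1 hc2
      have h4 := κ.grp.Z_gt h1 c hc1
      have h5 := ZL_le h2 c hc2
      omega
    have hdP : ∀ s t : {t // p t}, resP p (fun t => Nat.pair (γ t) (col t)) s =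
        resP p (fun t => Nat.pair (γ t) (col t)) t ↔ col s = col t := by
      intro s t
      change Nat.pair (γ s) (col s) = Nat.pair (γ t) (col t) ↔ _
      rw [Nat.pair_eq_pair]
      have hs : γ s = 0 := s.2
      have ht : γ t = 0 := t.2
      rw [hs, ht]
      simp
    have hdN : ∀ s t : {t // ¬ p t}, resN p (fun t => Nat.pair (γ t) (col t)) s =
        resN p (fun t => Nat.pair (γ t) (col t)) t ↔
        Nat.pair (γ s - 1) (col s) = Nat.pair (γ t - 1) (col t) := by
      intro s t
      change Nat.pair (γ s) (col s) = Nat.pair (γ t) (col t) ↔ _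
      rw [Nat.pair_eq_pair, Nat.pair_eq_pair]
      have hs : γ s ≠ 0 := s.2
      have ht : γ t ≠ 0 := t.2
      constructor
      · rintro ⟨h, h'⟩; exact ⟨by omega, h'⟩
      · rintro ⟨h, h'⟩; exact ⟨by omega, h'⟩
    have key : HitZ ρ (addC κ.grp.width κ.grp.shape (shapeL (L.map Bk3.grp)))
        (addC κ.grp.width κ.grp.shape (shapeL (L.map Bk3.grp)))
        (κ.grp.Z ∪ ZL (L.map Bk3.grp)) x := by
      refine HitZ.step (p := p) κ.grp.shape_lt κ.grp.shape_lt hdis hd hA ?_ ?_
      · intro hne
        rw [colAsym_congr (resRepN p ρ) (d := resN p fun t => Nat.pair (γ t) (col t)) hdN] at hne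
        refine ih h3 (resRepN p ρ) (fun t => γ t - 1) (fun t => rk t) (fun t => col t) ?_ ?_ ?_ ?_
          _ ?_ hne
        · intro t
          have h4 := hγ t
          have h5 : γ t ≠ 0 := t.2
          simp only [List.length_cons] at h4
          omega
        · intro s t ha hb hc
          have hs : γ s ≠ 0 := s.2
          have ht : γ t ≠ 0 := t.2
          exact Subtype.ext (hinj _ _ (by omega) hb hc)
        · intro t a ha
          obtain ⟨s, hs1, hs2, hs3⟩ := htop t a ha
          exact ⟨⟨s, fun h => t.2 (hs1.symm.trans h)⟩, by simp only [hs1], hs2, hs3⟩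
        · intro i hi
          have h4 := hok (i + 1) (by simp only [List.length_cons]; omega)
          let e : {s : {t // ¬ p t} // γ s - 1 = i} ≃ {t // γ t = i + 1} :=
            { toFun := fun s => ⟨s.1.1, by
                have hs : γ s.1.1 ≠ 0 := s.1.2
                have := s.2
                omega⟩
              invFun := fun t => ⟨⟨t.1, by
                have := t.2
                change ¬ γ t.1 = 0
                omega⟩, by
                have := t.2
                simp only
                omega⟩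
              left_inv := fun s => rfl
              right_inv := fun t => rfl }
          exact Bk3.OK.congr e h4
        · intro a b hab
          have hs : γ a ≠ 0 := a.2
          have ht : γ b ≠ 0 := b.2
          rw [colAsymP_comm]
          congr 1
          have h5 : γ a - 1 = γ b - 1 := congrArg Prod.fst hab
          have h6 : rk a = rk b := congrArg Prod.snd hab
          refine hfix.resN p a b ?_
          change (γ a, rk a) = (γ b, rk b)
          rw [h6, show γ a = γ b by omega]
      · intro G u hne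
        rw [colAsym_congr (resRepP p ρ) (d := resP p fun t => Nat.pair (γ t) (col t)) hdP] at hne
        refine κ.hit (resRepP p ρ) (fun t => rk t) (fun t => col t) ?_ ?_ ?_ _ ?_ hne
        · intro s t hb hc
          have hs : γ s = 0 := s.2
          have ht : γ t = 0 := t.2
          exact Subtype.ext (hinj _ _ (by rw [hs, ht]) hb hc)
        · intro t a ha
          obtain ⟨s, hs1, hs2, hs3⟩ := htop t a ha
          exact ⟨⟨s, by change γ s = 0; rw [hs1]; exact t.2⟩, hs2, hs3⟩
        · exact hok 0 (by simp)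
        · intro a b hab
          rw [hitOpN_comm]
          congr 1
          refine hfix.resP p a b ?_
          have hs : γ a = 0 := a.2
          have ht : γ b = 0 := b.2
          change (γ a, rk a) = (γ b, rk b)
          rw [hs, ht]
          exact congrArg _ hab
    exact key

/-- **Matrix form, letters version.** -/
theorem occ_of_blocks (L : List Bk3) (hL : validL (L.map Bk3.grp))
    {T : Type} [Fintype T] [DecidableEq T] {W : Type*} [AddCommGroup W] [Module ℂ W]
    (ρ : Representation ℂ (Perm T) W) (γ rk col : T → ℕ) (hγ : ∀ t, γ t < L.length)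
    (hinj : ∀ s t, γ s = γ t → rk s = rk t → col s = col t → s = t)
    (htop : ∀ t a, a < rk t → ∃ s, γ s = γ t ∧ rk s = a ∧ col s = col t)
    (hok : ∀ (i : ℕ) (hi : i < L.length),
      (L[i]).OK {t // γ t = i} (fun t => rk t) (fun t => col t))
    (x : W) (hfix : SwapFixed ρ (fun t => (γ t, rk t)) x)
    (hA : colAsym ρ (fun t => Nat.pair (γ t) (col t)) x ≠ 0) :
    Occ ρ (Kr T (shapeL (L.map Bk3.grp)) (shapeL (L.map Bk3.grp))) :=
  (hit_list L hL ρ γ rk col hγ hinj htop hok x hfix hA).occ

end Crest.Agent.R195
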