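import Crest.Agent.R195.MF
import Crest.Agent.R195.Hit3
import Crest.Agent.R195.Eng4b

/-! Row 195.  **Matrix form of (B')**: a decomposition of the column heights of `μ` into rows of the
allowed types gives the occurrence of all representations of shape `μ` in `Kr T λ λ`, `λ` the shape
of the list of pieces. -/

set_option autoImplicit false

namespace Crest.Agent.R195

open Finset Function Equiv

namespace Pc

/-- the block of a piece -/
def bk : Pc → Bk4
  | pair c => .pair c
  | rect c k => .rect c k
  | dup c => .dup c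
  | gap c => .gap c

/-- the columns of a piece -/
def cols : Pc → List ℕ
  | pair c => [c, c - 1]
  | rect c k => List.replicate k c
  | dup c => [c, c]
  | gap c => [c, c - 2]

/-- length of the first column -/
def top : Pc → ℕ
  | pair c => c
  | rect c _ => c
  | dup c => c
  | gap c => c

/-- minimal admissible length of the first column -/
def low : Pc → ℕ
  | pair _ => 1
  | rect _ _ => 1
  | dup _ => 1
  | gap _ => 3

/-- bound for the later columns -/
def next : Pc → ℕ
  | pair c => c - 2
  | rect c _ => c - 1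
  | dup c => c - 1
  | gap c => c - 2

theorem bk_cols (p : Pc) : p.bk.cols = p.cols := by cases p <;> rfl
theorem bk_top (p : Pc) : p.bk.top = p.top := by cases p <;> rfl
theorem bk_low (p : Pc) : p.bk.low = p.low := by cases p <;> rfl
theorem bk_next (p : Pc) : p.bk.next = p.next := by cases p <;> rfl

/-- the group of columns of a piece without gap (a gap piece is sent to an inadmissible group) -/
def grp : Pc → Grp
  | pair c => Grp.pair c
  | rect c k => Grp.rect c k
  | dup c => Grp.rect c 2
  | gap _ => Grp.pair 0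

end Pc

/-- admissible lists of pieces -/
def validP : List Pc → Prop
  | [] => True
  | g :: L => g.low ≤ g.top ∧ (∀ h ∈ L, h.top ≤ g.next) ∧ validP L

/-- the columns of a list of pieces -/
def colsP (L : List Pc) : List ℕ := L.flatMap Pc.cols

theorem colsP_nil : colsP [] = [] := rfl

theorem colsP_cons (p : Pc) (L : List Pc) : colsP (p :: L) = p.cols ++ colsP L := rfl

theorem colsP_append (L L' : List Pc) : colsP (L ++ L') = colsP L ++ colsP L' := by
  simp [colsP]

theorem validP_append {L L' : List Pc} (h : validP L) (h' : validP L')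
    (hn : ∀ p ∈ L, ∀ q ∈ L', q.top ≤ p.next) : validP (L ++ L') := by
  induction L with
  | nil => exact h'
  | cons g L ih =>
    obtain ⟨h1, h2, h3⟩ := h
    refine ⟨h1, ?_, ih h3 fun p hp => hn p (List.mem_cons_of_mem _ hp)⟩
    intro q hq
    rcases List.mem_append.1 hq with hq | hq
    · exact h2 q hq
    · exact hn g List.mem_cons_self q hq

theorem colsB_map (L : List Pc) : colsB (L.map Pc.bk) = colsP L := by
  induction L with
  | nil => rfl
  | cons p L ih =>
    change p.bk.cols ++ colsB (L.map Pc.bk) = p.cols ++ colsP L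
    rw [ih, Pc.bk_cols]

theorem validP.toB {L : List Pc} (h : validP L) : validB (L.map Pc.bk) := by
  induction L with
  | nil => trivial
  | cons p L ih =>
    obtain ⟨h1, h2, h3⟩ := h
    refine ⟨by rw [Pc.bk_low, Pc.bk_top]; exact h1, ?_, ih h3⟩
    intro g hg
    obtain ⟨q, hq, rfl⟩ := List.mem_map.1 hg
    rw [Pc.bk_top, Pc.bk_next]
    exact h2 q hq

theorem validP.low_le {L : List Pc} (h : validP L) : ∀ g ∈ L, g.low ≤ g.top := by
  induction L with
  | nil => intro g hg; simp at hg
  | cons a L ih =>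
    obtain ⟨h1, -, h3⟩ := h
    intro g hg
    rcases List.mem_cons.1 hg with rfl | hg
    · exact h1
    · exact ih h3 g hg

theorem PcBlock.ok {T : Type} [Fintype T] [DecidableEq T] {γ rk col : T → ℕ} {i : ℕ} {p : Pc}
    (h : PcBlock γ rk col i p) (hp : p.low ≤ p.top) :
    p.bk.OK {t // γ t = i} (fun t => rk t) (fun t => col t) := by
  cases p with
  | pair c =>
    refine ⟨?_, fun t => h.2 t t.2⟩
    have h1 := h.1
    simp only [Pc.low, Pc.top] at hp
    omega
  | rect c k => exact ⟨h.1, fun t => h.2 t t.2⟩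
  | dup c => exact ⟨h.1, fun t => h.2.1 t t.2, h.2.2⟩
  | gap c =>
    obtain ⟨h1, h2, h3, a0, a1, h4, h5, h6, h7⟩ := h
    simp only [Pc.low, Pc.top] at hp
    refine ⟨?_, fun t => h2 t t.2, h3, a0, a1, h6.symm, h4, h5, h7⟩
    omega

universe u

/-- **Matrix form** for one representation (any number `M` of columns). -/
theorem occ_of_decompP (L : List Pc) (hL : validP L) {T : Type} [Fintype T]
    [DecidableEq T] {W : Type u} [AddCommGroup W] [Module ℂ W] (ρ : Representation ℂ (Perm T) W)
    {μ : YoungDiagram} (e : T ≃ μ.cells) (w : W) (hw : SwapFixed ρ (fun t => (e t).1.1) w)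
    (hA : colAsym ρ (fun t => (e t).1.2) w ≠ 0) (M : ℕ) (hcol0 : ∀ j, M ≤ j → μ.colLen j = 0)
    (hD : Decomp L fun j : Fin M => μ.colLen j) :
    Occ ρ (Kr T (colS (colsP L)) (colS (colsP L))) := by
  obtain ⟨γ, rk, col, x, h1, h2, h3, h4, h5, h6⟩ := blocks_of_decomp' ρ e w hw hA L M hcol0 hD
  have := occ_of_blocks4 (L.map Pc.bk) hL.toB ρ γ rk col
    (by simpa using h1) h2 h3 (by
      intro i hi
      have hi' : i < L.length := by simpa using hi
      rw [List.getElem_map]
      exact (h4 i hi').ok (hL.low_le _ (List.getElem_mem hi'))) x h5 h6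
  rwa [colsB_map] at this

theorem colLen_eq_zero_of_rowLen {μ : YoungDiagram} (j : ℕ) (hj : μ.rowLen 0 ≤ j) :
    μ.colLen j = 0 := by
  by_contra hne
  have h1 : (0, j) ∈ μ := by
    rw [YoungDiagram.mem_iff_lt_colLen]; omega
  rw [YoungDiagram.mem_iff_lt_rowLen] at h1
  omega

/-- **Matrix form** for one shape. -/
theorem occSh_of_decompP (L : List Pc) (hL : validP L) {μ : YoungDiagram}
    (hD : Decomp L fun j : Fin (μ.rowLen 0) => μ.colLen j) :
    OccSh (colS (colsP L)) (colS (colsP L)) μ := by
  intro T _ _ W _ _ ρ hρ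
  obtain ⟨e, w, hw, hA⟩ := hρ
  exact occ_of_decompP L hL ρ e w hw hA (μ.rowLen 0) colLen_eq_zero_of_rowLen hD

/-- **Matrix form** for one shape, any number of columns. -/
theorem occSh_of_decompP' (L : List Pc) (hL : validP L) {μ : YoungDiagram} (M : ℕ)
    (hcol0 : ∀ j, M ≤ j → μ.colLen j = 0) (hD : Decomp L fun j : Fin M => μ.colLen j) :
    OccSh (colS (colsP L)) (colS (colsP L)) μ := by
  intro T _ _ W _ _ ρ hρ
  obtain ⟨e, w, hw, hA⟩ := hρ
  exact occ_of_decompP L hL ρ e w hw hA M hcol0 hD

/-! ### The same for lists without gap pieces, in terms of `validL`, `shapeL` -/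

/-- every member of an admissible list is a nonempty group -/
theorem validL.top_pos {L : List Grp} (h : validL L) : ∀ g ∈ L, 1 ≤ g.top := by
  induction L with
  | nil => intro g hg; simp at hg
  | cons a L ih =>
    obtain ⟨h1, -, h3⟩ := h
    intro g hg
    rcases List.mem_cons.1 hg with rfl | hg
    · exact h1
    · exact ih h3 g hg

theorem Pc.grp_top {p : Pc} (h : 1 ≤ p.grp.top) : p.grp.top = p.top ∧ p.low ≤ p.top ∧
    p.grp.next = p.next ∧ p.grp.width = p.cols.length ∧ p.grp.shape = colS p.cols := by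
  cases p with
  | pair c => exact ⟨rfl, h, rfl, rfl, pairShape_eq c⟩
  | rect c k => exact ⟨rfl, h, rfl, by simp [Pc.grp, Grp.width, Pc.cols], rectShape_eq c k⟩
  | dup c => exact ⟨rfl, h, rfl, rfl, rectShape_eq c 2⟩
  | gap c => exact absurd h (by simp [Pc.grp, Grp.top])

theorem validL.toP {L : List Pc} (h : validL (L.map Pc.grp)) : validP L := by
  have hpos := h.top_pos
  induction L with
  | nil => trivial
  | cons p L ih =>
    rw [List.map_cons] at h
    obtain ⟨h1, h2, h3⟩ := h
    obtain ⟨e1, e2, e3, -, -⟩ := Pc.grp_top h1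
    refine ⟨e2, ?_, ih h3 h3.top_pos⟩
    intro q hq
    have h4 := h3.top_pos _ (List.mem_map_of_mem hq)
    rw [← (Pc.grp_top h4).1, ← e3]
    exact h2 _ (List.mem_map_of_mem hq)

theorem shapeL_eq_colS {L : List Pc} (h : validL (L.map Pc.grp)) :
    shapeL (L.map Pc.grp) = colS (colsP L) := by
  induction L with
  | nil => exact colS_nil.symm
  | cons p L ih =>
    rw [List.map_cons] at h ⊢
    obtain ⟨h1, h2, h3⟩ := h
    obtain ⟨-, -, -, e4, e5⟩ := Pc.grp_top h1
    rw [colsP_cons, colS_append, ← ih h3, ← e4, ← e5]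
    rfl

/-- **Matrix form** for one shape. -/
theorem occSh_of_decomp (L : List Pc) (hL : validL (L.map Pc.grp)) {μ : YoungDiagram}
    (hD : Decomp L fun j : Fin (μ.rowLen 0) => μ.colLen j) :
    OccSh (shapeL (L.map Pc.grp)) (shapeL (L.map Pc.grp)) μ := by
  rw [shapeL_eq_colS hL]
  exact occSh_of_decompP L hL.toP hD

/-- **Matrix form** for one shape, any number of columns. -/
theorem occSh_of_decomp' (L : List Pc) (hL : validL (L.map Pc.grp)) {μ : YoungDiagram} (M : ℕ)
    (hcol0 : ∀ j, M ≤ j → μ.colLen j = 0) (hD : Decomp L fun j : Fin M => μ.colLen j) :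
    OccSh (shapeL (L.map Pc.grp)) (shapeL (L.map Pc.grp)) μ := by
  rw [shapeL_eq_colS hL]
  exact occSh_of_decompP' L hL.toP M hcol0 hD

end Crest.Agent.R195
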