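import Crest.Agent.R195.Rules
import Crest.Agent.R195.HookList
import Crest.Agent.R195.MFinal

/-! Row 195 (helper563).  RULE 1 and RULE 2 for shapes given by the list of their principal hooks. -/

set_option autoImplicit false

namespace Crest.Agent.R195

open Finset Function

/-- numerical condition of the hook step -/
def HC (p : ℕ) (ps : List ℕ) : Prop :=
  ∀ s, s < p - 1 → 2 * (cl ps s + 1) ≤ max p (2 * p - (s + 1))

theorem HC.ok {p : ℕ} {ps : List ℕ} (hv : ValidH (p :: ps)) (h : HC p ps) :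
    HookOK p (hkY ps hv.2) := by
  have h1 := hv.1
  rw [← cl_zero] at h1
  refine HookOK.of_selfconj (by omega) (hkY_transpose ps hv.2) ?_ ?_
  · rw [hkY_colLen]; omega
  · intro s hs
    rw [hkY_colLen]
    exact h s hs

/-- The heights `H` of the columns of a diagram with `n` cells, `w` columns, `w₂` columns of height
at least two, short in both directions, not higher than wide. -/
structure Region (n B w w₂ : ℕ) (H : ℕ → ℕ) : Prop where
  anti : Antitone H
  pos : ∀ j, j < w ↔ 0 < H j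
  two : ∀ j, j < w₂ ↔ 1 < H j
  sum : ∑ j ∈ range w, H j = n
  col : H 0 + H 1 ≤ 2 * B
  row : w + w₂ ≤ 2 * B
  wlog : H 0 ≤ w

theorem sum_colLen (μ : YoungDiagram) : ∑ j ∈ range (μ.rowLen 0), μ.colLen j = μ.card := by
  have h1 := sum_rowLen_eq_card (μ := μ.transpose) (k := μ.rowLen 0) (by
    rw [YoungDiagram.rowLen_transpose]
    by_contra hne
    have h2 := YoungDiagram.mem_iff_lt_colLen.2 (Nat.pos_of_ne_zero hne)
    have h3 := YoungDiagram.mem_iff_lt_rowLen.1 h2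
    omega)
  rw [card_transpose'] at h1
  rw [← h1]
  exact Finset.sum_congr rfl fun j _ => (YoungDiagram.rowLen_transpose μ j).symm

theorem region_of_young {μ : YoungDiagram} {n B : ℕ} (hn : μ.card = n)
    (h1 : μ.rowLen 0 + μ.rowLen 1 ≤ 2 * B) (h2 : μ.colLen 0 + μ.colLen 1 ≤ 2 * B)
    (h3 : μ.colLen 0 ≤ μ.rowLen 0) : Region n B (μ.rowLen 0) (μ.rowLen 1) μ.colLen where
  anti := fun _ _ h => μ.colLen_anti _ _ h
  pos := fun j => by
    rw [← YoungDiagram.mem_iff_lt_rowLen, YoungDiagram.mem_iff_lt_colLen]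
  two := fun j => by
    rw [← YoungDiagram.mem_iff_lt_rowLen, YoungDiagram.mem_iff_lt_colLen]
  sum := by rw [sum_colLen, hn]
  col := h2
  row := h1
  wlog := h3

theorem occSh_hk_of_decomp {ps : List ℕ} {μ : YoungDiagram} (L : List Pc)
    (hL : validL (L.map Pc.grp)) (hs : shapeL (L.map Pc.grp) = hk ps)
    (hD : Decomp L fun j : Fin (μ.rowLen 0) => μ.colLen j) : OccSh (hk ps) (hk ps) μ := by
  rw [← hs]
  exact occSh_of_decomp L hL hD

/-- **RULE 1** for hook lists. -/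
theorem rule1 {p : ℕ} {ps : List ℕ} (hv : ValidH (p :: ps)) (hc : HC p ps) (hf : FullH ps)
    (hcov : ∀ μ : YoungDiagram, μ.card = hsize (p :: ps) →
      Region (hsize (p :: ps)) (p - 1) (μ.rowLen 0) (μ.rowLen 1) μ.colLen →
      OccSh (hk (p :: ps)) (hk (p :: ps)) μ) : FullH (p :: ps) := by
  have hcard : hsize (p :: ps) = p + (p - 1) + (hkY ps hv.2).card := by
    rw [hkY_card]; rfl
  refine full_hook (κ := hkY ps hv.2) (hc.ok hv) (hk_swap ps) hf ?_
  intro μ hμ h1 h2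
  have h3 : 2 * p - 2 = 2 * (p - 1) := by omega
  rw [h3] at h1 h2
  have hμ' : μ.card = hsize (p :: ps) := hμ.trans hcard.symm
  rcases le_total (μ.colLen 0) (μ.rowLen 0) with h | h
  · left
    exact hcov μ hμ' (region_of_young hμ' h1 h2 h)
  · right
    refine hcov μ.transpose (by rw [card_transpose']; exact hμ')
      (region_of_young (by rw [card_transpose']; exact hμ') ?_ ?_ ?_)
    · rw [YoungDiagram.rowLen_transpose, YoungDiagram.rowLen_transpose]; exact h2
    · rw [YoungDiagram.colLen_transpose, YoungDiagram.colLen_transpose]; exact h1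
    · rw [YoungDiagram.rowLen_transpose, YoungDiagram.colLen_transpose]; exact h

/-- **RULE 1**, decomposition form. -/
theorem rule1_decomp {p : ℕ} {ps : List ℕ} (hv : ValidH (p :: ps)) (hc : HC p ps) (hf : FullH ps)
    (hcov : ∀ (H : ℕ → ℕ) (w w₂ : ℕ), Region (hsize (p :: ps)) (p - 1) w w₂ H →
      ∃ L : List Pc, validL (L.map Pc.grp) ∧ shapeL (L.map Pc.grp) = hk (p :: ps) ∧
        Decomp L fun j : Fin w => H j) : FullH (p :: ps) := by
  refine rule1 hv hc hf fun μ _ hr => ?_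
  obtain ⟨L, h1, h2, h3⟩ := hcov _ _ _ hr
  exact occSh_hk_of_decomp L h1 h2 h3

/-- **RULE 2** for hook lists: two layers around a full shape; the diagrams with short columns
(and without four long rows) have to be covered. -/
theorem rule2 {p₁ p₂ : ℕ} {ps : List ℕ} (hv : ValidH (p₁ :: p₂ :: ps)) (hc₁ : HC p₁ (p₂ :: ps))
    (hc₂ : HC p₂ ps) (hp : p₂ + 2 ≤ p₁) (hf : FullH ps)
    (hcov : ∀ μ : YoungDiagram, μ.card = hsize (p₁ :: p₂ :: ps) →
      μ.colLen 0 + μ.colLen 1 ≤ 2 * p₁ - 2 →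
      ¬ (2 * p₁ - 1 ≤ μ.rowLen 0 + μ.rowLen 1 ∧
        2 * p₁ - 1 + p₂ ≤ μ.rowLen 0 + μ.rowLen 1 + μ.rowLen 2 ∧
        2 * p₁ - 1 + (2 * p₂ - 1) ≤ μ.rowLen 0 + μ.rowLen 1 + μ.rowLen 2 + μ.rowLen 3) →
      OccSh (hk (p₁ :: p₂ :: ps)) (hk (p₁ :: p₂ :: ps)) μ ∨
        OccSh (hk (p₁ :: p₂ :: ps)) (hk (p₁ :: p₂ :: ps)) μ.transpose) :
    FullH (p₁ :: p₂ :: ps) := by
  have hcard : hsize (p₁ :: p₂ :: ps) = p₁ + (p₁ - 1) + (hkY (p₂ :: ps) hv.2).card := by
    rw [hkY_card]; rfl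
  exact full_hook_hook (κ₂ := hkY ps hv.2.2) (κ := hkY (p₂ :: ps) hv.2) rfl (hc₁.ok hv)
    (hc₂.ok hv.2) (hk_swap (p₂ :: ps)) hf hp fun μ hμ h1 h2 => hcov μ (hμ.trans hcard.symm) h1 h2

end Crest.Agent.R195
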