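import Crest.Agent.R195.CertFast
import Crest.Agent.R195.RulesL

/-!
Row 195.  Certificate tables for the shapes `hk ps` (helper895).
-/

set_option autoImplicit false
set_option linter.unusedSectionVars false

namespace Crest.Agent.R195

open Finset Function

/-- column heights of `hk ps` as a list -/
def clList (ps : List ℕ) : List ℕ := (List.range (cl ps 0)).map (cl ps)

theorem clList_getD {ps : List ℕ} (hv : ValidH ps) (j : ℕ) : (clList ps).getD j 0 = cl ps j := by
  unfold clList
  rw [List.getD_eq_getElem?_getD]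
  by_cases h : j < cl ps 0
  · rw [List.getElem?_map, List.getElem?_range h]
    rfl
  · rw [List.getElem?_eq_none (by simpa using Nat.le_of_not_lt h), Option.getD_none]
    rw [cl_eq_zero hv (by omega)]

theorem hk_eq_cellsH {ps : List ℕ} (hv : ValidH ps) {H : List ℕ} (hH : clList ps = H) :
    hk ps = cellsH H := by
  ext c
  rw [mem_hk hv, mem_cellsH, ← hH, clList_getD hv]

theorem sum_of_clList {ps : List ℕ} (hv : ValidH ps) {H : List ℕ} (hH : clList ps = H) {n : ℕ}
    (hn : hsize ps = n) : H.sum = n := by
  rw [← card_cellsH, ← hk_eq_cellsH hv hH, card_hk, hn]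

/-- A piece of a table has been checked. -/
def TabOK (ps : List ℕ) (n : ℕ) (tb : List Entry) : Prop :=
  ∀ μ : YoungDiagram, μ.card = n → inTab tb (colLens μ) = true → OccSh (hk ps) (hk ps) μ

theorem tabOK_of_fast {ps : List ℕ} (hv : ValidH ps) {H : List ℕ} (hH : clList ps = H) {n : ℕ}
    (hn : hsize ps = n) (h64 : n ≤ 64) {tb : List Entry}
    (h : (tb.all fun x => x.fast n H) = true) : TabOK ps n tb := by
  intro μ hμ hin
  rw [List.all_eq_true] at h
  unfold inTab at hin
  rw [List.any_eq_true] at hin
  obtain ⟨x, hx, hx2⟩ := hin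
  rw [hk_eq_cellsH hv hH]
  exact occSh_of_fast (sum_of_clList hv hH hn) h64 (h x hx) hμ (eqL_iff.mp hx2).symm

theorem inTab_append (tb₁ tb₂ : List Entry) (p : List ℕ) :
    inTab (tb₁ ++ tb₂) p = (inTab tb₁ p || inTab tb₂ p) := by
  unfold inTab
  rw [List.any_append]

theorem TabOK.append {ps : List ℕ} {n : ℕ} {tb₁ tb₂ : List Entry} (h1 : TabOK ps n tb₁)
    (h2 : TabOK ps n tb₂) : TabOK ps n (tb₁ ++ tb₂) := by
  intro μ hμ hin
  rw [inTab_append, Bool.or_eq_true] at hin
  rcases hin with h | h
  · exact h1 μ hμ h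
  · exact h2 μ hμ h

/-- Fullness from a table for all shapes (up to transposition). -/
theorem fullH_of_table {ps : List ℕ} {n : ℕ} (hn : hsize ps = n)
    {tb : List Entry} (h1 : TabOK ps n tb)
    (h2 : ((parts n n n).all fun p => inTab tb p || inTab tb (conjL p)) = true) : FullH ps := by
  rw [List.all_eq_true] at h2
  apply full_of_occSh
  intro μ hμ
  rw [card_hk, hn] at hμ
  have h3 := h2 _ (colLens_mem_parts μ hμ)
  rw [Bool.or_eq_true] at h3
  rcases h3 with h | h
  · exact h1 μ hμ h
  · apply OccSh.of_transpose (hk_swap ps)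
    rw [← colLens_transpose] at h
    exact h1 _ (by rw [Crest.Agent.R195.card_transpose, hμ]) h

theorem filter_length (μ : YoungDiagram) (i : ℕ) (hi : i < μ.colLen 0) :
    ((colLens μ).filter fun x => Nat.blt i x).length = μ.rowLen i := by
  have h := colLens_getD μ.transpose i
  rw [YoungDiagram.colLen_transpose, colLens_transpose] at h
  rw [← h]
  unfold conjL
  have hhead : (colLens μ).headD 0 = μ.colLen 0 := by
    have h1 := colLens_getD μ 0
    rw [← h1]
    cases colLens μ <;> simp
  rw [hhead, List.getD_eq_getElem?_getD, List.getElem?_map, List.getElem?_range hi]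
  rfl

/-- short in both directions, not higher than wide; `p` is a list of column heights -/
def regL (B : ℕ) (p : List ℕ) : Bool :=
  and (Nat.ble (p.getD 0 0 + p.getD 1 0) (2 * B))
    (and (Nat.ble (p.length + (p.filter fun x => Nat.blt 1 x).length) (2 * B))
      (Nat.ble (p.getD 0 0) p.length))

theorem regL_of_region {μ : YoungDiagram} {n B : ℕ}
    (h : Region n B (μ.rowLen 0) (μ.rowLen 1) μ.colLen) : regL B (colLens μ) = true := by
  unfold regL
  rw [Bool.and_eq_true, Bool.and_eq_true, colLens_getD, colLens_getD, colLens_length,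
    Nat.ble_eq, Nat.ble_eq, Nat.ble_eq]
  refine ⟨h.col, ?_, h.wlog⟩
  by_cases h1 : 1 < μ.colLen 0
  · rw [filter_length μ 1 h1]
    exact h.row
  · have h2 : μ.rowLen 1 = 0 := by
      by_contra hne
      have h3 : (1, 0) ∈ μ := YoungDiagram.mem_iff_lt_rowLen.mpr (Nat.pos_of_ne_zero hne)
      exact h1 (YoungDiagram.mem_iff_lt_colLen.mp h3)
    have h3 : (colLens μ).filter (fun x => Nat.blt 1 x) = [] := by
      rw [List.filter_eq_nil_iff]
      intro x hx
      rw [colLens_eq_map, List.mem_map] at hx
      obtain ⟨j, -, rfl⟩ := hx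
      have := μ.colLen_anti 0 j (Nat.zero_le _)
      intro h4
      have : 1 < μ.colLen j := Nat.le_of_ble_eq_true h4
      omega
    rw [h3, List.length_nil, Nat.add_zero]
    have := h.row
    omega

/-- Fullness from a table for the shapes that are short in both directions. -/
theorem fullH_of_region_table {p : ℕ} {ps : List ℕ} (hv : ValidH (p :: ps)) (hc : HC p ps)
    (hf : FullH ps) {n : ℕ} (hn : hsize (p :: ps) = n) {tb : List Entry}
    (h1 : TabOK (p :: ps) n tb)
    (h2 : ((parts n n n).all fun q => !(regL (p - 1) q) || inTab tb q || inTab tb (conjL q)) = true) :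
    FullH (p :: ps) := by
  rw [List.all_eq_true] at h2
  refine rule1 hv hc hf fun μ hμ hr => ?_
  rw [hn] at hμ
  have h3 := h2 _ (colLens_mem_parts μ hμ)
  rw [regL_of_region hr] at h3
  simp only [Bool.not_true, Bool.false_or, Bool.or_eq_true] at h3
  rcases h3 with h | h
  · exact h1 μ hμ h
  · apply OccSh.of_transpose (hk_swap (p :: ps))
    rw [← colLens_transpose] at h
    exact h1 _ (by rw [Crest.Agent.R195.card_transpose, hμ]) h

end Crest.Agent.R195
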