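import Crest.Agent.R195.CertMix3
import Crest.Agent.R195.CertHook

/-!
Row 195.  The four diagrams `(19,1)`, `(18,2)`, `(18,1,1)`, `(17,1,1,1)` of size 20 occur in the square
of `hk [5, 4, 2, 1]` (helper563).
-/

set_option autoImplicit false

namespace Crest.Agent.R195

open Finset

theorem occSh_hk_of_mix3 {ps : List ℕ} (hv : ValidH ps) {H : List ℕ} (hH : clList ps = H) {n : ℕ}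
    (hn : hsize ps = n) {q : List ℕ} (hd h0 tl : List Lt) (hlen : (hd ++ (h0 ++ tl)).length = n)
    (h : mix3OK H H q hd h0 tl = true) {μ : YoungDiagram} (hμ : μ.card = n)
    (hq : colLens μ = q) : OccSh (hk ps) (hk ps) μ := by
  rw [hk_eq_cellsH hv hH]
  have hc : (cellsH H).card = (hd ++ (h0 ++ tl)).length := by
    rw [card_cellsH, sum_of_clList hv hH hn, hlen]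
  exact occSh_of_mix3OK (fun c => mem_cellsH) (fun c => mem_cellsH) hd h0 tl hc hc (by rw [hμ, hlen])
    (by rw [hq]; exact h)

theorem cx20_0 {μ : YoungDiagram} (hμ : μ.card = 20)
    (hq : colLens μ = [2, 1, 1, 1, 1, 1, 1, 1, 1, 1, 1, 1, 1, 1, 1, 1, 1, 1, 1]) :
    OccSh (hk [5, 4, 2, 1]) (hk [5, 4, 2, 1]) μ := by
  refine occSh_hk_of_mix3 (H := [5, 5, 4, 4, 2]) (by decide) (by decide) (by decide)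
    [⟨4, 0, 4, 0, 1, 0⟩]
    [⟨0, 4, 0, 4, 0, 0⟩]
    [⟨0, 0, 0, 0, 0, 1⟩,
      ⟨1, 0, 1, 0, 0, 2⟩,
      ⟨2, 0, 2, 0, 0, 3⟩,
      ⟨3, 0, 3, 0, 0, 4⟩,
      ⟨0, 1, 0, 1, 0, 5⟩,
      ⟨1, 1, 1, 1, 0, 6⟩,
      ⟨2, 1, 2, 1, 0, 7⟩,
      ⟨3, 1, 3, 1, 0, 8⟩,
      ⟨4, 1, 4, 1, 0, 9⟩,
      ⟨0, 2, 0, 2, 0, 10⟩,
      ⟨1, 2, 1, 2, 0, 11⟩,
      ⟨2, 2, 2, 2, 0, 12⟩,
      ⟨3, 2, 3, 2, 0, 13⟩,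
      ⟨0, 3, 0, 3, 0, 14⟩,
      ⟨1, 3, 1, 3, 0, 15⟩,
      ⟨2, 3, 2, 3, 0, 16⟩,
      ⟨3, 3, 3, 3, 0, 17⟩,
      ⟨1, 4, 1, 4, 0, 18⟩]
    (by decide) ?_ hμ hq
  decide +kernel

theorem cx20_1 {μ : YoungDiagram} (hμ : μ.card = 20)
    (hq : colLens μ = [2, 2, 1, 1, 1, 1, 1, 1, 1, 1, 1, 1, 1, 1, 1, 1, 1, 1]) :
    OccSh (hk [5, 4, 2, 1]) (hk [5, 4, 2, 1]) μ := by
  refine occSh_hk_of_mix3 (H := [5, 5, 4, 4, 2]) (by decide) (by decide) (by decide)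
    [⟨4, 0, 4, 0, 1, 0⟩, ⟨4, 1, 4, 1, 1, 1⟩]
    [⟨0, 4, 0, 4, 0, 0⟩, ⟨1, 4, 1, 4, 0, 1⟩]
    [⟨0, 0, 0, 0, 0, 2⟩,
      ⟨1, 0, 1, 0, 0, 3⟩,
      ⟨2, 0, 2, 0, 0, 4⟩,
      ⟨3, 0, 3, 0, 0, 5⟩,
      ⟨0, 1, 0, 1, 0, 6⟩,
      ⟨1, 1, 1, 1, 0, 7⟩,
      ⟨2, 1, 2, 1, 0, 8⟩,
      ⟨3, 1, 3, 1, 0, 9⟩,
      ⟨0, 2, 0, 2, 0, 10⟩,
      ⟨1, 2, 1, 2, 0, 11⟩,
      ⟨2, 2, 2, 2, 0, 12⟩,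
      ⟨3, 2, 3, 2, 0, 13⟩,
      ⟨0, 3, 0, 3, 0, 14⟩,
      ⟨1, 3, 1, 3, 0, 15⟩,
      ⟨2, 3, 2, 3, 0, 16⟩,
      ⟨3, 3, 3, 3, 0, 17⟩]
    (by decide) ?_ hμ hq
  decide +kernel

theorem cx20_2 {μ : YoungDiagram} (hμ : μ.card = 20)
    (hq : colLens μ = [3, 1, 1, 1, 1, 1, 1, 1, 1, 1, 1, 1, 1, 1, 1, 1, 1, 1]) :
    OccSh (hk [5, 4, 2, 1]) (hk [5, 4, 2, 1]) μ := by
  refine occSh_hk_of_mix3 (H := [5, 5, 4, 4, 2]) (by decide) (by decide) (by decide)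
    [⟨3, 2, 3, 2, 2, 0⟩, ⟨4, 0, 4, 0, 1, 0⟩]
    [⟨0, 4, 0, 4, 0, 0⟩]
    [⟨0, 0, 0, 0, 0, 1⟩,
      ⟨1, 0, 1, 0, 0, 2⟩,
      ⟨2, 0, 2, 0, 0, 3⟩,
      ⟨3, 0, 3, 0, 0, 4⟩,
      ⟨0, 1, 0, 1, 0, 5⟩,
      ⟨1, 1, 1, 1, 0, 6⟩,
      ⟨2, 1, 2, 1, 0, 7⟩,
      ⟨3, 1, 3, 1, 0, 8⟩,
      ⟨4, 1, 4, 1, 0, 9⟩,
      ⟨0, 2, 0, 2, 0, 10⟩,
      ⟨1, 2, 1, 2, 0, 11⟩,
      ⟨2, 2, 2, 2, 0, 12⟩,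
      ⟨0, 3, 0, 3, 0, 13⟩,
      ⟨1, 3, 1, 3, 0, 14⟩,
      ⟨2, 3, 2, 3, 0, 15⟩,
      ⟨3, 3, 3, 3, 0, 16⟩,
      ⟨1, 4, 1, 4, 0, 17⟩]
    (by decide) ?_ hμ hq
  decide +kernel

theorem cx20_3 {μ : YoungDiagram} (hμ : μ.card = 20)
    (hq : colLens μ = [4, 1, 1, 1, 1, 1, 1, 1, 1, 1, 1, 1, 1, 1, 1, 1, 1]) :
    OccSh (hk [5, 4, 2, 1]) (hk [5, 4, 2, 1]) μ := by
  refine occSh_hk_of_mix3 (H := [5, 5, 4, 4, 2]) (by decide) (by decide) (by decide)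
    [⟨3, 2, 1, 4, 2, 0⟩, ⟨1, 4, 4, 0, 3, 0⟩, ⟨4, 0, 3, 2, 1, 0⟩]
    [⟨0, 4, 0, 4, 0, 0⟩]
    [⟨0, 0, 0, 0, 0, 1⟩,
      ⟨1, 0, 1, 0, 0, 2⟩,
      ⟨2, 0, 2, 0, 0, 3⟩,
      ⟨3, 0, 3, 0, 0, 4⟩,
      ⟨0, 1, 0, 1, 0, 5⟩,
      ⟨1, 1, 1, 1, 0, 6⟩,
      ⟨2, 1, 2, 1, 0, 7⟩,
      ⟨3, 1, 3, 1, 0, 8⟩,
      ⟨4, 1, 4, 1, 0, 9⟩,
      ⟨0, 2, 0, 2, 0, 10⟩,
      ⟨1, 2, 1, 2, 0, 11⟩,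
      ⟨2, 2, 2, 2, 0, 12⟩,
      ⟨0, 3, 0, 3, 0, 13⟩,
      ⟨1, 3, 1, 3, 0, 14⟩,
      ⟨2, 3, 2, 3, 0, 15⟩,
      ⟨3, 3, 3, 3, 0, 16⟩]
    (by decide) ?_ hμ hq
  decide +kernel

/-- the four shapes as a table (only the column heights matter) -/
def cx20_tb : List Entry :=
 [⟨[2, 1, 1, 1, 1, 1, 1, 1, 1, 1, 1, 1, 1, 1, 1, 1, 1, 1, 1], 20, 0, 0, 0⟩,
  ⟨[2, 2, 1, 1, 1, 1, 1, 1, 1, 1, 1, 1, 1, 1, 1, 1, 1, 1], 20, 0, 0, 0⟩,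
  ⟨[3, 1, 1, 1, 1, 1, 1, 1, 1, 1, 1, 1, 1, 1, 1, 1, 1, 1], 20, 0, 0, 0⟩,
  ⟨[4, 1, 1, 1, 1, 1, 1, 1, 1, 1, 1, 1, 1, 1, 1, 1, 1], 20, 0, 0, 0⟩]

theorem cx20_tabOK : TabOK [5, 4, 2, 1] 20 cx20_tb := by
  intro μ hμ hin
  unfold inTab cx20_tb at hin
  simp only [List.any_cons, List.any_nil, Bool.or_false, Bool.or_eq_true, eqL_iff] at hin
  rcases hin with h | h | h | h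
  · exact cx20_0 hμ h.symm
  · exact cx20_1 hμ h.symm
  · exact cx20_2 hμ h.symm
  · exact cx20_3 hμ h.symm

end Crest.Agent.R195
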