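import Crest.Agent.R195.CertList

/-! Row 195, certificates (generated, helper895) for exceptional diagrams of the shape with hooks [7, 5, 4, 2, 1]. -/

set_option autoImplicit false
set_option maxRecDepth 100000

namespace Crest.Agent.R195

/-- certificates -/
def cx33_t0 : List Entry :=
 [
  ⟨[6, 6, 6, 5, 5, 5], 33, 0, 331496096133990911309063411418820971499767286761537228805315454437452041060453543302977255271104618449767615518563749963679396922236681604122771248800551197638477873608770275182933812899417699137900140068157639679488153981660721236770613894238927654821988106600693235694279645149395778184993503000582428919429737577375787305525042395125374904233241049571712, 0⟩,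
  ⟨[6, 6, 6, 6, 5, 4], 33, 0, 201188147025819225008575822430289358939337008757012207854404587270194582372847377916499905212238185631856988287756926097119989606105814486373157045768404253941388498389367014918851882419711731444136243783744147369063645002139219133816418122017399755430848532031679194399460428415539108380515162662738967166694513927095576883730303876054405207642746076799360, 0⟩,
  ⟨[6, 6, 6, 6, 6, 3], 33, 0, 1027057199716673204739884354304542420630101343057586643688480098312750419050530579234547101358157311518993120091488825797483581468794490482844900064171467879019295793055540755918024597175280968547790966201351494113619103341924841789197271171745216347004882783369215307300119904168150982656656668736761235656385922452876746883154052984901120358513386983808, 0⟩]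

theorem cx33_ok0 : (cx33_t0.all fun x => x.fast 33 [7, 6, 6, 5, 5, 3, 1]) = true := by decide +kernel

/-- all certificates -/
def cx33_tb : List Entry := cx33_t0

theorem cx33_tabOK : TabOK [7, 5, 4, 2, 1] 33 cx33_tb :=
  (tabOK_of_fast (by decide) (by decide) (by decide) (by decide) cx33_ok0)

/-- the exceptional column lists -/
def cx33_qs : List (List ℕ) :=
 [  [6, 6, 6, 5, 5, 5],
  [6, 6, 6, 6, 5, 4],
  [6, 6, 6, 6, 6, 3]]

theorem cx33_cov : covL cx33_qs cx33_tb = true := by
  decide +kernel

theorem cx33_pos : ∀ q ∈ cx33_qs, ∀ x ∈ q, 0 < x := by
  decide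

/-- all exceptional diagrams occur -/
theorem cx33_occ {μ : YoungDiagram} (hμ : μ.card = 33) (hq : colLens μ ∈ cx33_qs) :
    OccSh (hk [7, 5, 4, 2, 1]) (hk [7, 5, 4, 2, 1]) μ :=
  occ_of_covL cx33_tabOK cx33_cov hμ hq

theorem cx33_occ' {μ : YoungDiagram} (hμ : μ.card = 33) {q : List ℕ} (hq : q ∈ cx33_qs)
    (h : ∀ j, μ.colLen j = q.getD j 0) : OccSh (hk [7, 5, 4, 2, 1]) (hk [7, 5, 4, 2, 1]) μ :=
  occ_of_covL' cx33_tabOK cx33_cov hμ hq (cx33_pos q hq) h

theorem cx33_hexc : ∀ q ∈ cx33_qs, ∀ μ : YoungDiagram, μ.card = 33 →
    (List.range (μ.rowLen 0)).map μ.colLen = q → OccSh (hk [7, 5, 4, 2, 1]) (hk [7, 5, 4, 2, 1]) μ :=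
  fun q hq μ hμ h => cx33_occ hμ (by rw [colLens_eq_map, h]; exact hq)

end Crest.Agent.R195
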