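import Crest.Agent.R195.Shape

/-!
Row 195.  Certificate lemma (helper895).

If `w` is fixed by the row group of a tableau `e` and the column antisymmetrizer of `e` does not kill
`w`, and if `R_e κ_e v ≠ 0` for some `v` in a second representation, then there is a nonzero
intertwining map from the first to the second representation.
-/

set_option autoImplicit false

namespace Crest.Agent.R195

open Equiv Finset

/-! ### Sums of distinct naturals -/

lemma sum_range_lt_of_ne (S : Finset ℕ) (h : S ≠ range S.card) :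
    ∑ x ∈ range S.card, x < ∑ x ∈ S, x := by
  classical
  set m := S.card with hm
  have hcard : (S \ range m).card = (range m \ S).card := by
    have h1 := Finset.card_sdiff_add_card_inter S (range m)
    have h2 := Finset.card_sdiff_add_card_inter (range m) S
    rw [Finset.inter_comm] at h2
    rw [card_range] at h2
    omega
  have hne : (S \ range m).Nonempty := by
    rw [Finset.nonempty_iff_ne_empty]
    intro he
    have hsub : S ⊆ range m := Finset.sdiff_eq_empty_iff_subset.mp he
    exact h (Finset.eq_of_subset_of_card_le hsub (by rw [card_range]))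
  have e1 : ∑ x ∈ S, x = ∑ x ∈ S \ range m, x + ∑ x ∈ S ∩ range m, x := by
    rw [← Finset.sum_sdiff (Finset.inter_subset_left : S ∩ range m ⊆ S), Finset.sdiff_inter_self_left]
  have e2 : ∑ x ∈ range m, x = ∑ x ∈ range m \ S, x + ∑ x ∈ S ∩ range m, x := by
    rw [← Finset.sum_sdiff (Finset.inter_subset_right : S ∩ range m ⊆ range m),
      Finset.sdiff_inter_self_right]
  have b1 : (S \ range m).card • m ≤ ∑ x ∈ S \ range m, x := by
    apply Finset.card_nsmul_le_sum
    intro x hx
    rw [Finset.mem_sdiff, mem_range] at hx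
    omega
  have b2 : ∑ x ∈ range m \ S, (x + 1) ≤ (range m \ S).card • m := by
    apply Finset.sum_le_card_nsmul
    intro x hx
    rw [Finset.mem_sdiff, mem_range] at hx
    omega
  rw [Finset.sum_add_distrib, Finset.sum_const, smul_eq_mul, smul_eq_mul, mul_one, ← hcard] at b2
  rw [smul_eq_mul] at b1
  have hpos := hne.card_pos
  omega

lemma sum_range_le_sum (S : Finset ℕ) : ∑ x ∈ range S.card, x ≤ ∑ x ∈ S, x := by
  by_cases h : S = range S.card
  · rw [← h]
  · exact (sum_range_lt_of_ne S h).le

section james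

variable {T : Type*} [Fintype T] [DecidableEq T]

omit [DecidableEq T] in
/-- James's lemma: if `g` sends letters of the same column to different rows, then `g` agrees,
as far as rows are concerned, with a column permutation. -/
theorem cert_james {μ : YoungDiagram} (e : T ≃ μ.cells) (g : Perm T)
    (h : ∀ a b, (e a).1.2 = (e b).1.2 → (e (g a)).1.1 = (e (g b)).1.1 → a = b) :
    ∃ k : Perm T, (∀ t, (e (k t)).1.2 = (e t).1.2) ∧ ∀ t, (e (k t)).1.1 = (e (g t)).1.1 := by
  classical
  set col : T → ℕ := fun t => (e t).1.2 with hcol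
  set row : T → ℕ := fun t => (e t).1.1 with hrow
  -- the letters of column `j`
  let C : ℕ → Finset T := fun j => univ.filter fun t => col t = j
  have hCmem : ∀ j t, t ∈ C j ↔ col t = j := fun j t => by simp [C]
  let S : ℕ → Finset ℕ := fun j => (C j).image fun t => row (g t)
  have hScard : ∀ j, (S j).card = (C j).card := by
    intro j
    apply Finset.card_image_of_injOn
    intro a ha b hb hab
    rw [Finset.mem_coe, hCmem] at ha hb
    exact h a b (ha.trans hb.symm) hab
  have hSsum : ∀ j, ∑ x ∈ S j, x = ∑ t ∈ C j, row (g t) := by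
    intro j
    apply Finset.sum_image
    intro a ha b hb hab
    rw [Finset.mem_coe, hCmem] at ha hb
    exact h a b (ha.trans hb.symm) hab
  have hrowinj : ∀ j, ∀ a ∈ C j, ∀ b ∈ C j, row a = row b → a = b := by
    intro j a ha b hb hab
    rw [hCmem] at ha hb
    exact e.injective (Subtype.ext (Prod.ext hab (ha.trans hb.symm)))
  have hCrange : ∀ j, (C j).image row = range (C j).card := by
    intro j
    have hcard : ((C j).image row).card = (C j).card :=
      Finset.card_image_of_injOn fun a ha b hb hab => hrowinj j a ha b hb hab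
    -- lower set
    have hlow : ∀ x ∈ (C j).image row, ∀ y, y < x → y ∈ (C j).image row := by
      intro x hx y hy
      obtain ⟨t, ht, rfl⟩ := Finset.mem_image.mp hx
      have hmem : (y, j) ∈ μ.cells := by
        have h0 : ((e t).1.1, (e t).1.2) ∈ μ.cells := (e t).2
        have ht' : (e t).1.2 = j := (hCmem j t).mp ht
        rw [ht'] at h0
        exact μ.up_left_mem (le_of_lt hy) le_rfl h0
      refine Finset.mem_image.mpr ⟨e.symm ⟨(y, j), hmem⟩, ?_, ?_⟩
      · rw [hCmem]; simp [hcol]
      · simp [hrow]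
    by_contra hne
    rw [← hcard] at hne
    -- some element of range is missing, so some element of the image is ≥ card
    obtain ⟨x, hx, hx2⟩ : ∃ x ∈ (C j).image row, ((C j).image row).card ≤ x := by
      by_contra hcon
      push Not at hcon
      apply hne
      apply Finset.eq_of_subset_of_card_le
      · intro x hx
        rw [mem_range]
        exact hcon x hx
      · rw [card_range]
    have hsub : range (x + 1) ⊆ (C j).image row := by
      intro y hy
      rw [mem_range] at hy
      rcases Nat.lt_succ_iff_lt_or_eq.mp hy with h1 | h1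
      · exact hlow x hx y h1
      · rw [h1]; exact hx
    have := Finset.card_le_card hsub
    rw [card_range] at this
    omega
  have hCsum : ∀ j, ∑ t ∈ C j, row t = ∑ x ∈ range (C j).card, x := by
    intro j
    rw [← hCrange j, Finset.sum_image (fun a ha b hb hab => hrowinj j a ha b hb hab)]
  -- total sums
  have hfib : ∀ f : T → ℕ, ∑ t, f t = ∑ j ∈ univ.image col, ∑ t ∈ C j, f t := by
    intro f
    rw [Finset.sum_fiberwise_of_maps_to (fun t _ => Finset.mem_image_of_mem col (mem_univ t))]
  have htot : ∑ j ∈ univ.image col, ∑ t ∈ C j, row (g t) = ∑ j ∈ univ.image col, ∑ t ∈ C j, row t := by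
    rw [← hfib, ← hfib (fun t => row t)]
    exact Equiv.sum_comp g row
  have hle : ∀ j ∈ univ.image col, ∑ t ∈ C j, row t ≤ ∑ t ∈ C j, row (g t) := by
    intro j _
    rw [hCsum, ← hSsum, ← hScard]
    exact sum_range_le_sum (S j)
  have heq : ∀ j ∈ univ.image col, ∑ t ∈ C j, row t = ∑ t ∈ C j, row (g t) :=
    (Finset.sum_eq_sum_iff_of_le hle).mp htot.symm
  have hSrange : ∀ j ∈ univ.image col, S j = range (C j).card := by
    intro j hj
    by_contra hne
    rw [← hScard] at hne
    have := sum_range_lt_of_ne (S j) hne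
    rw [hSsum, ← heq j hj, hCsum, hScard] at this
    exact lt_irrefl _ this
  have hcell : ∀ t, (row (g t), col t) ∈ μ.cells := by
    intro t
    have h1 : row (g t) ∈ S (col t) := Finset.mem_image_of_mem _ ((hCmem _ _).mpr rfl)
    rw [hSrange _ (Finset.mem_image_of_mem col (mem_univ t)), ← hCrange] at h1
    obtain ⟨s, hs, hs2⟩ := Finset.mem_image.mp h1
    rw [hCmem] at hs
    rw [← hs2, ← hs]
    exact (e s).2
  let k0 : T → T := fun t => e.symm ⟨(row (g t), col t), hcell t⟩
  have hk0 : Function.Injective k0 := by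
    intro a b hab
    have h1 := e.symm.injective hab
    have h2 := congrArg Subtype.val h1
    simp only [Prod.mk.injEq] at h2
    exact h a b h2.2 h2.1
  refine ⟨Equiv.ofBijective k0 ((Finite.injective_iff_bijective).mp hk0), ?_, ?_⟩
  · intro t; simp [k0, hcol]
  · intro t; simp [k0, hrow]

omit [Fintype T] [DecidableEq T] in
lemma cert_inv_fix {ι : Type*} (c : T → ι) (r : Perm T) (hr : ∀ t, c (r t) = c t) (t : T) :
    c (r⁻¹ t) = c t := by
  have := hr (r⁻¹ t)
  simpa using this.symm

omit [Fintype T] [DecidableEq T] in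
lemma cert_apply_inv (r : Perm T) (t : T) : r (r⁻¹ t) = t := by simp

variable {U : Type*} [AddCommGroup U] [Module ℂ U]

/-- Row symmetrizer of a colouring. -/
noncomputable def rowSym (ρ : Representation ℂ (Perm T) U) (c : T → ℕ) : U →ₗ[ℂ] U :=
  ∑ σ ∈ Finset.univ.filter (fun σ : Perm T => ∀ t, c (σ t) = c t), ρ σ

lemma rowSym_apply (ρ : Representation ℂ (Perm T) U) (c : T → ℕ) (w : U) :
    rowSym ρ c w = ∑ σ ∈ Finset.univ.filter (fun σ : Perm T => ∀ t, c (σ t) = c t), ρ σ w := by
  simp [rowSym, LinearMap.sum_apply]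

lemma rowSym_mul_right (ρ : Representation ℂ (Perm T) U) (c : T → ℕ) (w : U) (r : Perm T)
    (hr : ∀ t, c (r t) = c t) : rowSym ρ c (ρ r w) = rowSym ρ c w := by
  rw [rowSym_apply, rowSym_apply]
  refine Finset.sum_bij' (fun σ _ => σ * r) (fun σ _ => σ * r⁻¹) ?_ ?_ ?_ ?_ ?_
  · intro σ hσ
    simp only [Finset.mem_filter, Finset.mem_univ, true_and] at hσ ⊢
    intro t
    rw [Perm.mul_apply, hσ, hr]
  · intro σ hσ
    simp only [Finset.mem_filter, Finset.mem_univ, true_and] at hσ ⊢
    intro t
    rw [Perm.mul_apply, hσ, cert_inv_fix c r hr]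
  · intro σ _; simp
  · intro σ _; simp
  · intro σ _
    rw [rho_mul]

/-- Certificate lemma. -/
theorem cert_hom {W V : Type*} [AddCommGroup W] [Module ℂ W] [AddCommGroup V] [Module ℂ V]
    (σ : Representation ℂ (Perm T) W) (ρ : Representation ℂ (Perm T) V)
    {μ : YoungDiagram} (e : T ≃ μ.cells) (w : W)
    (hw : SwapFixed σ (fun t => (e t).1.1) w) (hκ : colAsym σ (fun t => (e t).1.2) w ≠ 0)
    (v : V) (hv : rowSym ρ (fun t => (e t).1.1) (colAsym ρ (fun t => (e t).1.2) v) ≠ 0) :
    ∃ f : W →ₗ[ℂ] V, f ≠ 0 ∧ ∀ g u, f (σ g u) = ρ g (f u) := by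
  classical
  set col : T → ℕ := fun t => (e t).1.2 with hcol
  set row : T → ℕ := fun t => (e t).1.1 with hrow
  obtain ⟨l, hl⟩ : ∃ l : Module.Dual ℂ W, l (colAsym σ col w) ≠ 0 := by
    by_contra hcon
    push Not at hcon
    exact hκ ((Module.forall_dual_apply_eq_zero_iff ℂ _).mp hcon)
  set v0 := colAsym ρ col v with hv0
  have halt : SwapAlt ρ col v0 := colAsym_alt ρ col v
  let f : W →ₗ[ℂ] V := ∑ g : Perm T, (l ∘ₗ σ g⁻¹).smulRight (ρ g v0)
  have hf : ∀ u, f u = ∑ g : Perm T, l (σ g⁻¹ u) • ρ g v0 := by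
    intro u
    simp [f, LinearMap.sum_apply]
  refine ⟨f, ?_, ?_⟩
  swap
  · intro g u
    rw [hf, hf, map_sum, ← Equiv.sum_comp (Equiv.mulLeft g)]
    apply Finset.sum_congr rfl
    intro x _
    rw [Equiv.coe_mulLeft, map_smul, rho_mul, rho_mul]
    simp
  intro hf0
  have h0 : rowSym ρ row (f w) = 0 := by rw [hf0]; simp
  rw [hf, map_sum] at h0
  -- the term of `g`
  let F : Perm T → V := fun g => rowSym ρ row (l (σ g⁻¹ w) • ρ g v0)
  let R := Finset.univ.filter (fun σ : Perm T => ∀ t, row (σ t) = row t)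
  let C := Finset.univ.filter (fun σ : Perm T => ∀ t, col (σ t) = col t)
  have hR : ∀ r, r ∈ R ↔ ∀ t, row (r t) = row t := fun r => by simp [R]
  have hC : ∀ r, r ∈ C ↔ ∀ t, col (r t) = col t := fun r => by simp [C]
  have hzero : ∀ g, (¬ ∃ r ∈ R, ∃ k ∈ C, g = r * k) → F g = 0 := by
    intro g hg
    have hex : ∃ a b, a ≠ b ∧ col a = col b ∧ row (g a) = row (g b) := by
      by_contra hcon
      push Not at hcon
      apply hg
      obtain ⟨k, hk1, hk2⟩ := cert_james e g (fun a b hab hab2 => by
        by_contra hne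
        exact hcon a b hne hab hab2)
      refine ⟨g * k⁻¹, ?_, k, (hC k).mpr hk1, by simp⟩
      rw [hR]
      intro t
      rw [Perm.mul_apply]
      have := hk2 (k⁻¹ t)
      rw [cert_apply_inv] at this
      exact this.symm
    obtain ⟨a, b, hab, hc, hr⟩ := hex
    have h1 : rowSym ρ row (ρ g v0) = - rowSym ρ row (ρ g v0) := by
      have h2 : ρ g v0 = - ρ g (ρ (swap a b) v0) := by
        rw [halt a b hab hc, map_neg, neg_neg]
      conv_lhs => rw [h2]
      rw [rho_mul, swap_conj, ← rho_mul, map_neg, rowSym_mul_right]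
      intro t
      by_cases h1 : t = g a
      · rw [h1, swap_apply_left, hr]
      · by_cases h2 : t = g b
        · rw [h2, swap_apply_right, hr]
        · rw [swap_apply_of_ne_of_ne h1 h2]
    have h2 : (2 : ℂ) • rowSym ρ row (ρ g v0) = 0 := by
      rw [two_smul]
      nth_rewrite 2 [h1]
      rw [add_neg_cancel]
    have h3 := (smul_eq_zero.mp h2).resolve_left two_ne_zero
    change rowSym ρ row (l (σ g⁻¹ w) • ρ g v0) = 0
    rw [map_smul, h3, smul_zero]
  have hterm : ∀ r ∈ R, ∀ k ∈ C, F (r * k) =
      ((((Perm.sign k : ℤˣ) : ℤ) : ℂ) * l (σ k⁻¹ w)) • rowSym ρ row v0 := by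
    intro r hr k hk
    rw [hR] at hr
    rw [hC] at hk
    change rowSym ρ row (l (σ (r * k)⁻¹ w) • ρ (r * k) v0) = _
    rw [map_smul, ← rho_mul, rowSym_mul_right ρ row _ r hr, halt.perm k hk, map_smul, smul_smul,
      mul_inv_rev, ← rho_mul, hw.perm r⁻¹ (fun t => cert_inv_fix row r hr t), mul_comm]
  have hinj : ∀ p ∈ R ×ˢ C, ∀ q ∈ R ×ˢ C, p.1 * p.2 = q.1 * q.2 → p = q := by
    rintro ⟨r, k⟩ hp ⟨r', k'⟩ hq heq
    rw [Finset.mem_product, hR, hC] at hp hq
    simp only at hp hq heq
    have hk : k = k' := by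
      ext t
      have h1 : row (k t) = row (k' t) := by
        rw [← hp.1 (k t), ← hq.1 (k' t)]
        exact congrArg row (congrArg (fun g : Perm T => g t) heq)
      have h2 : col (k t) = col (k' t) := by rw [hp.2, hq.2]
      exact e.injective (Subtype.ext (Prod.ext h1 h2))
    subst hk
    have := mul_right_cancel heq
    rw [this]
  have hsum : ∑ g : Perm T, F g = ∑ p ∈ R ×ˢ C, F (p.1 * p.2) := by
    rw [← Finset.sum_image (s := R ×ˢ C) (g := fun p : Perm T × Perm T => p.1 * p.2) (f := F)
      (fun p hp q hq h => hinj p hp q hq h)]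
    symm
    apply Finset.sum_subset (Finset.subset_univ _)
    intro g _ hg
    apply hzero
    rintro ⟨r, hr, k, hk, rfl⟩
    exact hg (Finset.mem_image.mpr ⟨(r, k), Finset.mem_product.mpr ⟨hr, hk⟩, rfl⟩)
  have hfin : ∑ p ∈ R ×ˢ C, F (p.1 * p.2) = ((R.card : ℂ) * l (colAsym σ col w)) • rowSym ρ row v0 := by
    rw [Finset.sum_product]
    have e1 : ∀ r ∈ R, ∑ k ∈ C, F (r * k) = l (colAsym σ col w) • rowSym ρ row v0 := by
      intro r hr
      rw [Finset.sum_congr rfl (fun k hk => hterm r hr k hk), ← Finset.sum_smul]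
      congr 1
      rw [colAsym_apply, map_sum]
      refine Finset.sum_bij' (fun k _ => k⁻¹) (fun k _ => k⁻¹) ?_ ?_ ?_ ?_ ?_
      · intro k hk
        rw [hC] at hk
        simp only [Finset.mem_filter, Finset.mem_univ, true_and]
        intro t
        exact cert_inv_fix col k hk t
      · intro k hk
        simp only [Finset.mem_filter, Finset.mem_univ, true_and] at hk
        rw [hC]
        intro t
        exact cert_inv_fix col k hk t
      · intro k _; simp
      · intro k _; simp
      · intro k _
        rw [map_smul, smul_eq_mul, Perm.sign_inv]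
    rw [Finset.sum_congr rfl e1, Finset.sum_const, ← Nat.cast_smul_eq_nsmul ℂ, smul_smul]
  have h1 : ∑ g : Perm T, F g = 0 := h0
  rw [hsum, hfin] at h1
  rcases smul_eq_zero.mp h1 with h2 | h2
  · rcases mul_eq_zero.mp h2 with h3 | h3
    · have : R.card ≠ 0 := Finset.card_ne_zero.mpr ⟨1, by simp [R]⟩
      exact this (by exact_mod_cast h3)
    · exact hl h3
  · exact hv h2

end james

end Crest.Agent.R195
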