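import Crest.Agent.R195.CertOcc

/-!
Row 195.  Kernel-checkable unique-arrangement certificates (helper895).
-/

set_option autoImplicit false
set_option linter.unusedSectionVars false

namespace Crest.Agent.R195

open Finset Function

/-- One letter of a certificate: its cells in the three tableaux. -/
structure Lt where
  r1 : ℕ
  c1 : ℕ
  r2 : ℕ
  c2 : ℕ
  r3 : ℕ
  c3 : ℕ
  deriving DecidableEq, Inhabited

/-- membership test -/
def memb (r : ℕ) : List ℕ → Bool
  | [] => false
  | x :: l => Nat.beq x r || memb r l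

theorem memb_iff (r : ℕ) (l : List ℕ) : memb r l = true ↔ r ∈ l := by
  induction l with
  | nil => simp [memb]
  | cons x l ih =>
    rw [memb, Bool.or_eq_true, ih, List.mem_cons, Nat.beq_eq]
    constructor
    · rintro (h | h)
      · exact Or.inl h.symm
      · exact Or.inr h
    · rintro (h | h)
      · exact Or.inl h.symm
      · exact Or.inr h

/-- rows used by earlier letters in the same block -/
def used (f : Lt → ℕ) (g : Lt → ℕ) (c : ℕ) : List Lt → List ℕ
  | [] => []
  | z :: l => if Nat.beq (g z) c then f z :: used f g c l else used f g c l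

theorem mem_used {f g : Lt → ℕ} {c r : ℕ} {l : List Lt} :
    r ∈ used f g c l ↔ ∃ z ∈ l, g z = c ∧ f z = r := by
  induction l with
  | nil => simp [used]
  | cons z l ih =>
    unfold used
    by_cases h : g z = c
    · rw [if_pos (by rw [Nat.beq_eq]; exact h), List.mem_cons, ih]
      constructor
      · rintro (h1 | ⟨y, hy, h2⟩)
        · exact ⟨z, List.mem_cons_self, h, h1.symm⟩
        · exact ⟨y, List.mem_cons_of_mem _ hy, h2⟩
      · rintro ⟨y, hy, h2, h3⟩
        rcases List.mem_cons.mp hy with rfl | hy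
        · exact Or.inl h3.symm
        · exact Or.inr ⟨y, hy, h2, h3⟩
    · rw [if_neg (by rw [Nat.beq_eq]; exact h), ih]
      constructor
      · rintro ⟨y, hy, h2⟩
        exact ⟨y, List.mem_cons_of_mem _ hy, h2⟩
      · rintro ⟨y, hy, h2, h3⟩
        rcases List.mem_cons.mp hy with rfl | hy
        · exact absurd h2 h
        · exact ⟨y, hy, h2, h3⟩

/-- the same type of letter -/
def sameTy (x y : Lt) : Bool := Nat.beq x.r1 y.r1 && (Nat.beq x.r2 y.r2 && Nat.beq x.r3 y.r3)

/-- one step: every later type is either the type of `x` or blocked at `x` -/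
def stepOK (H1 H2 H3 : List ℕ) (pre : List Lt) (x : Lt) (rest : List Lt) : Bool :=
  rest.all fun y => sameTy x y ||
    (Nat.ble (H1.getD x.c1 0) y.r1 || memb y.r1 (used Lt.r1 Lt.c1 x.c1 pre)) ||
    (Nat.ble (H2.getD x.c2 0) y.r2 || memb y.r2 (used Lt.r2 Lt.c2 x.c2 pre)) ||
    (Nat.ble (H3.getD x.c3 0) y.r3 || memb y.r3 (used Lt.r3 Lt.c3 x.c3 pre))

/-- all the steps -/
def chk (H1 H2 H3 : List ℕ) : List Lt → List Lt → Bool
  | _, [] => true
  | pre, x :: rest => stepOK H1 H2 H3 pre x rest && chk H1 H2 H3 (x :: pre) rest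

/-- distinctness and membership in a shape, given by its column heights -/
def tabOK (f g : Lt → ℕ) (H : List ℕ) : List Lt → List Lt → Bool
  | _, [] => true
  | pre, x :: rest => Nat.blt (f x) (H.getD (g x) 0) && !(memb (f x) (used f g (g x) pre)) &&
      tabOK f g H (x :: pre) rest

/-- the complete check -/
def certOK (H1 H2 H3 : List ℕ) (ls : List Lt) : Bool :=
  tabOK Lt.r1 Lt.c1 H1 [] ls && tabOK Lt.r2 Lt.c2 H2 [] ls && tabOK Lt.r3 Lt.c3 H3 [] ls &&
    chk H1 H2 H3 [] ls

theorem tabOK_spec {f g : Lt → ℕ} {H : List ℕ} : ∀ {pre ls : List Lt}, tabOK f g H pre ls = true →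
    (∀ x ∈ ls, f x < H.getD (g x) 0) ∧ ls.Pairwise (fun x y => ¬ (g x = g y ∧ f x = f y)) ∧
      ∀ x ∈ ls, ∀ z ∈ pre, ¬ (g z = g x ∧ f z = f x) := by
  intro pre ls
  induction ls generalizing pre with
  | nil => intro _; simp
  | cons x rest ih =>
    intro h
    unfold tabOK at h
    rw [Bool.and_eq_true, Bool.and_eq_true] at h
    obtain ⟨⟨h1, h2⟩, h3⟩ := h
    obtain ⟨i1, i2, i3⟩ := ih h3
    have h1' : f x < H.getD (g x) 0 := by
      unfold Nat.blt at h1
      exact Nat.le_of_ble_eq_true h1
    have h2' : ¬ f x ∈ used f g (g x) pre := by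
      rw [← memb_iff]
      intro h4
      rw [h4] at h2
      exact absurd h2 (by decide)
    refine ⟨?_, ?_, ?_⟩
    · intro y hy
      rcases List.mem_cons.mp hy with rfl | hy
      · exact h1'
      · exact i1 y hy
    · refine List.Pairwise.cons ?_ i2
      intro y hy
      exact i3 y hy x List.mem_cons_self
    · intro y hy z hz
      rcases List.mem_cons.mp hy with rfl | hy
      · rintro ⟨h4, h5⟩
        exact h2' (mem_used.mpr ⟨z, hz, h4, h5⟩)
      · exact i3 y hy z (List.mem_cons_of_mem _ hz)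

theorem chk_spec {H1 H2 H3 : List ℕ} : ∀ {pre ls : List Lt}, chk H1 H2 H3 pre ls = true →
    ∀ s1 x s2, ls = s1 ++ x :: s2 → stepOK H1 H2 H3 (s1.reverse ++ pre) x s2 = true := by
  intro pre ls
  induction ls generalizing pre with
  | nil => intro _ s1 x s2 h; simp at h
  | cons y rest ih =>
    intro h s1 x s2 hls
    unfold chk at h
    rw [Bool.and_eq_true] at h
    cases s1 with
    | nil =>
      simp only [List.nil_append, List.cons.injEq] at hls
      obtain ⟨rfl, rfl⟩ := hls
      exact h.1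
    | cons z s1 =>
      simp only [List.cons_append, List.cons.injEq] at hls
      obtain ⟨rfl, hls⟩ := hls
      have := ih h.2 s1 x s2 hls
      rw [List.reverse_cons, List.append_assoc]
      exact this

theorem stepOK_spec {H1 H2 H3 : List ℕ} {pre : List Lt} {x : Lt} {rest : List Lt}
    (h : stepOK H1 H2 H3 pre x rest = true) {y : Lt} (hy : y ∈ rest) :
    (x.r1 = y.r1 ∧ x.r2 = y.r2 ∧ x.r3 = y.r3) ∨
    (H1.getD x.c1 0 ≤ y.r1 ∨ ∃ z ∈ pre, z.c1 = x.c1 ∧ z.r1 = y.r1) ∨
    (H2.getD x.c2 0 ≤ y.r2 ∨ ∃ z ∈ pre, z.c2 = x.c2 ∧ z.r2 = y.r2) ∨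
    (H3.getD x.c3 0 ≤ y.r3 ∨ ∃ z ∈ pre, z.c3 = x.c3 ∧ z.r3 = y.r3) := by
  unfold stepOK at h
  rw [List.all_eq_true] at h
  have := h y hy
  simp only [Bool.or_eq_true, sameTy, Bool.and_eq_true, Nat.beq_eq, Nat.ble_eq, memb_iff,
    mem_used] at this
  rcases this with ((h1 | h1) | h1) | h1
  · exact Or.inl h1
  · exact Or.inr (Or.inl h1)
  · exact Or.inr (Or.inr (Or.inl h1))
  · exact Or.inr (Or.inr (Or.inr h1))

section sound

variable {T : Type*} [Fintype T] [DecidableEq T]

/-- the tableau on `T` read off from the list -/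
def lsTab (ls : List Lt) (f g : Lt → ℕ) (θ : T ≃ Fin ls.length) (t : T) : ℕ × ℕ :=
  (f (ls.get (θ t)), g (ls.get (θ t)))

omit [Fintype T] [DecidableEq T] in
theorem lsTab_inj {ls : List Lt} {f g : Lt → ℕ} (θ : T ≃ Fin ls.length)
    (h : ls.Pairwise (fun x y => ¬ (g x = g y ∧ f x = f y))) : Injective (lsTab ls f g θ) := by
  intro s t hst
  unfold lsTab at hst
  rw [Prod.mk.injEq] at hst
  rw [List.pairwise_iff_get] at h
  apply θ.injective
  rcases lt_trichotomy (θ s) (θ t) with hlt | heq | hlt
  · exact absurd ⟨hst.2, hst.1⟩ (h _ _ hlt)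
  · exact heq
  · exact absurd ⟨hst.2.symm, hst.1.symm⟩ (h _ _ hlt)

theorem lsTab_isTab {ls : List Lt} {f g : Lt → ℕ} (θ : T ≃ Fin ls.length) {H : List ℕ}
    {D : Finset (ℕ × ℕ)} (hD : ∀ c, c ∈ D ↔ c.1 < H.getD c.2 0) (hcard : D.card = ls.length)
    (h : tabOK f g H [] ls = true) : IsTab D (lsTab ls f g θ) := by
  obtain ⟨h1, h2, -⟩ := tabOK_spec h
  have hinj := lsTab_inj (f := f) (g := g) θ h2
  refine ⟨hinj, ?_⟩
  apply Finset.eq_of_subset_of_card_le
  · intro c hc
    obtain ⟨t, -, rfl⟩ := Finset.mem_image.mp hc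
    rw [hD]
    exact h1 _ (List.get_mem _ _)
  · rw [Finset.card_image_of_injective _ hinj, Finset.card_univ, Fintype.card_congr θ,
      Fintype.card_fin, hcard]

omit [Fintype T] [DecidableEq T] in
/-- no earlier letter blocks -/
theorem not_blocked {τ : T → ℕ × ℕ} (hτ : Injective τ) {H : List ℕ}
    (hH : ∀ t, (τ t).1 < H.getD (τ t).2 0) {g : Equiv.Perm T} (hg : GoodAt τ g) {t : T} {r : ℕ}
    (hr : r = (τ (g t)).1)
    (h : H.getD (τ t).2 0 ≤ r ∨ ∃ t', t' ≠ t ∧ (τ (g t')).1 = (τ t').1 ∧ (τ t').2 = (τ t).2 ∧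
      (τ t').1 = r) : False := by
  rcases h with h | ⟨t', hne, h1, h2, h3⟩
  · obtain ⟨s, hs⟩ := hg.cell t
    have := hH s
    rw [hs] at this
    simp only at this
    rw [← hr] at this
    omega
  · apply hne
    exact hg.inj hτ h2 (by rw [h1, h3, hr])

/-- Soundness of the certificates. -/
theorem occ_of_certOK {W : Type*} [AddCommGroup W] [Module ℂ W]
    (ρ : Representation ℂ (Equiv.Perm T) W) {μ : YoungDiagram} (e : T ≃ μ.cells) (w : W)
    (hw : SwapFixed ρ (fun t => (e t).1.1) w) (hκ : colAsym ρ (fun t => (e t).1.2) w ≠ 0)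
    {D E : Finset (ℕ × ℕ)} {H1 H2 H3 : List ℕ}
    (hD : ∀ c, c ∈ D ↔ c.1 < H1.getD c.2 0) (hE : ∀ c, c ∈ E ↔ c.1 < H2.getD c.2 0)
    (hμ : ∀ c, c ∈ μ.cells ↔ c.1 < H3.getD c.2 0) (ls : List Lt)
    (hcD : D.card = ls.length) (hcE : E.card = ls.length) (hcT : Fintype.card T = ls.length)
    (hls : certOK H1 H2 H3 ls = true) : Occ ρ (Kr T D E) := by
  classical
  unfold certOK at hls
  rw [Bool.and_eq_true, Bool.and_eq_true, Bool.and_eq_true] at hls
  obtain ⟨⟨⟨t1, t2⟩, t3⟩, hchk⟩ := hls
  have hcμ : μ.cells.card = ls.length := by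
    rw [← hcT, Fintype.card_congr e, Fintype.card_coe]
  -- the numbering of the letters
  have h3 := lsTab_isTab (Equiv.refl (Fin ls.length)) hμ hcμ t3
  let c0 : Fin ls.length → μ.cells := fun i =>
    ⟨lsTab ls Lt.r3 Lt.c3 (Equiv.refl _) i, by
      rw [← h3.2]; exact Finset.mem_image_of_mem _ (Finset.mem_univ _)⟩
  have hc0 : Function.Bijective c0 := by
    constructor
    · intro i j hij
      exact h3.1 (congrArg Subtype.val hij)
    · rintro ⟨p, hp⟩
      rw [← h3.2] at hp
      obtain ⟨i, -, hi⟩ := Finset.mem_image.mp hp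
      exact ⟨i, Subtype.ext hi⟩
  let θ : T ≃ Fin ls.length := e.trans (Equiv.ofBijective c0 hc0).symm
  have hθ : ∀ t, (e t).1 = lsTab ls Lt.r3 Lt.c3 θ t := by
    intro t
    have : c0 (θ t) = e t := (Equiv.ofBijective c0 hc0).apply_symm_apply (e t)
    rw [← this]
    rfl
  have k1 := lsTab_isTab θ hD hcD t1
  have k2 := lsTab_isTab θ hE hcE t2
  have k3 := lsTab_isTab θ hμ hcμ t3
  have b1 : ∀ t, (lsTab ls Lt.r1 Lt.c1 θ t).1 < H1.getD (lsTab ls Lt.r1 Lt.c1 θ t).2 0 :=
    fun t => (tabOK_spec t1).1 _ (List.get_mem _ _)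
  have b2 : ∀ t, (lsTab ls Lt.r2 Lt.c2 θ t).1 < H2.getD (lsTab ls Lt.r2 Lt.c2 θ t).2 0 :=
    fun t => (tabOK_spec t2).1 _ (List.get_mem _ _)
  have b3 : ∀ t, (lsTab ls Lt.r3 Lt.c3 θ t).1 < H3.getD (lsTab ls Lt.r3 Lt.c3 θ t).2 0 :=
    fun t => (tabOK_spec t3).1 _ (List.get_mem _ _)
  have he : (fun t => (e t).1) = lsTab ls Lt.r3 Lt.c3 θ := funext hθ
  refine occ_of_unique ρ e w hw hκ _ _ k1 k2 ?_
  intro g g1 g2 g3
  rw [he] at g3
  -- types
  let ty : T → ℕ × ℕ × ℕ := fun t =>
    ((ls.get (θ t)).r1, (ls.get (θ t)).r2, (ls.get (θ t)).r3)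
  have key : ∀ i : ℕ, ∀ t, (θ t : ℕ) = i → ty (g t) = ty t := by
    intro i
    induction i using Nat.strong_induction_on with
    | _ i ih =>
      intro t hti
      have hprev : ∀ s, (θ s : ℕ) < θ t → ty (g s) = ty s := fun s hs => ih _ (hti ▸ hs) s rfl
      obtain ⟨s, hs1, hs2⟩ : ∃ s, (θ t : ℕ) ≤ θ s ∧ ty s = ty (g t) := by
        by_contra hcon
        push Not at hcon
        let A := Finset.univ.filter fun s => ty s = ty (g t)
        have hA : ∀ s, s ∈ A ↔ ty s = ty (g t) := fun s => by simp [A]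
        have hlt : ∀ s ∈ A, (θ s : ℕ) < θ t := by
          intro s hs
          by_contra hge
          exact hcon s (by omega) ((hA s).mp hs)
        have hmaps : ∀ s ∈ A, g s ∈ A := by
          intro s hs
          rw [hA, hprev s (hlt s hs)]
          exact (hA s).mp hs
        have himg : A.image g = A := by
          apply Finset.eq_of_subset_of_card_le
          · intro x hx
            obtain ⟨s, hs, rfl⟩ := Finset.mem_image.mp hx
            exact hmaps s hs
          · rw [Finset.card_image_of_injective _ g.injective]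
        have hgt : g t ∈ A.image g := by rw [himg, hA]
        obtain ⟨s, hs, hst⟩ := Finset.mem_image.mp hgt
        have := g.injective hst
        subst this
        exact lt_irrefl _ (hlt s hs)
      rcases hs1.eq_or_lt with heq | hlt
      · have : t = s := θ.injective (Fin.ext heq)
        rw [this] at hs2 ⊢
        exact hs2.symm
      · -- later letter
        have hsplit : ls = ls.take (θ t) ++ ls.get (θ t) :: ls.drop (θ t + 1) := by
          conv_lhs => rw [← List.take_append_drop (θ t) ls]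
          congr 1
          rw [List.drop_eq_getElem_cons (θ t).2]
          rfl
        have hstep := chk_spec hchk _ _ _ hsplit
        rw [List.append_nil] at hstep
        have hmem : ls.get (θ s) ∈ ls.drop (θ t + 1) := by
          rw [List.mem_iff_getElem]
          refine ⟨θ s - (θ t + 1), ?_, ?_⟩
          · rw [List.length_drop]
            have := (θ s).2
            omega
          · rw [List.getElem_drop, List.get_eq_getElem]
            congr 1
            omega
        -- earlier letters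
        have hearly : ∀ z ∈ (ls.take (θ t)).reverse, ∃ t', t' ≠ t ∧ ty (g t') = ty t' ∧
            ls.get (θ t') = z := by
          intro z hz
          rw [List.mem_reverse, List.mem_iff_getElem] at hz
          obtain ⟨j, hj, rfl⟩ := hz
          rw [List.length_take] at hj
          have hj1 : j < θ t := lt_of_lt_of_le hj (min_le_left _ _)
          have hj2 : j < ls.length := lt_of_lt_of_le hj (min_le_right _ _)
          refine ⟨θ.symm ⟨j, hj2⟩, ?_, ?_, ?_⟩
          · intro h
            have := congrArg (fun x => (θ x : ℕ)) h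
            simp only [Equiv.apply_symm_apply] at this
            omega
          · apply hprev
            rw [Equiv.apply_symm_apply]
            exact hj1
          · rw [Equiv.apply_symm_apply, List.getElem_take]
            rfl
        simp only [ty, Prod.mk.injEq] at hs2
        rcases stepOK_spec hstep hmem with h | h | h | h
        · simp only [ty, Prod.mk.injEq]
          exact ⟨hs2.1.symm.trans h.1.symm, hs2.2.1.symm.trans h.2.1.symm,
            hs2.2.2.symm.trans h.2.2.symm⟩
        · exfalso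
          refine not_blocked k1.1 b1 g1 (t := t) (r := (ls.get (θ s)).r1) hs2.1 ?_
          rcases h with h | ⟨z, hz, hz1, hz2⟩
          · exact Or.inl h
          · obtain ⟨t', q1, q2, rfl⟩ := hearly z hz
            simp only [ty, Prod.mk.injEq] at q2
            exact Or.inr ⟨t', q1, q2.1, hz1, hz2⟩
        · exfalso
          refine not_blocked k2.1 b2 g2 (t := t) (r := (ls.get (θ s)).r2) hs2.2.1 ?_
          rcases h with h | ⟨z, hz, hz1, hz2⟩
          · exact Or.inl h
          · obtain ⟨t', q1, q2, rfl⟩ := hearly z hz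
            simp only [ty, Prod.mk.injEq] at q2
            exact Or.inr ⟨t', q1, q2.2.1, hz1, hz2⟩
        · exfalso
          refine not_blocked k3.1 b3 g3 (t := t) (r := (ls.get (θ s)).r3) hs2.2.2 ?_
          rcases h with h | ⟨z, hz, hz1, hz2⟩
          · exact Or.inl h
          · obtain ⟨t', q1, q2, rfl⟩ := hearly z hz
            simp only [ty, Prod.mk.injEq] at q2
            exact Or.inr ⟨t', q1, q2.2.2, hz1, hz2⟩
  intro t
  have := key _ t rfl
  simp only [ty, Prod.mk.injEq] at this
  refine ⟨this.1, this.2.1, ?_⟩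
  have e1 := congrArg Prod.fst (hθ (g t))
  have e2 := congrArg Prod.fst (hθ t)
  rw [e1, e2]
  exact this.2.2

end sound

end Crest.Agent.R195
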