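import Crest.Agent.R195.CertTable

/-!
Row 195.  A fast check of mixed certificates with bit masks (helper895).
-/

set_option autoImplicit false
set_option linter.unusedSectionVars false

namespace Crest.Agent.R195

/-- entry `i` of a list, default `0` -/
noncomputable def hgt (l : List ℕ) (i : ℕ) : ℕ :=
  List.rec (motive := fun _ => ℕ → ℕ) (fun _ => 0)
    (fun x _ ih i => Nat.rec (motive := fun _ => ℕ) x (fun i' _ => ih i') i) l i

theorem hgt_eq (l : List ℕ) (i : ℕ) : hgt l i = l.getD i 0 := by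
  induction l generalizing i with
  | nil => simp [hgt]
  | cons x l ih =>
    cases i with
    | zero => rfl
    | succ i =>
      rw [List.getD_cons_succ, ← ih]
      rfl

/-- packed type of a letter -/
noncomputable def tyMask (x : Lt) : ℕ :=
  Nat.lor (Nat.pow 2 x.r1) (Nat.lor (Nat.pow 2 (Nat.add 64 x.r2)) (Nat.pow 2 (Nat.add 128 x.r3)))

/-- forbidden rows in column `c` -/
noncomputable def blkB (H : List ℕ) (U c : ℕ) : ℕ :=
  Nat.lor (Nat.mod (Nat.shiftRight U (Nat.mul 64 c)) 18446744073709551616)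
    (Nat.sub 18446744073709551616 (Nat.pow 2 (hgt H c)))

/-- packed forbidden rows -/
noncomputable def forbM (H1 H2 H3 : List ℕ) (U1 U2 U3 : ℕ) (x : Lt) : ℕ :=
  Nat.lor (blkB H1 U1 x.c1) (Nat.lor (Nat.shiftLeft (blkB H2 U2 x.c2) 64)
    (Nat.shiftLeft (blkB H3 U3 x.c3) 128))

/-- the cell `(f, g)` is in the shape and not yet used -/
noncomputable def freeB (H : List ℕ) (U f g : ℕ) : Bool :=
  and (Nat.ble (Nat.succ f) (hgt H g))
    (Nat.beq (Nat.mod (Nat.shiftRight U (Nat.add (Nat.mul 64 g) f)) 2) 0)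

/-- use the cell `(f, g)` -/
noncomputable def useB (U f g : ℕ) : ℕ := Nat.lor U (Nat.pow 2 (Nat.add (Nat.mul 64 g) f))

/-- all masks are blocked by `F` or equal to `m` -/
noncomputable def allBlk (F m : ℕ) (l : List ℕ) : Bool :=
  List.rec (motive := fun _ => Bool) true (fun y _ ih =>
    Bool.rec (motive := fun _ => Bool) ih (Bool.rec (motive := fun _ => Bool) false ih (Nat.beq m y))
      (Nat.beq (Nat.land F y) 0)) l

theorem allBlk_spec {F m : ℕ} {l : List ℕ} (h : allBlk F m l = true) :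
    ∀ y ∈ l, Nat.land F y ≠ 0 ∨ m = y := by
  induction l with
  | nil => simp
  | cons x l ih =>
    have h' : Bool.rec (motive := fun _ => Bool) (allBlk F m l)
      (Bool.rec (motive := fun _ => Bool) false (allBlk F m l) (Nat.beq m x))
      (Nat.beq (Nat.land F x) 0) = true := h
    intro y hy
    cases h1 : Nat.beq (Nat.land F x) 0 with
    | false =>
      rw [h1] at h'
      rcases List.mem_cons.mp hy with rfl | hy
      · left
        intro h2
        rw [h2] at h1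
        exact absurd h1 (by decide)
      · exact ih h' y hy
    | true =>
      rw [h1] at h'
      cases h2 : Nat.beq m x with
      | false =>
        rw [h2] at h'
        exact absurd (show false = true from h') (by decide)
      | true =>
        rw [h2] at h'
        rcases List.mem_cons.mp hy with rfl | hy
        · right; exact Nat.eq_of_beq_eq_true h2
        · exact ih h' y hy

/-- the tail -/
noncomputable def fastTl (H1 H2 H3 : List ℕ) : ℕ → ℕ → ℕ → List Lt → Bool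
  | _, _, _, [] => true
  | U1, U2, U3, x :: rest =>
    and (and (freeB H1 U1 x.r1 x.c1) (and (freeB H2 U2 x.r2 x.c2) (freeB H3 U3 x.r3 x.c3)))
      (and (and (Nat.beq x.r1 x.r2) (and (Nat.beq x.c1 x.c2) (Nat.beq x.r3 0)))
        (fastTl H1 H2 H3 (useB U1 x.r1 x.c1) (useB U2 x.r2 x.c2) (useB U3 x.r3 x.c3) rest))

/-- the forced letters -/
noncomputable def fastGo (H1 H2 H3 : List ℕ) (tl : List Lt) :
    ℕ → ℕ → ℕ → List Lt → List ℕ → Bool
  | U1, U2, U3, [], _ => fastTl H1 H2 H3 U1 U2 U3 tl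
  | _, _, _, _ :: _, [] => false
  | U1, U2, U3, x :: rest, m :: ms =>
    and (and (freeB H1 U1 x.r1 x.c1) (and (freeB H2 U2 x.r2 x.c2) (freeB H3 U3 x.r3 x.c3)))
      (and (allBlk (forbM H1 H2 H3 U1 U2 U3 x) m ms)
        (fastGo H1 H2 H3 tl (useB U1 x.r1 x.c1) (useB U2 x.r2 x.c2) (useB U3 x.r3 x.c3) rest ms))

/-- the fast check -/
noncomputable def fastOK (H1 H2 H3 : List ℕ) (hd tl : List Lt) : Bool :=
  fastGo H1 H2 H3 tl 0 0 0 hd ((hd ++ tl).map tyMask)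

/-! ### Soundness -/

/-- the bits of `U` are the used cells -/
def UInv (f g : Lt → ℕ) (pre : List Lt) (U : ℕ) : Prop :=
  ∀ i, U.testBit i = true ↔ ∃ z ∈ pre, 64 * g z + f z = i

theorem UInv.zero (f g : Lt → ℕ) : UInv f g [] 0 := by
  intro i; simp

theorem UInv.use {f g : Lt → ℕ} {pre : List Lt} {U : ℕ} (h : UInv f g pre U) (x : Lt) :
    UInv f g (x :: pre) (useB U (f x) (g x)) := by
  intro i
  have : useB U (f x) (g x) = U ||| 2 ^ (64 * g x + f x) := rfl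
  rw [this, Nat.testBit_or, Bool.or_eq_true, h i, Nat.testBit_two_pow, decide_eq_true_iff]
  constructor
  · rintro (⟨z, hz, h1⟩ | h1)
    · exact ⟨z, List.mem_cons_of_mem _ hz, h1⟩
    · exact ⟨x, List.mem_cons_self, h1⟩
  · rintro ⟨z, hz, h1⟩
    rcases List.mem_cons.mp hz with rfl | hz
    · exact Or.inr h1
    · exact Or.inl ⟨z, hz, h1⟩

theorem freeB_spec {f g : Lt → ℕ} {pre : List Lt} {U : ℕ} (h : UInv f g pre U) {H : List ℕ}
    {x : Lt} (hf : freeB H U (f x) (g x) = true) :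
    f x < H.getD (g x) 0 ∧ ∀ z ∈ pre, ¬ (g z = g x ∧ f z = f x) := by
  unfold freeB at hf
  rw [Bool.and_eq_true] at hf
  obtain ⟨h1, h2⟩ := hf
  rw [hgt_eq] at h1
  refine ⟨Nat.le_of_ble_eq_true h1, ?_⟩
  rintro z hz ⟨e1, e2⟩
  have hbit : U.testBit (64 * g x + f x) = true := (h _).mpr ⟨z, hz, by rw [e1, e2]⟩
  have h3 : (U >>> (64 * g x + f x)) % 2 = 0 := Nat.eq_of_beq_eq_true h2
  have h4 : (U >>> (64 * g x + f x)).testBit 0 = true := by
    rw [Nat.testBit_shiftRight, Nat.add_zero]; exact hbit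
  rw [Nat.testBit_zero, decide_eq_true_iff] at h4
  omega

theorem blkB_lt (H : List ℕ) (U c : ℕ) : blkB H U c < 2 ^ 64 := by
  have : blkB H U c = ((U >>> (64 * c)) % 2 ^ 64) ||| (2 ^ 64 - 2 ^ (hgt H c)) := rfl
  rw [this]
  apply Nat.or_lt_two_pow
  · exact Nat.mod_lt _ (by positivity)
  · have : 0 < 2 ^ (hgt H c) := by positivity
    omega

theorem hi_testBit {h r : ℕ} (hh : h ≤ 64) (h1 : (2 ^ 64 - 2 ^ h).testBit r = true) : h ≤ r := by
  have e : 2 ^ 64 - 2 ^ h = 2 ^ h * (2 ^ (64 - h) - 1) := by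
    rw [Nat.mul_sub, ← pow_add, mul_one]
    congr 2
    omega
  rw [e, Nat.testBit_two_pow_mul] at h1
  simp only [Bool.and_eq_true, decide_eq_true_iff] at h1
  exact h1.1

theorem blkB_spec {f g : Lt → ℕ} {pre : List Lt} {U : ℕ} (h : UInv f g pre U) {H : List ℕ}
    (hpre : ∀ z ∈ pre, f z < 64) {c r : ℕ} (hc : H.getD c 0 ≤ 64) (hr : r < 64)
    (hb : (blkB H U c).testBit r = true) : H.getD c 0 ≤ r ∨ r ∈ used f g c pre := by
  have e : blkB H U c = ((U >>> (64 * c)) % 2 ^ 64) ||| (2 ^ 64 - 2 ^ (hgt H c)) := rfl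
  rw [e, Nat.testBit_or, Bool.or_eq_true, hgt_eq] at hb
  rcases hb with hb | hb
  · right
    rw [Nat.testBit_mod_two_pow, Nat.testBit_shiftRight] at hb
    simp only [Bool.and_eq_true] at hb
    obtain ⟨z, hz, hz2⟩ := (h _).mp hb.2
    have := hpre z hz
    exact mem_used.mpr ⟨z, hz, by omega, by omega⟩
  · left
    exact hi_testBit hc hb

theorem tyMask_testBit (x : Lt) (i : ℕ) : (tyMask x).testBit i = true ↔
    i = x.r1 ∨ i = 64 + x.r2 ∨ i = 128 + x.r3 := by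
  have e : tyMask x = 2 ^ x.r1 ||| (2 ^ (64 + x.r2) ||| 2 ^ (128 + x.r3)) := rfl
  rw [e]
  simp only [Nat.testBit_or, Bool.or_eq_true, Nat.testBit_two_pow, decide_eq_true_iff]
  constructor
  · rintro (h | h | h)
    · exact Or.inl h.symm
    · exact Or.inr (Or.inl h.symm)
    · exact Or.inr (Or.inr h.symm)
  · rintro (h | h | h)
    · exact Or.inl h.symm
    · exact Or.inr (Or.inl h.symm)
    · exact Or.inr (Or.inr h.symm)

theorem land_forbM {H1 H2 H3 : List ℕ} {pre : List Lt} {U1 U2 U3 : ℕ}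
    (i1 : UInv Lt.r1 Lt.c1 pre U1) (i2 : UInv Lt.r2 Lt.c2 pre U2) (i3 : UInv Lt.r3 Lt.c3 pre U3)
    (b1 : ∀ j, H1.getD j 0 ≤ 64) (b2 : ∀ j, H2.getD j 0 ≤ 64) (b3 : ∀ j, H3.getD j 0 ≤ 64)
    (p1 : ∀ z ∈ pre, z.r1 < 64) (p2 : ∀ z ∈ pre, z.r2 < 64) (p3 : ∀ z ∈ pre, z.r3 < 64)
    {x y : Lt} (y1 : y.r1 < 64) (y2 : y.r2 < 64) (y3 : y.r3 < 64)
    (h : Nat.land (forbM H1 H2 H3 U1 U2 U3 x) (tyMask y) ≠ 0) :
    (H1.getD x.c1 0 ≤ y.r1 ∨ y.r1 ∈ used Lt.r1 Lt.c1 x.c1 pre) ∨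
    (H2.getD x.c2 0 ≤ y.r2 ∨ y.r2 ∈ used Lt.r2 Lt.c2 x.c2 pre) ∨
    (H3.getD x.c3 0 ≤ y.r3 ∨ y.r3 ∈ used Lt.r3 Lt.c3 x.c3 pre) := by
  obtain ⟨i, hi⟩ : ∃ i, (forbM H1 H2 H3 U1 U2 U3 x &&& tyMask y).testBit i = true := by
    by_contra hcon
    push Not at hcon
    exact h (Nat.zero_of_testBit_eq_false fun i => by simpa using hcon i)
  rw [Nat.testBit_and, Bool.and_eq_true, tyMask_testBit] at hi
  obtain ⟨hF, hy⟩ := hi
  have e : forbM H1 H2 H3 U1 U2 U3 x = blkB H1 U1 x.c1 ||| ((blkB H2 U2 x.c2 <<< 64) |||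
    (blkB H3 U3 x.c3 <<< 128)) := rfl
  rw [e] at hF
  simp only [Nat.testBit_or, Bool.or_eq_true, Nat.testBit_shiftLeft, Bool.and_eq_true,
    decide_eq_true_iff] at hF
  have big : ∀ (H : List ℕ) (U c j : ℕ), 64 ≤ j → (blkB H U c).testBit j = false := by
    intro H U c j hj
    apply Nat.testBit_lt_two_pow
    exact lt_of_lt_of_le (blkB_lt H U c) (Nat.pow_le_pow_right (by norm_num) hj)
  rcases hy with rfl | rfl | rfl
  · rcases hF with hF | hF | hF
    · exact Or.inl (blkB_spec i1 p1 (b1 _) y1 hF)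
    · omega
    · omega
  · rcases hF with hF | hF | hF
    · rw [big _ _ _ _ (by omega)] at hF
      exact absurd hF (by decide)
    · have e2 : 64 + y.r2 - 64 = y.r2 := by omega
      rw [e2] at hF
      exact Or.inr (Or.inl (blkB_spec i2 p2 (b2 _) y2 hF.2))
    · omega
  · rcases hF with hF | hF | hF
    · rw [big _ _ _ _ (by omega)] at hF
      exact absurd hF (by decide)
    · rw [big _ _ _ _ (by omega)] at hF
      exact absurd hF.2 (by decide)
    · have e2 : 128 + y.r3 - 128 = y.r3 := by omega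
      rw [e2] at hF
      exact Or.inr (Or.inr (blkB_spec i3 p3 (b3 _) y3 hF.2))

theorem tyMask_inj {x y : Lt} (x1 : x.r1 < 64) (x2 : x.r2 < 64)
    (y1 : y.r1 < 64) (y2 : y.r2 < 64) (h : tyMask x = tyMask y) :
    x.r1 = y.r1 ∧ x.r2 = y.r2 ∧ x.r3 = y.r3 := by
  have a1 := (tyMask_testBit x x.r1).mpr (Or.inl rfl)
  have a2 := (tyMask_testBit x (64 + x.r2)).mpr (Or.inr (Or.inl rfl))
  have a3 := (tyMask_testBit x (128 + x.r3)).mpr (Or.inr (Or.inr rfl))
  rw [h, tyMask_testBit] at a1 a2 a3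
  omega

theorem tabOK_cons {f g : Lt → ℕ} {H : List ℕ} {pre : List Lt} {x : Lt} {rest : List Lt}
    (h1 : f x < H.getD (g x) 0) (h2 : ∀ z ∈ pre, ¬ (g z = g x ∧ f z = f x))
    (h3 : tabOK f g H (x :: pre) rest = true) : tabOK f g H pre (x :: rest) = true := by
  unfold tabOK
  rw [Bool.and_eq_true, Bool.and_eq_true]
  refine ⟨⟨Nat.ble_eq_true_of_le h1, ?_⟩, h3⟩
  rw [Bool.not_eq_true', Bool.eq_false_iff]
  intro h4
  rw [memb_iff, mem_used] at h4
  obtain ⟨z, hz, e1, e2⟩ := h4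
  exact h2 z hz ⟨e1, e2⟩

theorem fastTl_spec {H1 H2 H3 : List ℕ} : ∀ {tl pre : List Lt} {U1 U2 U3 : ℕ},
    UInv Lt.r1 Lt.c1 pre U1 → UInv Lt.r2 Lt.c2 pre U2 → UInv Lt.r3 Lt.c3 pre U3 →
    fastTl H1 H2 H3 U1 U2 U3 tl = true →
    tabOK Lt.r1 Lt.c1 H1 pre tl = true ∧ tabOK Lt.r2 Lt.c2 H2 pre tl = true ∧
      tabOK Lt.r3 Lt.c3 H3 pre tl = true ∧ diagOK tl = true := by
  intro tl
  induction tl with
  | nil => intro pre U1 U2 U3 _ _ _ _; exact ⟨rfl, rfl, rfl, rfl⟩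
  | cons x rest ih =>
    intro pre U1 U2 U3 i1 i2 i3 h
    unfold fastTl at h
    simp only [Bool.and_eq_true] at h
    obtain ⟨⟨f1, f2, f3⟩, ⟨d1, d2, d3⟩, hr⟩ := h
    obtain ⟨t1, t2, t3, t4⟩ := ih (i1.use x) (i2.use x) (i3.use x) hr
    have s1 := freeB_spec i1 f1
    have s2 := freeB_spec i2 f2
    have s3 := freeB_spec i3 f3
    refine ⟨tabOK_cons s1.1 s1.2 t1, tabOK_cons s2.1 s2.2 t2, tabOK_cons s3.1 s3.2 t3, ?_⟩
    unfold diagOK at t4 ⊢
    rw [List.all_cons, Bool.and_eq_true]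
    refine ⟨?_, t4⟩
    simp only [Bool.and_eq_true]
    exact ⟨d1, d2, d3⟩

theorem fastGo_spec {H1 H2 H3 : List ℕ} {tl : List Lt} (b1 : ∀ j, H1.getD j 0 ≤ 64)
    (b2 : ∀ j, H2.getD j 0 ≤ 64) (b3 : ∀ j, H3.getD j 0 ≤ 64) :
    ∀ {hd pre : List Lt} {U1 U2 U3 : ℕ} {ms : List ℕ},
    UInv Lt.r1 Lt.c1 pre U1 → UInv Lt.r2 Lt.c2 pre U2 → UInv Lt.r3 Lt.c3 pre U3 →
    (∀ z ∈ pre, z.r1 < 64) → (∀ z ∈ pre, z.r2 < 64) → (∀ z ∈ pre, z.r3 < 64) →
    ms = (hd ++ tl).map tyMask →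
    fastGo H1 H2 H3 tl U1 U2 U3 hd ms = true →
    tabOK Lt.r1 Lt.c1 H1 pre (hd ++ tl) = true ∧ tabOK Lt.r2 Lt.c2 H2 pre (hd ++ tl) = true ∧
      tabOK Lt.r3 Lt.c3 H3 pre (hd ++ tl) = true ∧ chkM H1 H2 H3 tl pre hd = true ∧
      diagOK tl = true := by
  intro hd
  induction hd with
  | nil =>
    intro pre U1 U2 U3 ms i1 i2 i3 _ _ _ _ h
    have h' : fastTl H1 H2 H3 U1 U2 U3 tl = true := by
      cases ms <;> exact h
    obtain ⟨t1, t2, t3, t4⟩ := fastTl_spec i1 i2 i3 h'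
    exact ⟨t1, t2, t3, rfl, t4⟩
  | cons x rest ih =>
    intro pre U1 U2 U3 ms i1 i2 i3 p1 p2 p3 hms h
    subst hms
    rw [List.cons_append, List.map_cons] at h
    unfold fastGo at h
    simp only [Bool.and_eq_true] at h
    obtain ⟨⟨f1, f2, f3⟩, ha, hr⟩ := h
    have s1 := freeB_spec i1 f1
    have s2 := freeB_spec i2 f2
    have s3 := freeB_spec i3 f3
    have q1 : ∀ z ∈ x :: pre, z.r1 < 64 := by
      intro z hz
      rcases List.mem_cons.mp hz with rfl | hz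
      · exact lt_of_lt_of_le s1.1 (b1 _)
      · exact p1 z hz
    have q2 : ∀ z ∈ x :: pre, z.r2 < 64 := by
      intro z hz
      rcases List.mem_cons.mp hz with rfl | hz
      · exact lt_of_lt_of_le s2.1 (b2 _)
      · exact p2 z hz
    have q3 : ∀ z ∈ x :: pre, z.r3 < 64 := by
      intro z hz
      rcases List.mem_cons.mp hz with rfl | hz
      · exact lt_of_lt_of_le s3.1 (b3 _)
      · exact p3 z hz
    obtain ⟨t1, t2, t3, t4, t5⟩ := ih (i1.use x) (i2.use x) (i3.use x) q1 q2 q3 rfl hr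
    refine ⟨tabOK_cons s1.1 s1.2 t1, tabOK_cons s2.1 s2.2 t2, tabOK_cons s3.1 s3.2 t3, ?_, t5⟩
    unfold chkM
    rw [Bool.and_eq_true]
    refine ⟨?_, t4⟩
    unfold stepOK
    rw [List.all_eq_true]
    intro y hy
    have y1 : y.r1 < 64 := lt_of_lt_of_le ((tabOK_spec t1).1 y hy) (b1 _)
    have y2 : y.r2 < 64 := lt_of_lt_of_le ((tabOK_spec t2).1 y hy) (b2 _)
    have y3 : y.r3 < 64 := lt_of_lt_of_le ((tabOK_spec t3).1 y hy) (b3 _)
    simp only [Bool.or_eq_true, sameTy, Bool.and_eq_true, Nat.beq_eq, Nat.ble_eq, memb_iff]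
    rcases allBlk_spec ha (tyMask y) (List.mem_map_of_mem hy) with h5 | h5
    · rcases land_forbM i1 i2 i3 b1 b2 b3 p1 p2 p3 y1 y2 y3 h5 with h6 | h6 | h6
      · exact Or.inl (Or.inl (Or.inr h6))
      · exact Or.inl (Or.inr h6)
      · exact Or.inr h6
    · exact Or.inl (Or.inl (Or.inl (tyMask_inj (q1 x List.mem_cons_self) (q2 x List.mem_cons_self)
        y1 y2 h5)))

theorem mixOK_of_fastOK {H1 H2 H3 : List ℕ} {hd tl : List Lt} (b1 : ∀ j, H1.getD j 0 ≤ 64)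
    (b2 : ∀ j, H2.getD j 0 ≤ 64) (b3 : ∀ j, H3.getD j 0 ≤ 64)
    (h : fastOK H1 H2 H3 hd tl = true) : mixOK H1 H2 H3 hd tl = true := by
  obtain ⟨t1, t2, t3, t4, t5⟩ := fastGo_spec b1 b2 b3 (UInv.zero _ _) (UInv.zero _ _)
    (UInv.zero _ _) (by simp) (by simp) (by simp) rfl h
  unfold mixOK
  rw [t1, t2, t3, t4, t5]
  rfl

theorem getD_le_sum (l : List ℕ) (j : ℕ) : l.getD j 0 ≤ l.sum := by
  induction l generalizing j with
  | nil => simp
  | cons x l ih =>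
    rw [List.sum_cons]
    cases j with
    | zero => rw [List.getD_cons_zero]; omega
    | succ j =>
      rw [List.getD_cons_succ]
      have := ih j
      omega

/-- check of one entry, fast version -/
noncomputable def Entry.fast (n : ℕ) (H : List ℕ) (x : Entry) : Bool :=
  and (Nat.beq (Nat.add x.nf x.nd) n) (fastOK H H x.hs (decode x.nf x.cf) (decode x.nd x.cd))

theorem occSh_of_fast {H : List ℕ} {n : ℕ} (hn : H.sum = n) (h64 : n ≤ 64) {x : Entry}
    (hx : x.fast n H = true) {μ : YoungDiagram} (hμ : μ.card = n) (h : colLens μ = x.hs) :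
    OccSh (cellsH H) (cellsH H) μ := by
  apply occSh_of_entry hn (x := x) _ hμ h
  unfold Entry.fast at hx
  rw [Bool.and_eq_true] at hx
  unfold Entry.ok
  rw [Bool.and_eq_true]
  refine ⟨hx.1, ?_⟩
  have bH : ∀ j, H.getD j 0 ≤ 64 := fun j => (getD_le_sum H j).trans (by omega)
  refine mixOK_of_fastOK bH bH (fun j => ?_) hx.2
  rw [← h]
  refine (getD_le_sum _ j).trans ?_
  rw [colLens_sum, hμ]
  exact h64

end Crest.Agent.R195
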