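import Crest.Agent.R195.CertList

/-!
Row 195.  A linear check of mixed certificates with masks of letters (helper895).
-/

set_option autoImplicit false
set_option linter.unusedSectionVars false

namespace Crest.Agent.R195

/-- slot `i` (width `D`, `P = 2 ^ D`) of `X` -/
noncomputable def slot (D P X i : ℕ) : ℕ := Nat.mod (Nat.shiftRight X (Nat.mul D i)) P

/-- letters with row at least `h` in slot `h` -/
noncomputable def packT (D P R K : ℕ) : ℕ → ℕ → ℕ :=
  Nat.rec (motive := fun _ => ℕ → ℕ → ℕ) (fun _ acc => acc)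
    (fun k ih m acc => (fun m' => ih m' (Nat.lor acc (Nat.shiftLeft m' (Nat.mul D k))))
      (Nat.lor m (slot D P R k))) K

/-- letters with row at least `H c` in slot `c` -/
noncomputable def packU (D P T : ℕ) (H : List ℕ) : ℕ → ℕ → ℕ :=
  List.rec (motive := fun _ => ℕ → ℕ → ℕ) (fun _ acc => acc)
    (fun h _ ih c acc => ih (Nat.succ c)
      (Nat.lor acc (Nat.shiftLeft (slot D P T h) (Nat.mul D c)))) H

/-- start: blocked letters for every column, all letters in the columns beyond the shape -/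
noncomputable def linSt (D P R : ℕ) (H : List ℕ) : ℕ :=
  packU D P (packT D P R (hgt H 0) 0 0) H 0
    (Nat.sub (Nat.pow 2 (Nat.mul D 64)) (Nat.pow 2 (Nat.mul D H.length)))

/-- all three masks of letters by rows -/
noncomputable def packA (D : ℕ) (n : ℕ) (k : ℕ → ℕ → ℕ → Bool) : ℕ → ℕ → ℕ → ℕ → ℕ → Bool :=
  Nat.rec (motive := fun _ => ℕ → ℕ → ℕ → ℕ → ℕ → Bool) (fun _ _ R1 R2 R3 => k R1 R2 R3)
    (fun _ ih x j R1 R2 R3 => (fun y => ih (Nat.div x 68719476736) (Nat.succ j)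
      (Nat.lor R1 (Nat.pow 2 (Nat.add (Nat.mul D (Nat.mod y 64)) j)))
      (Nat.lor R2 (Nat.pow 2 (Nat.add (Nat.mul D (Nat.mod (Nat.div y 4096) 64)) j)))
      (Nat.lor R3 (Nat.pow 2 (Nat.add (Nat.mul D (Nat.mod (Nat.div y 16777216) 64)) j))))
        (Nat.mod x 68719476736)) n

/-- the tail -/
noncomputable def tlN (D P R1 R2 R3 : ℕ) (n : ℕ) : ℕ → ℕ → ℕ → ℕ → ℕ → Bool :=
  Nat.rec (motive := fun _ => ℕ → ℕ → ℕ → ℕ → ℕ → Bool) (fun _ _ _ _ _ => true)
    (fun _ ih x i U1 U2 U3 => (fun y =>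
      (fun (r1 c1 r2 c2 r3 c3 : ℕ) =>
        and (Nat.beq (Nat.land (Nat.lor (slot D P U1 c1) (Nat.lor (slot D P U2 c2) (slot D P U3 c3)))
          (Nat.pow 2 i)) 0)
        (and (and (Nat.beq r1 r2) (and (Nat.beq c1 c2) (Nat.beq r3 0)))
          (ih (Nat.div x 68719476736) (Nat.succ i)
            (Nat.lor U1 (Nat.shiftLeft (slot D P R1 r1) (Nat.mul D c1)))
            (Nat.lor U2 (Nat.shiftLeft (slot D P R2 r2) (Nat.mul D c2)))
            (Nat.lor U3 (Nat.shiftLeft (slot D P R3 r3) (Nat.mul D c3))))))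
        (Nat.mod y 64) (Nat.mod (Nat.div y 64) 64) (Nat.mod (Nat.div y 4096) 64)
        (Nat.mod (Nat.div y 262144) 64) (Nat.mod (Nat.div y 16777216) 64)
        (Nat.mod (Nat.div y 1073741824) 64)) (Nat.mod x 68719476736)) n

/-- the forced letters -/
noncomputable def goN (D P F R1 R2 R3 : ℕ) (k : ℕ → ℕ → ℕ → ℕ → Bool) (n : ℕ) :
    ℕ → ℕ → ℕ → ℕ → ℕ → Bool :=
  Nat.rec (motive := fun _ => ℕ → ℕ → ℕ → ℕ → ℕ → Bool) (fun _ i U1 U2 U3 => k i U1 U2 U3)
    (fun _ ih x i U1 U2 U3 => (fun y =>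
      (fun (r1 c1 r2 c2 r3 c3 : ℕ) =>
        (fun m : ℕ =>
          and (Nat.beq (Nat.land m (Nat.pow 2 i)) 0)
          (and (or (Nat.beq (Nat.lor m (Nat.sub (Nat.pow 2 (Nat.succ i)) 1)) F)
              (Nat.beq (Nat.lor (Nat.lor m (Nat.land (slot D P R1 r1) (Nat.land (slot D P R2 r2)
                (slot D P R3 r3)))) (Nat.sub (Nat.pow 2 (Nat.succ i)) 1)) F))
            (ih (Nat.div x 68719476736) (Nat.succ i)
              (Nat.lor U1 (Nat.shiftLeft (slot D P R1 r1) (Nat.mul D c1)))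
              (Nat.lor U2 (Nat.shiftLeft (slot D P R2 r2) (Nat.mul D c2)))
              (Nat.lor U3 (Nat.shiftLeft (slot D P R3 r3) (Nat.mul D c3))))))
          (Nat.lor (slot D P U1 c1) (Nat.lor (slot D P U2 c2) (slot D P U3 c3))))
        (Nat.mod y 64) (Nat.mod (Nat.div y 64) 64) (Nat.mod (Nat.div y 4096) 64)
        (Nat.mod (Nat.div y 262144) 64) (Nat.mod (Nat.div y 16777216) 64)
        (Nat.mod (Nat.div y 1073741824) 64)) (Nat.mod x 68719476736)) n

/-- the linear check -/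
noncomputable def linN (D P : ℕ) (H1 H2 H3 : List ℕ) (nf nd cf cd : ℕ) : Bool :=
  packA D nf (fun R1 R2 R3 => packA D nd (fun R1 R2 R3 =>
    and (and (Nat.beq (Nat.shiftRight R1 (Nat.mul D (hgt H1 0))) 0)
      (and (Nat.beq (Nat.shiftRight R2 (Nat.mul D (hgt H2 0))) 0)
        (Nat.beq (Nat.shiftRight R3 (Nat.mul D (hgt H3 0))) 0)))
    (goN D P (Nat.sub P 1) R1 R2 R3 (fun i U1 U2 U3 => tlN D P R1 R2 R3 nd cd i U1 U2 U3) nf cf 0
      (linSt D P R1 H1) (linSt D P R2 H2) (linSt D P R3 H3))) cd nf R1 R2 R3) cf 0 0 0 0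

/-- check of one entry, linear version -/
noncomputable def Entry.lin (n : ℕ) (H : List ℕ) (x : Entry) : Bool :=
  and (Nat.beq (Nat.add x.nf x.nd) n) (linN n (Nat.pow 2 n) H H x.hs x.nf x.nd x.cf x.cd)

/-! ### Bits -/

theorem slot_testBit (D X i b : ℕ) :
    (slot D (2 ^ D) X i).testBit b = true ↔ b < D ∧ X.testBit (D * i + b) = true := by
  have e : slot D (2 ^ D) X i = (X >>> (D * i)) % 2 ^ D := rfl
  rw [e, Nat.testBit_mod_two_pow, Nat.testBit_shiftRight, Bool.and_eq_true, decide_eq_true_iff]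

theorem addr_inj {D r b r' b' : ℕ} (hb : b < D) (hb' : b' < D) (h : D * r + b = D * r' + b') :
    r = r' ∧ b = b' := by
  have h1 : (D * r + b) / D = r := by
    rw [Nat.mul_add_div (by omega), Nat.div_eq_of_lt hb, Nat.add_zero]
  have h2 : (D * r' + b') / D = r' := by
    rw [Nat.mul_add_div (by omega), Nat.div_eq_of_lt hb', Nat.add_zero]
  have h3 : r = r' := by rw [← h1, h, h2]
  subst h3
  exact ⟨rfl, by omega⟩

/-- bits of a shifted slot -/
theorem shl_testBit {D m a h b : ℕ} (hm : ∀ t, m.testBit t = true → t < D) (hb : b < D) :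
    (m <<< (D * a)).testBit (D * h + b) = true ↔ h = a ∧ m.testBit b = true := by
  rw [Nat.testBit_shiftLeft, Bool.and_eq_true, decide_eq_true_iff]
  constructor
  · rintro ⟨h1, h2⟩
    have h3 := hm _ h2
    obtain ⟨h4, h5⟩ := addr_inj (D := D) (r := h) (b := b) (r' := a) (b' := D * h + b - D * a) hb h3
      (by omega)
    refine ⟨h4, ?_⟩
    rw [h5]; exact h2
  · rintro ⟨rfl, h2⟩
    refine ⟨by omega, ?_⟩
    rw [Nat.add_sub_cancel_left]
    exact h2

/-- letters by rows -/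
def packR (D : ℕ) (f : Lt → ℕ) : List Lt → ℕ → ℕ
  | [], _ => 0
  | x :: L, j => 2 ^ (D * f x + j) ||| packR D f L (j + 1)

theorem packR_testBit (D : ℕ) (f : Lt → ℕ) : ∀ (L : List Lt) (j t : ℕ),
    (packR D f L j).testBit t = true ↔ ∃ i y, L[i]? = some y ∧ t = D * f y + (j + i) := by
  intro L
  induction L with
  | nil => intro j t; simp [packR]
  | cons x L ih =>
    intro j t
    rw [packR, Nat.testBit_or, Bool.or_eq_true, Nat.testBit_two_pow, decide_eq_true_iff, ih]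
    constructor
    · rintro (h | ⟨i, y, h1, h2⟩)
      · exact ⟨0, x, rfl, by rw [← h]; simp⟩
      · exact ⟨i + 1, y, by simpa using h1, by omega⟩
    · rintro ⟨i, y, h1, h2⟩
      cases i with
      | zero =>
        simp only [List.getElem?_cons_zero, Option.some.injEq] at h1
        subst h1
        exact Or.inl (by omega)
      | succ i =>
        refine Or.inr ⟨i, y, by simpa using h1, by omega⟩

theorem packR_append (D : ℕ) (f : Lt → ℕ) : ∀ (L L' : List Lt) (j : ℕ),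
    packR D f (L ++ L') j = packR D f L j ||| packR D f L' (j + L.length) := by
  intro L
  induction L with
  | nil => intro L' j; simp [packR]
  | cons x L ih =>
    intro L' j
    rw [List.cons_append, packR, packR, ih, Nat.or_assoc, List.length_cons,
      show j + 1 + L.length = j + (L.length + 1) by ring]

/-- `R` is the mask of the letters by rows -/
def RInv (D : ℕ) (f : Lt → ℕ) (L : List Lt) (R : ℕ) : Prop :=
  ∀ r b, b < D → (R.testBit (D * r + b) = true ↔ ∃ y, L[b]? = some y ∧ f y = r)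

theorem getElem?_lt {α : Type*} {L : List α} {i : ℕ} {y : α} (h : L[i]? = some y) :
    i < L.length := by
  by_contra hcon
  rw [List.getElem?_eq_none (by omega)] at h
  exact absurd h (by simp)

theorem RInv_packR {D : ℕ} {f : Lt → ℕ} {L : List Lt} (hL : L.length = D) :
    RInv D f L (packR D f L 0) := by
  intro r b hb
  rw [packR_testBit]
  constructor
  · rintro ⟨i, y, h1, h2⟩
    have h3 := getElem?_lt h1
    obtain ⟨h4, h5⟩ := addr_inj (D := D) (r := r) (b := b) (b' := i) (r' := f y) hb (by omega)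
      (by omega)
    subst h5
    exact ⟨y, h1, h4.symm⟩
  · rintro ⟨y, h1, h2⟩
    exact ⟨b, y, h1, by rw [h2]; omega⟩

theorem rows_lt {D : ℕ} {f : Lt → ℕ} {L : List Lt} (hL : L.length = D) {R : ℕ}
    (hR : RInv D f L R) {K : ℕ} (h : Nat.beq (Nat.shiftRight R (Nat.mul D K)) 0 = true) :
    ∀ y ∈ L, f y < K := by
  intro y hy
  obtain ⟨i, hi, rfl⟩ := List.getElem_of_mem hy
  by_contra hcon
  have h1 : R >>> (D * K) = 0 := Nat.eq_of_beq_eq_true h
  have h2 : (R >>> (D * K)).testBit (D * (f L[i] - K) + i) = true := by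
    rw [Nat.testBit_shiftRight]
    have e : D * K + (D * (f L[i] - K) + i) = D * f L[i] + i := by
      rw [← Nat.add_assoc, ← Nat.mul_add, Nat.add_sub_cancel' (by omega)]
    rw [e, hR _ _ (by omega)]
    exact ⟨L[i], List.getElem?_eq_getElem hi, rfl⟩
  rw [h1, Nat.zero_testBit] at h2
  exact absurd h2 (by decide)

theorem packT_spec {D : ℕ} {f : Lt → ℕ} {L : List Lt} {R : ℕ}
    (hR : RInv D f L R) : ∀ (K m acc : ℕ),
    (∀ b, m.testBit b = true ↔ b < D ∧ ∃ y, L[b]? = some y ∧ K ≤ f y) →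
    (∀ h b, b < D → (acc.testBit (D * h + b) = true ↔ K ≤ h ∧ ∃ y, L[b]? = some y ∧ h ≤ f y)) →
    ∀ h b, b < D → ((packT D (2 ^ D) R K m acc).testBit (D * h + b) = true ↔
      ∃ y, L[b]? = some y ∧ h ≤ f y) := by
  intro K
  induction K with
  | zero =>
    intro m acc _ hacc h b hb
    have e : packT D (2 ^ D) R 0 m acc = acc := rfl
    rw [e, hacc h b hb]
    simp
  | succ k ih =>
    intro m acc hm hacc h b hb
    have e : packT D (2 ^ D) R (k + 1) m acc = packT D (2 ^ D) R k (m ||| slot D (2 ^ D) R k)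
      (acc ||| ((m ||| slot D (2 ^ D) R k) <<< (D * k))) := rfl
    rw [e]
    have hm' : ∀ b, (m ||| slot D (2 ^ D) R k).testBit b = true ↔
        b < D ∧ ∃ y, L[b]? = some y ∧ k ≤ f y := by
      intro b
      rw [Nat.testBit_or, Bool.or_eq_true, hm, slot_testBit]
      constructor
      · rintro (⟨h1, y, h2, h3⟩ | ⟨h1, h2⟩)
        · exact ⟨h1, y, h2, by omega⟩
        · obtain ⟨y, h3, h4⟩ := (hR k b h1).mp h2
          exact ⟨h1, y, h3, by omega⟩
      · rintro ⟨h1, y, h2, h3⟩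
        rcases Nat.lt_or_ge k (f y) with h4 | h4
        · exact Or.inl ⟨h1, y, h2, h4⟩
        · exact Or.inr ⟨h1, (hR k b h1).mpr ⟨y, h2, by omega⟩⟩
    refine ih _ _ hm' ?_ h b hb
    intro h b hb
    rw [Nat.testBit_or, Bool.or_eq_true, hacc h b hb,
      shl_testBit (fun t ht => ((hm' t).mp ht).1) hb, hm']
    constructor
    · rintro (⟨h1, y, h2, h3⟩ | ⟨rfl, -, y, h2, h3⟩)
      · exact ⟨by omega, y, h2, h3⟩
      · exact ⟨le_refl _, y, h2, h3⟩
    · rintro ⟨h1, y, h2, h3⟩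
      rcases Nat.eq_or_lt_of_le h1 with h4 | h4
      · subst h4
        exact Or.inr ⟨rfl, hb, y, h2, h3⟩
      · exact Or.inl ⟨h4, y, h2, h3⟩

theorem packU_spec {D : ℕ} {f : Lt → ℕ} {L : List Lt} {T : ℕ}
    (hT : ∀ h b, b < D → (T.testBit (D * h + b) = true ↔ ∃ y, L[b]? = some y ∧ h ≤ f y)) :
    ∀ (H : List ℕ) (c acc : ℕ), ∀ c' b, b < D →
      ((packU D (2 ^ D) T H c acc).testBit (D * c' + b) = true ↔
        acc.testBit (D * c' + b) = true ∨ (c ≤ c' ∧ c' < c + H.length ∧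
          ∃ y, L[b]? = some y ∧ H.getD (c' - c) 0 ≤ f y)) := by
  intro H
  induction H with
  | nil =>
    intro c acc c' b hb
    have e : packU D (2 ^ D) T [] c acc = acc := rfl
    rw [e]
    simp only [List.length_nil, Nat.add_zero]
    constructor
    · exact Or.inl
    · rintro (h | h)
      · exact h
      · omega
  | cons h H ih =>
    intro c acc c' b hb
    have e : packU D (2 ^ D) T (h :: H) c acc =
      packU D (2 ^ D) T H (c + 1) (acc ||| (slot D (2 ^ D) T h <<< (D * c))) := rfl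
    rw [e, ih _ _ _ _ hb, Nat.testBit_or, Bool.or_eq_true,
      shl_testBit (fun t ht => ((slot_testBit _ _ _ _).mp ht).1) hb, slot_testBit, hT _ _ hb,
      List.length_cons]
    constructor
    · rintro ((h1 | ⟨rfl, -, y, h2, h3⟩) | ⟨h1, h2, y, h3, h4⟩)
      · exact Or.inl h1
      · refine Or.inr ⟨le_refl _, by omega, y, h2, ?_⟩
        rw [Nat.sub_self, List.getD_cons_zero]
        exact h3
      · refine Or.inr ⟨by omega, by omega, y, h3, ?_⟩
        rw [show c' - c = (c' - (c + 1)) + 1 by omega, List.getD_cons_succ]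
        exact h4
    · rintro (h1 | ⟨h1, h2, y, h3, h4⟩)
      · exact Or.inl (Or.inl h1)
      · rcases Nat.eq_or_lt_of_le h1 with h5 | h5
        · subst h5
          rw [Nat.sub_self, List.getD_cons_zero] at h4
          exact Or.inl (Or.inr ⟨rfl, hb, y, h3, h4⟩)
        · refine Or.inr ⟨h5, by omega, y, h3, ?_⟩
          rw [show c' - c = (c' - (c + 1)) + 1 by omega, List.getD_cons_succ] at h4
          exact h4

theorem blockOnes_testBit {a b t : ℕ} : (2 ^ a - 2 ^ b).testBit t = true ↔ b ≤ t ∧ t < a := by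
  rcases Nat.lt_or_ge a b with h | h
  · have e : 2 ^ a - 2 ^ b = 0 := Nat.sub_eq_zero_of_le (Nat.pow_le_pow_right (by norm_num) h.le)
    rw [e, Nat.zero_testBit]
    constructor
    · intro h; exact absurd h (by decide)
    · intro h; omega
  · have e : 2 ^ a - 2 ^ b = 2 ^ b * (2 ^ (a - b) - 1) := by
      rw [Nat.mul_sub, ← pow_add, mul_one, Nat.add_sub_cancel' h]
    rw [e, Nat.testBit_two_pow_mul, Nat.testBit_two_pow_sub_one]
    simp only [Bool.and_eq_true, decide_eq_true_iff]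
    omega

/-- the blocked letters for every column -/
def UI (D : ℕ) (f g : Lt → ℕ) (H : List ℕ) (L pre : List Lt) (U : ℕ) : Prop :=
  ∀ c b, c < 64 → b < D → (U.testBit (D * c + b) = true ↔
    ∃ y, L[b]? = some y ∧ (H.getD c 0 ≤ f y ∨ f y ∈ used f g c pre))

theorem UI_start {D : ℕ} {f : Lt → ℕ} (g : Lt → ℕ) {L : List Lt} (hL : L.length = D) {R : ℕ}
    (hR : RInv D f L R) {H : List ℕ}
    (h : Nat.beq (Nat.shiftRight R (Nat.mul D (hgt H 0))) 0 = true) :
    UI D f g H L [] (linSt D (2 ^ D) R H) := by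
  have hrow := rows_lt hL hR h
  rw [hgt_eq] at hrow
  intro c b hc hb
  have e : linSt D (2 ^ D) R H = packU D (2 ^ D) (packT D (2 ^ D) R (hgt H 0) 0 0) H 0
    (2 ^ (D * 64) - 2 ^ (D * H.length)) := rfl
  rw [e, packU_spec (packT_spec hR (hgt H 0) 0 0 ?_ ?_) H 0 _ c b hb, blockOnes_testBit]
  · have hbL : L[b]? = some (L[b]'(by omega)) := List.getElem?_eq_getElem _
    simp only [Nat.zero_add, Nat.zero_le, true_and, Nat.sub_zero, used, List.not_mem_nil, or_false]
    constructor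
    · rintro (⟨h1, -⟩ | ⟨-, h2⟩)
      · refine ⟨_, hbL, ?_⟩
        have h3 : H.length ≤ c := by
          by_contra hcon
          have h4 : D * (c + 1) ≤ D * H.length := Nat.mul_le_mul_left _ (by omega)
          rw [Nat.mul_add, Nat.mul_one] at h4
          omega
        rw [List.getD_eq_getElem?_getD, List.getElem?_eq_none h3]
        exact Nat.zero_le _
      · exact h2
    · rintro ⟨y, h1, h2⟩
      rcases Nat.lt_or_ge c H.length with h3 | h3
      · exact Or.inr ⟨h3, y, h1, h2⟩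
      · refine Or.inl ⟨?_, ?_⟩
        · exact (Nat.mul_le_mul_left _ h3).trans (Nat.le_add_right _ _)
        · have h4 : D * (c + 1) ≤ D * 64 := Nat.mul_le_mul_left _ (by omega)
          rw [Nat.mul_add, Nat.mul_one] at h4
          omega
  · intro b
    rw [Nat.zero_testBit, hgt_eq]
    constructor
    · intro h; exact absurd h (by decide)
    · rintro ⟨-, y, h1, h2⟩
      have := hrow y (List.mem_of_getElem? h1)
      omega
  · intro h b hb
    rw [Nat.zero_testBit, hgt_eq]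
    constructor
    · intro h; exact absurd h (by decide)
    · rintro ⟨h0, y, h1, h2⟩
      have := hrow y (List.mem_of_getElem? h1)
      omega

theorem UI.use {D : ℕ} {f g : Lt → ℕ} {H : List ℕ} {L pre : List Lt} {U R : ℕ}
    (h : UI D f g H L pre U) (hR : RInv D f L R) (x : Lt) :
    UI D f g H L (x :: pre) (U ||| (slot D (2 ^ D) R (f x) <<< (D * g x))) := by
  intro c b hc hb
  rw [Nat.testBit_or, Bool.or_eq_true, h c b hc hb,
    shl_testBit (fun t ht => ((slot_testBit _ _ _ _).mp ht).1) hb, slot_testBit, hR _ _ hb]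
  simp only [mem_used]
  constructor
  · rintro (⟨y, h1, h2 | ⟨z, h3, h4⟩⟩ | ⟨h1, -, y, h2, h3⟩)
    · exact ⟨y, h1, Or.inl h2⟩
    · exact ⟨y, h1, Or.inr ⟨z, List.mem_cons_of_mem _ h3, h4⟩⟩
    · exact ⟨y, h2, Or.inr ⟨x, List.mem_cons_self, h1.symm, h3.symm⟩⟩
  · rintro ⟨y, h1, h2 | ⟨z, h3, h4, h5⟩⟩
    · exact Or.inl ⟨y, h1, Or.inl h2⟩
    · rcases List.mem_cons.mp h3 with rfl | h3
      · exact Or.inr ⟨h4.symm, hb, y, h1, h5.symm⟩
      · exact Or.inl ⟨y, h1, Or.inr ⟨z, h3, h4, h5⟩⟩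

/-! ### List versions -/

/-- blocked letters -/
noncomputable def mB (D P U1 U2 U3 : ℕ) (x : Lt) : ℕ :=
  Nat.lor (slot D P U1 x.c1) (Nat.lor (slot D P U2 x.c2) (slot D P U3 x.c3))

/-- letters of the type of `x` -/
noncomputable def mS (D P R1 R2 R3 : ℕ) (x : Lt) : ℕ :=
  Nat.land (slot D P R1 x.r1) (Nat.land (slot D P R2 x.r2) (slot D P R3 x.r3))

/-- new blocked letters -/
noncomputable def upU (D P R U r c : ℕ) : ℕ := Nat.lor U (Nat.shiftLeft (slot D P R r) (Nat.mul D c))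

/-- the tail -/
noncomputable def tlL (D P R1 R2 R3 : ℕ) : List Lt → ℕ → ℕ → ℕ → ℕ → Bool
  | [], _, _, _, _ => true
  | x :: l, i, U1, U2, U3 => and (Nat.beq (Nat.land (mB D P U1 U2 U3 x) (Nat.pow 2 i)) 0)
      (and (and (Nat.beq x.r1 x.r2) (and (Nat.beq x.c1 x.c2) (Nat.beq x.r3 0)))
        (tlL D P R1 R2 R3 l (Nat.succ i) (upU D P R1 U1 x.r1 x.c1) (upU D P R2 U2 x.r2 x.c2)
          (upU D P R3 U3 x.r3 x.c3)))

/-- the forced letters -/
noncomputable def goL (D P F R1 R2 R3 : ℕ) (k : ℕ → ℕ → ℕ → ℕ → Bool) :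
    List Lt → ℕ → ℕ → ℕ → ℕ → Bool
  | [], i, U1, U2, U3 => k i U1 U2 U3
  | x :: l, i, U1, U2, U3 => and (Nat.beq (Nat.land (mB D P U1 U2 U3 x) (Nat.pow 2 i)) 0)
      (and (or (Nat.beq (Nat.lor (mB D P U1 U2 U3 x) (Nat.sub (Nat.pow 2 (Nat.succ i)) 1)) F)
          (Nat.beq (Nat.lor (Nat.lor (mB D P U1 U2 U3 x) (mS D P R1 R2 R3 x))
            (Nat.sub (Nat.pow 2 (Nat.succ i)) 1)) F))
        (goL D P F R1 R2 R3 k l (Nat.succ i) (upU D P R1 U1 x.r1 x.c1) (upU D P R2 U2 x.r2 x.c2)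
          (upU D P R3 U3 x.r3 x.c3)))

theorem tlN_eq (D P R1 R2 R3 : ℕ) : ∀ (n x i U1 U2 U3 : ℕ),
    tlN D P R1 R2 R3 n x i U1 U2 U3 = tlL D P R1 R2 R3 (decode n x) i U1 U2 U3 := by
  intro n
  induction n with
  | zero => intro x i U1 U2 U3; rfl
  | succ n ih =>
    intro x i U1 U2 U3
    rw [decode, tlL, ← ih]
    rfl

theorem goN_eq (D P F R1 R2 R3 : ℕ) (k : ℕ → ℕ → ℕ → ℕ → Bool) : ∀ (n x i U1 U2 U3 : ℕ),
    goN D P F R1 R2 R3 k n x i U1 U2 U3 = goL D P F R1 R2 R3 k (decode n x) i U1 U2 U3 := by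
  intro n
  induction n with
  | zero => intro x i U1 U2 U3; rfl
  | succ n ih =>
    intro x i U1 U2 U3
    rw [decode, goL, ← ih]
    rfl

theorem packA_eq (D : ℕ) (k : ℕ → ℕ → ℕ → Bool) : ∀ (n x j R1 R2 R3 : ℕ),
    packA D n k x j R1 R2 R3 = k (R1 ||| packR D Lt.r1 (decode n x) j)
      (R2 ||| packR D Lt.r2 (decode n x) j) (R3 ||| packR D Lt.r3 (decode n x) j) := by
  intro n
  induction n with
  | zero => intro x j R1 R2 R3; simp only [decode, packR, Nat.or_zero]; rfl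
  | succ n ih =>
    intro x j R1 R2 R3
    rw [decode, packR, packR, packR, ← Nat.or_assoc, ← Nat.or_assoc, ← Nat.or_assoc]
    exact ih _ _ _ _ _

theorem decode_lt64 (n x : ℕ) : ∀ y ∈ decode n x, y.c1 < 64 ∧ y.c2 < 64 ∧ y.c3 < 64 := by
  induction n generalizing x with
  | zero => intro y hy; simp [decode] at hy
  | succ n ih =>
    intro y hy
    rw [decode] at hy
    rcases List.mem_cons.mp hy with rfl | hy
    · exact ⟨Nat.mod_lt _ (by norm_num), Nat.mod_lt _ (by norm_num), Nat.mod_lt _ (by norm_num)⟩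
    · exact ih _ y hy

/-! ### Soundness -/

theorem free_of_mB {D : ℕ} {f g : Lt → ℕ} {H : List ℕ} {L pre : List Lt} {U : ℕ}
    (h : UI D f g H L pre U) {i : ℕ} (hi : i < D) {x : Lt} (hx : L[i]? = some x) (hc : g x < 64)
    (hb : (slot D (2 ^ D) U (g x)).testBit i = false) :
    f x < H.getD (g x) 0 ∧ ∀ z ∈ pre, ¬ (g z = g x ∧ f z = f x) := by
  have h1 : ¬ U.testBit (D * g x + i) = true := by
    intro h2
    have := (slot_testBit D U (g x) i).mpr ⟨hi, h2⟩
    rw [hb] at this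
    exact absurd this (by decide)
  rw [h _ _ hc hi] at h1
  push Not at h1
  have h2 := h1 x hx
  refine ⟨h2.1, ?_⟩
  rintro z hz ⟨e1, e2⟩
  exact h2.2 (mem_used.mpr ⟨z, hz, e1, e2⟩)

theorem mB_bit {D U1 U2 U3 b : ℕ} {x : Lt} (P : ℕ) : (mB D P U1 U2 U3 x).testBit b =
    ((slot D P U1 x.c1).testBit b || ((slot D P U2 x.c2).testBit b ||
      (slot D P U3 x.c3).testBit b)) := by
  have e : mB D P U1 U2 U3 x = slot D P U1 x.c1 ||| (slot D P U2 x.c2 ||| slot D P U3 x.c3) := rfl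
  rw [e, Nat.testBit_or, Nat.testBit_or]

theorem mB_self {D U1 U2 U3 i : ℕ} {x : Lt} {P : ℕ}
    (h : Nat.beq (Nat.land (mB D P U1 U2 U3 x) (Nat.pow 2 i)) 0 = true) :
    (slot D P U1 x.c1).testBit i = false ∧ (slot D P U2 x.c2).testBit i = false ∧
      (slot D P U3 x.c3).testBit i = false := by
  have h1 : mB D P U1 U2 U3 x &&& 2 ^ i = 0 := Nat.eq_of_beq_eq_true h
  have h2 : (mB D P U1 U2 U3 x &&& 2 ^ i).testBit i = false := by rw [h1, Nat.zero_testBit]
  rw [Nat.testBit_and, Nat.testBit_two_pow_self, Bool.and_true, mB_bit, Bool.or_eq_false_iff,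
    Bool.or_eq_false_iff] at h2
  exact h2

theorem drop_cons_facts {α : Type*} {L rest : List α} {i : ℕ} {x : α}
    (h : L.drop i = x :: rest) : L[i]? = some x ∧ L.drop (i + 1) = rest := by
  have h1 : L[i]? = some x := by
    have : (L.drop i)[0]? = some x := by rw [h]; rfl
    rwa [List.getElem?_drop, Nat.add_zero] at this
  refine ⟨h1, ?_⟩
  rw [← List.drop_drop, h]
  rfl

theorem tlL_spec {D : ℕ} {H1 H2 H3 : List ℕ} {L : List Lt} (hL : L.length = D)
    (h64 : ∀ y ∈ L, y.c1 < 64 ∧ y.c2 < 64 ∧ y.c3 < 64) {R1 R2 R3 : ℕ}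
    (r1 : RInv D Lt.r1 L R1) (r2 : RInv D Lt.r2 L R2) (r3 : RInv D Lt.r3 L R3) :
    ∀ {tl pre : List Lt} {i U1 U2 U3 : ℕ}, L.drop i = tl →
    UI D Lt.r1 Lt.c1 H1 L pre U1 → UI D Lt.r2 Lt.c2 H2 L pre U2 →
    UI D Lt.r3 Lt.c3 H3 L pre U3 →
    tlL D (2 ^ D) R1 R2 R3 tl i U1 U2 U3 = true →
    tabOK Lt.r1 Lt.c1 H1 pre tl = true ∧ tabOK Lt.r2 Lt.c2 H2 pre tl = true ∧
      tabOK Lt.r3 Lt.c3 H3 pre tl = true ∧ diagOK tl = true := by
  intro tl
  induction tl with
  | nil => intro pre i U1 U2 U3 _ _ _ _ _; exact ⟨rfl, rfl, rfl, rfl⟩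
  | cons x rest ih =>
    intro pre i U1 U2 U3 hd i1 i2 i3 h
    obtain ⟨hx, hd'⟩ := drop_cons_facts hd
    have hi : i < D := by rw [← hL]; exact getElem?_lt hx
    obtain ⟨b1, b2, b3⟩ := h64 x (List.mem_of_getElem? hx)
    unfold tlL at h
    simp only [Bool.and_eq_true] at h
    obtain ⟨h0, ⟨d1, d2, d3⟩, hr⟩ := h
    obtain ⟨f1, f2, f3⟩ := mB_self h0
    obtain ⟨t1, t2, t3, t4⟩ := ih hd' (i1.use r1 x) (i2.use r2 x) (i3.use r3 x) hr
    have s1 := free_of_mB i1 hi hx b1 f1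
    have s2 := free_of_mB i2 hi hx b2 f2
    have s3 := free_of_mB i3 hi hx b3 f3
    refine ⟨tabOK_cons s1.1 s1.2 t1, tabOK_cons s2.1 s2.2 t2, tabOK_cons s3.1 s3.2 t3, ?_⟩
    unfold diagOK at t4 ⊢
    rw [List.all_cons, Bool.and_eq_true]
    refine ⟨?_, t4⟩
    simp only [Bool.and_eq_true]
    exact ⟨d1, d2, d3⟩

theorem goL_spec {D : ℕ} {H1 H2 H3 : List ℕ} {L : List Lt} (hL : L.length = D)
    (h64 : ∀ y ∈ L, y.c1 < 64 ∧ y.c2 < 64 ∧ y.c3 < 64) {R1 R2 R3 : ℕ}
    (r1 : RInv D Lt.r1 L R1) (r2 : RInv D Lt.r2 L R2) (r3 : RInv D Lt.r3 L R3) {tl : List Lt} :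
    ∀ {hd pre : List Lt} {i U1 U2 U3 : ℕ}, L.drop i = hd ++ tl →
    UI D Lt.r1 Lt.c1 H1 L pre U1 → UI D Lt.r2 Lt.c2 H2 L pre U2 →
    UI D Lt.r3 Lt.c3 H3 L pre U3 →
    goL D (2 ^ D) (2 ^ D - 1) R1 R2 R3 (tlL D (2 ^ D) R1 R2 R3 tl) hd i U1 U2 U3 = true →
    tabOK Lt.r1 Lt.c1 H1 pre (hd ++ tl) = true ∧ tabOK Lt.r2 Lt.c2 H2 pre (hd ++ tl) = true ∧
      tabOK Lt.r3 Lt.c3 H3 pre (hd ++ tl) = true ∧ chkM H1 H2 H3 tl pre hd = true ∧
      diagOK tl = true := by
  intro hd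
  induction hd with
  | nil =>
    intro pre i U1 U2 U3 hd i1 i2 i3 h
    obtain ⟨t1, t2, t3, t4⟩ := tlL_spec hL h64 r1 r2 r3 hd i1 i2 i3 h
    exact ⟨t1, t2, t3, rfl, t4⟩
  | cons x rest ih =>
    intro pre i U1 U2 U3 hd i1 i2 i3 h
    rw [List.cons_append] at hd
    obtain ⟨hx, hd'⟩ := drop_cons_facts hd
    have hi : i < D := by rw [← hL]; exact getElem?_lt hx
    obtain ⟨b1, b2, b3⟩ := h64 x (List.mem_of_getElem? hx)
    unfold goL at h
    rw [Bool.and_eq_true, Bool.and_eq_true] at h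
    obtain ⟨h0, h1, hr⟩ := h
    obtain ⟨f1, f2, f3⟩ := mB_self h0
    obtain ⟨t1, t2, t3, t4, t5⟩ := ih hd' (i1.use r1 x) (i2.use r2 x) (i3.use r3 x) hr
    have s1 := free_of_mB i1 hi hx b1 f1
    have s2 := free_of_mB i2 hi hx b2 f2
    have s3 := free_of_mB i3 hi hx b3 f3
    refine ⟨tabOK_cons s1.1 s1.2 t1, tabOK_cons s2.1 s2.2 t2, tabOK_cons s3.1 s3.2 t3, ?_, t5⟩
    unfold chkM
    rw [Bool.and_eq_true]
    refine ⟨?_, t4⟩
    unfold stepOK
    rw [List.all_eq_true]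
    intro y hy
    obtain ⟨j, hj, rfl⟩ := List.getElem_of_mem hy
    have hy' : L[i + 1 + j]? = some (rest ++ tl)[j] := by
      rw [← List.getElem?_drop, hd', List.getElem?_eq_getElem hj]
    have hb : i + 1 + j < D := by rw [← hL]; exact getElem?_lt hy'
    set y := (rest ++ tl)[j] with hyd
    have hF : ∀ m : ℕ, Nat.beq (Nat.lor m (Nat.sub (Nat.pow 2 (Nat.succ i)) 1)) (2 ^ D - 1) = true →
        m.testBit (i + 1 + j) = true := by
      intro m hm
      have e1 : m ||| (2 ^ (i + 1) - 1) = 2 ^ D - 1 := Nat.eq_of_beq_eq_true hm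
      have e2 : (m ||| (2 ^ (i + 1) - 1)).testBit (i + 1 + j) = true := by
        rw [e1, Nat.testBit_two_pow_sub_one, decide_eq_true_iff]; exact hb
      rw [Nat.testBit_or, Nat.testBit_two_pow_sub_one, Bool.or_eq_true, decide_eq_true_iff] at e2
      rcases e2 with e2 | e2
      · exact e2
      · omega
    have hblk : (mB D (2 ^ D) U1 U2 U3 x).testBit (i + 1 + j) = true ∨
        (mS D (2 ^ D) R1 R2 R3 x).testBit (i + 1 + j) = true := by
      rcases Bool.or_eq_true_iff.mp h1 with h1 | h1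
      · exact Or.inl (hF _ h1)
      · have h2 := hF _ h1
        have e : Nat.lor (mB D (2 ^ D) U1 U2 U3 x) (mS D (2 ^ D) R1 R2 R3 x) =
          mB D (2 ^ D) U1 U2 U3 x ||| mS D (2 ^ D) R1 R2 R3 x := rfl
        rw [e, Nat.testBit_or, Bool.or_eq_true] at h2
        exact h2
    simp only [Bool.or_eq_true, sameTy, Bool.and_eq_true, Nat.beq_eq, Nat.ble_eq, memb_iff]
    have key : ∀ {f g : Lt → ℕ} {H : List ℕ} {U : ℕ}, UI D f g H L pre U → g x < 64 →
        (slot D (2 ^ D) U (g x)).testBit (i + 1 + j) = true →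
        H.getD (g x) 0 ≤ f y ∨ f y ∈ used f g (g x) pre := by
      intro f g H U hU hc hs
      rw [slot_testBit, hU _ _ hc hb] at hs
      obtain ⟨-, y', h3, h4⟩ := hs
      rw [hy'] at h3
      have : y' = y := (Option.some.inj h3).symm
      rw [this] at h4
      exact h4
    rcases hblk with h2 | h2
    · rw [mB_bit, Bool.or_eq_true, Bool.or_eq_true] at h2
      rcases h2 with h2 | h2 | h2
      · exact Or.inl (Or.inl (Or.inr (key i1 b1 h2)))
      · exact Or.inl (Or.inr (key i2 b2 h2))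
      · exact Or.inr (key i3 b3 h2)
    · have e : mS D (2 ^ D) R1 R2 R3 x = slot D (2 ^ D) R1 x.r1 &&&
        (slot D (2 ^ D) R2 x.r2 &&& slot D (2 ^ D) R3 x.r3) := rfl
      rw [e, Nat.testBit_and, Nat.testBit_and, Bool.and_eq_true, Bool.and_eq_true,
        slot_testBit, slot_testBit, slot_testBit, r1 _ _ hb, r2 _ _ hb, r3 _ _ hb] at h2
      obtain ⟨⟨-, y1, g1, e1⟩, ⟨-, y2, g2, e2⟩, ⟨-, y3, g3, e3⟩⟩ := h2
      rw [hy'] at g1 g2 g3
      have k1 : y1 = y := (Option.some.inj g1).symm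
      have k2 : y2 = y := (Option.some.inj g2).symm
      have k3 : y3 = y := (Option.some.inj g3).symm
      rw [k1] at e1
      rw [k2] at e2
      rw [k3] at e3
      exact Or.inl (Or.inl (Or.inl ⟨e1.symm, e2.symm, e3.symm⟩))

theorem mixOK_of_linN {D : ℕ} {H1 H2 H3 : List ℕ} {nf nd cf cd : ℕ} (hD : nf + nd = D)
    (h : linN D (2 ^ D) H1 H2 H3 nf nd cf cd = true) :
    mixOK H1 H2 H3 (decode nf cf) (decode nd cd) = true := by
  unfold linN at h
  rw [packA_eq, packA_eq] at h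
  simp only [Nat.zero_or] at h
  have hL : (decode nf cf ++ decode nd cd).length = D := by
    rw [List.length_append, length_decode, length_decode, hD]
  have hap : ∀ f : Lt → ℕ, packR D f (decode nf cf) 0 ||| packR D f (decode nd cd) nf =
      packR D f (decode nf cf ++ decode nd cd) 0 := by
    intro f
    rw [packR_append, length_decode, Nat.zero_add]
  rw [hap, hap, hap, goN_eq] at h
  rw [Bool.and_eq_true, Bool.and_eq_true, Bool.and_eq_true] at h
  obtain ⟨⟨k1, k2, k3⟩, h⟩ := h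
  have ek : (fun i U1 U2 U3 => tlN D (2 ^ D) (packR D Lt.r1 (decode nf cf ++ decode nd cd) 0)
      (packR D Lt.r2 (decode nf cf ++ decode nd cd) 0)
      (packR D Lt.r3 (decode nf cf ++ decode nd cd) 0) nd cd i U1 U2 U3) =
      tlL D (2 ^ D) (packR D Lt.r1 (decode nf cf ++ decode nd cd) 0)
      (packR D Lt.r2 (decode nf cf ++ decode nd cd) 0)
      (packR D Lt.r3 (decode nf cf ++ decode nd cd) 0) (decode nd cd) := by
    funext i U1 U2 U3
    exact tlN_eq _ _ _ _ _ _ _ _ _ _ _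
  rw [ek] at h
  obtain ⟨t1, t2, t3, t4, t5⟩ := goL_spec (tl := decode nd cd) (hd := decode nf cf) hL
    (fun y hy => by
      rcases List.mem_append.mp hy with hy | hy
      · exact decode_lt64 _ _ y hy
      · exact decode_lt64 _ _ y hy)
    (RInv_packR hL) (RInv_packR hL) (RInv_packR hL) (pre := []) (i := 0) rfl
    (UI_start Lt.c1 hL (RInv_packR hL) k1) (UI_start Lt.c2 hL (RInv_packR hL) k2)
    (UI_start Lt.c3 hL (RInv_packR hL) k3) h
  unfold mixOK
  rw [t1, t2, t3, t4, t5]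
  rfl

/-- a piece of a table has been checked, linear version -/
theorem tabOK_of_lin {ps : List ℕ} (hv : ValidH ps) {H : List ℕ} (hH : clList ps = H) {n : ℕ}
    (hn : hsize ps = n) {tb : List Entry} (h : (tb.all fun x => x.lin n H) = true) :
    TabOK ps n tb := by
  intro μ hμ hin
  rw [List.all_eq_true] at h
  unfold inTab at hin
  rw [List.any_eq_true] at hin
  obtain ⟨x, hx, hx2⟩ := hin
  have hx3 := eqL_iff.mp hx2
  have hx4 := h x hx
  rw [hk_eq_cellsH hv hH]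
  apply occSh_of_entry (sum_of_clList hv hH hn) (x := x) _ hμ hx3.symm
  unfold Entry.lin at hx4
  rw [Bool.and_eq_true] at hx4
  have e : x.nf + x.nd = n := Nat.eq_of_beq_eq_true hx4.1
  unfold Entry.ok
  rw [Bool.and_eq_true]
  exact ⟨hx4.1, mixOK_of_linN e hx4.2⟩

end Crest.Agent.R195
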