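import Crest.Agent.R195.CertReg

/-!
Row 195.  Certificate tables for lists of exceptional diagrams (helper895).
-/

set_option autoImplicit false

namespace Crest.Agent.R195

/-- lists with positive entries and the same values are equal -/
theorem list_eq_of_getD : ∀ {l l' : List ℕ}, (∀ x ∈ l, 0 < x) → (∀ x ∈ l', 0 < x) →
    (∀ j, l.getD j 0 = l'.getD j 0) → l = l' := by
  intro l
  induction l with
  | nil =>
    intro l' _ h2 h3
    cases l' with
    | nil => rfl
    | cons y l' =>
      have h4 := h3 0
      have h5 := h2 y List.mem_cons_self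
      simp at h4
      omega
  | cons x l ih =>
    intro l' h1 h2 h3
    cases l' with
    | nil =>
      have h4 := h3 0
      have h5 := h1 x List.mem_cons_self
      simp at h4
      omega
    | cons y l' =>
      have h4 := h3 0
      simp only [List.getD_cons_zero] at h4
      rw [h4, ih (fun z hz => h1 z (List.mem_cons_of_mem _ hz))
        (fun z hz => h2 z (List.mem_cons_of_mem _ hz)) fun j => by
          have h5 := h3 (j + 1)
          rwa [List.getD_cons_succ, List.getD_cons_succ] at h5]

theorem colLens_eq_of_colLen {μ : YoungDiagram} {q : List ℕ} (hq : ∀ x ∈ q, 0 < x)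
    (h : ∀ j, μ.colLen j = q.getD j 0) : colLens μ = q :=
  list_eq_of_getD (colLens_pos μ) hq fun j => by rw [colLens_getD, h]

theorem colLens_eq_range_map (μ : YoungDiagram) :
    colLens μ = (List.range (μ.rowLen 0)).map μ.colLen := colLens_eq_map μ

/-- the diagrams of a table occur -/
theorem occ_of_covL {ps : List ℕ} {n : ℕ} {tb : List Entry}
    (h1 : TabOK ps n tb) {qs : List (List ℕ)} (h2 : covL qs tb = true) {μ : YoungDiagram}
    (hμ : μ.card = n) (hq : colLens μ ∈ qs) : OccSh (hk ps) (hk ps) μ := by
  rcases covL_spec h2 _ hq with h | h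
  · exact h1 μ hμ h
  · apply OccSh.of_transpose (hk_swap ps)
    rw [← colLens_transpose] at h
    exact h1 _ (by rw [Crest.Agent.R195.card_transpose, hμ]) h

theorem occ_of_covL' {ps : List ℕ} {n : ℕ} {tb : List Entry}
    (h1 : TabOK ps n tb) {qs : List (List ℕ)} (h2 : covL qs tb = true) {μ : YoungDiagram}
    (hμ : μ.card = n) {q : List ℕ} (hq : q ∈ qs) (hpos : ∀ x ∈ q, 0 < x)
    (h : ∀ j, μ.colLen j = q.getD j 0) : OccSh (hk ps) (hk ps) μ :=
  occ_of_covL h1 h2 hμ (by rwa [colLens_eq_of_colLen hpos h])

end Crest.Agent.R195
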