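import Crest.Agent.R195.CertShape

/-!
Row 195.  Mixed certificates (helper895): the first letters are forced one after the other, the last
letters sit in the same cells of the first two tableaux and in the first row of the third one, so they
contribute only squares of signs.
-/

set_option autoImplicit false
set_option linter.unusedSectionVars false

namespace Crest.Agent.R195

open Finset Function

section mix

variable {T : Type*} [Fintype T] [DecidableEq T]

theorem polyF_eq_sign {τ : T → ℕ × ℕ} (hτ : Injective τ) {w : T → ℕ} {σ : Equiv.Perm T}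
    (h1 : ∀ t, (τ (σ t)).2 = (τ t).2) (h2 : ∀ t, w (σ t) = (τ t).1) :
    polyF τ w = (((Equiv.Perm.sign σ : ℤˣ) : ℤ) : ℂ) := by
  unfold polyF
  rw [Finset.sum_eq_single σ]
  · rw [if_pos ⟨h1, h2⟩]
  · intro σ' _ hne
    rw [if_neg]
    rintro ⟨h3, h4⟩
    apply hne
    ext t
    have hs : σ.symm (σ' t) = t := by
      apply hτ
      refine Prod.ext ?_ ?_
      · rw [← h2, Equiv.apply_symm_apply, h4]
      · rw [← h1, Equiv.apply_symm_apply, h3]
    rw [← Equiv.symm_apply_eq]
    exact hs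
  · intro h; exact absurd (mem_univ _) h

/-- General certificate theorem: all nonzero terms are `1`. -/
theorem occ_of_good {W : Type*} [AddCommGroup W] [Module ℂ W]
    (ρ : Representation ℂ (Equiv.Perm T) W) {μ : YoungDiagram} (e : T ≃ μ.cells) (w : W)
    (hw : SwapFixed ρ (fun t => (e t).1.1) w) (hκ : colAsym ρ (fun t => (e t).1.2) w ≠ 0)
    {D E : Finset (ℕ × ℕ)} (τ₁ τ₂ : T → ℕ × ℕ) (h1 : IsTab D τ₁) (h2 : IsTab E τ₂)
    (hgood : ∀ r k : Equiv.Perm T, (∀ t, (e (r t)).1.1 = (e t).1.1) →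
      (∀ t, (e (k t)).1.2 = (e t).1.2) → GoodAt τ₁ (r * k) → GoodAt τ₂ (r * k) →
      k = 1 ∧ polyF τ₁ ((fun t => (τ₁ t).1) ∘ (r * k)) * polyF τ₂ ((fun t => (τ₂ t).1) ∘ (r * k)) = 1) :
    Occ ρ (Kr T D E) := by
  classical
  let v : Kr T D E := ⟨prodF (polyF τ₁) (polyF τ₂), Submodule.subset_span ⟨τ₁, τ₂, h1, h2, rfl⟩⟩
  let b0 : T → ℕ × ℕ := fun t => ((τ₁ t).1, (τ₂ t).1)
  set row : T → ℕ := fun t => (e t).1.1 with hrow
  set col : T → ℕ := fun t => (e t).1.2 with hcol
  have hv1 : ∀ g : Equiv.Perm T, v.1 (b0 ∘ g) =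
      polyF τ₁ ((fun t => (τ₁ t).1) ∘ g) * polyF τ₂ ((fun t => (τ₂ t).1) ∘ g) := fun g => rfl
  let R := Finset.univ.filter (fun σ : Equiv.Perm T => ∀ t, row (σ t) = row t)
  let C := Finset.univ.filter (fun σ : Equiv.Perm T => ∀ t, col (σ t) = col t)
  have hR : ∀ r, r ∈ R ↔ ∀ t, row (r t) = row t := fun r => by simp [R]
  have hC : ∀ r, r ∈ C ↔ ∀ t, col (r t) = col t := fun r => by simp [C]
  have hval : (rowSym (krRep T D E) row (colAsym (krRep T D E) col v)).1 b0
      = ∑ r ∈ R, ∑ k ∈ C, (((Equiv.Perm.sign k : ℤˣ) : ℤ) : ℂ) * v.1 (b0 ∘ (r * k)) := by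
    rw [rowSym_apply, colAsym_apply]
    simp only [map_sum, map_smul]
    rw [AddSubmonoidClass.coe_finsetSum, Finset.sum_apply]
    refine Finset.sum_congr rfl fun r _ => ?_
    rw [AddSubmonoidClass.coe_finsetSum, Finset.sum_apply]
    refine Finset.sum_congr rfl fun k _ => ?_
    rw [Submodule.coe_smul, Pi.smul_apply, smul_eq_mul, krRep_apply, krRep_apply]
    rfl
  have hterm : ∀ r ∈ R, ∀ k ∈ C, v.1 (b0 ∘ (r * k)) ≠ 0 →
      k = 1 ∧ v.1 (b0 ∘ (r * k)) = 1 := by
    intro r hr k hk hne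
    rw [hR] at hr
    rw [hC] at hk
    rw [hv1] at hne ⊢
    exact hgood r k hr hk (polyF_good (left_ne_zero_of_mul hne)) (polyF_good (right_ne_zero_of_mul hne))
  have hne : rowSym (krRep T D E) row (colAsym (krRep T D E) col v) ≠ 0 := by
    intro h0
    rw [h0] at hval
    have hval' : (0 : ℂ) = ∑ r ∈ R, ∑ k ∈ C,
        (((Equiv.Perm.sign k : ℤˣ) : ℤ) : ℂ) * v.1 (b0 ∘ (r * k)) := hval
    have hterm' : ∀ r ∈ R, ∀ k ∈ C, (((Equiv.Perm.sign k : ℤˣ) : ℤ) : ℂ) * v.1 (b0 ∘ (r * k))
        = if (v.1 (b0 ∘ (r * k)) ≠ 0) then ((1 : ℕ) : ℂ) else ((0 : ℕ) : ℂ) := by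
      intro r hr k hk
      by_cases hne : v.1 (b0 ∘ (r * k)) ≠ 0
      · obtain ⟨hk1, h1v⟩ := hterm r hr k hk hne
        rw [if_pos hne, h1v, hk1]
        simp
      · rw [if_neg hne]
        push Not at hne
        rw [hne]; simp
    rw [Finset.sum_congr rfl (fun r hr => Finset.sum_congr rfl (fun k hk => hterm' r hr k hk))] at hval'
    have hcast : (∑ r ∈ R, ∑ k ∈ C, if (v.1 (b0 ∘ (r * k)) ≠ 0) then ((1 : ℕ) : ℂ) else ((0 : ℕ) : ℂ))
        = ((∑ r ∈ R, ∑ k ∈ C, if (v.1 (b0 ∘ (r * k)) ≠ 0) then (1 : ℕ) else 0 : ℕ) : ℂ) := by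
      simp only [Nat.cast_sum, Nat.cast_ite]
    rw [hcast] at hval'
    have hz : (∑ r ∈ R, ∑ k ∈ C, if (v.1 (b0 ∘ (r * k)) ≠ 0) then (1 : ℕ) else 0 : ℕ) = 0 := by
      exact_mod_cast hval'.symm
    rw [Finset.sum_eq_zero_iff] at hz
    have h1R : (1 : Equiv.Perm T) ∈ R := (hR 1).mpr fun t => rfl
    have h1C : (1 : Equiv.Perm T) ∈ C := (hC 1).mpr fun t => rfl
    have := hz 1 h1R
    rw [Finset.sum_eq_zero_iff] at this
    have h3 := this 1 h1C
    have hv10 : v.1 (b0 ∘ ((1 * 1 : Equiv.Perm T))) ≠ 0 := by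
      rw [hv1]
      have e1 : (fun t => (τ₁ t).1) ∘ ((1 * 1 : Equiv.Perm T)) = fun t => (τ₁ t).1 := rfl
      have e2 : (fun t => (τ₂ t).1) ∘ ((1 * 1 : Equiv.Perm T)) = fun t => (τ₂ t).1 := rfl
      rw [e1, e2, polyF_self h1.1, polyF_self h2.1, one_mul]
      exact one_ne_zero
    rw [if_pos hv10] at h3
    exact one_ne_zero h3
  obtain ⟨f, hf, hcomm⟩ := cert_hom ρ (krRep T D E) e w hw hκ v hne
  refine ⟨(Kr T D E).subtype ∘ₗ f, ?_, fun u => (f u).2, ?_⟩
  · intro h0
    apply hf
    ext u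
    exact congrFun (LinearMap.congr_fun h0 u) _
  · intro g u w'
    have := hcomm g u
    simp only [LinearMap.comp_apply, Submodule.subtype_apply, this]
    rfl

omit [DecidableEq T] in
/-- counting argument -/
theorem exists_notin {κ : Type*} (ty : T → κ) (g : Equiv.Perm T) (A : T → Prop)
    (hA : ∀ s, A s → ty (g s) = ty s) {t : T} (ht : ¬ A t) : ∃ s, ¬ A s ∧ ty s = ty (g t) := by
  classical
  by_contra hcon
  push Not at hcon
  let B := Finset.univ.filter fun s => ty s = ty (g t)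
  have hB : ∀ s, s ∈ B ↔ ty s = ty (g t) := fun s => by simp [B]
  have hBA : ∀ s ∈ B, A s := by
    intro s hs
    by_contra hn
    exact hcon s hn ((hB s).mp hs)
  have himg : B.image g = B := by
    apply Finset.eq_of_subset_of_card_le
    · intro x hx
      obtain ⟨s, hs, rfl⟩ := Finset.mem_image.mp hx
      rw [hB, hA s (hBA s hs)]
      exact (hB s).mp hs
    · rw [Finset.card_image_of_injective _ g.injective]
  have hgt : g t ∈ B.image g := by rw [himg, hB]
  obtain ⟨s, hs, hst⟩ := Finset.mem_image.mp hgt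
  have := g.injective hst
  subst this
  exact ht (hBA s hs)

/-- the forced part -/
def chkM (H1 H2 H3 : List ℕ) (tl : List Lt) : List Lt → List Lt → Bool
  | _, [] => true
  | pre, x :: rest => stepOK H1 H2 H3 pre x (rest ++ tl) && chkM H1 H2 H3 tl (x :: pre) rest

/-- the diagonal part -/
def diagOK (tl : List Lt) : Bool :=
  tl.all fun y => Nat.beq y.r1 y.r2 && (Nat.beq y.c1 y.c2 && Nat.beq y.r3 0)

/-- the complete check of a mixed certificate -/
def mixOK (H1 H2 H3 : List ℕ) (hd tl : List Lt) : Bool :=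
  tabOK Lt.r1 Lt.c1 H1 [] (hd ++ tl) && tabOK Lt.r2 Lt.c2 H2 [] (hd ++ tl) &&
    tabOK Lt.r3 Lt.c3 H3 [] (hd ++ tl) && (chkM H1 H2 H3 tl [] hd && diagOK tl)

theorem chkM_spec {H1 H2 H3 : List ℕ} {tl : List Lt} : ∀ {pre ls : List Lt},
    chkM H1 H2 H3 tl pre ls = true →
    ∀ s1 x s2, ls = s1 ++ x :: s2 → stepOK H1 H2 H3 (s1.reverse ++ pre) x (s2 ++ tl) = true := by
  intro pre ls
  induction ls generalizing pre with
  | nil => intro _ s1 x s2 h; simp at h
  | cons y rest ih =>
    intro h s1 x s2 hls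
    unfold chkM at h
    rw [Bool.and_eq_true] at h
    cases s1 with
    | nil =>
      simp only [List.nil_append, List.cons.injEq] at hls
      obtain ⟨rfl, rfl⟩ := hls
      exact h.1
    | cons z s1 =>
      simp only [List.cons_append, List.cons.injEq] at hls
      obtain ⟨rfl, hls⟩ := hls
      have := ih h.2 s1 x s2 hls
      rw [List.reverse_cons, List.append_assoc]
      exact this

/-- Soundness of the mixed certificates. -/
theorem occ_of_mixOK {W : Type*} [AddCommGroup W] [Module ℂ W]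
    (ρ : Representation ℂ (Equiv.Perm T) W) {μ : YoungDiagram} (e : T ≃ μ.cells) (w : W)
    (hw : SwapFixed ρ (fun t => (e t).1.1) w) (hκ : colAsym ρ (fun t => (e t).1.2) w ≠ 0)
    {D E : Finset (ℕ × ℕ)} {H1 H2 H3 : List ℕ}
    (hD : ∀ c, c ∈ D ↔ c.1 < H1.getD c.2 0) (hE : ∀ c, c ∈ E ↔ c.1 < H2.getD c.2 0)
    (hμ : ∀ c, c ∈ μ.cells ↔ c.1 < H3.getD c.2 0) (hd tl : List Lt)
    (hcD : D.card = (hd ++ tl).length) (hcE : E.card = (hd ++ tl).length)
    (hcT : Fintype.card T = (hd ++ tl).length)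
    (hls : mixOK H1 H2 H3 hd tl = true) : Occ ρ (Kr T D E) := by
  classical
  unfold mixOK at hls
  rw [Bool.and_eq_true, Bool.and_eq_true, Bool.and_eq_true, Bool.and_eq_true] at hls
  obtain ⟨⟨⟨t1, t2⟩, t3⟩, hchk, hdiag⟩ := hls
  set ls := hd ++ tl with hlsdef
  have hlen : ls.length = hd.length + tl.length := by rw [hlsdef, List.length_append]
  have hdrop : ∀ m, m ≤ hd.length → hd.drop m ++ tl = ls.drop m := fun m hm => by
    rw [hlsdef, List.drop_append_of_le_length hm]
  have hcμ : μ.cells.card = ls.length := by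
    rw [← hcT, Fintype.card_congr e, Fintype.card_coe]
  have h3 := lsTab_isTab (Equiv.refl (Fin ls.length)) hμ hcμ t3
  let c0 : Fin ls.length → μ.cells := fun i =>
    ⟨lsTab ls Lt.r3 Lt.c3 (Equiv.refl _) i, by
      rw [← h3.2]; exact Finset.mem_image_of_mem _ (Finset.mem_univ _)⟩
  have hc0 : Function.Bijective c0 := by
    constructor
    · intro i j hij
      exact h3.1 (congrArg Subtype.val hij)
    · rintro ⟨p, hp⟩
      rw [← h3.2] at hp
      obtain ⟨i, -, hi⟩ := Finset.mem_image.mp hp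
      exact ⟨i, Subtype.ext hi⟩
  let θ : T ≃ Fin ls.length := e.trans (Equiv.ofBijective c0 hc0).symm
  have hθ : ∀ t, (e t).1 = lsTab ls Lt.r3 Lt.c3 θ t := by
    intro t
    have : c0 (θ t) = e t := (Equiv.ofBijective c0 hc0).apply_symm_apply (e t)
    rw [← this]
    rfl
  have k1 := lsTab_isTab θ hD hcD t1
  have k2 := lsTab_isTab θ hE hcE t2
  have k3 := lsTab_isTab θ hμ hcμ t3
  have b1 : ∀ t, (lsTab ls Lt.r1 Lt.c1 θ t).1 < H1.getD (lsTab ls Lt.r1 Lt.c1 θ t).2 0 :=
    fun t => (tabOK_spec t1).1 _ (List.get_mem _ _)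
  have b2 : ∀ t, (lsTab ls Lt.r2 Lt.c2 θ t).1 < H2.getD (lsTab ls Lt.r2 Lt.c2 θ t).2 0 :=
    fun t => (tabOK_spec t2).1 _ (List.get_mem _ _)
  have b3 : ∀ t, (lsTab ls Lt.r3 Lt.c3 θ t).1 < H3.getD (lsTab ls Lt.r3 Lt.c3 θ t).2 0 :=
    fun t => (tabOK_spec t3).1 _ (List.get_mem _ _)
  have he : (fun t => (e t).1) = lsTab ls Lt.r3 Lt.c3 θ := funext hθ
  -- diagonal letters
  have hdg : ∀ t, hd.length ≤ (θ t : ℕ) → lsTab ls Lt.r1 Lt.c1 θ t = lsTab ls Lt.r2 Lt.c2 θ t ∧
      (ls.get (θ t)).r3 = 0 := by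
    intro t ht
    have hmem : ls.get (θ t) ∈ tl := by
      rw [List.get_eq_getElem]
      have h1 : (θ t : ℕ) - hd.length < tl.length := by
        have := (θ t).2
        omega
      have h2 : ls[(θ t : ℕ)] = tl[(θ t : ℕ) - hd.length] := by
        simp only [hlsdef]
        rw [List.getElem_append_right ht]
      rw [h2]
      exact List.getElem_mem h1
    unfold diagOK at hdiag
    rw [List.all_eq_true] at hdiag
    have := hdiag _ hmem
    simp only [Bool.and_eq_true, Nat.beq_eq] at this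
    exact ⟨Prod.ext this.1 this.2.1, this.2.2⟩
  refine occ_of_good ρ e w hw hκ _ _ k1 k2 ?_
  intro r k hr hk g1 g2
  set g := r * k with hgdef
  have g3 : GoodAt (lsTab ls Lt.r3 Lt.c3 θ) g := by
    rw [← he]
    refine ⟨k⁻¹, fun t => cert_inv_fix (fun t => (e t).1.2) k hk t, fun t => ?_⟩
    change (e ((r * k) (k⁻¹ t))).1.1 = (e t).1.1
    rw [Equiv.Perm.mul_apply, cert_apply_inv, hr]
  let ty : T → ℕ × ℕ × ℕ := fun t =>
    ((ls.get (θ t)).r1, (ls.get (θ t)).r2, (ls.get (θ t)).r3)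
  have key : ∀ i : ℕ, ∀ t, (θ t : ℕ) = i → i < hd.length → ty (g t) = ty t := by
    intro i
    induction i using Nat.strong_induction_on with
    | _ i ih =>
      intro t hti hlt
      have hprev : ∀ s, (θ s : ℕ) < θ t → ty (g s) = ty s :=
        fun s hs => ih _ (hti ▸ hs) s rfl (by omega)
      obtain ⟨s, hs1, hs2⟩ := exists_notin ty g (fun s => (θ s : ℕ) < θ t) hprev (lt_irrefl _)
      have hs1' : (θ t : ℕ) ≤ θ s := by
        by_contra hcon
        exact hs1 (by omega)
      rcases hs1'.eq_or_lt with heq | hlt2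
      · have : t = s := θ.injective (Fin.ext heq)
        rw [this] at hs2 ⊢
        exact hs2.symm
      · have hti' : (θ t : ℕ) < hd.length := by omega
        have hget : ls.get (θ t) = hd[(θ t : ℕ)] := by
          rw [List.get_eq_getElem]
          simp only [hlsdef]
          rw [List.getElem_append_left hti']
        have hsplit : hd = hd.take (θ t) ++ ls.get (θ t) :: hd.drop (θ t + 1) := by
          conv_lhs => rw [← List.take_append_drop (θ t) hd]
          congr 1
          rw [List.drop_eq_getElem_cons hti', hget]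
        have hstep := chkM_spec hchk _ _ _ hsplit
        rw [List.append_nil] at hstep
        have hmem : ls.get (θ s) ∈ hd.drop (θ t + 1) ++ tl := by
          rw [hdrop _ (by omega), List.mem_iff_getElem]
          refine ⟨θ s - (θ t + 1), ?_, ?_⟩
          · rw [List.length_drop]
            have := (θ s).2
            omega
          · rw [List.getElem_drop, List.get_eq_getElem]
            congr 1
            omega
        have hearly : ∀ z ∈ (hd.take (θ t)).reverse, ∃ t', t' ≠ t ∧ ty (g t') = ty t' ∧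
            ls.get (θ t') = z := by
          intro z hz
          rw [List.mem_reverse, List.mem_iff_getElem] at hz
          obtain ⟨j, hj, rfl⟩ := hz
          rw [List.length_take] at hj
          have hj1 : j < θ t := lt_of_lt_of_le hj (min_le_left _ _)
          have hj3 : j < hd.length := lt_of_lt_of_le hj (min_le_right _ _)
          have hj2 : j < ls.length := by omega
          refine ⟨θ.symm ⟨j, hj2⟩, ?_, ?_, ?_⟩
          · intro h
            have := congrArg (fun x => (θ x : ℕ)) h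
            simp only [Equiv.apply_symm_apply] at this
            omega
          · apply hprev
            rw [Equiv.apply_symm_apply]
            exact hj1
          · rw [Equiv.apply_symm_apply, List.getElem_take, List.get_eq_getElem]
            simp only [hlsdef]
            rw [List.getElem_append_left hj3]
        simp only [ty, Prod.mk.injEq] at hs2
        rcases stepOK_spec hstep hmem with h | h | h | h
        · simp only [ty, Prod.mk.injEq]
          exact ⟨hs2.1.symm.trans h.1.symm, hs2.2.1.symm.trans h.2.1.symm,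
            hs2.2.2.symm.trans h.2.2.symm⟩
        · exfalso
          refine not_blocked k1.1 b1 g1 (t := t) (r := (ls.get (θ s)).r1) hs2.1 ?_
          rcases h with h | ⟨z, hz, hz1, hz2⟩
          · exact Or.inl h
          · obtain ⟨t', q1, q2, rfl⟩ := hearly z hz
            simp only [ty, Prod.mk.injEq] at q2
            exact Or.inr ⟨t', q1, q2.1, hz1, hz2⟩
        · exfalso
          refine not_blocked k2.1 b2 g2 (t := t) (r := (ls.get (θ s)).r2) hs2.2.1 ?_
          rcases h with h | ⟨z, hz, hz1, hz2⟩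
          · exact Or.inl h
          · obtain ⟨t', q1, q2, rfl⟩ := hearly z hz
            simp only [ty, Prod.mk.injEq] at q2
            exact Or.inr ⟨t', q1, q2.2.1, hz1, hz2⟩
        · exfalso
          refine not_blocked k3.1 b3 g3 (t := t) (r := (ls.get (θ s)).r3) hs2.2.2 ?_
          rcases h with h | ⟨z, hz, hz1, hz2⟩
          · exact Or.inl h
          · obtain ⟨t', q1, q2, rfl⟩ := hearly z hz
            simp only [ty, Prod.mk.injEq] at q2
            exact Or.inr ⟨t', q1, q2.2.2, hz1, hz2⟩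
  have keyA : ∀ t, (θ t : ℕ) < hd.length → ty (g t) = ty t := fun t ht => key _ t rfl ht
  -- types of the images of the other letters are diagonal
  have keyB : ∀ t, hd.length ≤ (θ t : ℕ) → (ls.get (θ (g t))).r1 = (ls.get (θ (g t))).r2 ∧
      (ls.get (θ (g t))).r3 = 0 := by
    intro t ht
    obtain ⟨s, hs1, hs2⟩ := exists_notin ty g (fun s => (θ s : ℕ) < hd.length)
      (fun s hs => keyA s hs) (t := t) (by omega)
    have hs := hdg s (by omega)
    simp only [ty, Prod.mk.injEq] at hs2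
    rw [← hs2.1, ← hs2.2.1, ← hs2.2.2]
    exact ⟨congrArg Prod.fst hs.1, hs.2⟩
  have hk1 : k = 1 := by
    ext t
    apply e.injective
    apply Subtype.ext
    refine Prod.ext ?_ (hk t)
    have h5 : (e (g t)).1.1 = (e (k t)).1.1 := by
      rw [hgdef, Equiv.Perm.mul_apply, hr]
    have e1 : (e (g t)).1.1 = (ls.get (θ (g t))).r3 := congrArg Prod.fst (hθ (g t))
    have e2 : (e ((1 : Equiv.Perm T) t)).1.1 = (ls.get (θ t)).r3 := congrArg Prod.fst (hθ t)
    rw [← h5, e1, e2]
    by_cases ht : (θ t : ℕ) < hd.length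
    · have := keyA t ht
      simp only [ty, Prod.mk.injEq] at this
      exact this.2.2
    · rw [(keyB t (by omega)).2, (hdg t (by omega)).2]
  refine ⟨hk1, ?_⟩
  obtain ⟨σ₁, p1, q1⟩ := g1
  obtain ⟨σ₂, p2, q2⟩ := g2
  have f1 : ∀ t, (θ t : ℕ) < hd.length → σ₁ t = t := by
    intro t ht
    refine GoodAt.inj k1.1 ⟨σ₁, p1, q1⟩ (p1 t) ?_
    rw [q1]
    have := keyA t ht
    simp only [ty, Prod.mk.injEq] at this
    exact this.1.symm
  have f2 : ∀ t, (θ t : ℕ) < hd.length → σ₂ t = t := by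
    intro t ht
    refine GoodAt.inj k2.1 ⟨σ₂, p2, q2⟩ (p2 t) ?_
    rw [q2]
    have := keyA t ht
    simp only [ty, Prod.mk.injEq] at this
    exact this.2.1.symm
  have hσ : σ₁ = σ₂ := by
    ext t
    by_cases ht : (θ t : ℕ) < hd.length
    · rw [f1 t ht, f2 t ht]
    · have ht' : hd.length ≤ (θ t : ℕ) := by omega
      have hs1 : hd.length ≤ (θ (σ₁ t) : ℕ) := by
        by_contra hcon
        have := f1 (σ₁ t) (by omega)
        have := σ₁.injective this
        rw [this] at hcon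
        exact hcon ht'
      have hs2 : hd.length ≤ (θ (σ₂ t) : ℕ) := by
        by_contra hcon
        have := f2 (σ₂ t) (by omega)
        have := σ₂.injective this
        rw [this] at hcon
        exact hcon ht'
      refine GoodAt.inj k1.1 ⟨σ₁, p1, q1⟩ ?_ ?_
      · have a1 := p1 t
        have a2 : (lsTab ls Lt.r1 Lt.c1 θ (σ₂ t)).2 = (lsTab ls Lt.r1 Lt.c1 θ t).2 := by
          rw [(hdg (σ₂ t) hs2).1, (hdg t ht').1]
          exact p2 t
        rw [a1, a2]
      · have a1 := q1 t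
        have a2 := q2 t
        have a3 : (lsTab ls Lt.r1 Lt.c1 θ (g (σ₂ t))).1 = (lsTab ls Lt.r2 Lt.c2 θ (g (σ₂ t))).1 :=
          (keyB (σ₂ t) hs2).1
        rw [a1, a3, a2, (hdg t ht').1]
  rw [polyF_eq_sign k1.1 p1 q1, polyF_eq_sign k2.1 p2 q2, hσ]
  rcases Int.units_eq_one_or (Equiv.Perm.sign σ₂) with h | h <;> simp [h]

end mix

/-- mixed certificates give occurrences -/
theorem occSh_of_mixOK {D E : Finset (ℕ × ℕ)} {H1 H2 : List ℕ}
    (hD : ∀ c, c ∈ D ↔ c.1 < H1.getD c.2 0) (hE : ∀ c, c ∈ E ↔ c.1 < H2.getD c.2 0)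
    {μ : YoungDiagram} (hd tl : List Lt)
    (hcD : D.card = (hd ++ tl).length) (hcE : E.card = (hd ++ tl).length)
    (hcμ : μ.card = (hd ++ tl).length)
    (hls : mixOK H1 H2 (colLens μ) hd tl = true) : OccSh D E μ := by
  intro T _ _ W _ _ ρ hρ
  have hc := hρ.card
  obtain ⟨e, w, hw, hne⟩ := hρ
  exact occ_of_mixOK ρ e w hw hne hD hE (mem_cells_iff_colLens μ) hd tl hcD hcE
    (by rw [← hc, hcμ]) hls

end Crest.Agent.R195
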