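import Crest.Agent.R195.CertMix

/-!
Row 195.  Mixed certificates with letters whose third row alone is forced (helper563).

The letters `h0` are diagonal and receive a letter of the same row of the third tableau; the letters
`hd` are forced one after the other; the letters `tl` are diagonal and in the first row of the third
tableau.
-/

set_option autoImplicit false
set_option linter.unusedSectionVars false

namespace Crest.Agent.R195

open Finset Function

/-- one step, with additional blocks of the third tableau -/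
def step3OK (H1 H2 H3 : List ℕ) (h0 pre : List Lt) (x : Lt) (rest : List Lt) : Bool :=
  rest.all fun y => sameTy x y ||
    (Nat.ble (H1.getD x.c1 0) y.r1 || memb y.r1 (used Lt.r1 Lt.c1 x.c1 pre)) ||
    (Nat.ble (H2.getD x.c2 0) y.r2 || memb y.r2 (used Lt.r2 Lt.c2 x.c2 pre)) ||
    (Nat.ble (H3.getD x.c3 0) y.r3 || memb y.r3 (used Lt.r3 Lt.c3 x.c3 (pre ++ h0)))

/-- the forced part -/
def chkM3 (H1 H2 H3 : List ℕ) (h0 tl : List Lt) : List Lt → List Lt → Bool
  | _, [] => true
  | pre, x :: rest => step3OK H1 H2 H3 h0 pre x (rest ++ tl) && chkM3 H1 H2 H3 h0 tl (x :: pre) rest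

/-- the diagonal part -/
def diag3OK (tl : List Lt) : Bool :=
  tl.all fun y => Nat.beq y.r1 y.r2 && Nat.beq y.c1 y.c2

/-- the letters with forced third row -/
def h0OK (H1 H2 : List ℕ) (h0 ls : List Lt) : Bool :=
  h0.all fun x => ls.all fun y => Nat.beq x.r3 y.r3 ||
    Nat.ble (H1.getD x.c1 0) y.r1 || Nat.ble (H2.getD x.c2 0) y.r2

/-- the complete check -/
def mix3OK (H1 H2 H3 : List ℕ) (hd h0 tl : List Lt) : Bool :=
  (tabOK Lt.r1 Lt.c1 H1 [] (hd ++ (h0 ++ tl)) && tabOK Lt.r2 Lt.c2 H2 [] (hd ++ (h0 ++ tl)) &&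
    tabOK Lt.r3 Lt.c3 H3 [] (hd ++ (h0 ++ tl))) && ((h0OK H1 H2 h0 (hd ++ (h0 ++ tl)) &&
    chkM3 H1 H2 H3 h0 (h0 ++ tl) [] hd) && (diag3OK (h0 ++ tl) && tl.all fun y => Nat.beq y.r3 0))

theorem chkM3_spec {H1 H2 H3 : List ℕ} {h0 tl : List Lt} : ∀ {pre ls : List Lt},
    chkM3 H1 H2 H3 h0 tl pre ls = true →
    ∀ s1 x s2, ls = s1 ++ x :: s2 →
      step3OK H1 H2 H3 h0 (s1.reverse ++ pre) x (s2 ++ tl) = true := by
  intro pre ls
  induction ls generalizing pre with
  | nil => intro _ s1 x s2 h; simp at h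
  | cons y rest ih =>
    intro h s1 x s2 hls
    unfold chkM3 at h
    rw [Bool.and_eq_true] at h
    cases s1 with
    | nil =>
      simp only [List.nil_append, List.cons.injEq] at hls
      obtain ⟨rfl, rfl⟩ := hls
      exact h.1
    | cons z s1 =>
      simp only [List.cons_append, List.cons.injEq] at hls
      obtain ⟨rfl, hls⟩ := hls
      have := ih h.2 s1 x s2 hls
      rw [List.reverse_cons, List.append_assoc]
      exact this

theorem step3OK_spec {H1 H2 H3 : List ℕ} {h0 pre : List Lt} {x : Lt} {rest : List Lt}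
    (h : step3OK H1 H2 H3 h0 pre x rest = true) {y : Lt} (hy : y ∈ rest) :
    (x.r1 = y.r1 ∧ x.r2 = y.r2 ∧ x.r3 = y.r3) ∨
    (H1.getD x.c1 0 ≤ y.r1 ∨ ∃ z ∈ pre, z.c1 = x.c1 ∧ z.r1 = y.r1) ∨
    (H2.getD x.c2 0 ≤ y.r2 ∨ ∃ z ∈ pre, z.c2 = x.c2 ∧ z.r2 = y.r2) ∨
    (H3.getD x.c3 0 ≤ y.r3 ∨ ∃ z ∈ pre ++ h0, z.c3 = x.c3 ∧ z.r3 = y.r3) := by
  unfold step3OK at h
  rw [List.all_eq_true] at h
  have := h y hy
  simp only [Bool.or_eq_true, sameTy, Bool.and_eq_true, Nat.beq_eq, Nat.ble_eq, memb_iff,
    mem_used] at this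
  rcases this with ((h1 | h1) | h1) | h1
  · exact Or.inl h1
  · exact Or.inr (Or.inl h1)
  · exact Or.inr (Or.inr (Or.inl h1))
  · exact Or.inr (Or.inr (Or.inr h1))

section mix

variable {T : Type*} [Fintype T] [DecidableEq T]

/-- Soundness of the mixed certificates. -/
theorem occ_of_mix3OK {W : Type*} [AddCommGroup W] [Module ℂ W]
    (ρ : Representation ℂ (Equiv.Perm T) W) {μ : YoungDiagram} (e : T ≃ μ.cells) (w : W)
    (hw : SwapFixed ρ (fun t => (e t).1.1) w) (hκ : colAsym ρ (fun t => (e t).1.2) w ≠ 0)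
    {D E : Finset (ℕ × ℕ)} {H1 H2 H3 : List ℕ}
    (hD : ∀ c, c ∈ D ↔ c.1 < H1.getD c.2 0) (hE : ∀ c, c ∈ E ↔ c.1 < H2.getD c.2 0)
    (hμ : ∀ c, c ∈ μ.cells ↔ c.1 < H3.getD c.2 0) (hd h0 tl : List Lt)
    (hcD : D.card = (hd ++ (h0 ++ tl)).length) (hcE : E.card = (hd ++ (h0 ++ tl)).length)
    (hcT : Fintype.card T = (hd ++ (h0 ++ tl)).length)
    (hls : mix3OK H1 H2 H3 hd h0 tl = true) : Occ ρ (Kr T D E) := by
  classical
  unfold mix3OK at hls
  rw [Bool.and_eq_true, Bool.and_eq_true, Bool.and_eq_true, Bool.and_eq_true, Bool.and_eq_true,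
    Bool.and_eq_true] at hls
  obtain ⟨⟨⟨t1, t2⟩, t3⟩, ⟨hh0, hchk⟩, hdiag, htl0⟩ := hls
  set dl := h0 ++ tl with hdl
  set ls := hd ++ dl with hlsdef
  have hlen : ls.length = hd.length + dl.length := by rw [hlsdef, List.length_append]
  have hdlen : dl.length = h0.length + tl.length := by rw [hdl, List.length_append]
  have hdrop : ∀ m, m ≤ hd.length → hd.drop m ++ dl = ls.drop m := fun m hm => by
    rw [hlsdef, List.drop_append_of_le_length hm]
  have hcμ : μ.cells.card = ls.length := by
    rw [← hcT, Fintype.card_congr e, Fintype.card_coe]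
  have h3 := lsTab_isTab (Equiv.refl (Fin ls.length)) hμ hcμ t3
  let c0 : Fin ls.length → μ.cells := fun i =>
    ⟨lsTab ls Lt.r3 Lt.c3 (Equiv.refl _) i, by
      rw [← h3.2]; exact Finset.mem_image_of_mem _ (Finset.mem_univ _)⟩
  have hc0 : Function.Bijective c0 := by
    constructor
    · intro i j hij
      exact h3.1 (congrArg Subtype.val hij)
    · rintro ⟨p, hp⟩
      rw [← h3.2] at hp
      obtain ⟨i, -, hi⟩ := Finset.mem_image.mp hp
      exact ⟨i, Subtype.ext hi⟩
  let θ : T ≃ Fin ls.length := e.trans (Equiv.ofBijective c0 hc0).symm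
  have hθ : ∀ t, (e t).1 = lsTab ls Lt.r3 Lt.c3 θ t := by
    intro t
    have : c0 (θ t) = e t := (Equiv.ofBijective c0 hc0).apply_symm_apply (e t)
    rw [← this]
    rfl
  have k1 := lsTab_isTab θ hD hcD t1
  have k2 := lsTab_isTab θ hE hcE t2
  have k3 := lsTab_isTab θ hμ hcμ t3
  have b1 : ∀ t, (lsTab ls Lt.r1 Lt.c1 θ t).1 < H1.getD (lsTab ls Lt.r1 Lt.c1 θ t).2 0 :=
    fun t => (tabOK_spec t1).1 _ (List.get_mem _ _)
  have b2 : ∀ t, (lsTab ls Lt.r2 Lt.c2 θ t).1 < H2.getD (lsTab ls Lt.r2 Lt.c2 θ t).2 0 :=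
    fun t => (tabOK_spec t2).1 _ (List.get_mem _ _)
  have b3 : ∀ t, (lsTab ls Lt.r3 Lt.c3 θ t).1 < H3.getD (lsTab ls Lt.r3 Lt.c3 θ t).2 0 :=
    fun t => (tabOK_spec t3).1 _ (List.get_mem _ _)
  have he : (fun t => (e t).1) = lsTab ls Lt.r3 Lt.c3 θ := funext hθ
  -- diagonal letters
  have hdg : ∀ t, hd.length ≤ (θ t : ℕ) → lsTab ls Lt.r1 Lt.c1 θ t = lsTab ls Lt.r2 Lt.c2 θ t := by
    intro t ht
    have hmem : ls.get (θ t) ∈ dl := by
      rw [List.get_eq_getElem]
      have h1 : (θ t : ℕ) - hd.length < dl.length := by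
        have := (θ t).2
        omega
      have h2 : ls[(θ t : ℕ)] = dl[(θ t : ℕ) - hd.length] := by
        simp only [hlsdef]
        rw [List.getElem_append_right ht]
      rw [h2]
      exact List.getElem_mem h1
    unfold diag3OK at hdiag
    rw [List.all_eq_true] at hdiag
    have := hdiag _ hmem
    simp only [Bool.and_eq_true, Nat.beq_eq] at this
    exact Prod.ext this.1 this.2
  -- the last letters are in the first row
  have htl : ∀ t, hd.length + h0.length ≤ (θ t : ℕ) → (ls.get (θ t)).r3 = 0 := by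
    intro t ht
    have h1 : (θ t : ℕ) - (hd.length + h0.length) < tl.length := by
      have := (θ t).2
      omega
    have h2 : ls.get (θ t) = tl[(θ t : ℕ) - (hd.length + h0.length)] := by
      rw [List.get_eq_getElem]
      simp only [hlsdef, hdl]
      rw [List.getElem_append_right (by omega), List.getElem_append_right (by omega)]
      simp only [Nat.sub_sub]
    rw [List.all_eq_true] at htl0
    have := htl0 _ (h2 ▸ List.getElem_mem h1)
    rwa [Nat.beq_eq] at this
  -- the letters `h0`
  have hz : ∀ t, hd.length ≤ (θ t : ℕ) → (θ t : ℕ) < hd.length + h0.length → ls.get (θ t) ∈ h0 := by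
    intro t ht ht2
    have h1 : (θ t : ℕ) - hd.length < h0.length := by omega
    have h2 : ls.get (θ t) = h0[(θ t : ℕ) - hd.length] := by
      rw [List.get_eq_getElem]
      simp only [hlsdef, hdl]
      rw [List.getElem_append_right ht, List.getElem_append_left h1]
    rw [h2]
    exact List.getElem_mem h1
  refine occ_of_good ρ e w hw hκ _ _ k1 k2 ?_
  intro r k hr hk g1 g2
  set g := r * k with hgdef
  have g3 : GoodAt (lsTab ls Lt.r3 Lt.c3 θ) g := by
    rw [← he]
    refine ⟨k⁻¹, fun t => cert_inv_fix (fun t => (e t).1.2) k hk t, fun t => ?_⟩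
    change (e ((r * k) (k⁻¹ t))).1.1 = (e t).1.1
    rw [Equiv.Perm.mul_apply, cert_apply_inv, hr]
  let ty : T → ℕ × ℕ × ℕ := fun t =>
    ((ls.get (θ t)).r1, (ls.get (θ t)).r2, (ls.get (θ t)).r3)
  have key0 : ∀ t, ls.get (θ t) ∈ h0 → (ls.get (θ (g t))).r3 = (ls.get (θ t)).r3 := by
    intro t ht
    unfold h0OK at hh0
    rw [List.all_eq_true] at hh0
    have h4 := hh0 _ ht
    rw [List.all_eq_true] at h4
    have h5 := h4 _ (List.get_mem ls (θ (g t)))
    simp only [Bool.or_eq_true, Nat.beq_eq, Nat.ble_eq] at h5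
    rcases h5 with (h5 | h5) | h5
    · exact h5.symm
    · exfalso
      exact not_blocked k1.1 b1 g1 (t := t) (r := (ls.get (θ (g t))).r1) rfl (Or.inl h5)
    · exfalso
      exact not_blocked k2.1 b2 g2 (t := t) (r := (ls.get (θ (g t))).r2) rfl (Or.inl h5)
  have key : ∀ i : ℕ, ∀ t, (θ t : ℕ) = i → i < hd.length → ty (g t) = ty t := by
    intro i
    induction i using Nat.strong_induction_on with
    | _ i ih =>
      intro t hti hlt
      have hprev : ∀ s, (θ s : ℕ) < θ t → ty (g s) = ty s :=
        fun s hs => ih _ (hti ▸ hs) s rfl (by omega)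
      obtain ⟨s, hs1, hs2⟩ := exists_notin ty g (fun s => (θ s : ℕ) < θ t) hprev (lt_irrefl _)
      have hs1' : (θ t : ℕ) ≤ θ s := by
        by_contra hcon
        exact hs1 (by omega)
      rcases hs1'.eq_or_lt with heq | hlt2
      · have : t = s := θ.injective (Fin.ext heq)
        rw [this] at hs2 ⊢
        exact hs2.symm
      · have hti' : (θ t : ℕ) < hd.length := by omega
        have hget : ls.get (θ t) = hd[(θ t : ℕ)] := by
          rw [List.get_eq_getElem]
          simp only [hlsdef]
          rw [List.getElem_append_left hti']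
        have hsplit : hd = hd.take (θ t) ++ ls.get (θ t) :: hd.drop (θ t + 1) := by
          conv_lhs => rw [← List.take_append_drop (θ t) hd]
          congr 1
          rw [List.drop_eq_getElem_cons hti', hget]
        have hstep := chkM3_spec hchk _ _ _ hsplit
        rw [List.append_nil] at hstep
        have hmem : ls.get (θ s) ∈ hd.drop (θ t + 1) ++ dl := by
          rw [hdrop _ (by omega), List.mem_iff_getElem]
          refine ⟨θ s - (θ t + 1), ?_, ?_⟩
          · rw [List.length_drop]
            have := (θ s).2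
            omega
          · rw [List.getElem_drop, List.get_eq_getElem]
            congr 1
            omega
        have hearly : ∀ z ∈ (hd.take (θ t)).reverse, ∃ t', t' ≠ t ∧ ty (g t') = ty t' ∧
            ls.get (θ t') = z := by
          intro z hz
          rw [List.mem_reverse, List.mem_iff_getElem] at hz
          obtain ⟨j, hj, rfl⟩ := hz
          rw [List.length_take] at hj
          have hj1 : j < θ t := lt_of_lt_of_le hj (min_le_left _ _)
          have hj3 : j < hd.length := lt_of_lt_of_le hj (min_le_right _ _)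
          have hj2 : j < ls.length := by omega
          refine ⟨θ.symm ⟨j, hj2⟩, ?_, ?_, ?_⟩
          · intro h
            have := congrArg (fun x => (θ x : ℕ)) h
            simp only [Equiv.apply_symm_apply] at this
            omega
          · apply hprev
            rw [Equiv.apply_symm_apply]
            exact hj1
          · rw [Equiv.apply_symm_apply, List.getElem_take, List.get_eq_getElem]
            simp only [hlsdef]
            rw [List.getElem_append_left hj3]
        have hzero : ∀ z ∈ h0, ∃ t', t' ≠ t ∧ (ls.get (θ (g t'))).r3 = (ls.get (θ t')).r3 ∧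
            ls.get (θ t') = z := by
          intro z hz
          obtain ⟨j, hj, rfl⟩ := List.mem_iff_getElem.mp hz
          have hj2 : hd.length + j < ls.length := by omega
          have hjz : ls.get ⟨hd.length + j, hj2⟩ = h0[j] := by
            rw [List.get_eq_getElem]
            simp only [hlsdef, hdl]
            rw [List.getElem_append_right (Nat.le_add_right _ _)]
            simp only [Nat.add_sub_cancel_left]
            rw [List.getElem_append_left hj]
          refine ⟨θ.symm ⟨hd.length + j, hj2⟩, ?_, ?_, ?_⟩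
          · intro h
            have := congrArg (fun x => (θ x : ℕ)) h
            simp only [Equiv.apply_symm_apply] at this
            omega
          · apply key0
            rw [Equiv.apply_symm_apply, hjz]
            exact hz
          · rw [Equiv.apply_symm_apply, hjz]
        simp only [ty, Prod.mk.injEq] at hs2
        rcases step3OK_spec hstep hmem with h | h | h | h
        · simp only [ty, Prod.mk.injEq]
          exact ⟨hs2.1.symm.trans h.1.symm, hs2.2.1.symm.trans h.2.1.symm,
            hs2.2.2.symm.trans h.2.2.symm⟩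
        · exfalso
          refine not_blocked k1.1 b1 g1 (t := t) (r := (ls.get (θ s)).r1) hs2.1 ?_
          rcases h with h | ⟨z, hz, hz1, hz2⟩
          · exact Or.inl h
          · obtain ⟨t', q1, q2, rfl⟩ := hearly z hz
            simp only [ty, Prod.mk.injEq] at q2
            exact Or.inr ⟨t', q1, q2.1, hz1, hz2⟩
        · exfalso
          refine not_blocked k2.1 b2 g2 (t := t) (r := (ls.get (θ s)).r2) hs2.2.1 ?_
          rcases h with h | ⟨z, hz, hz1, hz2⟩
          · exact Or.inl h
          · obtain ⟨t', q1, q2, rfl⟩ := hearly z hz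
            simp only [ty, Prod.mk.injEq] at q2
            exact Or.inr ⟨t', q1, q2.2.1, hz1, hz2⟩
        · exfalso
          refine not_blocked k3.1 b3 g3 (t := t) (r := (ls.get (θ s)).r3) hs2.2.2 ?_
          rcases h with h | ⟨z, hz, hz1, hz2⟩
          · exact Or.inl h
          · rcases List.mem_append.mp hz with hz | hz
            · obtain ⟨t', q1, q2, rfl⟩ := hearly z hz
              simp only [ty, Prod.mk.injEq] at q2
              exact Or.inr ⟨t', q1, q2.2.2, hz1, hz2⟩
            · obtain ⟨t', q1, q2, rfl⟩ := hzero z hz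
              exact Or.inr ⟨t', q1, q2, hz1, hz2⟩
  have keyA : ∀ t, (θ t : ℕ) < hd.length → ty (g t) = ty t := fun t ht => key _ t rfl ht
  -- types of the images of the other letters are diagonal
  have keyB : ∀ t, hd.length ≤ (θ t : ℕ) → (ls.get (θ (g t))).r1 = (ls.get (θ (g t))).r2 := by
    intro t ht
    obtain ⟨s, hs1, hs2⟩ := exists_notin ty g (fun s => (θ s : ℕ) < hd.length)
      (fun s hs => keyA s hs) (t := t) (by omega)
    have hs := hdg s (by omega)
    simp only [ty, Prod.mk.injEq] at hs2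
    rw [← hs2.1, ← hs2.2.1]
    exact congrArg Prod.fst hs
  have key3 : ∀ t, (ls.get (θ (g t))).r3 = (ls.get (θ t)).r3 := by
    have hA : ∀ t, (θ t : ℕ) < hd.length + h0.length →
        (ls.get (θ (g t))).r3 = (ls.get (θ t)).r3 := by
      intro t ht
      by_cases ht2 : (θ t : ℕ) < hd.length
      · have := keyA t ht2
        simp only [ty, Prod.mk.injEq] at this
        exact this.2.2
      · exact key0 t (hz t (by omega) ht)
    intro t
    by_cases ht : (θ t : ℕ) < hd.length + h0.length
    · exact hA t ht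
    · obtain ⟨s, hs1, hs2⟩ := exists_notin (fun s => (ls.get (θ s)).r3) g
        (fun s => (θ s : ℕ) < hd.length + h0.length) hA (t := t) ht
      have hs := htl s (by omega)
      have ht' := htl t (by omega)
      rw [ht', ← hs2]
      exact hs
  have hk1 : k = 1 := by
    ext t
    apply e.injective
    apply Subtype.ext
    refine Prod.ext ?_ (hk t)
    have h5 : (e (g t)).1.1 = (e (k t)).1.1 := by
      rw [hgdef, Equiv.Perm.mul_apply, hr]
    have e1 : (e (g t)).1.1 = (ls.get (θ (g t))).r3 := congrArg Prod.fst (hθ (g t))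
    have e2 : (e ((1 : Equiv.Perm T) t)).1.1 = (ls.get (θ t)).r3 := congrArg Prod.fst (hθ t)
    rw [← h5, e1, e2]
    exact key3 t
  refine ⟨hk1, ?_⟩
  obtain ⟨σ₁, p1, q1⟩ := g1
  obtain ⟨σ₂, p2, q2⟩ := g2
  have f1 : ∀ t, (θ t : ℕ) < hd.length → σ₁ t = t := by
    intro t ht
    refine GoodAt.inj k1.1 ⟨σ₁, p1, q1⟩ (p1 t) ?_
    rw [q1]
    have := keyA t ht
    simp only [ty, Prod.mk.injEq] at this
    exact this.1.symm
  have f2 : ∀ t, (θ t : ℕ) < hd.length → σ₂ t = t := by
    intro t ht
    refine GoodAt.inj k2.1 ⟨σ₂, p2, q2⟩ (p2 t) ?_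
    rw [q2]
    have := keyA t ht
    simp only [ty, Prod.mk.injEq] at this
    exact this.2.1.symm
  have hσ : σ₁ = σ₂ := by
    ext t
    by_cases ht : (θ t : ℕ) < hd.length
    · rw [f1 t ht, f2 t ht]
    · have ht' : hd.length ≤ (θ t : ℕ) := by omega
      have hs1 : hd.length ≤ (θ (σ₁ t) : ℕ) := by
        by_contra hcon
        have := f1 (σ₁ t) (by omega)
        have := σ₁.injective this
        rw [this] at hcon
        exact hcon ht'
      have hs2 : hd.length ≤ (θ (σ₂ t) : ℕ) := by
        by_contra hcon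
        have := f2 (σ₂ t) (by omega)
        have := σ₂.injective this
        rw [this] at hcon
        exact hcon ht'
      refine GoodAt.inj k1.1 ⟨σ₁, p1, q1⟩ ?_ ?_
      · have a1 := p1 t
        have a2 : (lsTab ls Lt.r1 Lt.c1 θ (σ₂ t)).2 = (lsTab ls Lt.r1 Lt.c1 θ t).2 := by
          rw [hdg (σ₂ t) hs2, hdg t ht']
          exact p2 t
        rw [a1, a2]
      · have a1 := q1 t
        have a2 := q2 t
        have a3 : (lsTab ls Lt.r1 Lt.c1 θ (g (σ₂ t))).1 = (lsTab ls Lt.r2 Lt.c2 θ (g (σ₂ t))).1 :=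
          keyB (σ₂ t) hs2
        rw [a1, a3, a2, hdg t ht']
  rw [polyF_eq_sign k1.1 p1 q1, polyF_eq_sign k2.1 p2 q2, hσ]
  rcases Int.units_eq_one_or (Equiv.Perm.sign σ₂) with h | h <;> simp [h]

end mix

/-- mixed certificates give occurrences -/
theorem occSh_of_mix3OK {D E : Finset (ℕ × ℕ)} {H1 H2 : List ℕ}
    (hD : ∀ c, c ∈ D ↔ c.1 < H1.getD c.2 0) (hE : ∀ c, c ∈ E ↔ c.1 < H2.getD c.2 0)
    {μ : YoungDiagram} (hd h0 tl : List Lt)
    (hcD : D.card = (hd ++ (h0 ++ tl)).length) (hcE : E.card = (hd ++ (h0 ++ tl)).length)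
    (hcμ : μ.card = (hd ++ (h0 ++ tl)).length)
    (hls : mix3OK H1 H2 (colLens μ) hd h0 tl = true) : OccSh D E μ := by
  intro T _ _ W _ _ ρ hρ
  have hc := hρ.card
  obtain ⟨e, w, hw, hne⟩ := hρ
  exact occ_of_mix3OK ρ e w hw hne hD hE (mem_cells_iff_colLens μ) hd h0 tl hcD hcE
    (by rw [← hc, hcμ]) hls

end Crest.Agent.R195
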