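import Crest.Agent.R195.Cert
import Crest.Agent.R195.SpDefs

/-!
Row 195.  Unique-arrangement certificates (helper895).

Three tableaux `τ₁, τ₂, e` of shapes `D, E, μ` on the same letters.  If the only rearrangement of the
triples of row indices which is bijective on all the columns of the three tableaux is the trivial one,
then the representations of shape `μ` occur in `Kr T D E`.
-/

set_option autoImplicit false

namespace Crest.Agent.R195

open Finset Function

section occ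

variable {T : Type*} [Fintype T] [DecidableEq T]

/-- the row word of `τ` moved by `g` is bijective on the columns of `τ` -/
def GoodAt (τ : T → ℕ × ℕ) (g : Equiv.Perm T) : Prop :=
  ∃ σ : Equiv.Perm T, (∀ t, (τ (σ t)).2 = (τ t).2) ∧ ∀ t, (τ (g (σ t))).1 = (τ t).1

omit [Fintype T] [DecidableEq T] in
theorem GoodAt.cell {τ : T → ℕ × ℕ} {g : Equiv.Perm T} (h : GoodAt τ g) (t : T) :
    ∃ s, τ s = ((τ (g t)).1, (τ t).2) := by
  obtain ⟨σ, h1, h2⟩ := h
  refine ⟨σ.symm t, ?_⟩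
  have e1 := h1 (σ.symm t)
  have e2 := h2 (σ.symm t)
  rw [Equiv.apply_symm_apply] at e1 e2
  exact Prod.ext e2.symm e1.symm

omit [Fintype T] [DecidableEq T] in
theorem GoodAt.inj {τ : T → ℕ × ℕ} (hτ : Injective τ) {g : Equiv.Perm T} (h : GoodAt τ g)
    {a b : T} (h1 : (τ a).2 = (τ b).2) (h2 : (τ (g a)).1 = (τ (g b)).1) : a = b := by
  obtain ⟨σ, e1, e2⟩ := h
  have f : ∀ t, τ (σ.symm t) = ((τ (g t)).1, (τ t).2) := by
    intro t
    have e1 := e1 (σ.symm t)
    have e2 := e2 (σ.symm t)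
    rw [Equiv.apply_symm_apply] at e1 e2
    exact Prod.ext e2.symm e1.symm
  have : τ (σ.symm a) = τ (σ.symm b) := by rw [f, f, h1, h2]
  exact σ.symm.injective (hτ this)

/-- value of the polytabloid at its own row word -/
theorem polyF_self {τ : T → ℕ × ℕ} (hτ : Injective τ) : polyF τ (fun t => (τ t).1) = 1 := by
  unfold polyF
  rw [Finset.sum_eq_single 1]
  · simp
  · intro σ _ hσ
    rw [if_neg]
    rintro ⟨h1, h2⟩
    apply hσ
    ext t
    exact hτ (Prod.ext (h2 t) (h1 t))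
  · intro h; exact absurd (mem_univ _) h

theorem polyF_good {τ : T → ℕ × ℕ} {g : Equiv.Perm T}
    (h : polyF τ ((fun t => (τ t).1) ∘ g) ≠ 0) : GoodAt τ g := polyF_support h

variable (T) in
/-- `Kr T D E` as a representation. -/
noncomputable def krRep (D E : Finset (ℕ × ℕ)) : Representation ℂ (Equiv.Perm T) (Kr T D E) where
  toFun g :=
    { toFun := fun f => ⟨fun w => f.1 (w ∘ g), Kr_act f.2 g⟩
      map_add' := fun _ _ => rfl
      map_smul' := fun _ _ => rfl }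
  map_one' := by ext f w; rfl
  map_mul' g h := by ext f w; rfl

theorem krRep_apply (D E : Finset (ℕ × ℕ)) (g : Equiv.Perm T) (f : Kr T D E) (w : T → ℕ × ℕ) :
    (krRep T D E g f).1 w = f.1 (w ∘ g) := rfl

/-- Certificate theorem. -/
theorem occ_of_unique {W : Type*} [AddCommGroup W] [Module ℂ W]
    (ρ : Representation ℂ (Equiv.Perm T) W) {μ : YoungDiagram} (e : T ≃ μ.cells) (w : W)
    (hw : SwapFixed ρ (fun t => (e t).1.1) w) (hκ : colAsym ρ (fun t => (e t).1.2) w ≠ 0)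
    {D E : Finset (ℕ × ℕ)} (τ₁ τ₂ : T → ℕ × ℕ) (h1 : IsTab D τ₁) (h2 : IsTab E τ₂)
    (huniq : ∀ g : Equiv.Perm T, GoodAt τ₁ g → GoodAt τ₂ g → GoodAt (fun t => (e t).1) g →
      ∀ t, (τ₁ (g t)).1 = (τ₁ t).1 ∧ (τ₂ (g t)).1 = (τ₂ t).1 ∧ (e (g t)).1.1 = (e t).1.1) :
    Occ ρ (Kr T D E) := by
  classical
  let v : Kr T D E := ⟨prodF (polyF τ₁) (polyF τ₂), Submodule.subset_span ⟨τ₁, τ₂, h1, h2, rfl⟩⟩
  let b0 : T → ℕ × ℕ := fun t => ((τ₁ t).1, (τ₂ t).1)
  set row : T → ℕ := fun t => (e t).1.1 with hrow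
  set col : T → ℕ := fun t => (e t).1.2 with hcol
  have hv1 : ∀ g : Equiv.Perm T, v.1 (b0 ∘ g) =
      polyF τ₁ ((fun t => (τ₁ t).1) ∘ g) * polyF τ₂ ((fun t => (τ₂ t).1) ∘ g) := fun g => rfl
  let R := Finset.univ.filter (fun σ : Equiv.Perm T => ∀ t, row (σ t) = row t)
  let C := Finset.univ.filter (fun σ : Equiv.Perm T => ∀ t, col (σ t) = col t)
  have hR : ∀ r, r ∈ R ↔ ∀ t, row (r t) = row t := fun r => by simp [R]
  have hC : ∀ r, r ∈ C ↔ ∀ t, col (r t) = col t := fun r => by simp [C]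
  have hval : (rowSym (krRep T D E) row (colAsym (krRep T D E) col v)).1 b0
      = ∑ r ∈ R, ∑ k ∈ C, (((Equiv.Perm.sign k : ℤˣ) : ℤ) : ℂ) * v.1 (b0 ∘ (r * k)) := by
    rw [rowSym_apply, colAsym_apply]
    simp only [map_sum, map_smul]
    rw [AddSubmonoidClass.coe_finsetSum, Finset.sum_apply]
    refine Finset.sum_congr rfl fun r _ => ?_
    rw [AddSubmonoidClass.coe_finsetSum, Finset.sum_apply]
    refine Finset.sum_congr rfl fun k _ => ?_
    rw [Submodule.coe_smul, Pi.smul_apply, smul_eq_mul, krRep_apply, krRep_apply]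
    rfl
  -- the terms
  have hterm : ∀ r ∈ R, ∀ k ∈ C, v.1 (b0 ∘ (r * k)) ≠ 0 →
      k = 1 ∧ v.1 (b0 ∘ (r * k)) = 1 := by
    intro r hr k hk hne
    rw [hR] at hr
    rw [hC] at hk
    rw [hv1] at hne
    have g1 : GoodAt τ₁ (r * k) := polyF_good (left_ne_zero_of_mul hne)
    have g2 : GoodAt τ₂ (r * k) := polyF_good (right_ne_zero_of_mul hne)
    have g3 : GoodAt (fun t => (e t).1) (r * k) := by
      refine ⟨k⁻¹, fun t => cert_inv_fix col k hk t, fun t => ?_⟩
      change row ((r * k) (k⁻¹ t)) = row t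
      rw [Equiv.Perm.mul_apply, cert_apply_inv, hr]
    have hu := huniq (r * k) g1 g2 g3
    have hk1 : k = 1 := by
      ext t
      apply e.injective
      apply Subtype.ext
      refine Prod.ext ?_ (hk t)
      have := (hu t).2.2
      change row ((r * k) t) = row t at this
      rw [Equiv.Perm.mul_apply, hr] at this
      exact this
    refine ⟨hk1, ?_⟩
    rw [hv1]
    have e1 : (fun t => (τ₁ t).1) ∘ (r * k) = fun t => (τ₁ t).1 := funext fun t => (hu t).1
    have e2 : (fun t => (τ₂ t).1) ∘ (r * k) = fun t => (τ₂ t).1 := funext fun t => (hu t).2.1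
    rw [e1, e2, polyF_self h1.1, polyF_self h2.1, one_mul]
  have hne : rowSym (krRep T D E) row (colAsym (krRep T D E) col v) ≠ 0 := by
    intro h0
    rw [h0] at hval
    have hval' : (0 : ℂ) = ∑ r ∈ R, ∑ k ∈ C,
        (((Equiv.Perm.sign k : ℤˣ) : ℤ) : ℂ) * v.1 (b0 ∘ (r * k)) := hval
    have hterm' : ∀ r ∈ R, ∀ k ∈ C, (((Equiv.Perm.sign k : ℤˣ) : ℤ) : ℂ) * v.1 (b0 ∘ (r * k))
        = if (v.1 (b0 ∘ (r * k)) ≠ 0) then ((1 : ℕ) : ℂ) else ((0 : ℕ) : ℂ) := by
      intro r hr k hk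
      by_cases hne : v.1 (b0 ∘ (r * k)) ≠ 0
      · obtain ⟨hk1, h1v⟩ := hterm r hr k hk hne
        rw [if_pos hne, h1v, hk1]
        simp
      · rw [if_neg hne]
        push Not at hne
        rw [hne]; simp
    rw [Finset.sum_congr rfl (fun r hr => Finset.sum_congr rfl (fun k hk => hterm' r hr k hk))] at hval'
    have hcast : (∑ r ∈ R, ∑ k ∈ C, if (v.1 (b0 ∘ (r * k)) ≠ 0) then ((1 : ℕ) : ℂ) else ((0 : ℕ) : ℂ))
        = ((∑ r ∈ R, ∑ k ∈ C, if (v.1 (b0 ∘ (r * k)) ≠ 0) then (1 : ℕ) else 0 : ℕ) : ℂ) := by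
      simp only [Nat.cast_sum, Nat.cast_ite]
    rw [hcast] at hval'
    have hz : (∑ r ∈ R, ∑ k ∈ C, if (v.1 (b0 ∘ (r * k)) ≠ 0) then (1 : ℕ) else 0 : ℕ) = 0 := by
      exact_mod_cast hval'.symm
    rw [Finset.sum_eq_zero_iff] at hz
    have h1R : (1 : Equiv.Perm T) ∈ R := (hR 1).mpr fun t => rfl
    have h1C : (1 : Equiv.Perm T) ∈ C := (hC 1).mpr fun t => rfl
    have := hz 1 h1R
    rw [Finset.sum_eq_zero_iff] at this
    have h3 := this 1 h1C
    have hv10 : v.1 (b0 ∘ ((1 * 1 : Equiv.Perm T))) ≠ 0 := by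
      rw [hv1]
      have e1 : (fun t => (τ₁ t).1) ∘ ((1 * 1 : Equiv.Perm T)) = fun t => (τ₁ t).1 := rfl
      have e2 : (fun t => (τ₂ t).1) ∘ ((1 * 1 : Equiv.Perm T)) = fun t => (τ₂ t).1 := rfl
      rw [e1, e2, polyF_self h1.1, polyF_self h2.1, one_mul]
      exact one_ne_zero
    rw [if_pos hv10] at h3
    exact one_ne_zero h3
  obtain ⟨f, hf, hcomm⟩ := cert_hom ρ (krRep T D E) e w hw hκ v hne
  refine ⟨(Kr T D E).subtype ∘ₗ f, ?_, fun u => (f u).2, ?_⟩
  · intro h0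
    apply hf
    ext u
    exact congrFun (LinearMap.congr_fun h0 u) _
  · intro g u w'
    have := hcomm g u
    simp only [LinearMap.comp_apply, Submodule.subtype_apply, this]
    rfl

end occ

end Crest.Agent.R195
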