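import Crest.Agent.R195.CertHook

/-!
Row 195.  Enumeration of the both-short region and linear coverage check (helper895).
-/

set_option autoImplicit false
set_option linter.unusedSectionVars false

namespace Crest.Agent.R195

open Finset Function

/-- cost of a column: `1` for height one, `2` otherwise (contribution to `w + w₂`) -/
def cst (x : ℕ) : ℕ := bif Nat.ble x 1 then 1 else 2

/-- decreasing lists with parts `≤ m`, sum `rem` and cost `≤ b` -/
def goR : ℕ → ℕ → ℕ → ℕ → List (List ℕ)
  | 0, _, rem, _ => bif Nat.beq rem 0 then [[]] else []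
  | f + 1, m, rem, b => bif Nat.beq rem 0 then [[]] else
      bif Nat.ble (2 * rem) (max m 2 * b) then
        (List.range m).flatMap fun a =>
          bif Nat.ble (a + 1) rem && Nat.ble (cst (a + 1)) b then
            (goR f (a + 1) (rem - (a + 1)) (b - cst (a + 1))).map fun l => (a + 1) :: l
          else []
      else []

/-- total cost -/
def cstL (l : List ℕ) : ℕ := (l.map cst).sum

theorem two_mul_le_cst {x m : ℕ} (hm : x ≤ m) : 2 * x ≤ max m 2 * cst x := by
  unfold cst
  by_cases h : x ≤ 1
  · have : Nat.ble x 1 = true := Nat.ble_eq_true_of_le h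
    rw [this, cond_true]
    have := le_max_right m 2
    omega
  · have : Nat.ble x 1 = false := by
      rw [Bool.eq_false_iff]
      intro h2
      exact h (Nat.le_of_ble_eq_true h2)
    rw [this, cond_false]
    have := le_max_left m 2
    omega

theorem two_mul_sum_le_cst {m : ℕ} : ∀ (l : List ℕ), (∀ x ∈ l, x ≤ m) →
    2 * l.sum ≤ max m 2 * cstL l := by
  intro l
  induction l with
  | nil => simp [cstL]
  | cons x l ih =>
    intro h
    have h1 := two_mul_le_cst (h x List.mem_cons_self)
    have h2 := ih fun y hy => h y (List.mem_cons_of_mem _ hy)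
    unfold cstL at h2 ⊢
    rw [List.sum_cons, List.map_cons, List.sum_cons, Nat.mul_add, Nat.mul_add]
    omega

theorem mem_goR : ∀ (f m rem b : ℕ) (l : List ℕ), l.Pairwise (fun x y => y ≤ x) →
    (∀ x ∈ l, 0 < x) → (∀ x ∈ l, x ≤ m) → l.sum = rem → cstL l ≤ b → l.length ≤ f →
    l ∈ goR f m rem b := by
  intro f
  induction f with
  | zero =>
    intro m rem b l _ _ _ hs _ hl
    have : l = [] := List.length_eq_zero_iff.mp (by omega)
    subst this
    have : rem = 0 := by simpa using hs.symm
    subst this
    simp [goR]
  | succ f ih =>
    intro m rem b l hp hpos hm hs hb hl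
    cases l with
    | nil =>
      have : rem = 0 := by simpa using hs.symm
      subst this
      simp [goR]
    | cons x l =>
      have hx : 0 < x := hpos x List.mem_cons_self
      have h2 := two_mul_sum_le_cst (m := m) (x :: l) hm
      have hle : 2 * rem ≤ max m 2 * b := by
        rw [← hs]
        exact h2.trans (Nat.mul_le_mul_left _ hb)
      rw [List.sum_cons] at hs
      have hcb : cst x + cstL l ≤ b := by
        unfold cstL at hb ⊢
        rw [List.map_cons, List.sum_cons] at hb
        exact hb
      unfold goR
      have hn : Nat.beq rem 0 = false := by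
        rw [Bool.eq_false_iff]
        intro h3
        have := Nat.eq_of_beq_eq_true h3
        omega
      rw [hn, cond_false, Nat.ble_eq_true_of_le hle, cond_true, List.mem_flatMap]
      refine ⟨x - 1, ?_, ?_⟩
      · rw [List.mem_range]
        have := hm x List.mem_cons_self
        omega
      · have hx1 : x - 1 + 1 = x := by omega
        rw [hx1, Nat.ble_eq_true_of_le (by omega : x ≤ rem),
          Nat.ble_eq_true_of_le (by omega : cst x ≤ b), Bool.and_self, cond_true, List.mem_map]
        refine ⟨l, ih x (rem - x) (b - cst x) l ?_ ?_ ?_ ?_ ?_ ?_, rfl⟩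
        · exact (List.pairwise_cons.mp hp).2
        · exact fun y hy => hpos y (List.mem_cons_of_mem _ hy)
        · exact fun y hy => (List.pairwise_cons.mp hp).1 y hy
        · omega
        · omega
        · rw [List.length_cons] at hl; omega

/-- the both-short region -/
def regParts (B n : ℕ) : List (List ℕ) :=
  (List.range (2 * B)).flatMap fun a =>
    ((goR n (min (a + 1) (2 * B - (a + 1))) (n - (a + 1)) (2 * B - cst (a + 1))).filter
      fun l => Nat.ble a l.length).map fun l => (a + 1) :: l

theorem cstL_eq (l : List ℕ) (hpos : ∀ x ∈ l, 0 < x) :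
    cstL l = l.length + (l.filter fun x => Nat.blt 1 x).length := by
  induction l with
  | nil => rfl
  | cons x l ih =>
    have h1 := ih fun y hy => hpos y (List.mem_cons_of_mem _ hy)
    unfold cstL at h1 ⊢
    rw [List.map_cons, List.sum_cons, h1, List.length_cons, List.filter_cons]
    have hx := hpos x List.mem_cons_self
    unfold cst
    by_cases h : x ≤ 1
    · have h2 : Nat.blt 1 x = false := by
        rw [Bool.eq_false_iff]; intro h3
        have : 1 < x := Nat.le_of_ble_eq_true h3
        omega
      rw [Nat.ble_eq_true_of_le h, cond_true, h2]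
      simp only [Bool.false_eq_true, if_false]
      omega
    · have h2 : Nat.blt 1 x = true := Nat.ble_eq_true_of_le (by omega)
      have h3 : Nat.ble x 1 = false := by
        rw [Bool.eq_false_iff]; intro h4
        exact h (Nat.le_of_ble_eq_true h4)
      rw [h3, cond_false, h2]
      simp only [if_true, List.length_cons]
      omega

theorem mem_regParts {μ : YoungDiagram} {n B : ℕ} (hn : μ.card = n) (hpos : 0 < n)
    (h : regL B (colLens μ) = true) : colLens μ ∈ regParts B n := by
  have hP := colLens_pairwise μ
  have hpp := colLens_pos μ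
  have hs := colLens_sum μ
  unfold regL at h
  rw [Bool.and_eq_true, Bool.and_eq_true, Nat.ble_eq, Nat.ble_eq, Nat.ble_eq] at h
  obtain ⟨h1, h2, h3⟩ := h
  rw [← cstL_eq _ hpp] at h2
  rw [hn] at hs
  generalize colLens μ = l at *
  cases l with
  | nil => simp at hs; omega
  | cons x l =>
    have hx := hpp x List.mem_cons_self
    rw [List.sum_cons] at hs
    unfold cstL at h2
    rw [List.map_cons, List.sum_cons] at h2
    rw [List.getD_cons_zero] at h1 h3
    rw [List.length_cons] at h3
    unfold regParts
    rw [List.mem_flatMap]
    have hx1 : x - 1 + 1 = x := by omega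
    refine ⟨x - 1, ?_, ?_⟩
    · rw [List.mem_range]; omega
    · rw [hx1, List.mem_map]
      refine ⟨l, ?_, rfl⟩
      rw [List.mem_filter]
      refine ⟨?_, Nat.ble_eq_true_of_le (by omega)⟩
      apply mem_goR
      · exact (List.pairwise_cons.mp hP).2
      · exact fun y hy => hpp y (List.mem_cons_of_mem _ hy)
      · intro y hy
        have hyx := (List.pairwise_cons.mp hP).1 y hy
        rw [le_min_iff]
        refine ⟨hyx, ?_⟩
        cases l with
        | nil => simp at hy
        | cons z l =>
          have hyz : y ≤ z := by
            rcases List.mem_cons.mp hy with rfl | hy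
            · exact le_rfl
            · exact (List.pairwise_cons.mp (List.pairwise_cons.mp hP).2).1 y hy
          rw [List.getD_cons_succ, List.getD_cons_zero] at h1
          omega
      · omega
      · unfold cstL; omega
      · have := length_le_sum l fun y hy => hpp y (List.mem_cons_of_mem _ hy)
        omega

/-- linear coverage check -/
def covL : List (List ℕ) → List Entry → Bool
  | [], _ => true
  | _ :: _, [] => false
  | q :: qs, x :: xs => (eqL x.hs q || eqL x.hs (conjL q)) && covL qs xs

theorem covL_spec : ∀ {qs : List (List ℕ)} {tb : List Entry}, covL qs tb = true →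
    ∀ q ∈ qs, inTab tb q = true ∨ inTab tb (conjL q) = true := by
  intro qs
  induction qs with
  | nil => intro tb _ q hq; simp at hq
  | cons r qs ih =>
    intro tb h q hq
    cases tb with
    | nil => simp [covL] at h
    | cons x xs =>
      unfold covL at h
      rw [Bool.and_eq_true, Bool.or_eq_true] at h
      unfold inTab
      rw [List.any_cons, List.any_cons, Bool.or_eq_true, Bool.or_eq_true]
      rcases List.mem_cons.mp hq with rfl | hq
      · rcases h.1 with h1 | h1
        · exact Or.inl (Or.inl h1)
        · exact Or.inr (Or.inl h1)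
      · rcases ih h.2 q hq with h1 | h1
        · exact Or.inl (Or.inr h1)
        · exact Or.inr (Or.inr h1)

/-- Fullness from a table for the shapes that are short in both directions. -/
theorem fullH_of_reg {p : ℕ} {ps : List ℕ} (hv : ValidH (p :: ps)) (hc : HC p ps)
    (hf : FullH ps) {n : ℕ} (hn : hsize (p :: ps) = n) (hpos : 0 < n) {tb : List Entry}
    (h1 : TabOK (p :: ps) n tb) (h2 : covL (regParts (p - 1) n) tb = true) :
    FullH (p :: ps) := by
  refine rule1 hv hc hf fun μ hμ hr => ?_
  rw [hn] at hμ
  rcases covL_spec h2 _ (mem_regParts hμ hpos (regL_of_region hr)) with h | h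
  · exact h1 μ hμ h
  · apply OccSh.of_transpose (hk_swap (p :: ps))
    rw [← colLens_transpose] at h
    exact h1 _ (by rw [Crest.Agent.R195.card_transpose, hμ]) h

/-! ### Tables for `n > 64` -/

theorem getD_le_of_all {l : List ℕ} (h : (l.all fun x => Nat.ble x 64) = true) (j : ℕ) :
    l.getD j 0 ≤ 64 := by
  induction l generalizing j with
  | nil => simp
  | cons x l ih =>
    rw [List.all_cons, Bool.and_eq_true] at h
    cases j with
    | zero => rw [List.getD_cons_zero]; exact Nat.le_of_ble_eq_true h.1
    | succ j => rw [List.getD_cons_succ]; exact ih h.2 j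

/-- a piece of a table has been checked, version without bound on `n` -/
theorem tabOK_of_fast' {ps : List ℕ} (hv : ValidH ps) {H : List ℕ} (hH : clList ps = H) {n : ℕ}
    (hn : hsize ps = n) (h64 : (H.all fun x => Nat.ble x 64) = true) {tb : List Entry}
    (h : (tb.all fun x => (x.hs.all fun x => Nat.ble x 64) && x.fast n H) = true) :
    TabOK ps n tb := by
  intro μ hμ hin
  rw [List.all_eq_true] at h
  unfold inTab at hin
  rw [List.any_eq_true] at hin
  obtain ⟨x, hx, hx2⟩ := hin
  have hx3 := eqL_iff.mp hx2
  have hx4 := h x hx
  rw [Bool.and_eq_true] at hx4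
  rw [hk_eq_cellsH hv hH]
  apply occSh_of_entry (sum_of_clList hv hH hn) (x := x) _ hμ hx3.symm
  have hx5 := hx4.2
  unfold Entry.fast at hx5
  rw [Bool.and_eq_true] at hx5
  unfold Entry.ok
  rw [Bool.and_eq_true]
  exact ⟨hx5.1, mixOK_of_fastOK (getD_le_of_all h64) (getD_le_of_all h64)
    (getD_le_of_all hx4.1) hx5.2⟩

end Crest.Agent.R195
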