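import Crest.Agent.R195.CertCheck
import Crest.Agent.R195.Major2
import Crest.Agent.R195.Twist

/-!
Row 195.  Occurrence shape by shape, and reduction of `Full D D` to a finite list of shapes
(helper895).
-/

set_option autoImplicit false
set_option linter.unusedSectionVars false

namespace Crest.Agent.R195

open Finset Function

section sym

variable {T : Type*} [Fintype T] [DecidableEq T] {U : Type*} [AddCommGroup U] [Module ℂ U]

lemma colAsym_mul_right (ρ : Representation ℂ (Equiv.Perm T) U) (d : T → ℕ) (w : U)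
    (k : Equiv.Perm T) (hk : ∀ t, d (k t) = d t) :
    colAsym ρ d (ρ k w) = (((Equiv.Perm.sign k : ℤˣ) : ℤ) : ℂ) • colAsym ρ d w := by
  rw [colAsym_apply, colAsym_apply, Finset.smul_sum]
  refine Finset.sum_bij' (fun σ _ => σ * k) (fun σ _ => σ * k⁻¹) ?_ ?_ ?_ ?_ ?_
  · intro σ hσ
    simp only [Finset.mem_filter, Finset.mem_univ, true_and] at hσ ⊢
    intro t
    rw [Equiv.Perm.mul_apply, hσ, hk]
  · intro σ hσ
    simp only [Finset.mem_filter, Finset.mem_univ, true_and] at hσ ⊢
    intro t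
    rw [Equiv.Perm.mul_apply, hσ, cert_inv_fix d k hk]
  · intro σ _; simp
  · intro σ _; simp
  · intro σ _
    rw [rho_mul, smul_smul, Equiv.Perm.sign_mul]
    congr 1
    have : ((((Equiv.Perm.sign k : ℤˣ) : ℤ) : ℂ)) * ((((Equiv.Perm.sign k : ℤˣ) : ℤ) : ℂ)) = 1 := by
      rcases Int.units_eq_one_or (Equiv.Perm.sign k) with h | h <;> simp [h]
    push_cast
    rw [mul_comm, mul_assoc, this, mul_one]

/-- If `w` is fixed by the row group and not killed by the column antisymmetrizer, then the row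
symmetrizer does not kill the result. -/
theorem rowSym_colAsym_ne (ρ : Representation ℂ (Equiv.Perm T) U) (c d : T → ℕ) (w : U)
    (hw : SwapFixed ρ c w) (h : colAsym ρ d w ≠ 0) : rowSym ρ c (colAsym ρ d w) ≠ 0 := by
  classical
  intro h0
  obtain ⟨l, hl⟩ : ∃ l : Module.Dual ℂ U, l (colAsym ρ d w) ≠ 0 := by
    by_contra hcon
    push Not at hcon
    exact h ((Module.forall_dual_apply_eq_zero_iff ℂ _).mp hcon)
  let R := Finset.univ.filter (fun σ : Equiv.Perm T => ∀ t, c (σ t) = c t)
  let C := Finset.univ.filter (fun σ : Equiv.Perm T => ∀ t, d (σ t) = d t)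
  have hR : ∀ r, r ∈ R ↔ ∀ t, c (r t) = c t := fun r => by simp [R]
  have hC : ∀ r, r ∈ C ↔ ∀ t, d (r t) = d t := fun r => by simp [C]
  let F : Equiv.Perm T → ℂ := fun g => l (ρ g w)
  let A : Equiv.Perm T → ℂ := fun g => l (ρ g (colAsym ρ d w))
  have hFr : ∀ r ∈ R, ∀ g, F (g * r) = F g := by
    intro r hr g
    rw [hR] at hr
    change l (ρ (g * r) w) = l (ρ g w)
    rw [← rho_mul, hw.perm r hr]
  have hAsum : ∀ g, A g = ∑ k ∈ C, (((Equiv.Perm.sign k : ℤˣ) : ℤ) : ℂ) * F (g * k) := by
    intro g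
    change l (ρ g (colAsym ρ d w)) = _
    rw [colAsym_apply, map_sum, map_sum]
    refine Finset.sum_congr rfl fun k _ => ?_
    rw [map_smul, map_smul, rho_mul, smul_eq_mul]
  have hAk : ∀ k ∈ C, ∀ g, A (g * k) = (((Equiv.Perm.sign k : ℤˣ) : ℤ) : ℂ) * A g := by
    intro k hk g
    rw [hC] at hk
    change l (ρ (g * k) (colAsym ρ d w)) = _
    rw [← rho_mul, (colAsym_alt ρ d w).perm k hk, map_smul, map_smul, smul_eq_mul]
  have hA0 : ∀ g, ∑ r ∈ R, A (g * r) = 0 := by
    intro g
    have := congrArg (fun u => l (ρ g u)) h0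
    simp only [map_zero] at this
    rw [rowSym_apply, map_sum, map_sum] at this
    rw [← this]
    refine Finset.sum_congr rfl fun r _ => ?_
    rw [rho_mul]
  have hAF : ∑ g, A g * (starRingEnd ℂ) (F g) = 0 := by
    have h1 : (R.card : ℂ) * ∑ g, A g * (starRingEnd ℂ) (F g) = 0 := by
      rw [← nsmul_eq_mul, ← Finset.sum_const]
      have : ∀ r ∈ R, ∑ g, A g * (starRingEnd ℂ) (F g)
          = ∑ g, A (g * r) * (starRingEnd ℂ) (F g) := by
        intro r hr
        rw [← Equiv.sum_comp (Equiv.mulRight r) (fun g => A g * (starRingEnd ℂ) (F g))]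
        refine Finset.sum_congr rfl fun g _ => ?_
        rw [Equiv.coe_mulRight, hFr r hr]
      rw [Finset.sum_congr rfl this, Finset.sum_comm]
      apply Finset.sum_eq_zero
      intro g _
      rw [← Finset.sum_mul, hA0, zero_mul]
    rcases mul_eq_zero.mp h1 with h2 | h2
    · exfalso
      have : R.card ≠ 0 := Finset.card_ne_zero.mpr ⟨1, by simp [R]⟩
      exact this (by exact_mod_cast h2)
    · exact h2
  have hAA : ∑ g, A g * (starRingEnd ℂ) (A g) = 0 := by
    have : ∀ g, A g * (starRingEnd ℂ) (A g)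
        = ∑ k ∈ C, (((Equiv.Perm.sign k : ℤˣ) : ℤ) : ℂ) * (A g * (starRingEnd ℂ) (F (g * k))) := by
      intro g
      have hc := congrArg (starRingEnd ℂ) (hAsum g)
      rw [hc, map_sum, Finset.mul_sum]
      refine Finset.sum_congr rfl fun k _ => ?_
      rw [map_mul, map_intCast]
      ring
    rw [Finset.sum_congr rfl (fun g _ => this g), Finset.sum_comm]
    apply Finset.sum_eq_zero
    intro k hk
    rw [← Finset.mul_sum]
    have h2 : ∑ g, A g * (starRingEnd ℂ) (F (g * k))
        = ∑ g, A (g * k⁻¹) * (starRingEnd ℂ) (F g) := by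
      rw [← Equiv.sum_comp (Equiv.mulRight k) (fun g => A (g * k⁻¹) * (starRingEnd ℂ) (F g))]
      refine Finset.sum_congr rfl fun g _ => ?_
      rw [Equiv.coe_mulRight, mul_inv_cancel_right]
    have hk' : k⁻¹ ∈ C := by
      rw [hC] at hk ⊢
      intro t
      exact cert_inv_fix d k hk t
    rw [h2, Finset.sum_congr rfl (fun g _ => by rw [hAk _ hk' g, mul_assoc]), ← Finset.mul_sum, hAF,
      mul_zero, mul_zero]
  have hA1 : A 1 = 0 := by
    have hcast : ∑ g, A g * (starRingEnd ℂ) (A g) = ((∑ g, Complex.normSq (A g) : ℝ) : ℂ) := by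
      rw [Complex.ofReal_sum]
      exact Finset.sum_congr rfl fun g _ => Complex.mul_conj (A g)
    rw [hcast] at hAA
    have h3 : ∑ g, Complex.normSq (A g) = 0 := by exact_mod_cast hAA
    have := (Finset.sum_eq_zero_iff_of_nonneg fun g _ => Complex.normSq_nonneg (A g)).mp h3 1
      (Finset.mem_univ _)
    exact Complex.normSq_eq_zero.mp this
  apply hl
  have : A 1 = l (colAsym ρ d w) := by
    change l (ρ 1 (colAsym ρ d w)) = _
    rw [map_one]; rfl
  rw [← this, hA1]

end sym

/-- `ρ` has a vector of shape `μ` (output of the shape lemma). -/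
def HasShape {T : Type} [Fintype T] [DecidableEq T] {W : Type} [AddCommGroup W] [Module ℂ W]
    (ρ : Representation ℂ (Equiv.Perm T) W) (μ : YoungDiagram) : Prop :=
  ∃ (e : T ≃ μ.cells) (w : W), SwapFixed ρ (fun t => (e t).1.1) w ∧
    colAsym ρ (fun t => (e t).1.2) w ≠ 0

section shapes

variable {T : Type} [Fintype T] [DecidableEq T] {W : Type} [AddCommGroup W] [Module ℂ W]
  {ρ : Representation ℂ (Equiv.Perm T) W} {μ : YoungDiagram}

theorem HasShape.card (h : HasShape ρ μ) : μ.card = Fintype.card T := by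
  obtain ⟨e, -⟩ := h
  rw [Fintype.card_congr e]
  simp [YoungDiagram.card]

theorem HasShape.fixSizes (h : HasShape ρ μ) : FixSizes ρ μ.rowLen := by
  obtain ⟨e, w, hw, hne⟩ := h
  refine ⟨_, card_fiber_row e, w, ?_, hw⟩
  rintro rfl
  exact hne (map_zero _)

/-- the transposed numbering -/
def transposeEquiv (e : T ≃ μ.cells) : T ≃ μ.transpose.cells where
  toFun t := ⟨(e t).1.swap, by
    rw [YoungDiagram.mem_cells, YoungDiagram.mem_transpose, Prod.swap_swap]
    exact (YoungDiagram.mem_cells _).mp (e t).2⟩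
  invFun c := e.symm ⟨c.1.swap, by
    have := c.2
    rw [YoungDiagram.mem_cells, YoungDiagram.mem_transpose] at this
    exact (YoungDiagram.mem_cells _).mpr this⟩
  left_inv t := by simp
  right_inv c := by simp

theorem HasShape.signTwist (h : HasShape ρ μ) : HasShape (signTwist ρ) μ.transpose := by
  obtain ⟨e, w, hw, hne⟩ := h
  refine ⟨transposeEquiv e, colAsym ρ (fun t => (e t).1.2) w, ?_, ?_⟩
  · exact (colAsym_alt ρ _ w).signTwist
  · have h2 := rowSym_colAsym_ne ρ _ _ w hw hne
    have h3 : colAsym (Crest.Agent.R195.signTwist ρ) (fun t => ((transposeEquiv e) t).1.2)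
        (colAsym ρ (fun t => (e t).1.2) w)
        = rowSym ρ (fun t => (e t).1.1) (colAsym ρ (fun t => (e t).1.2) w) := by
      rw [colAsym_apply, rowSym_apply]
      refine Finset.sum_congr rfl fun σ _ => ?_
      rw [signTwist_apply, smul_smul]
      have : ((((Equiv.Perm.sign σ : ℤˣ) : ℤ) : ℂ)) * ((((Equiv.Perm.sign σ : ℤˣ) : ℤ) : ℂ)) = 1 := by
        rcases Int.units_eq_one_or (Equiv.Perm.sign σ) with h | h <;> simp [h]
      rw [this, one_smul]
    rw [h3]
    exact h2

theorem HasShape.fixSizes_signTwist (h : HasShape ρ μ) :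
    FixSizes (Crest.Agent.R195.signTwist ρ) μ.colLen := by
  have := h.signTwist.fixSizes
  have e : μ.transpose.rowLen = μ.colLen := funext fun i => YoungDiagram.rowLen_transpose μ i
  rwa [e] at this

theorem exists_hasShape (ρ : Representation ℂ (Equiv.Perm T) W) [Nontrivial W] :
    ∃ μ : YoungDiagram, HasShape ρ μ := by
  obtain ⟨μ, e, w, h1, h2⟩ := shape_lemma ρ
  exact ⟨μ, e, w, h1, h2⟩

end shapes

/-- All representations of shape `μ` occur in `Kr T D E`. -/
def OccSh (D E : Finset (ℕ × ℕ)) (μ : YoungDiagram) : Prop :=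
  ∀ (T : Type) [Fintype T] [DecidableEq T] (W : Type) [AddCommGroup W] [Module ℂ W]
    (ρ : Representation ℂ (Equiv.Perm T) W), HasShape ρ μ → Occ ρ (Kr T D E)

theorem full_of_occSh {D E : Finset (ℕ × ℕ)} (h : ∀ μ : YoungDiagram, μ.card = D.card →
    OccSh D E μ) : Full D E := by
  intro T _ _ hT W _ _ ρ hv
  obtain ⟨v, hv⟩ := hv
  have : Nontrivial W := ⟨⟨v, 0, hv⟩⟩
  obtain ⟨μ, hμ⟩ := exists_hasShape ρ
  exact h μ (by rw [hμ.card, hT]) T W ρ hμ

theorem OccSh.of_transpose {D E : Finset (ℕ × ℕ)} (hD : D.image Prod.swap = D)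
    {μ : YoungDiagram} (h : OccSh D E μ.transpose) : OccSh D E μ := by
  intro T _ _ W _ _ ρ hρ
  exact Occ.of_signTwist hD (h T W _ hρ.signTwist)

/-- column lengths as a list -/
def colLens (μ : YoungDiagram) : List ℕ := μ.transpose.rowLens

theorem colLens_getD (μ : YoungDiagram) (j : ℕ) : (colLens μ).getD j 0 = μ.colLen j := by
  unfold colLens
  rw [List.getD_eq_getElem?_getD]
  by_cases h : j < μ.transpose.rowLens.length
  · rw [List.getElem?_eq_getElem h, Option.getD_some, YoungDiagram.get_rowLens,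
      YoungDiagram.rowLen_transpose]
  · rw [List.getElem?_eq_none (by omega), Option.getD_none]
    rw [YoungDiagram.length_rowLens, YoungDiagram.colLen_transpose] at h
    by_contra h0
    have h1 : (0, j) ∈ μ := YoungDiagram.mem_iff_lt_colLen.mpr (Nat.pos_of_ne_zero (Ne.symm h0))
    rw [YoungDiagram.mem_iff_lt_rowLen] at h1
    exact h h1

theorem mem_cells_iff_colLens (μ : YoungDiagram) (c : ℕ × ℕ) :
    c ∈ μ.cells ↔ c.1 < (colLens μ).getD c.2 0 := by
  rw [colLens_getD, YoungDiagram.mem_cells, ← YoungDiagram.mem_iff_lt_colLen]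

/-- certificates give occurrences -/
theorem occSh_of_certOK {D E : Finset (ℕ × ℕ)} {H1 H2 : List ℕ}
    (hD : ∀ c, c ∈ D ↔ c.1 < H1.getD c.2 0) (hE : ∀ c, c ∈ E ↔ c.1 < H2.getD c.2 0)
    {μ : YoungDiagram} (ls : List Lt)
    (hcD : D.card = ls.length) (hcE : E.card = ls.length) (hcμ : μ.card = ls.length)
    (hls : certOK H1 H2 (colLens μ) ls = true) : OccSh D E μ := by
  intro T _ _ W _ _ ρ hρ
  have hc := hρ.card
  obtain ⟨e, w, hw, hne⟩ := hρ
  exact occ_of_certOK ρ e w hw hne hD hE (mem_cells_iff_colLens μ) ls hcD hcE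
    (by rw [← hc, hcμ]) hls

end Crest.Agent.R195
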