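import Crest.Agent.R195.CertMix

/-!
Row 195.  Tables of certificates (helper895): reduction of `Full D D` for a concrete shape `D` to a
kernel-checkable boolean.
-/

set_option autoImplicit false
set_option linter.unusedSectionVars false

namespace Crest.Agent.R195

open Finset Function

/-! ### Shapes given by their column heights -/

/-- the cells of the shape with column heights `H` -/
def cellsH (H : List ℕ) : Finset (ℕ × ℕ) :=
  (Finset.range H.length).biUnion fun j => (Finset.range (H.getD j 0)).image fun i => (i, j)

theorem mem_cellsH {H : List ℕ} {c : ℕ × ℕ} : c ∈ cellsH H ↔ c.1 < H.getD c.2 0 := by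
  unfold cellsH
  simp only [Finset.mem_biUnion, Finset.mem_range, Finset.mem_image]
  constructor
  · rintro ⟨j, -, i, hi, rfl⟩
    exact hi
  · intro h
    refine ⟨c.2, ?_, c.1, h, rfl⟩
    by_contra hcon
    rw [List.getD_eq_getElem?_getD, List.getElem?_eq_none (by omega), Option.getD_none] at h
    omega

theorem sum_getD (l : List ℕ) : ∑ j ∈ Finset.range l.length, l.getD j 0 = l.sum := by
  induction l with
  | nil => simp
  | cons x l ih =>
    rw [List.length_cons, Finset.sum_range_succ']
    simp only [List.getD_cons_succ, List.getD_cons_zero, List.sum_cons]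
    rw [ih, add_comm]

theorem card_cellsH (H : List ℕ) : (cellsH H).card = H.sum := by
  unfold cellsH
  rw [Finset.card_biUnion]
  · have h1 : ∀ j ∈ Finset.range H.length,
        ((Finset.range (H.getD j 0)).image fun i => (i, j)).card = H.getD j 0 := by
      intro j _
      rw [Finset.card_image_of_injective _ (fun a b h => congrArg Prod.fst h), Finset.card_range]
    rw [Finset.sum_congr rfl h1, sum_getD]
  · intro i _ j _ hij
    change Disjoint _ _
    rw [Finset.disjoint_left]
    intro c hc hc'
    rw [Finset.mem_image] at hc hc'
    obtain ⟨a, -, rfl⟩ := hc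
    obtain ⟨b, -, hb⟩ := hc'
    exact hij (congrArg Prod.snd hb).symm

/-! ### Column lists of Young diagrams -/

theorem colLens_eq_map (μ : YoungDiagram) :
    colLens μ = (List.range (μ.rowLen 0)).map μ.colLen := by
  unfold colLens YoungDiagram.rowLens
  rw [YoungDiagram.colLen_transpose]
  refine List.map_congr_left fun j _ => YoungDiagram.rowLen_transpose μ j

theorem colLens_length (μ : YoungDiagram) : (colLens μ).length = μ.rowLen 0 := by
  rw [colLens_eq_map, List.length_map, List.length_range]

theorem colLens_sum (μ : YoungDiagram) : (colLens μ).sum = μ.card := by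
  have h := card_cellsH (colLens μ)
  rw [← h]
  congr 1
  ext c
  rw [mem_cellsH, mem_cells_iff_colLens]

theorem card_transpose (μ : YoungDiagram) : μ.transpose.card = μ.card := by
  unfold YoungDiagram.card
  refine Finset.card_bij (fun c _ => c.swap) ?_ ?_ ?_
  · intro c hc
    rw [YoungDiagram.mem_cells, YoungDiagram.mem_transpose] at hc
    exact hc
  · intro a _ b _ h
    exact Prod.swap_injective h
  · intro c hc
    refine ⟨c.swap, ?_, Prod.swap_swap c⟩
    rw [YoungDiagram.mem_cells, YoungDiagram.mem_transpose, Prod.swap_swap]
    exact hc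

theorem colLens_pos (μ : YoungDiagram) : ∀ x ∈ colLens μ, 0 < x :=
  YoungDiagram.pos_of_mem_rowLens μ.transpose

theorem colLens_pairwise (μ : YoungDiagram) : (colLens μ).Pairwise (fun x y => y ≤ x) := by
  rw [colLens_eq_map, List.pairwise_map]
  exact (List.pairwise_lt_range).imp (fun h => μ.colLen_anti _ _ (le_of_lt h))

/-- conjugate of a list of heights -/
def conjL (p : List ℕ) : List ℕ :=
  (List.range (p.headD 0)).map fun i => (p.filter fun x => Nat.blt i x).length

theorem colLens_transpose (μ : YoungDiagram) : colLens μ.transpose = conjL (colLens μ) := by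
  rw [colLens_eq_map μ.transpose]
  unfold conjL
  have hhead : (colLens μ).headD 0 = μ.transpose.rowLen 0 := by
    have h1 := colLens_getD μ 0
    rw [YoungDiagram.rowLen_transpose, ← h1]
    cases colLens μ <;> simp
  rw [hhead]
  refine List.map_congr_left fun i _ => ?_
  rw [YoungDiagram.colLen_transpose, colLens_eq_map, List.filter_map, List.length_map]
  -- count the columns that are longer than `i`
  have h2 : (List.range (μ.rowLen 0)).filter ((fun x => Nat.blt i x) ∘ μ.colLen)
      = (List.range (μ.rowLen 0)).filter (fun j => decide (j < μ.rowLen i)) := by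
    apply List.filter_congr
    intro j _
    simp only [Function.comp]
    by_cases h : j < μ.rowLen i
    · have h' : i < μ.colLen j := by
        rw [← YoungDiagram.mem_iff_lt_colLen, YoungDiagram.mem_iff_lt_rowLen]; exact h
      rw [decide_eq_true h]
      unfold Nat.blt
      exact Nat.ble_eq_true_of_le h'
    · have h' : ¬ i < μ.colLen j := by
        rw [← YoungDiagram.mem_iff_lt_colLen, YoungDiagram.mem_iff_lt_rowLen]; exact h
      rw [decide_eq_false h]
      unfold Nat.blt
      rw [Bool.eq_false_iff]
      intro h3
      exact h' (Nat.le_of_ble_eq_true h3)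
  rw [h2]
  have hle : μ.rowLen i ≤ μ.rowLen 0 := μ.rowLen_anti _ _ (Nat.zero_le _)
  generalize μ.rowLen i = a at hle ⊢
  generalize μ.rowLen 0 = b at hle ⊢
  obtain ⟨c, rfl⟩ := Nat.exists_eq_add_of_le hle
  rw [List.range_add, List.filter_append, List.length_append]
  rw [List.filter_eq_self.mpr, List.filter_eq_nil_iff.mpr]
  · simp
  · intro x hx
    rw [List.mem_map] at hx
    obtain ⟨y, -, rfl⟩ := hx
    simp
  · intro x hx
    rw [List.mem_range] at hx
    simpa using hx

/-! ### Enumeration of the partitions of `n` -/

/-- partitions of `n` with parts at most `m` (first argument: fuel) -/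
def parts : ℕ → ℕ → ℕ → List (List ℕ)
  | 0, _, n => if Nat.beq n 0 then [[]] else []
  | f + 1, m, n => if Nat.beq n 0 then [[]] else
      (List.range m).flatMap fun a =>
        if Nat.ble (a + 1) n then (parts f (a + 1) (n - (a + 1))).map fun l => (a + 1) :: l else []

theorem mem_parts : ∀ (f m n : ℕ) (l : List ℕ), l.Pairwise (fun x y => y ≤ x) → (∀ x ∈ l, 0 < x) →
    (∀ x ∈ l, x ≤ m) → l.sum = n → l.length ≤ f → l ∈ parts f m n := by
  intro f
  induction f with
  | zero =>
    intro m n l _ _ _ hs hl
    have : l = [] := List.length_eq_zero_iff.mp (by omega)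
    subst this
    have : n = 0 := by simpa using hs.symm
    subst this
    simp [parts]
  | succ f ih =>
    intro m n l hp hpos hm hs hl
    cases l with
    | nil =>
      have : n = 0 := by simpa using hs.symm
      subst this
      simp [parts]
    | cons x l =>
      have hx : 0 < x := hpos x List.mem_cons_self
      rw [List.sum_cons] at hs
      unfold parts
      have hn : ¬ Nat.beq n 0 = true := by rw [Nat.beq_eq]; omega
      rw [if_neg hn, List.mem_flatMap]
      refine ⟨x - 1, ?_, ?_⟩
      · rw [List.mem_range]
        have := hm x List.mem_cons_self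
        omega
      · have hx1 : x - 1 + 1 = x := by omega
        rw [hx1, if_pos (by rw [Nat.ble_eq]; omega), List.mem_map]
        refine ⟨l, ih x (n - x) l ?_ ?_ ?_ ?_ ?_, rfl⟩
        · exact (List.pairwise_cons.mp hp).2
        · exact fun y hy => hpos y (List.mem_cons_of_mem _ hy)
        · exact fun y hy => (List.pairwise_cons.mp hp).1 y hy
        · omega
        · rw [List.length_cons] at hl; omega

theorem length_le_sum : ∀ (l : List ℕ), (∀ x ∈ l, 0 < x) → l.length ≤ l.sum := by
  intro l
  induction l with
  | nil => simp
  | cons x l ih =>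
    intro h
    rw [List.length_cons, List.sum_cons]
    have := ih fun y hy => h y (List.mem_cons_of_mem _ hy)
    have := h x List.mem_cons_self
    omega

theorem le_sum_of_mem' : ∀ (l : List ℕ) (x : ℕ), x ∈ l → x ≤ l.sum := by
  intro l
  induction l with
  | nil => simp
  | cons y l ih =>
    intro x hx
    rw [List.sum_cons]
    rcases List.mem_cons.mp hx with rfl | hx
    · omega
    · have := ih x hx; omega

theorem colLens_mem_parts (μ : YoungDiagram) {n : ℕ} (h : μ.card = n) :
    colLens μ ∈ parts n n n := by
  have hs := colLens_sum μ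
  refine mem_parts n n n _ (colLens_pairwise μ) (colLens_pos μ) ?_ (by rw [hs, h]) ?_
  · intro x hx
    have := le_sum_of_mem' _ x hx
    omega
  · have := length_le_sum _ (colLens_pos μ)
    omega

/-! ### Tables -/

/-- six base-64 digits -/
def decLt (x : ℕ) : Lt :=
  ⟨x % 64, x / 64 % 64, x / 4096 % 64, x / 262144 % 64, x / 16777216 % 64, x / 1073741824 % 64⟩

/-- a list of letters -/
def decode : ℕ → ℕ → List Lt
  | 0, _ => []
  | n + 1, x => decLt (x % 68719476736) :: decode n (x / 68719476736)

theorem length_decode (n x : ℕ) : (decode n x).length = n := by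
  induction n generalizing x with
  | zero => rfl
  | succ n ih => rw [decode, List.length_cons, ih]

/-- one entry: heights of the third shape, number of forced letters, number of diagonal letters,
code of the forced letters, code of the diagonal letters. -/
structure Entry where
  hs : List ℕ
  nf : ℕ
  nd : ℕ
  cf : ℕ
  cd : ℕ

/-- check of one entry for the square of the shape `H` with `n` cells -/
def Entry.ok (n : ℕ) (H : List ℕ) (x : Entry) : Bool :=
  Nat.beq (x.nf + x.nd) n && mixOK H H x.hs (decode x.nf x.cf) (decode x.nd x.cd)

theorem occSh_of_entry {H : List ℕ} {n : ℕ} (hn : H.sum = n) {x : Entry}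
    (hx : x.ok n H = true) {μ : YoungDiagram} (hμ : μ.card = n) (h : colLens μ = x.hs) :
    OccSh (cellsH H) (cellsH H) μ := by
  unfold Entry.ok at hx
  rw [Bool.and_eq_true, Nat.beq_eq] at hx
  obtain ⟨h1, h2⟩ := hx
  have hl : (decode x.nf x.cf ++ decode x.nd x.cd).length = n := by
    rw [List.length_append, length_decode, length_decode, h1]
  refine occSh_of_mixOK (fun c => mem_cellsH) (fun c => mem_cellsH) (decode x.nf x.cf)
    (decode x.nd x.cd) ?_ ?_ ?_ ?_
  · rw [card_cellsH, hn, hl]
  · rw [card_cellsH, hn, hl]
  · rw [hμ, hl]
  · rw [h]; exact h2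

/-- equality of lists of naturals -/
def eqL : List ℕ → List ℕ → Bool
  | [], [] => true
  | x :: l, y :: l' => Nat.beq x y && eqL l l'
  | _, _ => false

theorem eqL_iff : ∀ {l l' : List ℕ}, eqL l l' = true ↔ l = l' := by
  intro l
  induction l with
  | nil => intro l'; cases l' <;> simp [eqL]
  | cons x l ih =>
    intro l'
    cases l' with
    | nil => simp [eqL]
    | cons y l' => rw [eqL, Bool.and_eq_true, Nat.beq_eq, ih, List.cons.injEq]

/-- is `p` the shape of an entry? -/
def inTab (tb : List Entry) (p : List ℕ) : Bool := tb.any fun x => eqL x.hs p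

/-- A table proves fullness of a self-conjugate shape. -/
theorem full_of_table {H : List ℕ} (n : ℕ) (hn : H.sum = n)
    (hsym : (cellsH H).image Prod.swap = cellsH H) (tb : List Entry)
    (h1 : (tb.all fun x => x.ok n H) = true)
    (h2 : ((parts n n n).all fun p => inTab tb p || inTab tb (conjL p)) = true) :
    Full (cellsH H) (cellsH H) := by
  rw [List.all_eq_true] at h1 h2
  apply full_of_occSh
  intro μ hμ
  rw [card_cellsH, hn] at hμ
  have h3 := h2 _ (colLens_mem_parts μ hμ)
  rw [Bool.or_eq_true] at h3
  have key : ∀ ν : YoungDiagram, ν.card = n → inTab tb (colLens ν) = true →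
      OccSh (cellsH H) (cellsH H) ν := by
    intro ν hν h
    unfold inTab at h
    rw [List.any_eq_true] at h
    obtain ⟨x, hx, hx2⟩ := h
    exact occSh_of_entry hn (h1 x hx) hν (eqL_iff.mp hx2).symm
  rcases h3 with h | h
  · exact key μ hμ h
  · apply OccSh.of_transpose hsym
    rw [← colLens_transpose] at h
    refine key _ ?_ h
    rw [card_transpose, hμ]

end Crest.Agent.R195
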