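import Mathlib
import Crest.Agent.R195.ChainDefs

/-! Row 195, part (B3): the covering property of a disjoint union of a block and a datum
whose reference antidiagonals avoid the block. -/

set_option autoImplicit false

namespace Crest.Agent.R195

open Finset Function Equiv

/-- restriction of a representation to an invariant subspace -/
noncomputable def resRep {G W : Type} [Group G] [AddCommGroup W] [Module ℂ W]
    (σ : Representation ℂ G W) (U : Submodule ℂ W) (hU : ∀ g, ∀ u ∈ U, σ g u ∈ U) :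
    Representation ℂ G U where
  toFun g := (σ g).restrict (hU g)
  map_one' := by ext x; simp [LinearMap.restrict_apply]
  map_mul' g h := by ext x; simp [LinearMap.restrict_apply]

@[simp] theorem resRep_coe {G W : Type} [Group G] [AddCommGroup W] [Module ℂ W]
    (σ : Representation ℂ G W) (U : Submodule ℂ W) (hU : ∀ g, ∀ u ∈ U, σ g u ∈ U)
    (g : G) (u : U) : ((resRep σ U hU g u : U) : W) = σ g u := rfl

section join

variable {T1 T2 : Type} {ι1 ι2 : Type} [Fintype ι1] [Fintype ι2]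

/-- union of two column systems -/
def joinE (c1 : ι1 → ℕ) (c2 : ι2 → ℕ) (e1 : (Σ i, Fin (c1 i)) ≃ T1)
    (e2 : (Σ i, Fin (c2 i)) ≃ T2) : (Σ i : ι1 ⊕ ι2, Fin (Sum.elim c1 c2 i)) ≃ T1 ⊕ T2 :=
  (Equiv.sumSigmaDistrib (fun i : ι1 ⊕ ι2 => Fin (Sum.elim c1 c2 i))).trans
    (Equiv.sumCongr e1 e2)

theorem colFun_join (c1 : ι1 → ℕ) (c2 : ι2 → ℕ) (e1 : (Σ i, Fin (c1 i)) ≃ T1)
    (e2 : (Σ i, Fin (c2 i)) ≃ T2) (r : T1 ⊕ T2 → ℕ) :
    colFun (Sum.elim c1 c2) (joinE c1 c2 e1 e2) r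
      = colFun c1 e1 (r ∘ Sum.inl) * colFun c2 e2 (r ∘ Sum.inr) := by
  unfold colFun
  rw [Fintype.prod_sum_type]
  rfl

end join

section main

variable {T1 T2 : Type} [Fintype T1] [DecidableEq T1] [Fintype T2] [DecidableEq T2]
  {ι1 ι2 : Type} [Fintype ι1] [Fintype ι2]

omit [DecidableEq T2] in
theorem mapsTo_of_coef_ne_zero {c1 : ι1 → ℕ} {c2 : ι2 → ℕ} {r1 s1 : T1 → ℕ} {r2 s2 : T2 → ℕ}
    {a b : ℤ} (hB : Blk c1 r1 s1 a b) {A2 : EPair c2 T2} (hlo : Lo c2 r2 s2 A2)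
    (hdis : ∀ t, (r2 t : ℤ) + s2 t ≠ a ∧ (r2 t : ℤ) + s2 t ≠ b)
    {e1 e1' : (Σ i, Fin (c1 i)) ≃ T1} {e2 e2' : (Σ i, Fin (c2 i)) ≃ T2} (hA : A2 e2 e2')
    {g : Perm (T1 ⊕ T2)}
    (hg : coef (Sum.elim c1 c2) (Sum.elim r1 r2) (Sum.elim s1 s2) (joinE c1 c2 e1 e2)
      (joinE c1 c2 e1' e2') g ≠ 0) :
    ∀ t : T1, ∃ t' : T1, g (Sum.inl t) = Sum.inl t' := by
  unfold coef at hg
  rw [colFun_join, colFun_join] at hg
  have h1 := left_ne_zero_of_mul (left_ne_zero_of_mul hg)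
  have h2 := right_ne_zero_of_mul (left_ne_zero_of_mul hg)
  have h3 := left_ne_zero_of_mul (right_ne_zero_of_mul hg)
  have h4 := right_ne_zero_of_mul (right_ne_zero_of_mul hg)
  set S : T1 ⊕ T2 → ℤ := fun t => ((Sum.elim r1 r2 t : ℕ) : ℤ) + ((Sum.elim s1 s2 t : ℕ) : ℤ)
    with hS
  have htot : ∑ t, (S (g t)) ^ 2 = ∑ t, (S t) ^ 2 := Equiv.sum_comp g (fun t => (S t) ^ 2)
  rw [Fintype.sum_sum_type, Fintype.sum_sum_type] at htot
  have e1q := hB.sq_eq h1 h3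
  have e2q := hlo e2 e2' hA _ _ h2 h4
  have hz : ∑ t, (S (g (Sum.inl t)) - a) * (S (g (Sum.inl t)) - b) ≤ 0 := by
    have f1 : ∑ t, (S (g (Sum.inl t))) ^ 2 = ∑ t, ((r1 t : ℤ) + s1 t) ^ 2
        + ∑ t, (S (g (Sum.inl t)) - a) * (S (g (Sum.inl t)) - b) := e1q
    have f2 : ∑ t, ((r2 t : ℤ) + s2 t) ^ 2 ≤ ∑ t, (S (g (Sum.inr t))) ^ 2 := e2q
    have f3 : ∑ t, (S (Sum.inl t)) ^ 2 = ∑ t, ((r1 t : ℤ) + s1 t) ^ 2 := rfl
    have f4 : ∑ t, (S (Sum.inr t)) ^ 2 = ∑ t, ((r2 t : ℤ) + s2 t) ^ 2 := rfl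
    linarith
  have hnn : ∀ t : T1, 0 ≤ (S (g (Sum.inl t)) - a) * (S (g (Sum.inl t)) - b) :=
    fun t => near_nonneg hB.near
  have hz0 : ∑ t, (S (g (Sum.inl t)) - a) * (S (g (Sum.inl t)) - b) = 0 :=
    le_antisymm hz (Finset.sum_nonneg fun t _ => hnn t)
  rw [Finset.sum_eq_zero_iff_of_nonneg (fun t _ => hnn t)] at hz0
  intro t
  have ht := hz0 t (Finset.mem_univ t)
  rcases hgt : g (Sum.inl t) with t' | t'
  · exact ⟨t', rfl⟩
  · exfalso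
    rw [hgt] at ht
    rcases mul_eq_zero.1 ht with h | h
    · exact (hdis t').1 (sub_eq_zero.1 h)
    · exact (hdis t').2 (sub_eq_zero.1 h)

variable {W : Type} [AddCommGroup W] [Module ℂ W]

/-- the first factor of the representation -/
noncomputable def rep1 (σ : Representation ℂ (Perm (T1 ⊕ T2)) W) :
    Representation ℂ (Perm T1) W :=
  σ.comp ((Perm.sumCongrHom T1 T2).comp (MonoidHom.inl (Perm T1) (Perm T2)))

/-- the second factor of the representation -/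
noncomputable def rep2 (σ : Representation ℂ (Perm (T1 ⊕ T2)) W) :
    Representation ℂ (Perm T2) W :=
  σ.comp ((Perm.sumCongrHom T1 T2).comp (MonoidHom.inr (Perm T1) (Perm T2)))

omit [Fintype T1] [DecidableEq T1] [Fintype T2] [DecidableEq T2] in
theorem rep1_apply (σ : Representation ℂ (Perm (T1 ⊕ T2)) W) (g : Perm T1) :
    rep1 σ g = σ (Perm.sumCongr g 1) := rfl

omit [Fintype T1] [DecidableEq T1] [Fintype T2] [DecidableEq T2] in
theorem rep2_apply (σ : Representation ℂ (Perm (T1 ⊕ T2)) W) (g : Perm T2) :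
    rep2 σ g = σ (Perm.sumCongr 1 g) := rfl

omit [Fintype T1] [DecidableEq T1] [Fintype T2] [DecidableEq T2] in
theorem rep_mul (σ : Representation ℂ (Perm (T1 ⊕ T2)) W) (g : Perm T1) (h : Perm T2) (w : W) :
    rep1 σ g (rep2 σ h w) = σ (Perm.sumCongr g h) w := by
  rw [rep1_apply, rep2_apply, ← Module.End.mul_apply, ← map_mul, Perm.sumCongr_mul, mul_one,
    one_mul]

omit [Fintype T1] [DecidableEq T1] [Fintype T2] [DecidableEq T2] in
theorem rep_comm (σ : Representation ℂ (Perm (T1 ⊕ T2)) W) (g : Perm T1) (h : Perm T2) (w : W) :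
    rep1 σ g (rep2 σ h w) = rep2 σ h (rep1 σ g w) := by
  rw [rep_mul, rep1_apply, rep2_apply, ← Module.End.mul_apply, ← map_mul, Perm.sumCongr_mul,
    mul_one, one_mul]

theorem op_join {c1 : ι1 → ℕ} {c2 : ι2 → ℕ} {r1 s1 : T1 → ℕ} {r2 s2 : T2 → ℕ}
    {a b : ℤ} (hB : Blk c1 r1 s1 a b) {A2 : EPair c2 T2} (hlo : Lo c2 r2 s2 A2)
    (hdis : ∀ t, (r2 t : ℤ) + s2 t ≠ a ∧ (r2 t : ℤ) + s2 t ≠ b)
    (e1 e1' : (Σ i, Fin (c1 i)) ≃ T1) (e2 e2' : (Σ i, Fin (c2 i)) ≃ T2) (hA : A2 e2 e2')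
    (σ : Representation ℂ (Perm (T1 ⊕ T2)) W) (w : W) :
    op (Sum.elim c1 c2) (Sum.elim r1 r2) (Sum.elim s1 s2) (joinE c1 c2 e1 e2)
      (joinE c1 c2 e1' e2') σ w
      = op c1 r1 s1 e1 e1' (rep1 σ) (op c2 r2 s2 e2 e2' (rep2 σ) w) := by
  rw [op_apply, op_apply]
  have hR : ∀ g : Perm T1, coef c1 r1 s1 e1 e1' g • rep1 σ g⁻¹ (op c2 r2 s2 e2 e2' (rep2 σ) w)
      = ∑ h : Perm T2, (coef c1 r1 s1 e1 e1' g * coef c2 r2 s2 e2 e2' h) •
        σ (Perm.sumCongr g h)⁻¹ w := by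
    intro g
    rw [op_apply, map_sum, Finset.smul_sum]
    refine Finset.sum_congr rfl fun h _ => ?_
    rw [map_smul, smul_smul, rep_mul]
    rfl
  rw [Finset.sum_congr rfl fun g _ => hR g]
  rw [← Fintype.sum_prod_type' (fun (g : Perm T1) (h : Perm T2) =>
    (coef c1 r1 s1 e1 e1' g * coef c2 r2 s2 e2 e2' h) • σ (Perm.sumCongr g h)⁻¹ w)]
  symm
  refine Fintype.sum_of_injective (Perm.sumCongrHom T1 T2) Perm.sumCongrHom_injective _ _ ?_ ?_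
  · intro g hg
    by_contra hne
    have hc : coef (Sum.elim c1 c2) (Sum.elim r1 r2) (Sum.elim s1 s2) (joinE c1 c2 e1 e2)
      (joinE c1 c2 e1' e2') g ≠ 0 := by
      intro h0
      exact hne (by rw [h0, zero_smul])
    apply hg
    have hm := mapsTo_of_coef_ne_zero hB hlo hdis hA hc
    exact Perm.mem_sumCongrHom_range_of_perm_mapsTo_inl (by
      rintro x ⟨t, rfl⟩
      obtain ⟨t', ht'⟩ := hm t
      exact ⟨t', ht'.symm⟩)
  · rintro ⟨g, h⟩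
    congr 1
    unfold coef
    rw [colFun_join, colFun_join]
    show colFun c1 e1 (r1 ∘ g) * colFun c1 e1' (s1 ∘ g) * (colFun c2 e2 (r2 ∘ h)
      * colFun c2 e2' (s2 ∘ h)) = colFun c1 e1 (r1 ∘ g) * colFun c2 e2 (r2 ∘ h)
      * (colFun c1 e1' (s1 ∘ g) * colFun c2 e2' (s2 ∘ h))
    ring

omit [Fintype T2] [DecidableEq T2] in
theorem op_comm {c1 : ι1 → ℕ} {r1 s1 : T1 → ℕ}
    (e1 e1' : (Σ i, Fin (c1 i)) ≃ T1)
    (σ : Representation ℂ (Perm (T1 ⊕ T2)) W) (h : Perm T2) (w : W) :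
    rep2 σ h (op c1 r1 s1 e1 e1' (rep1 σ) w) = op c1 r1 s1 e1 e1' (rep1 σ) (rep2 σ h w) := by
  rw [op_apply, op_apply, map_sum]
  refine Finset.sum_congr rfl fun g _ => ?_
  rw [map_smul, rep_comm]

theorem op_res {T : Type} [Fintype T] [DecidableEq T] {ι : Type} [Fintype ι]
    (c : ι → ℕ) (r s : T → ℕ) (e e' : (Σ i, Fin (c i)) ≃ T)
    (σ : Representation ℂ (Perm T) W) (U : Submodule ℂ W) (hU : ∀ g, ∀ u ∈ U, σ g u ∈ U)
    (u : U) : ((op c r s e e' (resRep σ U hU) u : U) : W) = op c r s e e' σ u := by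
  rw [op_apply, op_apply, Submodule.coe_sum]
  rfl

/-- allowed pairs for a union -/
def joinA {c1 : ι1 → ℕ} {c2 : ι2 → ℕ} {T1 T2 : Type} (A1 : EPair c1 T1) (A2 : EPair c2 T2) :
    EPair (Sum.elim c1 c2) (T1 ⊕ T2) :=
  fun e e' => ∃ e1 e1' e2 e2', A1 e1 e1' ∧ A2 e2 e2' ∧ e = joinE c1 c2 e1 e2 ∧
    e' = joinE c1 c2 e1' e2'

theorem Cov.sum {K1 K2 : Type} {c1 : ι1 → ℕ} {c2 : ι2 → ℕ} {r1 s1 : T1 → ℕ} {r2 s2 : T2 → ℕ}
    {a b : ℤ} (hB : Blk c1 r1 s1 a b) {A1 : EPair c1 T1} {A2 : EPair c2 T2}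
    (hlo : Lo c2 r2 s2 A2)
    (hdis : ∀ t, (r2 t : ℤ) + s2 t ≠ a ∧ (r2 t : ℤ) + s2 t ≠ b)
    {ν1 : T1 → K1} {ν2 : T2 → K2} (h1 : Cov c1 r1 s1 A1 ν1) (h2 : Cov c2 r2 s2 A2 ν2) :
    Cov (Sum.elim c1 c2) (Sum.elim r1 r2) (Sum.elim s1 s2) (joinA A1 A2) (Sum.map ν1 ν2) := by
  intro W _ _ _ σ hw
  obtain ⟨w, hw0, hw⟩ := hw
  -- the subspace of vectors fixed by the second colouring
  let U : Submodule ℂ W :=
    { carrier := {u | ∀ h : Perm T2, (∀ t, ν2 (h t) = ν2 t) → rep2 σ h u = u}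
      add_mem' := by
        intro x y hx hy h hh
        rw [map_add, hx h hh, hy h hh]
      zero_mem' := by
        intro h _
        rw [map_zero]
      smul_mem' := by
        intro a x hx h hh
        rw [map_smul, hx h hh] }
  have hU : ∀ g : Perm T1, ∀ u ∈ U, rep1 σ g u ∈ U := by
    intro g u hu h hh
    rw [← rep_comm, hu h hh]
  obtain ⟨e1, e1', hA1, u, hu⟩ := h1 U (resRep (rep1 σ) U hU) ⟨⟨w, by
      intro h hh
      rw [rep2_apply]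
      exact hw _ (by rintro (t | t) <;> simp [hh])⟩, by
      intro h
      exact hw0 (congrArg Subtype.val h), by
      intro g hg
      apply Subtype.ext
      rw [resRep_coe, rep1_apply]
      exact hw _ (by rintro (t | t) <;> simp [hg])⟩
  have hu' : op c1 r1 s1 e1 e1' (rep1 σ) u ≠ 0 := by
    intro h0
    apply hu
    apply Subtype.ext
    rw [op_res, h0]
    rfl
  let V : Submodule ℂ W := LinearMap.range (op c1 r1 s1 e1 e1' (rep1 σ))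
  have hV : ∀ h : Perm T2, ∀ v ∈ V, rep2 σ h v ∈ V := by
    rintro h v ⟨x, rfl⟩
    exact ⟨rep2 σ h x, (op_comm e1 e1' σ h x).symm⟩
  obtain ⟨e2, e2', hA2, v, hv⟩ := h2 V (resRep (rep2 σ) V hV)
    ⟨⟨op c1 r1 s1 e1 e1' (rep1 σ) u, ⟨u, rfl⟩⟩, by
      intro h
      exact hu' (congrArg Subtype.val h), by
      intro h hh
      apply Subtype.ext
      rw [resRep_coe]
      show rep2 σ h (op c1 r1 s1 e1 e1' (rep1 σ) u) = op c1 r1 s1 e1 e1' (rep1 σ) u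
      rw [op_comm, u.2 h hh]⟩
  obtain ⟨x, hx⟩ := v.2
  have hv' : op c2 r2 s2 e2 e2' (rep2 σ) v ≠ 0 := by
    intro h0
    apply hv
    apply Subtype.ext
    rw [op_res, h0]
    rfl
  refine ⟨joinE c1 c2 e1 e2, joinE c1 c2 e1' e2',
    ⟨e1, e1', e2, e2', hA1, hA2, rfl, rfl⟩, x, ?_⟩
  rw [op_join hB hlo hdis e1 e1' e2 e2' hA2]
  have hc : op c1 r1 s1 e1 e1' (rep1 σ) (op c2 r2 s2 e2 e2' (rep2 σ) x)
      = op c2 r2 s2 e2 e2' (rep2 σ) (op c1 r1 s1 e1 e1' (rep1 σ) x) := by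
    rw [op_apply c2, op_apply c2, map_sum]
    refine Finset.sum_congr rfl fun h _ => ?_
    rw [map_smul, op_comm]
  rw [hc, hx]
  exact hv'

omit [DecidableEq T1] [DecidableEq T2] in
theorem Lo.sum {c1 : ι1 → ℕ} {c2 : ι2 → ℕ} {r1 s1 : T1 → ℕ} {r2 s2 : T2 → ℕ}
    {A1 : EPair c1 T1} {A2 : EPair c2 T2} (h1 : Lo c1 r1 s1 A1) (h2 : Lo c2 r2 s2 A2) :
    Lo (Sum.elim c1 c2) (Sum.elim r1 r2) (Sum.elim s1 s2) (joinA A1 A2) := by
  rintro _ _ ⟨e1, e1', e2, e2', hA1, hA2, rfl, rfl⟩ r s hr hs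
  rw [colFun_join] at hr hs
  rw [Fintype.sum_sum_type, Fintype.sum_sum_type]
  exact add_le_add
    (h1 e1 e1' hA1 _ _ (left_ne_zero_of_mul hr) (left_ne_zero_of_mul hs))
    (h2 e2 e2' hA2 _ _ (right_ne_zero_of_mul hr) (right_ne_zero_of_mul hs))

end main

end Crest.Agent.R195
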