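import Crest.Agent.R195.CovA4

/-! Row 195, S0298 (T3), **family A**: hooks `M+1, M-1, .. (e terms), M-2e, M-2e-2, ..`,
`n = T_M + 2 e`. -/

set_option autoImplicit false

namespace Crest.Agent.R195

open Finset Function

/-- **Coverage for the family A.** -/
theorem covA {M e n : ℕ} (he1 : 1 ≤ e) (he : 2 * e ≤ M) (hM9 : 9 ≤ M) (hM1 : e = 1 → 11 ≤ M)
    (hn : 2 * n = M * (M + 1) + 4 * e) (H : ℕ → ℕ) (w w₂ : ℕ) (R : Region n M w w₂ H) :
    ∃ L : List Pc, validP L ∧ (∀ s, (colsP L).getD s 0 = cl (hA M e) s) ∧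
      Decomp L fun j : Fin w => H j := by
  rcases Nat.even_or_odd' e with ⟨k, hk | hk⟩
  · have hM : M = 2 * e + 2 * ((M - 2 * e) / 2) + (M - 2 * e) % 2 := by omega
    have hr : (M - 2 * e) % 2 < 2 := Nat.mod_lt _ (by norm_num)
    exact ⟨LAe M e k ((M - 2 * e) / 2) ((M - 2 * e) % 2), validP_LAe he1 hk hM hr,
      cols_LAe hk hM hr, decomp_LAe hk (by omega) hM hr hM9 hn R⟩
  · by_cases hw : M + 2 ≤ w + e
    · have hM : M = 2 * e + 2 * ((M - 2 * e) / 2) + (M - 2 * e) % 2 := by omega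
      have hr : (M - 2 * e) % 2 < 2 := Nat.mod_lt _ (by norm_num)
      exact ⟨LAo M e k ((M - 2 * e) / 2) ((M - 2 * e) % 2), validP_LAo hk hM hr,
        cols_LAo hk hM hr, decomp_LAo hk hM hr hM9 hn R hw⟩
    · have hw' : w + e ≤ M + 1 := by omega
      -- narrow diagrams exist only for `2 e < M`
      have hlt : 2 * e + 1 ≤ M := by
        by_contra hcon
        have h1 : M = 2 * e := by omega
        have h2 := R.n_le_sq
        have h3 : w * w ≤ (e + 1) * (e + 1) := Nat.mul_le_mul (by omega) (by omega)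
        subst h1
        nlinarith
      have hM : M = 2 * e + 1 + 2 * ((M - 2 * e - 1) / 2) + (M - 2 * e - 1) % 2 := by omega
      have hr : (M - 2 * e - 1) % 2 < 2 := Nat.mod_lt _ (by norm_num)
      exact ⟨LAg M e k ((M - 2 * e - 1) / 2) ((M - 2 * e - 1) % 2), validP_LAg hk hM hr,
        cols_LAg hk hM hr, decomp_LAg hk hM hr hM9 (fun _ => hM1 (by omega)) hn R hw'⟩

/-- **Family A**, final form. -/
theorem covA'' (M e : ℕ) (hM9 : 9 ≤ M) (hM1 : e = 1 → 11 ≤ M) (he1 : 1 ≤ e) (he : 2 * e ≤ M) :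
    CovH (hA M e) := by
  intro H w w₂ R
  have h1 : (hA M e).headD 0 - 1 = M := by
    rw [hA_eq he, headD_runH, if_neg (by omega)]
    omega
  rw [h1] at R
  exact covA he1 he hM9 hM1 (hsize_hA he) H w w₂ R

/-- **Family A**, final form, `M ≥ 11`. -/
theorem covA' (M e : ℕ) (hM11 : 11 ≤ M) (he1 : 1 ≤ e) (he : 2 * e ≤ M) : CovH (hA M e) :=
  covA'' M e (by omega) (fun _ => hM11) he1 he

end Crest.Agent.R195
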