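import Crest.Agent.R195.Pick

/-! Row 195 (helper797).  Numerical criterion with half-integral bound `B2 / 2` for the average of two
columns, and with free values `J > J₁` (covered by the number of nonzero columns). -/

set_option autoImplicit false

namespace Crest.Agent.R195

open Finset

/-- averaging over pairs -/
theorem two_mul_sum_le {J : Finset ℕ} {H : ℕ → ℕ} {B2 : ℕ} (hc : 2 ≤ J.card)
    (hB : ∀ i ∈ J, ∀ j ∈ J, i ≠ j → H i + H j ≤ B2) : 2 * ∑ j ∈ J, H j ≤ J.card * B2 := by
  classical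
  obtain ⟨m, hmJ, hmax⟩ : ∃ m ∈ J, ∀ j ∈ J, H j ≤ H m :=
    Finset.exists_max_image J H (Finset.card_pos.1 (by omega))
  rw [Finset.mul_sum]
  by_cases hmB : 2 * H m ≤ B2
  · calc ∑ j ∈ J, 2 * H j ≤ ∑ _j ∈ J, B2 :=
          Finset.sum_le_sum fun j hj => (Nat.mul_le_mul_left 2 (hmax j hj)).trans hmB
      _ = J.card * B2 := by rw [Finset.sum_const, smul_eq_mul]
  · obtain ⟨b, hb, hbm⟩ : ∃ b ∈ J, b ≠ m := by
      by_contra hcon
      push Not at hcon
      have : J ⊆ {m} := fun x hx => Finset.mem_singleton.2 (hcon x hx)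
      have := Finset.card_le_card this
      simp at this
      omega
    have h4 : ∀ j ∈ (J.erase m).erase b, 2 * H j ≤ B2 := by
      intro j hj
      rw [mem_erase, mem_erase] at hj
      have := hB j hj.2.2 m hmJ hj.2.1
      omega
    have h5 := hB b hb m hmJ hbm
    have h6 : ∑ j ∈ (J.erase m).erase b, 2 * H j ≤ ((J.erase m).erase b).card * B2 := by
      calc ∑ j ∈ (J.erase m).erase b, 2 * H j ≤ ∑ _j ∈ (J.erase m).erase b, B2 :=
            Finset.sum_le_sum h4
        _ = _ := by rw [Finset.sum_const, smul_eq_mul]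
    have h7 : ((J.erase m).erase b).card = J.card - 2 := by
      rw [card_erase_of_mem (mem_erase.2 ⟨hbm, hb⟩), card_erase_of_mem hmJ]
      omega
    have h8 := Finset.add_sum_erase J (fun j => 2 * H j) hmJ
    have h9 := Finset.add_sum_erase (J.erase m) (fun j => 2 * H j) (mem_erase.2 ⟨hbm, hb⟩)
    rw [h7] at h6
    have h10 : (J.card - 2) * B2 + 2 * B2 = J.card * B2 := by
      rw [← add_mul]; congr 1; omega
    omega

/-- columns outside of `J` -/
theorem sum_add_le {J : Finset ℕ} {N w' : ℕ} {H : ℕ → ℕ} (hJN : J ⊆ range N)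
    (hw : w' ≤ ((range N).filter fun j => H j ≠ 0).card) :
    ∑ j ∈ J, H j + (w' - J.card) ≤ ∑ j ∈ range N, H j := by
  classical
  have h1 : ((range N).filter fun j => H j ≠ 0).card ≤ J.card +
      (((range N) \ J).filter fun j => H j ≠ 0).card := by
    calc ((range N).filter fun j => H j ≠ 0).card
        ≤ (J ∪ ((range N) \ J).filter fun j => H j ≠ 0).card := by
          refine Finset.card_le_card fun j hj => ?_
          rw [mem_filter] at hj
          by_cases hjJ : j ∈ J
          · exact mem_union_left _ hjJ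
          · exact mem_union_right _ (mem_filter.2 ⟨mem_sdiff.2 ⟨hj.1, hjJ⟩, hj.2⟩)
      _ ≤ _ := Finset.card_union_le _ _
  have h2 : (((range N) \ J).filter fun j => H j ≠ 0).card ≤ ∑ j ∈ (range N) \ J, H j := by
    rw [Finset.card_filter]
    refine Finset.sum_le_sum fun j _ => ?_
    split_ifs with h
    · omega
    · exact Nat.zero_le _
  have h3 := Finset.sum_sdiff hJN (f := H)
  omega

/-- **Numerical criterion, sharper form.**  `B2` bounds the sum of any two columns; for `J > J₁` the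
condition is implied by the number `w'` of nonzero columns. -/
theorem exists_matrix_crit2 {ι : Type*} [Fintype ι] [DecidableEq ι] (S k : ι → ℕ)
    (hk : ∀ g, 0 < k g) (N : ℕ) (H : ℕ → ℕ) (htot : ∑ j ∈ range N, H j = ∑ g, S g)
    (B2 J₁ w' : ℕ) (hB : ∀ i j, i < N → j < N → i ≠ j → H i + H j ≤ B2)
    (h1 : ∀ j, j < N → H j ≤ ∑ g, min (S g) (k g))
    (hJ : J₁ * B2 ≤ 2 * ∑ g, min (S g) (k g * J₁))
    (hw : w' ≤ ((range N).filter fun j => H j ≠ 0).card)
    (hfree : ∀ J, J₁ < J → ∑ g, S g ≤ ∑ g, min (S g) (k g * J) + (w' - J)) :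
    ∃ h : ι → ℕ → ℕ, (∀ g j, h g j ≤ k g) ∧ (∀ g, ∑ j ∈ range N, h g j = S g) ∧
      (∀ g j, N ≤ j → h g j = 0) ∧ ∀ j, j < N → ∑ g, h g j = H j := by
  classical
  refine exists_matrix S k hk N H htot fun J hJN => ?_
  rcases Nat.lt_or_ge 1 J.card with hc | hc
  · rcases Nat.lt_or_ge J₁ J.card with hJ1 | hJ1
    · have h2 := hfree J.card hJ1
      have h3 := sum_add_le hJN hw
      omega
    · have h3 : 2 * ∑ j ∈ J, H j ≤ J.card * B2 := two_mul_sum_le hc fun i hi j hj hij =>
        hB i j (mem_range.1 (hJN hi)) (mem_range.1 (hJN hj)) hij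
      -- J.card * F J₁ ≤ J₁ * F J
      have h4 : ∀ g, J.card * min (S g) (k g * J₁) ≤ J₁ * min (S g) (k g * J.card) := by
        intro g
        rcases le_total (S g) (k g * J.card) with ha | ha
        · rw [min_eq_left ha]
          exact Nat.mul_le_mul hJ1 (min_le_left _ _)
        · rw [min_eq_right ha]
          calc J.card * min (S g) (k g * J₁) ≤ J.card * (k g * J₁) :=
                Nat.mul_le_mul_left _ (min_le_right _ _)
            _ = J₁ * (k g * J.card) := by ring
      have h5 : J.card * ∑ g, min (S g) (k g * J₁) ≤ J₁ * ∑ g, min (S g) (k g * J.card) := by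
        rw [Finset.mul_sum, Finset.mul_sum]
        exact Finset.sum_le_sum fun g _ => h4 g
      have h6 : (2 * J₁) * ∑ j ∈ J, H j ≤ (2 * J₁) * ∑ g, min (S g) (k g * J.card) := by
        calc (2 * J₁) * ∑ j ∈ J, H j = J₁ * (2 * ∑ j ∈ J, H j) := by ring
          _ ≤ J₁ * (J.card * B2) := Nat.mul_le_mul_left _ h3
          _ = J.card * (J₁ * B2) := by ring
          _ ≤ J.card * (2 * ∑ g, min (S g) (k g * J₁)) := Nat.mul_le_mul_left _ hJ
          _ = 2 * (J.card * ∑ g, min (S g) (k g * J₁)) := by ring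
          _ ≤ 2 * (J₁ * ∑ g, min (S g) (k g * J.card)) := Nat.mul_le_mul_left _ h5
          _ = _ := by ring
      exact Nat.le_of_mul_le_mul_left h6 (by omega)
  · rcases Nat.eq_zero_or_pos J.card with h0 | h0
    · rw [Finset.card_eq_zero] at h0
      subst h0
      simp
    · have hc1 : J.card = 1 := by omega
      obtain ⟨a, rfl⟩ := Finset.card_eq_one.1 hc1
      rw [Finset.sum_singleton]
      simpa using h1 a (mem_range.1 (hJN (mem_singleton_self a)))

/-- **Numerical criterion, sharper form**, for lists of pairs and rectangles. -/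
theorem decomp_crit2 (L : List Pc) (hL : ∀ p ∈ L, p.free) (w : ℕ) (H : ℕ → ℕ)
    (htot : ∑ j ∈ range w, H j = (L.map Pc.size).sum) (B2 J₁ w' : ℕ)
    (hB : ∀ i j, i < w → j < w → i ≠ j → H i + H j ≤ B2) (h1 : ∀ j, j < w → H j ≤ FL L 1)
    (hJ : J₁ * B2 ≤ 2 * FL L J₁) (hw : w' ≤ ((range w).filter fun j => H j ≠ 0).card)
    (hfree : ∀ J, J₁ < J → (L.map Pc.size).sum ≤ FL L J + (w' - J)) :
    Decomp L fun j : Fin w => H j := by
  have hFL : ∀ J, ∑ g : Fin L.length, min (L[g].size) (L[g].cap * J) = FL L J := by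
    intro J
    rw [FL, ← Fin.sum_univ_fun_getElem]
    rfl
  have hS : ∑ g : Fin L.length, L[g].size = (L.map Pc.size).sum := by
    rw [← Fin.sum_univ_fun_getElem]; rfl
  obtain ⟨h, hh1, hh2, hh3, hh4⟩ := exists_matrix_crit2 (ι := Fin L.length)
    (fun g => L[g].size) (fun g => L[g].cap) (fun g => Pc.cap_pos _) w H
    (by rw [htot, ← hS]) B2 J₁ w' hB
    (by
      intro j hj
      refine (h1 j hj).trans (le_of_eq ?_)
      rw [← hFL]
      simp only [mul_one])
    (by rw [hFL]; exact hJ) hw (by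
      intro J hJ
      rw [hFL, hS]
      exact hfree J hJ)
  refine decomp_of_matrix L w H h (fun g => ?_) hh4
  have hfree := hL _ (List.getElem_mem g.2)
  have h5 := hh1 g
  have h6 := hh2 g
  rw [← Fin.sum_univ_eq_sum_range (fun j => h g j) w] at h6
  have key : ∀ p : Pc, p.free → (∀ j, h g j ≤ p.cap) → ∑ j : Fin w, h g j = p.size →
      RowOK p fun j : Fin w => h g j := by
    intro p hp h7 h8
    cases p with
    | pair c => exact ⟨fun j => h7 j, h8⟩
    | rect c k => exact ⟨fun j => h7 j, h8⟩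
    | dup c => exact absurd hp (by simp [Pc.free])
    | gap c => exact absurd hp (by simp [Pc.free])
  exact key _ hfree h5 h6

/-- if every piece fits into `J` columns then `FL L J` is the total -/
theorem FL_eq_of_le {L : List Pc} {J : ℕ} (h : ∀ p ∈ L, p.size ≤ p.cap * J) :
    FL L J = (L.map Pc.size).sum := by
  unfold FL
  congr 1
  exact List.map_congr_left fun p hp => min_eq_left (h p hp)

/-- the same with the explicit free value `J₁ + 1` (loss `d`) -/
theorem decomp_crit3 (L : List Pc) (hL : ∀ p ∈ L, p.free) (w : ℕ) (H : ℕ → ℕ)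
    (htot : ∑ j ∈ range w, H j = (L.map Pc.size).sum) (B2 J₁ w' d : ℕ)
    (hB : ∀ i j, i < w → j < w → i ≠ j → H i + H j ≤ B2) (h1 : ∀ j, j < w → H j ≤ FL L 1)
    (hJ : J₁ * B2 ≤ 2 * FL L J₁) (hw : w' ≤ ((range w).filter fun j => H j ≠ 0).card)
    (hd : (L.map Pc.size).sum ≤ FL L (J₁ + 1) + d) (hwd : J₁ + 1 + d ≤ w')
    (hJ' : ∀ p ∈ L, p.size ≤ p.cap * (J₁ + 2)) : Decomp L fun j : Fin w => H j := by
  refine decomp_crit2 L hL w H htot B2 J₁ w' hB h1 hJ hw fun J hJ1 => ?_
  rcases Nat.lt_or_ge (J₁ + 1) J with h | h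
  · have : FL L J = (L.map Pc.size).sum :=
      FL_eq_of_le fun p hp => (hJ' p hp).trans (Nat.mul_le_mul_left _ h)
    omega
  · have : J = J₁ + 1 := by omega
    subst this
    omega

end Crest.Agent.R195
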