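import Crest.Agent.R195.RegionL
import Crest.Agent.R195.CovTools

/-! Row 195, S0298 (T3), family A: the free part (pairs and at most one single). -/

set_option autoImplicit false

namespace Crest.Agent.R195

open Finset Function

section sgl

/-- `r` single columns of height `c` (used with `r ≤ 1`) -/
def sgl (r c : ℕ) : List Pc := List.replicate r (.rect c 1)

theorem sgl_zero (c : ℕ) : sgl 0 c = [] := rfl
theorem sgl_one (c : ℕ) : sgl 1 c = [.rect c 1] := rfl

theorem FL_sgl (r c J : ℕ) : FL (sgl r c) J = r * min c J := by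
  induction r with
  | zero => simp [sgl_zero, FL_nil]
  | succ r ih =>
    rw [sgl, List.replicate_succ, FL_rect, ← sgl, ih]
    ring

theorem size_sgl (r c : ℕ) : ((sgl r c).map Pc.size).sum = r * c := by
  induction r with
  | zero => simp [sgl_zero]
  | succ r ih =>
    rw [sgl, List.replicate_succ, List.map_cons, List.sum_cons, ← sgl, ih]
    simp only [Pc.size]
    ring

theorem free_sgl {r c : ℕ} : ∀ p ∈ sgl r c, p.free := by
  intro p hp
  rw [List.eq_of_mem_replicate hp]
  trivial

theorem getD_sgl_append (r c : ℕ) (L : List Pc) (s : ℕ) :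
    (colsP (sgl r c ++ L)).getD s 0 = if s < r then c else (colsP L).getD (s - r) 0 := by
  induction r generalizing s with
  | zero => simp [sgl_zero]
  | succ r ih =>
    rw [sgl, List.replicate_succ, List.cons_append, getD_rect_cons, ← sgl]
    rcases Nat.eq_zero_or_pos s with rfl | hs
    · simp
    · rw [if_neg (by omega), ih, show s - 1 - r = s - (r + 1) by omega]
      by_cases h : s < r + 1
      · rw [if_pos h, if_pos (by omega)]
      · rw [if_neg h, if_neg (by omega)]

end sgl

section free4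

/-- the free pieces: three runs and at most one single -/
def fr4 (m1 k1 m2 k2 r c m3 k3 : ℕ) : List Pc :=
  runP m1 k1 ++ (runP m2 k2 ++ (sgl r c ++ runP m3 k3))

variable {m1 k1 m2 k2 r c m3 k3 : ℕ}

theorem FL_fr4 (J : ℕ) : FL (fr4 m1 k1 m2 k2 r c m3 k3) J =
    FL (runP m1 k1) J + (FL (runP m2 k2) J + (r * min c J + FL (runP m3 k3) J)) := by
  rw [fr4, FL_append, FL_append, FL_append, FL_sgl]

theorem size_fr4 : ((fr4 m1 k1 m2 k2 r c m3 k3).map Pc.size).sum =
    ((runP m1 k1).map Pc.size).sum + (((runP m2 k2).map Pc.size).sum +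
      (r * c + ((runP m3 k3).map Pc.size).sum)) := by
  rw [fr4, List.map_append, List.map_append, List.map_append, List.sum_append, List.sum_append,
    List.sum_append, size_sgl]

theorem size_runP_int {m k : ℕ} (h : 2 * k ≤ m + 1) :
    ((((runP m k).map Pc.size).sum : ℕ) : ℤ) = k * (2 * m - 2 * k + 1) := by
  have h1 := sum_size_runP h
  rcases Nat.eq_zero_or_pos k with rfl | hk
  · simp [runP_zero]
  · obtain ⟨k', rfl⟩ : ∃ k', k = k' + 1 := ⟨k - 1, by omega⟩
    rw [Nat.add_sub_cancel] at h1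
    have h2 : ((((runP m (k' + 1)).map Pc.size).sum : ℕ) : ℤ) + 2 * (k' + 1) * k' + (k' + 1) =
        2 * (k' + 1) * m := by exact_mod_cast h1
    push_cast
    linarith

theorem free_fr4 : ∀ p ∈ fr4 m1 k1 m2 k2 r c m3 k3, p.free := by
  intro p hp
  rw [fr4, List.mem_append, List.mem_append, List.mem_append] at hp
  rcases hp with h | h | h | h
  · exact free_runP p h
  · exact free_runP p h
  · exact free_sgl p h
  · exact free_runP p h

theorem runP_cap {m k J : ℕ} (h : m ≤ 2 * J + 2) : ∀ p ∈ runP m k, p.size ≤ p.cap * (J + 1) := by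
  intro p hp
  obtain ⟨i, -, rfl⟩ := mem_runP hp
  simp only [Pc.size, Pc.cap]
  omega

/-- criterion for the free pieces -/
theorem decomp_fr4 {w : ℕ} {H : ℕ → ℕ} (h1 : 2 * k1 + 1 ≤ m1) (h2 : 2 * k2 + 1 ≤ m2)
    (h3 : 2 * k3 ≤ m3 + 1) (hc : 1 ≤ c)
    (htot : ∑ j ∈ range w, H j = ((fr4 m1 k1 m2 k2 r c m3 k3).map Pc.size).sum) (B J₁ : ℕ)
    (hB : ∀ i j, i < w → j < w → i ≠ j → H i + H j ≤ 2 * B)
    (hH : ∀ j, j < w → H j + 3 ≤ 4 * (k1 + k2 + k3) + r)
    (hJ : J₁ * B + (tri (m1 - 2 * J₁) + tri (m2 - 2 * J₁) + r * (c - J₁) + tri (m3 - 2 * J₁)) ≤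
      ((fr4 m1 k1 m2 k2 r c m3 k3).map Pc.size).sum)
    (hm1 : m1 ≤ 2 * J₁ + 2) (hm2 : m2 ≤ 2 * J₁ + 2) (hm3 : m3 ≤ 2 * J₁ + 2)
    (hcr : r = 0 ∨ c ≤ J₁ + 1) :
    Decomp (fr4 m1 k1 m2 k2 r c m3 k3) fun j : Fin w => H j := by
  refine decomp_crit _ free_fr4 w H htot B J₁ hB ?_ ?_ ?_
  · intro j hj
    rw [FL_fr4, FL_one_runP h1, FL_one_runP h2]
    have h4 := FL_one_runP' h3
    have h5 := hH j hj
    have h6 : r * min c 1 = r := by rw [min_eq_right hc, mul_one]
    omega
  · rw [FL_fr4]
    rw [size_fr4] at hJ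
    have e1 := size_le_FL_runP m1 k1 J₁
    have e2 := size_le_FL_runP m2 k2 J₁
    have e3 := size_le_FL_runP m3 k3 J₁
    have e4 : r * c = r * min c J₁ + r * (c - J₁) := by
      rw [← mul_add]; congr 1; omega
    omega
  · intro p hp
    rw [fr4, List.mem_append, List.mem_append, List.mem_append] at hp
    rcases hp with h | h | h | h
    · exact runP_cap hm1 p h
    · exact runP_cap hm2 p h
    · have h7 := List.eq_of_mem_replicate h
      rcases hcr with h8 | h8
      · subst h8
        simp [sgl_zero] at h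
      · rw [h7]
        simp only [Pc.size, Pc.cap]
        omega
    · exact runP_cap hm3 p h

end free4

end Crest.Agent.R195
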