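import Crest.Agent.R195.CovA1
import Crest.Agent.R195.Fam

/-! Row 195, S0298 (T3), family A: the lists of pieces (shape, admissibility, sizes). -/

set_option autoImplicit false

namespace Crest.Agent.R195

open Finset Function

theorem hA_eq {M e : ℕ} (h : 2 * e ≤ M) : hA M e = runH (M + 1) e (stairH (M - 2 * e)) := by
  have h1 := hA_zero (M - 2 * e)
  unfold hA at h1 ⊢
  rw [← h1, runH_zero, Nat.mul_zero, Nat.sub_zero, Nat.sub_zero]
  congr 2
  omega

theorem cl_hA {M e : ℕ} (h : 2 * e ≤ M) (s : ℕ) :
    cl (hA M e) s = if s < e then M + 1 - s else min e (M + 1 - s) + (M - 2 * e - (s - e)) := by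
  rw [hA_eq h, cl_runH (validH_stairH _) (fun _ => by rw [stairH_head]; omega), cl_stairH]

section lists

variable {M e k q r : ℕ}

/-- pieces: family A, `e` even -/
def LAe (M e k q r : ℕ) : List Pc :=
  runP (M + 1) k ++ (runP (M - e) q ++ (sgl r (e + 1) ++ (.dup e :: runP (e - 1) k)))

/-- pieces: family A, `e` odd, wide diagrams -/
def LAo (M e k q r : ℕ) : List Pc :=
  runP (M + 1) k ++ (.rect (M + 2 - e) 1 ::
    (runP (M - e) q ++ (sgl r (e + 1) ++ (.dup e :: runP (e - 1) k))))

/-- pieces: family A, `e` odd, narrow diagrams -/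
def LAg (M e k q r : ℕ) : List Pc :=
  runP (M + 1) k ++ (.gap (M + 2 - e) ::
    (runP (M - e - 1) q ++ (sgl r (e + 1) ++ (.dup e :: runP (e - 1) k))))

theorem validP_sgl_append {c : ℕ} {L : List Pc} (hr : r < 2) (hc : 1 ≤ c) (hL : validP L)
    (htop : ∀ p ∈ L, p.top ≤ c - 1) : validP (sgl r c ++ L) := by
  interval_cases r
  · exact hL
  · exact ⟨hc, htop, hL⟩

theorem top_sgl_append {c t : ℕ} {L : List Pc} (hc : r = 0 ∨ c ≤ t) (htop : ∀ p ∈ L, p.top ≤ t) :
    ∀ p ∈ sgl r c ++ L, p.top ≤ t := by
  intro p hp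
  rcases List.mem_append.1 hp with h | h
  · have h1 := List.eq_of_mem_replicate h
    rcases hc with hc | hc
    · subst hc; simp [sgl_zero] at h
    · rw [h1]; exact hc
  · exact htop p h

theorem top_runP_append {m c t : ℕ} {L : List Pc} (hm : m ≤ t) (htop : ∀ p ∈ L, p.top ≤ t) :
    ∀ p ∈ runP m c ++ L, p.top ≤ t := by
  intro p hp
  rcases List.mem_append.1 hp with h | h
  · exact (top_runP p h).trans hm
  · exact htop p h

theorem top_cons {t : ℕ} {p : Pc} {L : List Pc} (hp : p.top ≤ t) (htop : ∀ p ∈ L, p.top ≤ t) :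
    ∀ q ∈ p :: L, q.top ≤ t := by
  intro q hq
  rcases List.mem_cons.1 hq with rfl | h
  · exact hp
  · exact htop q h

/-- the last part: `dup e` and the low run -/
theorem validP_low (he : 1 ≤ e) (hk : 2 * k ≤ e) : validP (.dup e :: runP (e - 1) k) := by
  refine ⟨he, fun p hp => ?_, validP_runP (by omega)⟩
  exact top_runP p hp

theorem top_low : ∀ p ∈ Pc.dup e :: runP (e - 1) k, p.top ≤ e :=
  top_cons le_rfl fun p hp => (top_runP p hp).trans (Nat.sub_le _ _)

theorem validP_LAe (he : 1 ≤ e) (hk : e = 2 * k) (hM : M = 2 * e + 2 * q + r) (hr : r < 2) :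
    validP (LAe M e k q r) := by
  refine validP_runP_append (by omega) (validP_runP_append (by omega)
    (validP_sgl_append hr (by omega) (validP_low he (by omega)) fun p hp => ?_) ?_) ?_
  · exact (top_low p hp).trans (by omega)
  · exact top_sgl_append (by omega) fun p hp => (top_low p hp).trans (by omega)
  · exact top_runP_append (by omega) (top_sgl_append (by omega)
      fun p hp => (top_low p hp).trans (by omega))

theorem validP_LAo (hk : e = 2 * k + 1) (hM : M = 2 * e + 2 * q + r) (hr : r < 2) :
    validP (LAo M e k q r) := by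
  refine validP_runP_append (by omega) ⟨by simp only [Pc.low, Pc.top]; omega, ?_,
    validP_runP_append (by omega)
      (validP_sgl_append hr (by omega) (validP_low (by omega) (by omega)) fun p hp => ?_) ?_⟩ ?_
  · simp only [Pc.next]
    exact top_runP_append (by omega) (top_sgl_append (by omega)
      fun p hp => (top_low p hp).trans (by omega))
  · exact (top_low p hp).trans (by omega)
  · exact top_sgl_append (by omega) fun p hp => (top_low p hp).trans (by omega)
  · refine top_cons (by simp only [Pc.top]; omega) (top_runP_append (by omega)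
      (top_sgl_append (by omega) fun p hp => (top_low p hp).trans (by omega)))

theorem validP_LAg (hk : e = 2 * k + 1) (hM : M = 2 * e + 1 + 2 * q + r) (hr : r < 2) :
    validP (LAg M e k q r) := by
  refine validP_runP_append (by omega) ⟨by simp only [Pc.low, Pc.top]; omega, ?_,
    validP_runP_append (by omega)
      (validP_sgl_append hr (by omega) (validP_low (by omega) (by omega)) fun p hp => ?_) ?_⟩ ?_
  · simp only [Pc.next]
    exact top_runP_append (by omega) (top_sgl_append (by omega)
      fun p hp => (top_low p hp).trans (by omega))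
  · exact (top_low p hp).trans (by omega)
  · exact top_sgl_append (by omega) fun p hp => (top_low p hp).trans (by omega)
  · refine top_cons (by simp only [Pc.top]; omega) (top_runP_append (by omega)
      (top_sgl_append (by omega) fun p hp => (top_low p hp).trans (by omega)))

theorem cols_LAe (hk : e = 2 * k) (hM : M = 2 * e + 2 * q + r) (hr : r < 2) (s : ℕ) :
    (colsP (LAe M e k q r)).getD s 0 = cl (hA M e) s := by
  rw [cl_hA (by omega), LAe, getD_runP_append, getD_runP_append, getD_sgl_append, getD_dup_cons,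
    getD_colsP_runP]
  split_ifs <;> omega

theorem cols_LAo (hk : e = 2 * k + 1) (hM : M = 2 * e + 2 * q + r) (hr : r < 2) (s : ℕ) :
    (colsP (LAo M e k q r)).getD s 0 = cl (hA M e) s := by
  rw [cl_hA (by omega), LAo, getD_runP_append, getD_rect_cons, getD_runP_append, getD_sgl_append,
    getD_dup_cons, getD_colsP_runP]
  split_ifs <;> omega

theorem cols_LAg (hk : e = 2 * k + 1) (hM : M = 2 * e + 1 + 2 * q + r) (hr : r < 2) (s : ℕ) :
    (colsP (LAg M e k q r)).getD s 0 = cl (hA M e) s := by
  rw [cl_hA (by omega), LAg, getD_runP_append, getD_gap_cons, getD_runP_append, getD_sgl_append,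
    getD_dup_cons, getD_colsP_runP]
  split_ifs <;> omega

end lists

section sizes

variable {M e k q r : ℕ}

theorem size_frAe (hk : e = 2 * k) (hk1 : 1 ≤ k) (hM : M = 2 * e + 2 * q + r) (hr : r < 2) :
    2 * ((fr4 (M + 1) k (M - e) q r (e + 1) (e - 1) k).map Pc.size).sum = M * (M + 1) := by
  have h1 := size_runP_int (m := M + 1) (k := k) (by omega)
  have h2 := size_runP_int (m := M - e) (k := q) (by omega)
  have h3 := size_runP_int (m := e - 1) (k := k) (by omega)
  rw [size_fr4]
  have h4 : ((M - e : ℕ) : ℤ) = M - e := by rw [Nat.cast_sub (by omega)]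
  have h5 : ((e - 1 : ℕ) : ℤ) = e - 1 := by rw [Nat.cast_sub (by omega)]; simp
  rw [h4] at h2
  rw [h5] at h3
  generalize ((runP (M + 1) k).map Pc.size).sum = S1 at h1 ⊢
  generalize ((runP (M - e) q).map Pc.size).sum = S2 at h2 ⊢
  generalize ((runP (e - 1) k).map Pc.size).sum = S3 at h3 ⊢
  clear h4 h5
  subst hk
  subst hM
  zify
  rw [h1, h2, h3]
  interval_cases r <;> push_cast <;> ring

theorem size_frAo (hk : e = 2 * k + 1) (hM : M = 2 * e + 2 * q + r) (hr : r < 2) :
    2 * ((fr4 (M + 1) k (M - e) q r (e + 1) (e - 1) k).map Pc.size).sum + 2 * M + 4 =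
      M * (M + 1) + 2 * e := by
  have h1 := size_runP_int (m := M + 1) (k := k) (by omega)
  have h2 := size_runP_int (m := M - e) (k := q) (by omega)
  have h3 := size_runP_int (m := e - 1) (k := k) (by omega)
  rw [size_fr4]
  have h4 : ((M - e : ℕ) : ℤ) = M - e := by rw [Nat.cast_sub (by omega)]
  have h5 : ((e - 1 : ℕ) : ℤ) = e - 1 := by rw [Nat.cast_sub (by omega)]; simp
  rw [h4] at h2
  rw [h5] at h3
  generalize ((runP (M + 1) k).map Pc.size).sum = S1 at h1 ⊢
  generalize ((runP (M - e) q).map Pc.size).sum = S2 at h2 ⊢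
  generalize ((runP (e - 1) k).map Pc.size).sum = S3 at h3 ⊢
  clear h4 h5
  subst hk
  subst hM
  zify
  rw [h1, h2, h3]
  interval_cases r <;> push_cast <;> ring

theorem size_frAg (hk : e = 2 * k + 1) (hM : M = 2 * e + 1 + 2 * q + r) (hr : r < 2) :
    2 * ((fr4 (M + 1) k (M - e - 1) q r (e + 1) (e - 1) k).map Pc.size).sum + 4 * M + 4 =
      M * (M + 1) + 4 * e := by
  have h1 := size_runP_int (m := M + 1) (k := k) (by omega)
  have h2 := size_runP_int (m := M - e - 1) (k := q) (by omega)
  have h3 := size_runP_int (m := e - 1) (k := k) (by omega)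
  rw [size_fr4]
  have h4 : ((M - e - 1 : ℕ) : ℤ) = M - e - 1 := by
    rw [Nat.cast_sub (by omega), Nat.cast_sub (by omega)]; simp
  have h5 : ((e - 1 : ℕ) : ℤ) = e - 1 := by rw [Nat.cast_sub (by omega)]; simp
  rw [h4] at h2
  rw [h5] at h3
  generalize ((runP (M + 1) k).map Pc.size).sum = S1 at h1 ⊢
  generalize ((runP (M - e - 1) q).map Pc.size).sum = S2 at h2 ⊢
  generalize ((runP (e - 1) k).map Pc.size).sum = S3 at h3 ⊢
  clear h4 h5
  subst hk
  subst hM
  zify
  rw [h1, h2, h3]
  interval_cases r <;> push_cast <;> ring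

end sizes

end Crest.Agent.R195
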