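import Crest.Agent.R195.CovA2

/-! Row 195, S0298 (T3), family A: the decompositions. -/

set_option autoImplicit false

namespace Crest.Agent.R195

open Finset Function

theorem H0_aux {n B x y : ℕ} (hB : 9 ≤ B) (hn : B * (B + 1) ≤ 2 * n)
    (h : n + 3 + x + y ≤ 4 * B + x * y) (hx : x ≤ 4) (hy : y ≤ 4) : False := by
  have h1 : x * y ≤ 4 * y := Nat.mul_le_mul_right _ hx
  have h3 : x * y + 0 ≤ x + y + 8 := by
    interval_cases x <;> omega
  nlinarith

namespace Region

variable {n B w w₂ : ℕ} {H : ℕ → ℕ}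

theorem mul_le_n (h : Region n B w w₂ H) {j : ℕ} (hj : j < w) : (j + 1) * H j ≤ n := by
  rw [← h.sum]
  calc (j + 1) * H j = ∑ _i ∈ range (j + 1), H j := by rw [sum_const, card_range, smul_eq_mul]
    _ ≤ ∑ i ∈ range (j + 1), H i :=
        sum_le_sum fun i hi => h.anti (by have := mem_range.1 hi; omega)
    _ ≤ ∑ i ∈ range w, H i := sum_le_sum_of_subset (range_subset_range.2 hj)

/-- capacity for `dup e`, leaving a cell in every column -/
theorem cap_e (h : Region n B w w₂ H) {e : ℕ} (hn : 2 * n = B * (B + 1) + 4 * e) (hB : 9 ≤ B)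
    (he : 2 * e ≤ B) : e ≤ ∑ i ∈ range (w / 2), min 4 (H (2 * i + 1) - 1) := by
  have h1 := h.cap_pred (by omega)
  have h2 := h.H0_add_w (by omega) hB
  by_contra hcon
  push Not at hcon
  have h3 : (B - 1) * (∑ i ∈ range (w / 2), min 4 (H (2 * i + 1) - 1)) + (B - 1) ≤ (B - 1) * e := by
    rw [← Nat.mul_succ]; exact Nat.mul_le_mul_left _ hcon
  obtain ⟨b, rfl⟩ : ∃ b, B = b + 9 := ⟨B - 9, by omega⟩
  rw [show b + 9 - 1 = b + 8 by omega] at h1 h3
  nlinarith

/-- the first column is not very long -/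
theorem H0_le (h : Region n B w w₂ H) (hn : B * (B + 1) ≤ 2 * n) (hB : 9 ≤ B) :
    H 0 + 6 ≤ 2 * B := by
  by_contra hcon
  push Not at hcon
  have hn0 : 0 < n := by nlinarith
  have h1 := h.n_le_hook hn0
  have h2 := h.col
  have h3 := h.row
  have h4 := h.wlog
  have h5 := h.two_H1_ge hn hB
  have h6 := h.two_w2_ge hn hB
  exact H0_aux hB hn (x := H 1 - 1) (y := w₂ - 1) (by omega) (by omega) (by omega)

end Region

section even

variable {M e k q r n w w₂ : ℕ} {H : ℕ → ℕ}

theorem perm_LAe : (Pc.dup e :: fr4 (M + 1) k (M - e) q r (e + 1) (e - 1) k).Perm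
    (LAe M e k q r) := by
  have h1 : LAe M e k q r = (runP (M + 1) k ++ (runP (M - e) q ++ sgl r (e + 1))) ++
      Pc.dup e :: runP (e - 1) k := by simp [LAe]
  have h2 : fr4 (M + 1) k (M - e) q r (e + 1) (e - 1) k =
      (runP (M + 1) k ++ (runP (M - e) q ++ sgl r (e + 1))) ++ runP (e - 1) k := by simp [fr4]
  rw [h1, h2]
  exact List.perm_middle.symm

theorem decomp_LAe (hk : e = 2 * k) (hk1 : 1 ≤ k) (hM : M = 2 * e + 2 * q + r) (hr : r < 2)
    (hM9 : 9 ≤ M) (hn : 2 * n = M * (M + 1) + 4 * e) (R : Region n M w w₂ H) :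
    Decomp (LAe M e k q r) fun j : Fin w => H j := by
  obtain ⟨y, -, hy0, hyle, hysum, hy⟩ := exists_dup (w := w) (c := e) (H := H) (fun _ => 0)
    (fun i => min 4 (H (2 * i + 1) - 1)) (fun i _ => Nat.zero_le _) (fun i _ => min_le_left _ _)
    (fun i _ => by
      have h1 := R.anti (show 2 * i ≤ 2 * i + 1 by omega)
      have h2 : min 4 (H (2 * i + 1) - 1) ≤ H (2 * i + 1) - 1 := min_le_right _ _
      omega) (by simp) (R.cap_e hn (by omega) (by omega))
  refine (hy _ ?_).perm perm_LAe
  have hsz := size_frAe (M := M) hk hk1 hM hr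
  have hs := sum_sub_half (w := w) hy0 hyle
  rw [hysum, R.sum] at hs
  have hH1 := R.two_H1_ge (by omega) (by omega)
  have hcol := R.col
  have hH1' := R.H1_le
  have htot : ∑ j ∈ range w, (H j - y (j / 2)) =
      ((fr4 (M + 1) k (M - e) q r (e + 1) (e - 1) k).map Pc.size).sum := by omega
  refine decomp_fr4 (H := fun j => H j - y (j / 2)) (by omega) (by omega) (by omega) (by omega)
    htot M (M / 2) ?_ ?_ ?_ (by omega) (by omega) (by omega) (by omega)
  · intro i j _ _ hij
    have := R.pair_sum_le hij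
    omega
  · intro j _
    have := R.H_le_zero j
    omega
  · interval_cases r
    · have e1 : M + 1 - 2 * (M / 2) = 1 := by omega
      have e2 : M - e - 2 * (M / 2) = 0 := by omega
      have e3 : e - 1 - 2 * (M / 2) = 0 := by omega
      rw [e1, e2, e3, tri_one, tri_zero, zero_mul]
      have e4 : 2 * (M / 2 * M) = M * M := by
        rw [← mul_assoc]; congr 1; omega
      nlinarith
    · have e1 : M + 1 - 2 * (M / 2) = 2 := by omega
      have e2 : M - e - 2 * (M / 2) = 0 := by omega
      have e3 : e - 1 - 2 * (M / 2) = 0 := by omega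
      have e5 : e + 1 - M / 2 ≤ 1 := by omega
      rw [e1, e2, e3, tri_two, tri_zero, one_mul]
      have e4 : 2 * (M / 2 * M) = (M - 1) * M := by
        rw [← mul_assoc]; congr 1; omega
      obtain ⟨b, rfl⟩ : ∃ b, M = b + 9 := ⟨M - 9, by omega⟩
      rw [show b + 9 - 1 = b + 8 by omega] at e4
      nlinarith

end even

section odd1

variable {M e k q r n w w₂ : ℕ} {H : ℕ → ℕ}

theorem perm_LAo : (Pc.dup e :: Pc.rect (M + 2 - e) 1 ::
    fr4 (M + 1) k (M - e) q r (e + 1) (e - 1) k).Perm (LAo M e k q r) := by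
  have h1 : LAo M e k q r = runP (M + 1) k ++ Pc.rect (M + 2 - e) 1 ::
      ((runP (M - e) q ++ sgl r (e + 1)) ++ Pc.dup e :: runP (e - 1) k) := by simp [LAo]
  have h2 : fr4 (M + 1) k (M - e) q r (e + 1) (e - 1) k =
      runP (M + 1) k ++ ((runP (M - e) q ++ sgl r (e + 1)) ++ runP (e - 1) k) := by simp [fr4]
  rw [h1, h2]
  refine List.Perm.trans ?_ List.perm_middle.symm
  refine List.Perm.trans (List.Perm.swap _ _ _) (List.Perm.cons _ ?_)
  refine List.Perm.trans ?_ (List.Perm.append_left _ List.perm_middle.symm)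
  exact List.perm_middle.symm

/-- a single can be removed from the first columns -/
theorem Decomp.cons_single {w c : ℕ} {L : List Pc} {H : ℕ → ℕ} (hc : c ≤ w)
    (hH : ∀ j, j < c → 1 ≤ H j)
    (h : Decomp L fun j : Fin w => H j - if (j : ℕ) < c then 1 else 0) :
    Decomp (.rect c 1 :: L) fun j : Fin w => H j := by
  refine Decomp.cons (x := fun j : Fin w => if (j : ℕ) < c then 1 else 0) ⟨fun j => ?_, ?_⟩
    (fun j => ?_) h
  · show (if (j : ℕ) < c then 1 else 0) ≤ 1
    split_ifs <;> omega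
  · rw [Fin.sum_univ_eq_sum_range (fun j => if j < c then 1 else 0) w, ← sum_filter, sum_const,
      smul_eq_mul, mul_one, mul_one]
    have : (range w).filter (fun j => j < c) = range c := by
      ext j; simp only [mem_filter, mem_range]; omega
    rw [this, card_range]
  · show (if (j : ℕ) < c then 1 else 0) ≤ H j
    split_ifs with h1
    · exact hH j h1
    · exact Nat.zero_le _

theorem sum_sub_single {w c : ℕ} {H : ℕ → ℕ} (hc : c ≤ w) (hH : ∀ j, j < c → 1 ≤ H j) :
    ∑ j ∈ range w, (H j - if j < c then 1 else 0) + c = ∑ j ∈ range w, H j := by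
  have h1 : ∑ j ∈ range w, (if j < c then 1 else 0) = c := by
    rw [← sum_filter, sum_const, smul_eq_mul, mul_one]
    have : (range w).filter (fun j => j < c) = range c := by
      ext j; simp only [mem_filter, mem_range]; omega
    rw [this, card_range]
  conv_lhs => arg 2; rw [← h1]
  rw [← sum_add_distrib]
  refine sum_congr rfl fun j _ => ?_
  split_ifs with h2
  · have := hH j h2; omega
  · omega

theorem aux_low {M e n : ℕ} (hM : 9 ≤ M) (he : 2 * e ≤ M) (hn : 2 * n = M * (M + 1) + 4 * e)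
    (h : (M + 3 - e) * (M - 1) ≤ n) : False := by
  have h2 : (M + 6) * (M - 1) ≤ 2 * ((M + 3 - e) * (M - 1)) := by
    rw [← mul_assoc]; exact Nat.mul_le_mul_right _ (by omega)
  obtain ⟨b, rfl⟩ : ∃ b, M = b + 9 := ⟨M - 9, by omega⟩
  rw [show b + 9 - 1 = b + 8 by omega] at h h2
  generalize (b + 9 + 3 - e) * (b + 8) = X at h h2
  nlinarith

/-- `2 J (M - a) + 2 t ≤ ...` arithmetic -/
theorem aux_J {M e S J a b t : ℕ} (hS : 2 * S + 2 * M + 4 = M * (M + 1) + 2 * e)
    (hJ : 2 * J + a = M) (hM : 9 ≤ M) (hb : b ≤ M)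
    (h : (M - a) * (M - b) + 2 * t + 2 * M + 4 ≤ M * (M + 1) + 2 * e) :
    J * (M - b) + t ≤ S := by
  have e4 : 2 * (J * (M - b)) = (M - a) * (M - b) := by
    rw [← mul_assoc]; congr 1; omega
  omega

set_option maxHeartbeats 1000000 in
theorem decomp_LAo (hk : e = 2 * k + 1) (hM : M = 2 * e + 2 * q + r) (hr : r < 2)
    (hM9 : 9 ≤ M) (hn : 2 * n = M * (M + 1) + 4 * e) (R : Region n M w w₂ H)
    (hw : M + 2 ≤ w + e) : Decomp (LAo M e k q r) fun j : Fin w => H j := by
  have hH1 := R.two_H1_ge (by omega) (by omega)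
  have hH0 := R.H0_le (by omega) (by omega)
  have hcol := R.col
  have hH1' := R.H1_le
  obtain ⟨y, hyl, hy0, hyle, hysum, hy⟩ := exists_dup (w := w) (c := e) (H := H)
    (fun i => if i = 0 then 1 else 0)
    (fun i => min 4 (H (2 * i + 1) - 1)) (fun i hi => by
      split_ifs with h0
      · subst h0
        rw [show 2 * 0 + 1 = 1 by rfl, le_min_iff]
        omega
      · exact Nat.zero_le _) (fun i _ => min_le_left _ _)
    (fun i _ => by
      have h1 := R.anti (show 2 * i ≤ 2 * i + 1 by omega)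
      have h2 : min 4 (H (2 * i + 1) - 1) ≤ H (2 * i + 1) - 1 := min_le_right _ _
      omega) (by
      rw [← sum_filter, sum_const, smul_eq_mul, mul_one]
      have : (range (w / 2)).filter (fun i => i = 0) ⊆ {0} := by
        intro i hi
        rw [mem_filter] at hi
        rw [mem_singleton]; exact hi.2
      have := card_le_card this
      rw [card_singleton] at this
      omega) (R.cap_e hn (by omega) (by omega))
  have hpos : ∀ j, j < w → 1 ≤ H j - y (j / 2) := by
    intro j hj
    by_cases h1 : 2 * (j / 2) + 1 < w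
    · have h2 := (hyl _ h1).2
      have h3 : min 4 (H (2 * (j / 2) + 1) - 1) ≤ H (2 * (j / 2) + 1) - 1 := min_le_right _ _
      have h4 := R.anti (show j ≤ 2 * (j / 2) + 1 by omega)
      have h5 := (R.pos (2 * (j / 2) + 1)).1 h1
      omega
    · rw [hy0 _ (not_lt.mp h1)]
      have := (R.pos j).1 hj
      omega
  have hy00 : 1 ≤ y 0 := by
    have h1 := (hyl 0 (by omega)).1
    simpa using h1
  refine (hy _ (Decomp.cons_single (H := fun j => H j - y (j / 2)) (by omega)
    (fun j hj => hpos j (by omega)) ?_)).perm perm_LAo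
  have hsz := size_frAo (M := M) hk hM hr
  have hs := sum_sub_half (w := w) hy0 hyle
  have hs2 := sum_sub_single (w := w) (c := M + 2 - e) (H := fun j => H j - y (j / 2)) (by omega)
    (fun j hj => hpos j (by omega))
  rw [hysum, R.sum] at hs
  have htot : ∑ j ∈ range w, (H j - y (j / 2) - if j < M + 2 - e then 1 else 0) =
      ((fr4 (M + 1) k (M - e) q r (e + 1) (e - 1) k).map Pc.size).sum := by omega
  -- columns behind the single are low
  have hlow : ∀ j, j < w → M + 2 - e ≤ j → H j + 2 ≤ M := by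
    intro j hj hjc
    by_contra hcon
    push Not at hcon
    have h1 := R.mul_le_n hj
    have h2 : (M + 3 - e) * (M - 1) ≤ (j + 1) * H j := Nat.mul_le_mul (by omega) (by omega)
    exact aux_low hM9 (by omega) hn (h2.trans h1)
  have hB : ∀ i j, i < w → j < w → i ≠ j →
      (H i - y (i / 2) - if i < M + 2 - e then 1 else 0) +
      (H j - y (j / 2) - if j < M + 2 - e then 1 else 0) ≤ 2 * (M - 1) := by
    have key : ∀ i j, i < j → j < w →
        (H i - y (i / 2) - if i < M + 2 - e then 1 else 0) +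
        (H j - y (j / 2) - if j < M + 2 - e then 1 else 0) ≤ 2 * (M - 1) := by
      intro i j hij hj
      have h1 := R.pair_sum_le (show i ≠ j by omega)
      have h2 := hpos i (by omega)
      have h3 := hpos j hj
      by_cases hjc : j < M + 2 - e
      · rw [if_pos hjc, if_pos (by omega)]
        omega
      · rw [if_neg hjc]
        have h4 := hlow j hj (not_lt.mp hjc)
        rcases Nat.eq_zero_or_pos i with rfl | hi
        · rw [if_pos (by omega), Nat.zero_div]
          omega
        · have h5 := R.le_B hi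
          omega
    intro i j hi hj hij
    rcases Nat.lt_or_gt_of_ne hij with h | h
    · exact key i j h hj
    · rw [add_comm]; exact key j i h hi
  have hH : ∀ j, j < w → (H j - y (j / 2) - if j < M + 2 - e then 1 else 0) + 3 ≤
      4 * (k + q + k) + r := by
    intro j hj
    have h1 := R.H_le_zero j
    rcases Nat.eq_zero_or_pos j with rfl | hj0
    · rw [if_pos (by omega), Nat.zero_div]
      omega
    · have := R.le_B hj0
      omega
  rcases Nat.eq_zero_or_pos k with hk0 | hk1
  · -- `e = 1`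
    subst hk0
    have he : e = 1 := by omega
    have hfr : fr4 (M + 1) 0 (M - e) q r (e + 1) (e - 1) 0 =
        fr4 1 0 (M - e) q r (e + 1) (e - 1) 0 := rfl
    rw [hfr] at htot ⊢
    have hsz' : 2 * ((fr4 1 0 (M - e) q r (e + 1) (e - 1) 0).map Pc.size).sum + 2 * M + 4 =
      M * (M + 1) + 2 * e := by rw [← hfr]; exact hsz
    refine decomp_fr4 (by omega) (by omega) (by omega) (by omega) htot (M - 1) (M / 2 - 1) hB hH ?_
      (by omega) (by omega) (by omega) (by omega)
    have hP : ∀ a t, 2 * (M / 2 - 1) + a = M → (M - a) * (M - 1) + 2 * t + 2 * M + 4 ≤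
        M * (M + 1) + 2 * e → (M / 2 - 1) * (M - 1) + t ≤
        ((fr4 1 0 (M - e) q r (e + 1) (e - 1) 0).map Pc.size).sum := fun a t h1 h2 =>
      aux_J hsz' h1 hM9 (by omega) h2
    subst he
    interval_cases r
    · have e1 : 1 - 2 * (M / 2 - 1) = 0 := by omega
      have e2 : M - 1 - 2 * (M / 2 - 1) = 1 := by omega
      have e3 : 1 - 1 - 2 * (M / 2 - 1) = 0 := by omega
      rw [e1, e2, e3, tri_one, tri_zero, zero_mul]
      refine hP 2 _ (by omega) ?_
      obtain ⟨b, hb⟩ : ∃ b, M = b + 9 := ⟨M - 9, by omega⟩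
      rw [hb, show b + 9 - 1 = b + 8 by omega, show b + 9 - 2 = b + 7 by omega]
      nlinarith
    · have e1 : 1 - 2 * (M / 2 - 1) = 0 := by omega
      have e2 : M - 1 - 2 * (M / 2 - 1) = 2 := by omega
      have e3 : 1 - 1 - 2 * (M / 2 - 1) = 0 := by omega
      have e5 : 1 + 1 - (M / 2 - 1) = 0 := by omega
      rw [e1, e2, e3, e5, tri_two, tri_zero, mul_zero]
      refine hP 3 _ (by omega) ?_
      obtain ⟨b, hb⟩ : ∃ b, M = b + 9 := ⟨M - 9, by omega⟩
      rw [hb, show b + 9 - 1 = b + 8 by omega, show b + 9 - 3 = b + 6 by omega]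
      nlinarith
  · refine decomp_fr4 (by omega) (by omega) (by omega) (by omega) htot (M - 1) (M / 2) hB hH ?_
      (by omega) (by omega) (by omega) (by omega)
    have hP : ∀ a t, 2 * (M / 2) + a = M → (M - a) * (M - 1) + 2 * t + 2 * M + 4 ≤
        M * (M + 1) + 2 * e → (M / 2) * (M - 1) + t ≤
        ((fr4 (M + 1) k (M - e) q r (e + 1) (e - 1) k).map Pc.size).sum := fun a t h1 h2 =>
      aux_J hsz h1 hM9 (by omega) h2
    interval_cases r
    · have e1 : M + 1 - 2 * (M / 2) = 1 := by omega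
      have e2 : M - e - 2 * (M / 2) = 0 := by omega
      have e3 : e - 1 - 2 * (M / 2) = 0 := by omega
      rw [e1, e2, e3, tri_one, tri_zero, zero_mul]
      refine hP 0 _ (by omega) ?_
      have he3 : 3 ≤ e := by omega
      obtain ⟨b, hb⟩ : ∃ b, M = b + 9 := ⟨M - 9, by omega⟩
      rw [hb, show b + 9 - 1 = b + 8 by omega, Nat.sub_zero]
      nlinarith
    · have e1 : M + 1 - 2 * (M / 2) = 2 := by omega
      have e2 : M - e - 2 * (M / 2) = 0 := by omega
      have e3 : e - 1 - 2 * (M / 2) = 0 := by omega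
      have e5 : e + 1 - M / 2 ≤ 1 := by omega
      rw [e1, e2, e3, tri_two, tri_zero, one_mul]
      refine hP 1 _ (by omega) ?_
      have he3 : 3 ≤ e := by omega
      generalize e + 1 - M / 2 = X at e5 ⊢
      obtain ⟨b, hb⟩ : ∃ b, M = b + 9 := ⟨M - 9, by omega⟩
      rw [hb, show b + 9 - 1 = b + 8 by omega]
      nlinarith

end odd1

end Crest.Agent.R195
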