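import Crest.Agent.R195.CovA3

/-! Row 195, S0298 (T3), family A: `e` odd, narrow diagrams (`w ≤ M + 1 - e`), with the gap piece. -/

set_option autoImplicit false

namespace Crest.Agent.R195

open Finset Function

namespace Region

variable {n B w w₂ : ℕ} {H : ℕ → ℕ}

/-- capacity of a row of even type which leaves four cells in every column it uses -/
theorem cap_four (h : Region n B w w₂ H) (hw : 8 ≤ w) :
    2 * n ≤ (w - 4) * (∑ i ∈ range (w / 2), min 4 (H (2 * i + 1) - 4)) + 10 * w := by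
  have h1 : 4 * ∑ i ∈ range (w / 2), (H (2 * i + 1) - 4) ≤
      (w - 4) * ∑ i ∈ range (w / 2), min 4 (H (2 * i + 1) - 4) := by
    rw [mul_sum, mul_sum]
    refine sum_le_sum fun i _ => ?_
    have h2 := h.le_w (2 * i + 1)
    rcases le_total 4 (H (2 * i + 1) - 4) with h3 | h3
    · rw [min_eq_left h3]; omega
    · rw [min_eq_right h3]; exact Nat.mul_le_mul_right _ (by omega)
  have h2 : ∑ i ∈ range (w / 2), H (2 * i + 1) ≤
      ∑ i ∈ range (w / 2), (H (2 * i + 1) - 4) + 4 * (w / 2) := by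
    have h5 : ∑ i ∈ range (w / 2), H (2 * i + 1) ≤
        ∑ i ∈ range (w / 2), ((H (2 * i + 1) - 4) + 4) := sum_le_sum fun i _ => by omega
    rw [sum_add_distrib, sum_const, card_range, smul_eq_mul] at h5
    omega
  have h3 := h.sum_odd_ge
  have h4 := h.wlog
  omega

theorem w_ge (h : Region n B w w₂ H) (hn : 50 ≤ n) : 8 ≤ w := by
  by_contra hcon
  push Not at hcon
  have h1 := h.n_le_sq
  have h2 : w * w ≤ 7 * 7 := Nat.mul_le_mul (by omega) (by omega)
  omega

end Region

section odd2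

variable {M e k q r n w w₂ : ℕ} {H : ℕ → ℕ}

theorem perm_LAg : (Pc.dup e :: Pc.gap (M + 2 - e) ::
    fr4 (M + 1) k (M - e - 1) q r (e + 1) (e - 1) k).Perm (LAg M e k q r) := by
  have h1 : LAg M e k q r = runP (M + 1) k ++ Pc.gap (M + 2 - e) ::
      ((runP (M - e - 1) q ++ sgl r (e + 1)) ++ Pc.dup e :: runP (e - 1) k) := by simp [LAg]
  have h2 : fr4 (M + 1) k (M - e - 1) q r (e + 1) (e - 1) k =
      runP (M + 1) k ++ ((runP (M - e - 1) q ++ sgl r (e + 1)) ++ runP (e - 1) k) := by simp [fr4]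
  rw [h1, h2]
  refine List.Perm.trans ?_ List.perm_middle.symm
  refine List.Perm.trans (List.Perm.swap _ _ _) (List.Perm.cons _ ?_)
  refine List.Perm.trans ?_ (List.Perm.append_left _ List.perm_middle.symm)
  exact List.perm_middle.symm

/-- capacity for `dup e` in narrow diagrams -/
theorem aux_c4 {M e n w S : ℕ} (hM : 10 ≤ M) (he : 2 * e ≤ M) (he1 : 1 ≤ e)
    (hn : 2 * n = M * (M + 1) + 4 * e) (hw : w + e ≤ M + 1) (hw4 : 8 ≤ w)
    (h : 2 * n ≤ (w - 4) * S + 10 * w) : e ≤ S := by
  by_contra hcon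
  push Not at hcon
  obtain ⟨v, rfl⟩ : ∃ v, w = v + 4 := ⟨w - 4, by omega⟩
  rw [Nat.add_sub_cancel] at h
  have h1 : v * S ≤ v * (e - 1) := Nat.mul_le_mul_left _ (by omega)
  obtain ⟨f, rfl⟩ : ∃ f, e = f + 1 := ⟨e - 1, by omega⟩
  rw [Nat.add_sub_cancel] at h1
  have h2 : v * f ≤ (M - 4 - f) * f := Nat.mul_le_mul_right _ (by omega)
  obtain ⟨g, hg⟩ : ∃ g, M = 2 * f + 2 + g := ⟨M - 2 * f - 2, by omega⟩
  have h3 : M - 4 - f + 2 = f + g := by omega
  have h4 : (M - 4 - f) * f + 2 * f = (f + g) * f := by rw [← h3]; ring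
  have h5 : v + 4 + (f + 1) ≤ 2 * f + 2 + g + 1 := by omega
  subst hg
  nlinarith

theorem aux_cg0 {M f n u : ℕ} (hM : 10 ≤ M) (hM1 : f < 2 → 11 ≤ M) (hMu : M = f + u + 4)
    (hn : 2 * n = M * (M + 1) + 4 * (f + 1)) (h : 6 * n ≤ 2 * (u * u) + 32 * u + 84) : False := by
  rcases Nat.lt_or_ge M 11 with h10 | h11
  · have h1 : M = 10 := by omega
    subst h1
    have h2 : u ≤ 4 := by omega
    have h3 : u * u ≤ 4 * 4 := Nat.mul_le_mul h2 h2
    omega
  · have h3 : u * u + f * u ≤ (M - 4) * u := by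
      rw [← add_mul]; exact Nat.mul_le_mul_right _ (by omega)
    obtain ⟨b, hb⟩ : ∃ b, M = b + 11 := ⟨M - 11, by omega⟩
    have h4 : f + u = b + 7 := by omega
    subst hb
    have h5 : u * u + f * u = (b + 7) * u := by rw [← h4]; ring
    have h6 : (b + 7) * u + (b + 7) * f = (b + 7) * (b + 7) := by rw [← h4]; ring
    have h7 : 6 * n = 3 * ((b + 11) * (b + 11 + 1) + 4 * (f + 1)) := by omega
    nlinarith [Nat.zero_le (f * u), Nat.zero_le (b * f)]

/-- capacity for the gap piece in narrow diagrams -/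
theorem aux_cg {M e n w S : ℕ} (hM : 10 ≤ M) (hM1 : e < 3 → 11 ≤ M) (he1 : 1 ≤ e)
    (hn : 2 * n = M * (M + 1) + 4 * e) (hw : w + e ≤ M + 1) (hw4 : 8 ≤ w) (hwn : w ≤ n)
    (h : (w - 1) * (w - 4) + 3 * (n - w) ≤ 2 * ((w - 1) * S)) : M + 3 ≤ S + e := by
  by_contra hcon
  push Not at hcon
  obtain ⟨v, rfl⟩ : ∃ v, w = v + 4 := ⟨w - 4, by omega⟩
  rw [Nat.add_sub_cancel, show v + 4 - 1 = v + 3 by omega] at h
  obtain ⟨d, hd⟩ : ∃ d, M + 1 = e + (v + 4) + d := ⟨M + 1 - e - (v + 4), by omega⟩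
  have h1 : S ≤ v + 5 + d := by omega
  have h2 : (v + 3) * S ≤ (v + 3) * (v + 5 + d) := Nat.mul_le_mul_left _ h1
  obtain ⟨f, rfl⟩ : ∃ f, e = f + 1 := ⟨e - 1, by omega⟩
  have h4 : n - (v + 4) + (v + 4) = n := by omega
  refine aux_cg0 (u := v + d) hM (fun hf => hM1 (by omega)) (by omega) hn ?_
  generalize n - (v + 4) = n' at h h4
  have h5 : (v + 3) * v + 3 * n' ≤ 2 * ((v + 3) * (v + 5 + d)) := by omega
  have h6 : (v + 3) * v + 3 * n ≤ 2 * ((v + 3) * (v + 5 + d)) + 3 * v + 12 := by omega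
  nlinarith [Nat.zero_le (v * d), Nat.zero_le (d * d)]

/-- the rows of the two special pieces -/
theorem exists_rows_g (he1 : 1 ≤ e) (he : 2 * e ≤ M) (hM10 : 10 ≤ M) (hM1 : e < 3 → 11 ≤ M)
    (hn : 2 * n = M * (M + 1) + 4 * e) (R : Region n M w w₂ H) (hw : w + e ≤ M + 1) :
    ∃ y z : ℕ → ℕ,
      (∀ i, w ≤ 2 * i + 1 → y i = 0) ∧ (∀ i, w ≤ 2 * i + 1 → z i = 0) ∧
      (∀ j, y (j / 2) ≤ H j) ∧ (∀ j, z (j / 2) ≤ H j - y (j / 2)) ∧
      (∀ i, 2 * i + 1 < w → M + 1 - e ≤ H (2 * i) → 1 ≤ z i) ∧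
      ∑ i ∈ range (w / 2), y i = e ∧ ∑ i ∈ range (w / 2), z i = M + 1 - e ∧
      ∀ L : List Pc, Decomp L (fun j : Fin w => H j - y (j / 2) - z (j / 2)) →
        Decomp (.dup e :: .gap (M + 2 - e) :: L) fun j : Fin w => H j := by
  have hw10 := R.w_ge (by nlinarith)
  have hcap4 := aux_c4 hM10 he he1 hn hw hw10 (R.cap_four (by omega))
  have hH1 := R.two_H1_ge (by omega) (by omega)
  have hwn : w ≤ n := by
    rw [← R.sum]
    calc w = ∑ _j ∈ range w, 1 := by simp
      _ ≤ ∑ j ∈ range w, H j := sum_le_sum fun j hj => (R.pos j).1 (mem_range.1 hj)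
  have hcapg := aux_cg hM10 hM1 he1 hn hw hw10 hwn (R.cap_all (by omega))
  obtain ⟨y, hyl, hy0, hyle, hysum, hy⟩ := exists_dup (w := w) (c := e) (H := H) (fun _ => 0)
    (fun i => min 4 (H (2 * i + 1) - 4)) (fun i _ => Nat.zero_le _) (fun i _ => min_le_left _ _)
    (fun i _ => by
      have h1 := R.anti (show 2 * i ≤ 2 * i + 1 by omega)
      have h2 : min 4 (H (2 * i + 1) - 4) ≤ H (2 * i + 1) - 4 := min_le_right _ _
      omega) (by simp) hcap4
  have hyu : ∀ i, 2 * i + 1 < w → min 4 (H (2 * i + 1)) ≤ H (2 * i + 1) - y i := by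
    intro i hi
    have h1 := (hyl i hi).2
    have h2 : min 4 (H (2 * i + 1) - 4) ≤ H (2 * i + 1) - 4 := min_le_right _ _
    rcases le_total 4 (H (2 * i + 1)) with h3 | h3
    · rw [min_eq_left h3]; omega
    · rw [min_eq_right h3]; omega
  obtain ⟨z, hzl, hz0, hzle, hzsum, hz⟩ := exists_gap (w := w) (c := M + 2 - e)
    (H := fun j => H j - y (j / 2))
    (fun i => if i = 0 then 2 else if M + 1 - e ≤ H (2 * i) then 1 else 0)
    (fun i => if i = 0 then 2 else min 4 (H (2 * i + 1)))
    (fun i hi => by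
      have h1 := (R.pos (2 * i + 1)).1 hi
      split_ifs with h2 h3
      · exact le_rfl
      · rw [le_min_iff]; omega
      · exact Nat.zero_le _)
    (fun i _ => by split_ifs <;> omega)
    (fun i hi => by
      have h1 := R.anti (show 2 * i ≤ 2 * i + 1 by omega)
      have h2 := hyu i hi
      have e1 : (2 * i + 1) / 2 = i := by omega
      have e2 : 2 * i / 2 = i := by omega
      simp only [e1, e2]
      split_ifs with h3
      · subst h3
        have h4 : 2 ≤ min 4 (H (2 * 0 + 1)) := by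
          rw [le_min_iff]
          have : H (2 * 0 + 1) = H 1 := rfl
          omega
        omega
      · omega)
    0 (by omega) rfl rfl
    (by
      have h1 : ∑ i ∈ range (w / 2), (if i = 0 then 2 else if M + 1 - e ≤ H (2 * i) then 1 else 0) ≤
          ∑ i ∈ range (w / 2), ((if i = 0 then 1 else 0) + 1) := by
        refine sum_le_sum fun i _ => ?_
        split_ifs <;> omega
      rw [sum_add_distrib, sum_const, card_range, smul_eq_mul, mul_one, ← sum_filter, sum_const,
        smul_eq_mul, mul_one] at h1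
      have h2 : (range (w / 2)).filter (fun i => i = 0) ⊆ {0} := by
        intro i hi
        rw [mem_filter] at hi
        rw [mem_singleton]; exact hi.2
      have h3 := card_le_card h2
      rw [card_singleton] at h3
      omega)
    (by
      have h1 : ∑ i ∈ range (w / 2), min 4 (H (2 * i + 1)) ≤
          ∑ i ∈ range (w / 2), ((if i = 0 then 2 else 0) +
            (if i = 0 then 2 else min 4 (H (2 * i + 1)))) := by
        refine sum_le_sum fun i _ => ?_
        have h4 : min 4 (H (2 * i + 1)) ≤ 4 := min_le_left _ _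
        split_ifs <;> omega
      rw [sum_add_distrib] at h1
      have h2 : ∑ i ∈ range (w / 2), (if i = 0 then 2 else 0) ≤ 2 := by
        rw [sum_ite_eq' (range (w / 2)) 0 (fun _ => 2)]
        split_ifs <;> omega
      omega)
  refine ⟨y, z, hy0, hz0, hyle, hzle, ?_, hysum, by omega, fun L hL => hy _ (hz _ hL)⟩
  intro i hi h1
  have h2 := (hzl i hi).1
  split_ifs at h2 <;> omega

/-- narrow diagrams: columns after the removal of the special pieces, `e ≤ 3` -/
theorem aux_sq {M e n : ℕ} (hM : 10 ≤ M) (he : e ≤ 3) (hn : 2 * n = M * (M + 1) + 4 * e)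
    (h : (M + 1 - e) * (M + 1 - e) ≤ n) : False := by
  have h2 : (M - 2) * (M - 2) ≤ (M + 1 - e) * (M + 1 - e) := Nat.mul_le_mul (by omega) (by omega)
  obtain ⟨b, rfl⟩ : ∃ b, M = b + 10 := ⟨M - 10, by omega⟩
  rw [show b + 10 - 2 = b + 8 by omega] at h2
  have h3 := h2.trans h
  nlinarith

theorem aux_Jg {M e S J a b t : ℕ} (hS : 2 * S + 4 * M + 4 = M * (M + 1) + 4 * e)
    (hJ : 2 * J + a = M)
    (h : (M - a) * b + 2 * t + 4 * M + 4 ≤ M * (M + 1) + 4 * e) : J * b + t ≤ S := by
  have e4 : 2 * (J * b) = (M - a) * b := by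
    rw [← mul_assoc]; congr 1; omega
  omega

set_option maxHeartbeats 1000000 in
theorem decomp_LAg (hk : e = 2 * k + 1) (hM : M = 2 * e + 1 + 2 * q + r) (hr : r < 2)
    (hM9 : 9 ≤ M) (hM1 : e < 3 → 11 ≤ M) (hn : 2 * n = M * (M + 1) + 4 * e)
    (R : Region n M w w₂ H) (hw : w + e ≤ M + 1) :
    Decomp (LAg M e k q r) fun j : Fin w => H j := by
  have hM10 : 10 ≤ M := by
    by_contra hcon
    have h1 : M = 9 := by omega
    subst h1
    have h2 : e = 3 := by omega
    subst h2
    have h3 := R.n_le_sq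
    have h4 : w * w ≤ 7 * 7 := Nat.mul_le_mul (by omega) (by omega)
    omega
  obtain ⟨y, z, hy0, hz0, hyle, hzle, hz1, hysum, hzsum, hyz⟩ :=
    exists_rows_g (by omega) (by omega) hM10 hM1 hn R hw
  refine (hyz _ ?_).perm perm_LAg
  have hsz := size_frAg (M := M) hk hM hr
  have hs := sum_sub_half (w := w) hy0 hyle
  have hs2 := sum_sub_half (w := w) (H := fun j => H j - y (j / 2)) hz0 hzle
  rw [hysum, R.sum] at hs
  rw [hzsum] at hs2
  have htot : ∑ j ∈ range w, (H j - y (j / 2) - z (j / 2)) =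
      ((fr4 (M + 1) k (M - e - 1) q r (e + 1) (e - 1) k).map Pc.size).sum := by omega
  have hle : ∀ j, H j - y (j / 2) - z (j / 2) ≤ M + 1 - e := by
    intro j
    have := R.le_w j
    omega
  have hle3 : e ≤ 3 → ∀ j, j < w → H j - y (j / 2) - z (j / 2) ≤ M - e := by
    intro he3 j hj
    by_contra hcon
    push Not at hcon
    have h1 := R.le_w j
    have h2 : H j = M + 1 - e := by omega
    by_cases h3 : 2 * (j / 2) + 1 < w
    · have h4 := R.anti (show 2 * (j / 2) ≤ j by omega)
      have h5 := hz1 (j / 2) h3 (by omega)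
      omega
    · have h4 := R.mul_le_n hj
      rw [h2] at h4
      have h5 : j + 1 = M + 1 - e := by omega
      rw [h5] at h4
      exact aux_sq hM10 he3 hn h4
  have hH : ∀ j, j < w → (H j - y (j / 2) - z (j / 2)) + 3 ≤ 4 * (k + q + k) + r := by
    intro j _
    have h1 := hle j
    omega
  rcases Nat.eq_zero_or_pos k with hk0 | hk1
  · -- `e = 1`
    subst hk0
    have he : e = 1 := by omega
    have hfr : fr4 (M + 1) 0 (M - e - 1) q r (e + 1) (e - 1) 0 =
        fr4 1 0 (M - e - 1) q r (e + 1) (e - 1) 0 := rfl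
    rw [hfr] at htot ⊢
    have hsz' : 2 * ((fr4 1 0 (M - e - 1) q r (e + 1) (e - 1) 0).map Pc.size).sum + 4 * M + 4 =
      M * (M + 1) + 4 * e := by rw [← hfr]; exact hsz
    have hP : ∀ J a t, 2 * J + a = M → (M - a) * (M - 1) + 2 * t + 4 * M + 4 ≤
        M * (M + 1) + 4 * e → J * (M - 1) + t ≤
        ((fr4 1 0 (M - e - 1) q r (e + 1) (e - 1) 0).map Pc.size).sum := fun J a t h1 h2 =>
      aux_Jg hsz' h1 h2
    have hB : ∀ i j, i < w → j < w → i ≠ j → (H i - y (i / 2) - z (i / 2)) +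
        (H j - y (j / 2) - z (j / 2)) ≤ 2 * (M - 1) := by
      intro i j hi hj _
      have h1 := hle3 (by omega) i hi
      have h2 := hle3 (by omega) j hj
      omega
    refine decomp_fr4 (H := fun j => H j - y (j / 2) - z (j / 2)) (by omega) (by omega) (by omega)
      (by omega) htot (M - 1) q hB hH ?_ (by omega) (by omega) (by omega) (by omega)
    subst he
    interval_cases r
    · have e1 : 1 - 2 * q = 0 := by omega
      have e2 : M - 1 - 1 - 2 * q = 1 := by omega
      have e3 : 1 - 1 - 2 * q = 0 := by omega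
      rw [e1, e2, e3, tri_one, tri_zero, zero_mul]
      refine hP _ 3 _ (by omega) ?_
      obtain ⟨b, hb⟩ : ∃ b, M = b + 10 := ⟨M - 10, by omega⟩
      rw [hb, show b + 10 - 1 = b + 9 by omega, show b + 10 - 3 = b + 7 by omega]
      nlinarith
    · have e1 : 1 - 2 * q = 0 := by omega
      have e2 : M - 1 - 1 - 2 * q = 2 := by omega
      have e3 : 1 - 1 - 2 * q = 0 := by omega
      have e5 : 1 + 1 - q = 0 := by omega
      rw [e1, e2, e3, e5, tri_two, tri_zero, mul_zero]
      refine hP _ 4 _ (by omega) ?_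
      obtain ⟨b, hb⟩ : ∃ b, M = b + 10 := ⟨M - 10, by omega⟩
      rw [hb, show b + 10 - 1 = b + 9 by omega, show b + 10 - 4 = b + 6 by omega]
      nlinarith
  · have hP : ∀ b a t, 2 * (M / 2) + a = M → (M - a) * b + 2 * t + 4 * M + 4 ≤
        M * (M + 1) + 4 * e → (M / 2) * b + t ≤
        ((fr4 (M + 1) k (M - e - 1) q r (e + 1) (e - 1) k).map Pc.size).sum := fun b a t h1 h2 =>
      aux_Jg hsz h1 h2
    by_cases he5 : 5 ≤ e
    · refine decomp_fr4 (H := fun j => H j - y (j / 2) - z (j / 2)) (by omega) (by omega) (by omega)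
        (by omega) htot (M + 1 - e) (M / 2) ?_ hH ?_ (by omega) (by omega) (by omega) (by omega)
      · intro i j _ _ _
        have h1 := hle i
        have h2 := hle j
        omega
      · have e3 : e - 1 - 2 * (M / 2) = 0 := by omega
        have e2 : M - e - 1 - 2 * (M / 2) = 0 := by omega
        have e6 : M + 1 - e + e = M + 1 := by omega
        interval_cases r
        · have e1 : M + 1 - 2 * (M / 2) = 2 := by omega
          rw [e1, e2, e3, tri_two, tri_zero, zero_mul]
          refine hP _ 1 _ (by omega) ?_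
          obtain ⟨b, hb⟩ : ∃ b, M = b + 10 := ⟨M - 10, by omega⟩
          generalize M + 1 - e = X at e6 ⊢
          subst hb
          rw [show b + 10 - 1 = b + 9 by omega]
          have h7 : X = b + 11 - e := by omega
          nlinarith
        · have e1 : M + 1 - 2 * (M / 2) = 1 := by omega
          have e5 : e + 1 - M / 2 = 0 := by omega
          rw [e1, e2, e3, e5, tri_one, tri_zero, mul_zero]
          refine hP _ 0 _ (by omega) ?_
          obtain ⟨b, hb⟩ : ∃ b, M = b + 10 := ⟨M - 10, by omega⟩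
          generalize M + 1 - e = X at e6 ⊢
          subst hb
          rw [Nat.sub_zero]
          nlinarith
    · have he3 : e = 3 := by omega
      subst he3
      refine decomp_fr4 (H := fun j => H j - y (j / 2) - z (j / 2)) (by omega) (by omega) (by omega)
        (by omega) htot (M - 3) (M / 2) ?_ hH ?_ (by omega) (by omega) (by omega) (by omega)
      · intro i j hi hj _
        have h1 := hle3 (by omega) i hi
        have h2 := hle3 (by omega) j hj
        omega
      · have e3 : 3 - 1 - 2 * (M / 2) = 0 := by omega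
        have e2 : M - 3 - 1 - 2 * (M / 2) = 0 := by omega
        interval_cases r
        · have e1 : M + 1 - 2 * (M / 2) = 2 := by omega
          rw [e1, e2, e3, tri_two, tri_zero, zero_mul]
          refine hP _ 1 _ (by omega) ?_
          obtain ⟨b, hb⟩ : ∃ b, M = b + 10 := ⟨M - 10, by omega⟩
          rw [hb, show b + 10 - 1 = b + 9 by omega, show b + 10 - 3 = b + 7 by omega]
          nlinarith
        · have e1 : M + 1 - 2 * (M / 2) = 1 := by omega
          have e5 : 3 + 1 - M / 2 = 0 := by omega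
          rw [e1, e2, e3, e5, tri_one, tri_zero, mul_zero]
          refine hP _ 0 _ (by omega) ?_
          obtain ⟨b, hb⟩ : ∃ b, M = b + 10 := ⟨M - 10, by omega⟩
          rw [hb, Nat.sub_zero, show b + 10 - 3 = b + 7 by omega]
          nlinarith

end odd2

end Crest.Agent.R195
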