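import Crest.Agent.R195.FamB

/-! Row 195, S0298.  Coverage of family B, `e ≥ 2` even. -/

set_option autoImplicit false
set_option linter.unusedSectionVars false
set_option linter.unusedDecidableInType false

namespace Crest.Agent.R195

open Finset

/-- cells: column `0`, the columns `1, …, w₂ - 1` of height at most `H 1`, the rest -/
theorem Region.le_three {n M w w₂ : ℕ} {H : ℕ → ℕ} (h : Region n M w w₂ H) (h2 : 2 ≤ w₂) :
    n + w₂ ≤ H 0 + (w₂ - 1) * H 1 + w := by
  have h3 := h.w₂_le
  have e : ∑ j ∈ range w, H j = H 0 + ∑ j ∈ Ico 1 w₂, H j + ∑ j ∈ Ico w₂ w, H j := by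
    have a1 : ∑ j ∈ range w, H j = ∑ j ∈ range w₂, H j + ∑ j ∈ Ico w₂ w, H j := by
      rw [sum_range_add_sum_Ico _ h3]
    have a2 : ∑ j ∈ range w₂, H j = ∑ j ∈ range 1, H j + ∑ j ∈ Ico 1 w₂, H j := by
      rw [sum_range_add_sum_Ico _ (show 1 ≤ w₂ by omega)]
    rw [a1, a2, sum_range_one]
  have e2 : ∑ j ∈ Ico 1 w₂, H j ≤ (w₂ - 1) * H 1 := by
    calc ∑ j ∈ Ico 1 w₂, H j ≤ ∑ _j ∈ Ico 1 w₂, H 1 :=
          sum_le_sum fun j hj => h.anti (by rw [mem_Ico] at hj; omega)
      _ = (w₂ - 1) * H 1 := by rw [sum_const, Nat.card_Ico, smul_eq_mul]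
  have e3 : ∑ j ∈ Ico w₂ w, H j ≤ w - w₂ := by
    calc ∑ j ∈ Ico w₂ w, H j ≤ ∑ _j ∈ Ico w₂ w, 1 := sum_le_sum fun j hj => by
          rw [mem_Ico] at hj
          by_contra hcon
          push Not at hcon
          have := (h.two j).2 hcon
          omega
      _ = w - w₂ := by rw [sum_const, Nat.card_Ico, smul_eq_mul, mul_one]
  have h4 := h.sum
  omega

theorem regionB {m e w w₂ : ℕ} {H : ℕ → ℕ} (hm : 5 ≤ m) (he : 2 ≤ e)
    (hr : Region (m * (2 * m + 1) + 2 * e + 1) (2 * m) w w₂ H) :
    m + 3 ≤ w ∧ w ≤ 3 * m ∧ H 0 ≤ 3 * m - 2 := by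
  have h1 := hr.le_sq
  have h2 : 2 ≤ w₂ := hr.two_le (by nlinarith)
  have h3 := hr.le_two h2
  have h4 := hr.row
  have h6 := hr.le_three h2
  have h7 := hr.col
  have h8 := hr.wlog
  obtain ⟨k, rfl⟩ : ∃ k, m = k + 5 := ⟨m - 5, by omega⟩
  have h5 : k + 5 ≤ w₂ := by
    by_contra hcon
    push Not at hcon
    obtain ⟨d, hd⟩ : ∃ d, w₂ + d = k + 4 := ⟨k + 4 - w₂, by omega⟩
    have : w₂ = k + 4 - d := by omega
    nlinarith
  refine ⟨?_, by omega, ?_⟩
  · by_contra hcon
    push Not at hcon
    have : w ≤ k + 7 := by omega
    nlinarith [Nat.mul_le_mul this this]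
  · by_contra hcon
    push Not at hcon
    have a1 : H 1 ≤ k + 6 := by omega
    have a2 : w₂ ≤ k + 6 := by omega
    obtain ⟨v, rfl⟩ : ∃ v, w₂ = v + 1 := ⟨w₂ - 1, by omega⟩
    simp only [Nat.add_sub_cancel] at h6
    have a3 : v * H 1 ≤ v * (k + 6) := Nat.mul_le_mul_left _ a1
    have a4 : v * (k + 3) ≤ (k + 5) * (k + 3) := Nat.mul_le_mul_right _ (by omega)
    nlinarith

/-- **Coverage of family B, `e ≥ 2` even.** -/
theorem covB_even {m e : ℕ} (hm : 7 ≤ m) (he : e < m) (f : ℕ) (hf : e = 2 * f) (hf1 : 1 ≤ f) :
    CovB m e := by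
  intro H w w₂ hr
  have hv := validH_hBm he
  have hsz := hsize_hBm he
  rw [if_neg (by omega)] at hr
  have hr' := hr
  rw [hsz] at hr'
  obtain ⟨hw1, hw2, hH0⟩ := regionB (by omega) (by omega) hr'
  have hwl := hr.wlog
  -- the list of pieces
  have hlist : ∃ L₁ L₂ L₃ : List Pc,
      validP (L₁ ++ .dup (m + 1) :: (L₂ ++ .dup e :: L₃)) ∧
      (∀ s, (colsP (L₁ ++ .dup (m + 1) :: (L₂ ++ .dup e :: L₃))).getD s 0 = cl (hBm m e) s) ∧
      (∀ p ∈ L₁ ++ (L₂ ++ L₃), p.free) ∧
      3 * m - 2 ≤ FL (L₁ ++ (L₂ ++ L₃)) 1 ∧
      ((L₁ ++ (L₂ ++ L₃)).map Pc.size).sum ≤ FL (L₁ ++ (L₂ ++ L₃)) (m - 1) +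
        (if m % 2 = 0 then 9 else 6) ∧
      ((L₁ ++ (L₂ ++ L₃)).map Pc.size).sum ≤ FL (L₁ ++ (L₂ ++ L₃)) (m - 2) +
        (if m % 2 = 0 then 23 else 18) ∧
      ∀ J, m - 1 < J → ((L₁ ++ (L₂ ++ L₃)).map Pc.size).sum ≤
        FL (L₁ ++ (L₂ ++ L₃)) J + (m + 3 - J) := by
    rcases Nat.even_or_odd' m with ⟨t, ht | ht⟩
    · -- `m` even
      have hk : ∃ k, m = e + 2 * k + 2 := ⟨t - f - 1, by omega⟩
      obtain ⟨k, hk⟩ := hk
      refine ⟨runP (2 * m + 1) f ++ (runP (2 * m - e) k ++ [.rect (m + 2) 1]),
        runP (m - 1) k ++ [.rect (e + 1) 1], runP (e - 1) f, ?_, ?_, ?_, ?_, ?_, ?_, ?_⟩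
      · rw [List.append_assoc, List.append_assoc, List.append_assoc]
        have v3 : validP (.dup e :: runP (e - 1) f) := by
          refine ⟨by simp only [Pc.low, Pc.top]; omega, fun q hq => ?_, validP_runP (by omega)⟩
          have := top_runP q hq
          simp only [Pc.next]; omega
        have v2 : validP (.rect (e + 1) 1 :: .dup e :: runP (e - 1) f) := by
          refine ⟨by simp only [Pc.low, Pc.top]; omega, fun q hq => ?_, v3⟩
          rw [List.mem_cons] at hq
          rcases hq with rfl | hq
          · simp [Pc.top, Pc.next]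
          · have := top_runP q hq
            simp only [Pc.next]; omega
        have t2 : ∀ q ∈ (.rect (e + 1) 1 :: .dup e :: runP (e - 1) f : List Pc), q.top ≤ e + 1 := by
          intro q hq
          simp only [List.mem_cons] at hq
          rcases hq with rfl | rfl | hq
          · simp [Pc.top]
          · simp [Pc.top]
          · have := top_runP q hq
            omega
        have v1 : validP (.dup (m + 1) :: (runP (m - 1) k ++ .rect (e + 1) 1 :: .dup e ::
            runP (e - 1) f)) := by
          refine ⟨by simp only [Pc.low, Pc.top]; omega, fun q hq => ?_,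
            validP_runP_append (by omega) v2 fun q hq => (t2 q hq).trans (by omega)⟩
          rw [List.mem_append] at hq
          rcases hq with hq | hq
          · have := top_runP q hq
            simp only [Pc.next]; omega
          · have := t2 q hq
            simp only [Pc.next]; omega
        have t1 : ∀ q ∈ (.dup (m + 1) :: (runP (m - 1) k ++ .rect (e + 1) 1 :: .dup e ::
            runP (e - 1) f) : List Pc), q.top ≤ m + 1 := by
          intro q hq
          rw [List.mem_cons, List.mem_append] at hq
          rcases hq with rfl | hq | hq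
          · simp [Pc.top]
          · have := top_runP q hq
            omega
          · have := t2 q hq
            omega
        have v0 : validP (.rect (m + 2) 1 :: .dup (m + 1) :: (runP (m - 1) k ++
            .rect (e + 1) 1 :: .dup e :: runP (e - 1) f)) := by
          refine ⟨by simp only [Pc.low, Pc.top]; omega, fun q hq => ?_, v1⟩
          have := t1 q hq
          simp only [Pc.next]; omega
        have t0 : ∀ q ∈ (.rect (m + 2) 1 :: .dup (m + 1) :: (runP (m - 1) k ++
            .rect (e + 1) 1 :: .dup e :: runP (e - 1) f) : List Pc), q.top ≤ m + 2 := by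
          intro q hq
          rw [List.mem_cons] at hq
          rcases hq with rfl | hq
          · simp [Pc.top]
          · have := t1 q hq
            omega
        refine validP_runP_append (by omega) (validP_runP_append (by omega) v0 fun q hq =>
          (t0 q hq).trans (by omega)) fun q hq => ?_
        rw [List.mem_append] at hq
        rcases hq with hq | hq
        · have := top_runP q hq
          omega
        · have := t0 q hq
          omega
      · intro s
        rw [List.append_assoc, getD_runP_append, List.append_assoc, getD_runP_append,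
          List.cons_append, getD_rect_cons, List.nil_append, getD_dup_cons, List.append_assoc,
          getD_runP_append, List.cons_append, getD_rect_cons, List.nil_append, getD_dup_cons,
          getD_colsP_runP, cl_hBm he]
        split_ifs <;> omega
      · intro p hp
        simp only [List.mem_append, List.mem_singleton] at hp
        rcases hp with (hp | hp | rfl) | (hp | rfl) | hp
        · exact free_runP p hp
        · exact free_runP p hp
        · trivial
        · exact free_runP p hp
        · trivial
        · exact free_runP p hp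
      · simp only [FL_append, FL_rect, FL_nil]
        rw [FL_one_runP (by omega), FL_one_runP (by omega), FL_one_runP (by omega)]
        have := FL_one_runP' (m := e - 1) (k := f) (by omega)
        have h1 : min (m + 2) 1 = 1 := by omega
        have h2 : min (e + 1) 1 = 1 := by omega
        omega
      · rw [if_pos (by omega)]
        simp only [FL_append, FL_rect, FL_nil, List.map_append, List.sum_append, List.map_cons,
          List.map_nil, List.sum_cons, List.sum_nil, Pc.size]
        have h1 := size_le_FL_runP (2 * m + 1) f (m - 1)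
        have h2 := size_le_FL_runP (2 * m - e) k (m - 1)
        have h3 := size_le_FL_runP (m - 1) k (m - 1)
        have h4 := size_le_FL_runP (e - 1) f (m - 1)
        rw [show 2 * m + 1 - 2 * (m - 1) = 3 by omega, tri_three] at h1
        rw [show 2 * m - e - 2 * (m - 1) = 0 by omega, tri_zero] at h2
        rw [show m - 1 - 2 * (m - 1) = 0 by omega, tri_zero] at h3
        rw [show e - 1 - 2 * (m - 1) = 0 by omega, tri_zero] at h4
        omega
      · rw [if_pos (by omega)]
        simp only [FL_append, FL_rect, FL_nil, List.map_append, List.sum_append, List.map_cons,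
          List.map_nil, List.sum_cons, List.sum_nil, Pc.size]
        have h1 := size_le_FL_runP (2 * m + 1) f (m - 2)
        have h2 := size_le_FL_runP (2 * m - e) k (m - 2)
        have h3 := size_le_FL_runP (m - 1) k (m - 2)
        have h4 := size_le_FL_runP (e - 1) f (m - 2)
        have h5 : tri (2 * m - e - 2 * (m - 2)) ≤ 3 := by
          rcases Nat.lt_or_ge e 3 with h | h
          · rw [show 2 * m - e - 2 * (m - 2) = 2 by omega, tri_two]
          · rcases Nat.lt_or_ge e 4 with h' | h'
            · omega
            · rw [show 2 * m - e - 2 * (m - 2) = 0 by omega, tri_zero]; omega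
        rw [show 2 * m + 1 - 2 * (m - 2) = 5 by omega, tri_five] at h1
        rw [show m - 1 - 2 * (m - 2) = 0 by omega, tri_zero] at h3
        rw [show e - 1 - 2 * (m - 2) = 0 by omega, tri_zero] at h4
        omega
      · intro J hJ
        simp only [FL_append, FL_rect, FL_nil, List.map_append, List.sum_append, List.map_cons,
          List.map_nil, List.sum_cons, List.sum_nil, Pc.size]
        have h1 := size_le_FL_runP (2 * m + 1) f J
        have h2 := size_le_FL_runP (2 * m - e) k J
        have h3 := size_le_FL_runP (m - 1) k J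
        have h4 := size_le_FL_runP (e - 1) f J
        rw [show 2 * m - e - 2 * J = 0 by omega, tri_zero] at h2
        rw [show m - 1 - 2 * J = 0 by omega, tri_zero] at h3
        rw [show e - 1 - 2 * J = 0 by omega, tri_zero] at h4
        rcases Nat.lt_or_ge m J with h | h
        · rw [show 2 * m + 1 - 2 * J = 0 by omega, tri_zero] at h1
          omega
        · rw [show 2 * m + 1 - 2 * J = 1 by omega, tri_one] at h1
          omega
    · -- `m` odd
      have hk : ∃ k, m = e + 2 * k + 1 := ⟨t - f, by omega⟩
      obtain ⟨k, hk⟩ := hk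
      refine ⟨runP (2 * m + 1) f ++ runP (2 * m - e) k, runP (m - 1) k, runP (e - 1) f,
        ?_, ?_, ?_, ?_, ?_, ?_, ?_⟩
      · rw [List.append_assoc]
        have v3 : validP (.dup e :: runP (e - 1) f) := by
          refine ⟨by simp only [Pc.low, Pc.top]; omega, fun q hq => ?_, validP_runP (by omega)⟩
          have := top_runP q hq
          simp only [Pc.next]; omega
        have t3 : ∀ q ∈ (.dup e :: runP (e - 1) f : List Pc), q.top ≤ e := by
          intro q hq
          simp only [List.mem_cons] at hq
          rcases hq with rfl | hq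
          · simp [Pc.top]
          · have := top_runP q hq
            omega
        have v1 : validP (.dup (m + 1) :: (runP (m - 1) k ++ .dup e :: runP (e - 1) f)) := by
          refine ⟨by simp only [Pc.low, Pc.top]; omega, fun q hq => ?_,
            validP_runP_append (by omega) v3 fun q hq => (t3 q hq).trans (by omega)⟩
          rw [List.mem_append] at hq
          rcases hq with hq | hq
          · have := top_runP q hq
            simp only [Pc.next]; omega
          · have := t3 q hq
            simp only [Pc.next]; omega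
        have t1 : ∀ q ∈ (.dup (m + 1) :: (runP (m - 1) k ++ .dup e :: runP (e - 1) f) : List Pc),
            q.top ≤ m + 1 := by
          intro q hq
          rw [List.mem_cons, List.mem_append] at hq
          rcases hq with rfl | hq | hq
          · simp [Pc.top]
          · have := top_runP q hq
            omega
          · have := t3 q hq
            omega
        refine validP_runP_append (by omega) (validP_runP_append (by omega) v1 fun q hq =>
          (t1 q hq).trans (by omega)) fun q hq => ?_
        rw [List.mem_append] at hq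
        rcases hq with hq | hq
        · have := top_runP q hq
          omega
        · have := t1 q hq
          omega
      · intro s
        rw [List.append_assoc, getD_runP_append, getD_runP_append, getD_dup_cons,
          getD_runP_append, getD_dup_cons, getD_colsP_runP, cl_hBm he]
        split_ifs <;> omega
      · intro p hp
        simp only [List.mem_append] at hp
        rcases hp with (hp | hp) | hp | hp <;> exact free_runP p hp
      · simp only [FL_append]
        rw [FL_one_runP (by omega), FL_one_runP (by omega), FL_one_runP (by omega)]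
        have := FL_one_runP' (m := e - 1) (k := f) (by omega)
        omega
      · rw [if_neg (by omega)]
        simp only [FL_append, List.map_append, List.sum_append]
        have h1 := size_le_FL_runP (2 * m + 1) f (m - 1)
        have h2 := size_le_FL_runP (2 * m - e) k (m - 1)
        have h3 := size_le_FL_runP (m - 1) k (m - 1)
        have h4 := size_le_FL_runP (e - 1) f (m - 1)
        rw [show 2 * m + 1 - 2 * (m - 1) = 3 by omega, tri_three] at h1
        rw [show 2 * m - e - 2 * (m - 1) = 0 by omega, tri_zero] at h2
        rw [show m - 1 - 2 * (m - 1) = 0 by omega, tri_zero] at h3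
        rw [show e - 1 - 2 * (m - 1) = 0 by omega, tri_zero] at h4
        omega
      · rw [if_neg (by omega)]
        simp only [FL_append, List.map_append, List.sum_append]
        have h1 := size_le_FL_runP (2 * m + 1) f (m - 2)
        have h2 := size_le_FL_runP (2 * m - e) k (m - 2)
        have h3 := size_le_FL_runP (m - 1) k (m - 2)
        have h4 := size_le_FL_runP (e - 1) f (m - 2)
        have h5 : tri (2 * m - e - 2 * (m - 2)) ≤ 3 := by
          rcases Nat.lt_or_ge e 3 with h | h
          · rw [show 2 * m - e - 2 * (m - 2) = 2 by omega, tri_two]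
          · rcases Nat.lt_or_ge e 4 with h' | h'
            · omega
            · rw [show 2 * m - e - 2 * (m - 2) = 0 by omega, tri_zero]; omega
        rw [show 2 * m + 1 - 2 * (m - 2) = 5 by omega, tri_five] at h1
        rw [show m - 1 - 2 * (m - 2) = 0 by omega, tri_zero] at h3
        rw [show e - 1 - 2 * (m - 2) = 0 by omega, tri_zero] at h4
        omega
      · intro J hJ
        simp only [FL_append, List.map_append, List.sum_append]
        have h1 := size_le_FL_runP (2 * m + 1) f J
        have h2 := size_le_FL_runP (2 * m - e) k J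
        have h3 := size_le_FL_runP (m - 1) k J
        have h4 := size_le_FL_runP (e - 1) f J
        rw [show 2 * m - e - 2 * J = 0 by omega, tri_zero] at h2
        rw [show m - 1 - 2 * J = 0 by omega, tri_zero] at h3
        rw [show e - 1 - 2 * J = 0 by omega, tri_zero] at h4
        rcases Nat.lt_or_ge m J with h | h
        · rw [show 2 * m + 1 - 2 * J = 0 by omega, tri_zero] at h1
          omega
        · rw [show 2 * m + 1 - 2 * J = 1 by omega, tri_one] at h1
          omega
  obtain ⟨L₁, L₂, L₃, hL1, hL2, hL3, hL4, hL5, hL5', hL6⟩ := hlist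
  refine ⟨_, hL1, hL2, ?_⟩
  have htot := sum_size_of_cols hv hL1 hL2
  rw [hsz] at htot
  obtain ⟨k, rfl⟩ : ∃ k, m = k + 7 := ⟨m - 7, by omega⟩
  have st := St.of_region (Q := (k + 7) * (k + 4) + e) hr (by
    rw [hsz]
    nlinarith)
  obtain ⟨H', st', hle', hdec'⟩ := st.dup (c := k + 7 + 1) (by omega) (by
    have : 2 * (k + 7) - 1 = 2 * k + 13 := by omega
    rw [this]
    nlinarith)
  obtain ⟨H'', st'', hle'', hdec''⟩ := st'.dup (c := e) (by omega) (by
    have h1 : 2 * (k + 7) - 1 = 2 * k + 13 := by omega
    have h2 : (k + 7) * (k + 4) + e - (k + 7 + 1) = (k + 6) * (k + 4) + e - 4 := by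
      have : (k + 7) * (k + 4) = (k + 6) * (k + 4) + (k + 4) := by ring
      omega
    rw [h1, h2]
    have h3 : (2 * k + 13) * e ≤ 4 * ((k + 6) * (k + 4) + e) - 4 * 4 := by
      have h4 : (2 * k + 9) * e ≤ (2 * k + 9) * (k + 6) := Nat.mul_le_mul_left _ (by omega)
      have h5 : (2 * k + 13) * e + 16 ≤ 4 * ((k + 6) * (k + 4) + e) := by nlinarith
      omega
    omega)
  have hperm : (Pc.dup (k + 7 + 1) :: Pc.dup e :: (L₁ ++ (L₂ ++ L₃))).Perm
      (L₁ ++ .dup (k + 7 + 1) :: (L₂ ++ .dup e :: L₃)) := by
    have p1 : (L₁ ++ .dup (k + 7 + 1) :: (L₂ ++ .dup e :: L₃)).Perm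
        (.dup (k + 7 + 1) :: (L₁ ++ (L₂ ++ .dup e :: L₃))) := List.perm_middle
    have p2 : (L₁ ++ (L₂ ++ .dup e :: L₃)).Perm (.dup e :: (L₁ ++ (L₂ ++ L₃))) := by
      rw [← List.append_assoc, ← List.append_assoc]
      exact List.perm_middle
    exact ((p1.trans (p2.cons _))).symm
  refine Decomp.perm hperm (hdec' _ (hdec'' _ ?_))
  have hN : hsize (hBm (k + 7) e) - 2 * (k + 7 + 1) - 2 * e =
      ((L₁ ++ (L₂ ++ L₃)).map Pc.size).sum := by
    rw [hsz, ← htot]
    simp only [List.map_append, List.sum_append, List.map_cons, List.sum_cons, Pc.size]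
    omega
  have hN' : (k + 7) * (2 * (k + 7) + 1) + 1 =
      ((L₁ ++ (L₂ ++ L₃)).map Pc.size).sum + 2 * (k + 7 + 1) := by
    rw [← hN, hsz]
    have : 2 * (k + 7 + 1) ≤ (k + 7) * (2 * (k + 7) + 1) := by nlinarith
    omega
  have hH : ∀ j, H'' j ≤ H 0 := fun j => (hle'' j).trans ((hle' j).trans (hr.le_H0 j))
  have hcap : ∀ j, j < w → H'' j ≤ FL (L₁ ++ (L₂ ++ L₃)) 1 := by
    intro j _
    have := hH j
    omega
  rcases Nat.lt_or_ge w (2 * (k + 7)) with hw | hw
  · -- all columns are at most `2m - 1`
    have st3 : St (2 * (k + 7)) (2 * (2 * (k + 7) - 1)) w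
        (hsize (hBm (k + 7) e) - 2 * (k + 7 + 1) - 2 * e)
        ((k + 7) * (k + 4) + e - (k + 7 + 1) - e) H'' :=
      { st'' with
        two := fun i j _ _ _ => by
          have h1 := hH i
          have h2 := hH j
          omega }
    refine st3.free _ hL3 hN (k + 7 - 1) hcap ?_ ?_
    · have e1 : k + 7 - 1 = k + 6 := by omega
      have e2 : 2 * (2 * (k + 7) - 1) = 4 * k + 26 := by omega
      rw [e1] at hL5 ⊢
      rw [e2]
      split_ifs at hL5 <;> nlinarith
    · intro J hJ
      have := hL6 J hJ
      omega
  · refine st''.free _ hL3 hN (k + 7 - 2) hcap ?_ ?_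
    · have e1 : k + 7 - 2 = k + 5 := by omega
      rw [e1] at hL5' ⊢
      split_ifs at hL5' with hpar
      · have hk1 : 1 ≤ k := by omega
        nlinarith
      · nlinarith
    · intro J hJ
      rcases Nat.lt_or_ge (k + 7 - 1) J with h | h
      · have := hL6 J h
        omega
      · have : J = k + 7 - 1 := by omega
        rw [this]
        split_ifs at hL5 <;> omega

end Crest.Agent.R195
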