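import Crest.Agent.R195.Fam
import Crest.Agent.R195.CovB0
import Crest.Agent.R195.CovBeven

/-! Row 195, S0298.  Coverage of family B for even `e` in the form of `Fam.lean`. -/

set_option autoImplicit false

namespace Crest.Agent.R195

open Finset

theorem hB_eq_hBm {m e : ℕ} : hB (2 * m) e = hBm m e := by
  unfold hB hBm
  rw [show 2 * m - 2 * e = 2 * (m - e) by omega, show 2 * m / 2 - e = m - e by omega]

theorem covH_hB_of {m e : ℕ} (he : e < m) (h : CovB m e) : CovH (hB (2 * m) e) := by
  rw [hB_eq_hBm]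
  intro H w w₂ hr
  refine h H w w₂ ?_
  have : (hBm m e).headD 0 - 1 = if e = 0 then 2 * m - 1 else 2 * m := by
    unfold hBm
    rw [headD_runH]
    split_ifs with h0
    · subst h0
      rw [Nat.sub_zero, headD_coreB (by omega)]
    · omega
  rw [← this]
  exact hr

/-- **Family B, `e` even.** -/
theorem covB_even' (M e : ℕ) (hM : M % 2 = 0) (hM0 : 14 ≤ M) (he : 2 * e + 2 ≤ M)
    (hev : e % 2 = 0) : CovH (hB M e) := by
  obtain ⟨m, rfl⟩ : ∃ m, M = 2 * m := ⟨M / 2, by omega⟩
  refine covH_hB_of (by omega) ?_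
  rcases Nat.eq_zero_or_pos e with rfl | h0
  · exact covB_zero (by omega)
  · exact covB_even (by omega) (by omega) (e / 2) (by omega) (by omega)

/-- **Family B, `e = 0`**, small `M` too. -/
theorem covB_zero' (M : ℕ) (hM : M % 2 = 0) (hM0 : 10 ≤ M) : CovH (hB M 0) := by
  obtain ⟨m, rfl⟩ : ∃ m, M = 2 * m := ⟨M / 2, by omega⟩
  exact covH_hB_of (by omega) (covB_zero (by omega))

end Crest.Agent.R195
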