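import Crest.Agent.R195.Pick

/-! Row 195, S0298 (T3, helper563).  MERGING: a piece `dup c` (or `gap c`) may be merged with a pair
`c₁` into one row with entries at most 4; the row of even type is found afterwards.  Hence the pieces
`dup`, `gap` disappear from the coverage problem: it is enough to decompose with the pair
`c + c₁` (resp. `c + c₁ - 1`) in their place. -/

set_option autoImplicit false

namespace Crest.Agent.R195

open Finset Function

/-- sum of an antitone sequence, every second term doubled -/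
theorem sum_le_double_odd {f : ℕ → ℕ} (hf : Antitone f) (k : ℕ) :
    ∑ j ∈ range (2 * k + 1), f j ≤ f 0 + 2 * ∑ i ∈ range k, f (2 * i + 1) := by
  induction k with
  | zero => simp
  | succ k ih =>
    have h1 := sum_range_succ f (2 * k + 1 + 1)
    have h2 := sum_range_succ f (2 * k + 1)
    have h3 := sum_range_succ (fun i => f (2 * i + 1)) k
    have h4 := hf (show 2 * k + 1 ≤ 2 * k + 1 + 1 by omega)
    rw [show 2 * (k + 1) + 1 = 2 * k + 1 + 1 + 1 by ring, h1, h2, h3]
    omega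

theorem sum_le_double_odd' {f : ℕ → ℕ} (hf : Antitone f) (w : ℕ) :
    ∑ j ∈ range w, f j ≤ f 0 + 2 * ∑ i ∈ range (w / 2), f (2 * i + 1) := by
  refine le_trans ?_ (sum_le_double_odd hf (w / 2))
  exact sum_le_sum_of_subset (range_mono (by omega))

/-- the columns can be sorted -/
theorem exists_sort_fin {w : ℕ} (z : Fin w → ℕ) :
    ∃ (e : Equiv.Perm (Fin w)) (f : ℕ → ℕ), Antitone f ∧ (∀ j : Fin w, f j = z (e j)) ∧
      ∀ i, w ≤ i → f i = 0 := by
  let e : Equiv.Perm (Fin w) := Tuple.sort fun j => OrderDual.toDual (z j)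
  have he : Monotone fun j => OrderDual.toDual (z (e j)) :=
    Tuple.monotone_sort fun j => OrderDual.toDual (z j)
  refine ⟨e, fun i => if h : i < w then z (e ⟨i, h⟩) else 0, ?_, ?_, ?_⟩
  · intro a b hab
    simp only
    by_cases hb : b < w
    · rw [dif_pos hb, dif_pos (lt_of_le_of_lt hab hb)]
      exact he (show (⟨a, lt_of_le_of_lt hab hb⟩ : Fin w) ≤ ⟨b, hb⟩ from hab)
    · rw [dif_neg hb]; exact Nat.zero_le _
  · intro j
    simp only [dif_pos j.2]
  · intro i hi
    simp only [dif_neg (not_lt.mpr hi)]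

/-- general extraction of a row of even type with sum `2 c` from a row with entries at most 4 -/
theorem exists_even_row {w c S : ℕ} (z : Fin w → ℕ) (h4 : ∀ j, z j ≤ 4) (hS : ∑ j, z j = S)
    (hc : 2 * c + 3 ≤ S) : ∃ x : Fin w → ℕ, RowOK (.dup c) x ∧ ∀ j, x j ≤ z j := by
  obtain ⟨e, f, hf, hfe, hf0⟩ := exists_sort_fin z
  have hf4 : ∀ i, f i ≤ 4 := fun i => by
    by_cases hi : i < w
    · rw [hfe ⟨i, hi⟩]; exact h4 _
    · rw [hf0 i (not_lt.mp hi)]; omega
  have hsum : ∑ j ∈ range w, f j = S := by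
    rw [← Fin.sum_univ_eq_sum_range f w, ← hS, ← Equiv.sum_comp e z]
    exact sum_congr rfl fun j _ => hfe j
  have h1 := sum_le_double_odd' hf w
  have h2 := hf4 0
  obtain ⟨y, -, hy2, hy3, hy4⟩ := exists_pick (w / 2) c (fun _ => 0) (fun i => f (2 * i + 1))
    (fun _ _ => Nat.zero_le _) (by simp) (by omega)
  have h0 : ∀ i, w ≤ 2 * i + 1 → y i = 0 := fun i hi => hy3 i (by omega)
  have hyf : ∀ j, j < w → y (j / 2) ≤ f j := by
    intro j hj
    by_cases hj2 : j / 2 < w / 2
    · exact (hy2 _ hj2).trans (hf (by omega))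
    · rw [hy3 _ (not_lt.mp hj2)]; exact Nat.zero_le _
  have hrow : RowOK (.dup c) fun j : Fin w => y (j / 2) :=
    rowOK_dup (fun i => by
      by_cases hi : i < w / 2
      · exact (hy2 i hi).trans (hf4 _)
      · rw [hy3 i (not_lt.mp hi)]; omega) h0 hy4
  refine ⟨(fun j : Fin w => y (j / 2)) ∘ e.symm, hrow.comp e.symm, fun j => ?_⟩
  have h5 := hyf (e.symm j) (e.symm j).2
  rw [hfe, e.apply_symm_apply] at h5
  exact h5

/-- row form of the merging of `dup c` and `pair c₁` -/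
theorem row_merge_dup {w c c₁ : ℕ} {z : Fin w → ℕ} (hz : RowOK (.pair (c + c₁)) z) (hc : 2 ≤ c₁) :
    ∃ x : Fin w → ℕ, RowOK (.dup c) x ∧ (∀ j, x j ≤ z j) ∧
      RowOK (.pair c₁) fun j => z j - x j := by
  obtain ⟨x, hx, hle⟩ := exists_even_row (c := c) z hz.1 hz.2 (by omega)
  refine ⟨x, hx, hle, fun j => (Nat.sub_le _ _).trans (hz.1 j), ?_⟩
  have h1 : ∑ j, (z j - x j) + ∑ j, x j = ∑ j, z j := by
    rw [← sum_add_distrib]
    exact sum_congr rfl fun j _ => Nat.sub_add_cancel (hle j)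
  rw [hx.2.1, hz.2] at h1
  change ∑ j, (z j - x j) = _
  omega

/-- splitting a row of a decomposition -/
theorem Decomp.split_cons {ι : Type*} [Fintype ι] {p q r : Pc} {L : List Pc} {H : ι → ℕ}
    (h : Decomp (p :: L) H)
    (hp : ∀ z : ι → ℕ, RowOK p z → (∀ j, z j ≤ H j) →
      ∃ x, RowOK q x ∧ (∀ j, x j ≤ z j) ∧ RowOK r fun j => z j - x j) :
    Decomp (q :: r :: L) H := by
  obtain ⟨xs, h1, h2⟩ := h
  cases h1 with
  | @cons _ z _ xs hz h1 =>
    obtain ⟨x, hx, hle, hr⟩ := hp z hz fun j => by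
      rw [← h2 j]; simp
    refine ⟨x :: (fun j => z j - x j) :: xs, List.Forall₂.cons hx (List.Forall₂.cons hr h1),
      fun j => ?_⟩
    have h3 := h2 j
    have h4 := hle j
    simp only [List.map_cons, List.sum_cons] at h3 ⊢
    omega

/-- **MERGING, `dup`**: `dup c` and `pair c₁` (`c₁ ≥ 2`) together are as easy as `pair (c + c₁)`. -/
theorem Decomp.merge_dup {w c c₁ : ℕ} {L : List Pc} {H : Fin w → ℕ} (hc : 2 ≤ c₁)
    (h : Decomp (.pair (c + c₁) :: L) H) : Decomp (.dup c :: .pair c₁ :: L) H :=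
  h.split_cons fun _ hz _ => row_merge_dup hz hc

/-- extraction of a row of type `gap` -/
theorem exists_gap_row {w c S : ℕ} (z : Fin w → ℕ) (h4 : ∀ j, z j ≤ 4) (hS : ∑ j, z j = S)
    (hc3 : 3 ≤ c) (hc : 2 * c + 5 ≤ S) (hw : w + 4 ≤ S) :
    ∃ x : Fin w → ℕ, RowOK (.gap c) x ∧ ∀ j, x j ≤ z j := by
  obtain ⟨e, f, hf, hfe, hf0⟩ := exists_sort_fin z
  have hf4 : ∀ i, f i ≤ 4 := fun i => by
    by_cases hi : i < w
    · rw [hfe ⟨i, hi⟩]; exact h4 _
    · rw [hf0 i (not_lt.mp hi)]; omega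
  have hsum : ∑ j ∈ range w, f j = S := by
    rw [← Fin.sum_univ_eq_sum_range f w, ← hS, ← Equiv.sum_comp e z]
    exact sum_congr rfl fun j _ => hfe j
  have h1 := sum_le_double_odd' hf w
  have h2 := hf4 0
  -- the second entry is at least 2
  have hf1 : 2 ≤ f 1 := by
    by_contra hcon
    have h3 : ∀ j ∈ range w, f j ≤ 1 + if j = 0 then 3 else 0 := by
      intro j _
      by_cases hj : j = 0
      · rw [hj, if_pos rfl]; exact h2
      · rw [if_neg hj]
        have := hf (show 1 ≤ j by omega)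
        omega
    have h5 := sum_le_sum h3
    rw [sum_add_distrib, hsum] at h5
    have h6 : ∑ j ∈ range w, (if j = 0 then 3 else 0) ≤ 3 := by
      rw [sum_ite_eq']; split_ifs <;> omega
    simp only [sum_const, card_range, smul_eq_mul, mul_one] at h5
    omega
  have hw1 : 1 < w := by
    by_contra hcon
    rw [hf0 1 (by omega)] at hf1
    omega
  set U := ∑ i ∈ range (w / 2), f (2 * i + 1) with hU
  have hU2 : f 1 + ∑ i ∈ range (w / 2 - 1), f (2 * (i + 1) + 1) = U := by
    rw [hU, show w / 2 = (w / 2 - 1) + 1 by omega, sum_range_succ']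
    simp only [Nat.add_sub_cancel, Nat.mul_zero, Nat.zero_add]
    omega
  have hul : ∀ g : ℕ → ℕ, ∑ i ∈ range (w / 2), (if i = 0 then 2 else g i) =
      2 + ∑ i ∈ range (w / 2 - 1), g (i + 1) := by
    intro g
    rw [show w / 2 = (w / 2 - 1) + 1 by omega, sum_range_succ']
    simp only [Nat.add_sub_cancel]
    simp
    omega
  obtain ⟨y, hy1, hy2, hy3, hy4⟩ := exists_pick (w / 2) (c - 1)
    (fun i => if i = 0 then 2 else 0) (fun i => if i = 0 then 2 else f (2 * i + 1))
    (fun i _ => by by_cases hi : i = 0 <;> simp [hi])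
    (by rw [hul fun _ => 0]; simp; omega)
    (by
      rw [hul fun i => f (2 * i + 1)]
      have := hf4 1
      omega)
  have h0 : ∀ i, w ≤ 2 * i + 1 → y i = 0 := fun i hi => hy3 i (by omega)
  have hyf' : ∀ i, i < w / 2 → y i ≤ f (2 * i + 1) := by
    intro i hi
    have h7 := hy2 i hi
    by_cases hi0 : i = 0
    · subst hi0; simp only [if_true] at h7; simpa using h7.trans hf1
    · rw [if_neg hi0] at h7; exact h7
  have hyf : ∀ j, j < w → y (j / 2) ≤ f j := by
    intro j hj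
    by_cases hj2 : j / 2 < w / 2
    · exact (hyf' _ hj2).trans (hf (by omega))
    · rw [hy3 _ (not_lt.mp hj2)]; exact Nat.zero_le _
  have hrow : RowOK (.gap c) fun j : Fin w => y (j / 2) :=
    rowOK_gap (fun i => by
      by_cases hi : i < w / 2
      · exact (hyf' i hi).trans (hf4 _)
      · rw [hy3 i (not_lt.mp hi)]; omega) h0 hy4 ⟨0, by omega, by
        have h8 := hy1 0 (by omega)
        have h9 := hy2 0 (by omega)
        simp only [if_true] at h8 h9
        omega⟩
  refine ⟨(fun j : Fin w => y (j / 2)) ∘ e.symm, hrow.comp e.symm, fun j => ?_⟩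
  have h5 := hyf (e.symm j) (e.symm j).2
  rw [hfe, e.apply_symm_apply] at h5
  exact h5

/-- **MERGING, `gap`**: `gap c` and `pair c₁` (`c₁ ≥ 4`) together are as easy as
`pair (c + c₁ - 1)` if the number of columns is at most `2 (c + c₁) - 7`.  The pair `c₁` may itself
be a merged pair. -/
theorem Decomp.merge_gap {w c c₁ : ℕ} {L : List Pc} {H : Fin w → ℕ} (hc3 : 3 ≤ c) (hc : 4 ≤ c₁)
    (hw : w + 7 ≤ 2 * (c + c₁)) (h : Decomp (.pair (c + c₁ - 1) :: L) H) :
    Decomp (.gap c :: .pair c₁ :: L) H := by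
  refine h.split_cons fun z hz _ => ?_
  obtain ⟨x, hx, hle⟩ := exists_gap_row (c := c) z hz.1 hz.2 hc3 (by omega) (by omega)
  refine ⟨x, hx, hle, fun j => (Nat.sub_le _ _).trans (hz.1 j), ?_⟩
  have h1 : ∑ j, (z j - x j) + ∑ j, x j = ∑ j, z j := by
    rw [← sum_add_distrib]
    exact sum_congr rfl fun j _ => Nat.sub_add_cancel (hle j)
  rw [hx.2.1, hz.2] at h1
  change ∑ j, (z j - x j) = _
  omega

/-- `gap c`, `dup d` and `pair c₁` (`c₁ ≥ 2`, `d + c₁ ≥ 4`) in one row. -/
theorem Decomp.merge_gap_dup {w c d c₁ : ℕ} {L : List Pc} {H : Fin w → ℕ} (hc3 : 3 ≤ c)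
    (hc : 2 ≤ c₁) (hd : 4 ≤ d + c₁) (hw : w + 7 ≤ 2 * (c + d + c₁))
    (h : Decomp (.pair (c + d + c₁ - 1) :: L) H) :
    Decomp (.gap c :: .dup d :: .pair c₁ :: L) H := by
  have h1 : Decomp (.gap c :: .pair (d + c₁) :: L) H :=
    Decomp.merge_gap hc3 hd (by omega) (by rwa [show c + (d + c₁) - 1 = c + d + c₁ - 1 by omega])
  have h2 : Decomp (.pair (d + c₁) :: .gap c :: L) H := h1.perm (List.Perm.swap _ _ _)
  have h3 : Decomp (.dup d :: .pair c₁ :: .gap c :: L) H := h2.merge_dup hc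
  refine h3.perm ?_
  exact (List.perm_middle (l₁ := [.dup d, .pair c₁]) (a := .gap c) (l₂ := L))

/-- two pieces `dup c`, `dup d` and `pair c₁` (`c₁ ≥ 2`) in one row. -/
theorem Decomp.merge_dup_dup {w c d c₁ : ℕ} {L : List Pc} {H : Fin w → ℕ} (hc : 2 ≤ c₁)
    (h : Decomp (.pair (c + d + c₁) :: L) H) : Decomp (.dup c :: .dup d :: .pair c₁ :: L) H := by
  have h1 : Decomp (.dup c :: .pair (d + c₁) :: L) H :=
    Decomp.merge_dup (by omega) (by rwa [← add_assoc])
  have h2 : Decomp (.pair (d + c₁) :: .dup c :: L) H := h1.perm (List.Perm.swap _ _ _)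
  have h3 : Decomp (.dup d :: .pair c₁ :: .dup c :: L) H := h2.merge_dup hc
  refine h3.perm ?_
  exact (List.perm_middle (l₁ := [.dup d, .pair c₁]) (a := .dup c) (l₂ := L))

end Crest.Agent.R195
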