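import Crest.Agent.R195.Cover
import Crest.Agent.R195.Gale

/-! Row 195, S0298 (T3): rows of even type (pieces `dup` and `gap`), and the numerical criterion for
the pieces `pair` and `rect`, in `Decomp` form. -/

set_option autoImplicit false

namespace Crest.Agent.R195

open Finset Function

section adj

/-- exchange `2 i` and `2 i + 1` below `w` -/
def adj (w j : ℕ) : ℕ := if 2 * (j / 2) + 1 < w then (if j % 2 = 0 then j + 1 else j - 1) else j

theorem adj_lt {w j : ℕ} (h : j < w) : adj w j < w := by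
  unfold adj; split_ifs <;> omega

theorem adj_div (w j : ℕ) : adj w j / 2 = j / 2 := by
  unfold adj; split_ifs <;> omega

theorem adj_adj (w j : ℕ) : adj w (adj w j) = j := by
  have h := adj_div w j
  have h1 : adj w (adj w j) = if 2 * (j / 2) + 1 < w then
      (if adj w j % 2 = 0 then adj w j + 1 else adj w j - 1) else adj w j := by
    conv_lhs => unfold adj
    rw [show (if 2 * (j / 2) + 1 < w then (if j % 2 = 0 then j + 1 else j - 1) else j)
      = adj w j from rfl, h]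
  rw [h1]
  unfold adj
  split_ifs <;> omega

theorem adj_ne {w j : ℕ} (h : 2 * (j / 2) + 1 < w) : adj w j ≠ j := by
  unfold adj; rw [if_pos h]; split_ifs <;> omega

/-- the matching of neighbouring columns -/
def adjPerm (w : ℕ) : Equiv.Perm (Fin w) :=
  Involutive.toPerm (fun j => ⟨adj w j, adj_lt j.2⟩) fun j => Fin.ext (adj_adj w j)

theorem adjPerm_val (w : ℕ) (j : Fin w) : (adjPerm w j : ℕ) = adj w j := rfl

theorem sum_half (y : ℕ → ℕ) (m : ℕ) :
    ∑ j ∈ range (2 * m), y (j / 2) = 2 * ∑ i ∈ range m, y i := by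
  induction m with
  | zero => simp
  | succ m ih =>
    rw [show 2 * (m + 1) = 2 * m + 1 + 1 by ring, sum_range_succ, sum_range_succ, ih,
      sum_range_succ, show (2 * m) / 2 = m by omega, show (2 * m + 1) / 2 = m by omega]
    ring

theorem sum_half_fin (w : ℕ) (y : ℕ → ℕ) (h0 : ∀ i, w ≤ 2 * i + 1 → y i = 0) :
    ∑ j : Fin w, y (j / 2) = 2 * ∑ i ∈ range (w / 2), y i := by
  rw [Fin.sum_univ_eq_sum_range (fun j => y (j / 2)) w, ← sum_half]
  rcases Nat.even_or_odd' w with ⟨m, h | h⟩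
  · rw [show w / 2 = m by omega, h]
  · rw [show w / 2 = m by omega, h, sum_range_succ, h0 ((2 * m) / 2) (by omega), add_zero]

theorem even_row {w : ℕ} {y : ℕ → ℕ} (h0 : ∀ i, w ≤ 2 * i + 1 → y i = 0) :
    ∃ σ : Equiv.Perm (Fin w), (∀ j, σ (σ j) = j) ∧ (∀ j : Fin w, y (j / 2) ≠ 0 → σ j ≠ j) ∧
      ∀ j, y ((σ j : ℕ) / 2) = y (j / 2) := by
  refine ⟨adjPerm w, fun j => Fin.ext ?_, fun j hj h => ?_, fun j => ?_⟩
  · rw [adjPerm_val, adjPerm_val, adj_adj]
  · have h1 := congrArg Fin.val h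
    rw [adjPerm_val] at h1
    exact adj_ne (by by_contra hcon; exact hj (h0 _ (not_lt.mp hcon))) h1
  · rw [adjPerm_val, adj_div]

/-- row of even type for the piece `dup` -/
theorem rowOK_dup {w c : ℕ} {y : ℕ → ℕ} (h4 : ∀ i, y i ≤ 4) (h0 : ∀ i, w ≤ 2 * i + 1 → y i = 0)
    (hs : ∑ i ∈ range (w / 2), y i = c) : RowOK (.dup c) fun j : Fin w => y (j / 2) :=
  ⟨fun _ => h4 _, by rw [sum_half_fin w y h0, hs], even_row h0⟩

/-- row of even type for the piece `gap` -/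
theorem rowOK_gap {w c : ℕ} {y : ℕ → ℕ} (h4 : ∀ i, y i ≤ 4) (h0 : ∀ i, w ≤ 2 * i + 1 → y i = 0)
    (hs : ∑ i ∈ range (w / 2), y i = c - 1) (h2 : ∃ i, 2 * i + 1 < w ∧ y i = 2) :
    RowOK (.gap c) fun j : Fin w => y (j / 2) := by
  obtain ⟨i, hi, hy⟩ := h2
  refine ⟨fun _ => h4 _, by rw [sum_half_fin w y h0, hs, Nat.mul_sub], even_row h0,
    ⟨2 * i, by omega⟩, ?_⟩
  simp only
  rw [show 2 * i / 2 = i by omega, hy]

end adj

section pick

/-- discrete interpolation on `range m` -/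
theorem exists_pick (m c : ℕ) (l u : ℕ → ℕ) (hlu : ∀ i, i < m → l i ≤ u i)
    (h1 : ∑ i ∈ range m, l i ≤ c) (h2 : c ≤ ∑ i ∈ range m, u i) :
    ∃ y : ℕ → ℕ, (∀ i, i < m → l i ≤ y i) ∧ (∀ i, i < m → y i ≤ u i) ∧ (∀ i, m ≤ i → y i = 0) ∧
      ∑ i ∈ range m, y i = c := by
  obtain ⟨x, hx1, hx2, hx3⟩ := exists_between_sum (ι := Fin m) (l := fun i => l i)
    (u := fun i => u i) (fun i => hlu i i.2) (S := c)
    (by rw [Fin.sum_univ_eq_sum_range (fun i => l i) m]; exact h1)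
    (by rw [Fin.sum_univ_eq_sum_range (fun i => u i) m]; exact h2)
  refine ⟨fun i => if h : i < m then x ⟨i, h⟩ else 0, ?_, ?_, ?_, ?_⟩
  · intro i hi; simp only [dif_pos hi]; exact hx1 ⟨i, hi⟩
  · intro i hi; simp only [dif_pos hi]; exact hx2 ⟨i, hi⟩
  · intro i hi; simp only [dif_neg (not_lt.mpr hi)]
  · rw [← Fin.sum_univ_eq_sum_range (fun i => if h : i < m then x ⟨i, h⟩ else 0) m, ← hx3]
    refine sum_congr rfl fun i _ => ?_
    simp only [dif_pos i.2]

/-- a piece `dup c` can be removed: `y i` from each of the columns `2 i`, `2 i + 1`, where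
`l i ≤ y i ≤ u i`. -/
theorem exists_dup {w c : ℕ} {H : ℕ → ℕ} (l u : ℕ → ℕ) (hlu : ∀ i, 2 * i + 1 < w → l i ≤ u i)
    (h4 : ∀ i, 2 * i + 1 < w → u i ≤ 4) (hH : ∀ i, 2 * i + 1 < w → u i ≤ H (2 * i) ∧ u i ≤ H (2 * i + 1))
    (h1 : ∑ i ∈ range (w / 2), l i ≤ c) (h2 : c ≤ ∑ i ∈ range (w / 2), u i) :
    ∃ y : ℕ → ℕ, (∀ i, 2 * i + 1 < w → l i ≤ y i ∧ y i ≤ u i) ∧ (∀ i, w ≤ 2 * i + 1 → y i = 0) ∧
      (∀ j, y (j / 2) ≤ H j) ∧ ∑ i ∈ range (w / 2), y i = c ∧
      ∀ L : List Pc, Decomp L (fun j : Fin w => H j - y (j / 2)) →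
        Decomp (.dup c :: L) fun j : Fin w => H j := by
  obtain ⟨y, hy1, hy2, hy3, hy4⟩ := exists_pick (w / 2) c l u (fun i hi => hlu i (by omega)) h1 h2
  have h0 : ∀ i, w ≤ 2 * i + 1 → y i = 0 := fun i hi => hy3 i (by omega)
  have hle : ∀ j, y (j / 2) ≤ H j := by
    intro j
    by_cases hj : 2 * (j / 2) + 1 < w
    · have h5 := hH (j / 2) hj
      have h6 := hy2 (j / 2) (by omega)
      rcases Nat.mod_two_eq_zero_or_one j with h | h
      · rw [show 2 * (j / 2) = j by omega] at h5; omega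
      · rw [show 2 * (j / 2) + 1 = j by omega] at h5; omega
    · rw [h0 _ (not_lt.mp hj)]; exact Nat.zero_le _
  refine ⟨y, fun i hi => ⟨hy1 i (by omega), hy2 i (by omega)⟩, h0, hle, hy4, fun L hL => ?_⟩
  refine Decomp.cons (rowOK_dup (fun i => ?_) h0 hy4) (fun j => hle j) hL
  by_cases hi : 2 * i + 1 < w
  · exact (hy2 i (by omega)).trans (h4 i hi)
  · rw [h0 i (not_lt.mp hi)]; exact Nat.zero_le _

/-- a piece `gap c` can be removed; the pair of columns `2 i₀`, `2 i₀ + 1` gives 2. -/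
theorem exists_gap {w c : ℕ} {H : ℕ → ℕ} (l u : ℕ → ℕ) (hlu : ∀ i, 2 * i + 1 < w → l i ≤ u i)
    (h4 : ∀ i, 2 * i + 1 < w → u i ≤ 4) (hH : ∀ i, 2 * i + 1 < w → u i ≤ H (2 * i) ∧ u i ≤ H (2 * i + 1))
    (i₀ : ℕ) (hi₀ : 2 * i₀ + 1 < w) (hl : l i₀ = 2) (hu : u i₀ = 2)
    (h1 : ∑ i ∈ range (w / 2), l i ≤ c - 1) (h2 : c - 1 ≤ ∑ i ∈ range (w / 2), u i) :
    ∃ y : ℕ → ℕ, (∀ i, 2 * i + 1 < w → l i ≤ y i ∧ y i ≤ u i) ∧ (∀ i, w ≤ 2 * i + 1 → y i = 0) ∧
      (∀ j, y (j / 2) ≤ H j) ∧ ∑ i ∈ range (w / 2), y i = c - 1 ∧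
      ∀ L : List Pc, Decomp L (fun j : Fin w => H j - y (j / 2)) →
        Decomp (.gap c :: L) fun j : Fin w => H j := by
  obtain ⟨y, hy1, h0, hle, hy4, -⟩ := exists_dup l u hlu h4 hH h1 h2
  refine ⟨y, hy1, h0, hle, hy4, fun L hL => ?_⟩
  refine Decomp.cons (rowOK_gap (fun i => ?_) h0 hy4 ⟨i₀, hi₀, ?_⟩) (fun j => hle j) hL
  · by_cases hi : 2 * i + 1 < w
    · exact (hy1 i hi).2.trans (h4 i hi)
    · rw [h0 i (not_lt.mp hi)]; exact Nat.zero_le _
  · have := hy1 i₀ hi₀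
    omega

/-- total of the remaining columns -/
theorem sum_sub_half {w : ℕ} {H y : ℕ → ℕ} (h0 : ∀ i, w ≤ 2 * i + 1 → y i = 0)
    (hle : ∀ j, y (j / 2) ≤ H j) :
    ∑ j ∈ range w, (H j - y (j / 2)) + 2 * ∑ i ∈ range (w / 2), y i = ∑ j ∈ range w, H j := by
  rw [← sum_half_fin w y h0, Fin.sum_univ_eq_sum_range (fun j => y (j / 2)) w,
    ← sum_add_distrib]
  exact sum_congr rfl fun j _ => Nat.sub_add_cancel (hle j)

end pick

section crit

/-- maximal entry of a row of the piece -/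
def Pc.cap : Pc → ℕ
  | .pair _ => 4
  | .rect _ _ => 1
  | .dup _ => 4
  | .gap _ => 4

/-- pieces without parity condition -/
def Pc.free : Pc → Prop
  | .pair _ => True
  | .rect _ _ => True
  | .dup _ => False
  | .gap _ => False

/-- what the pieces can take from `J` columns -/
def FL (L : List Pc) (J : ℕ) : ℕ := (L.map fun p => min p.size (p.cap * J)).sum

theorem FL_nil (J : ℕ) : FL [] J = 0 := rfl

theorem FL_cons (p : Pc) (L : List Pc) (J : ℕ) : FL (p :: L) J = min p.size (p.cap * J) + FL L J :=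
  by simp [FL]

theorem FL_append (L L' : List Pc) (J : ℕ) : FL (L ++ L') J = FL L J + FL L' J := by
  simp [FL]

theorem Pc.cap_pos (p : Pc) : 0 < p.cap := by cases p <;> simp [Pc.cap]

/-- a matrix gives a decomposition -/
theorem decomp_of_matrix (L : List Pc) (w : ℕ) (H : ℕ → ℕ) (h : Fin L.length → ℕ → ℕ)
    (hok : ∀ g, RowOK L[g] fun j : Fin w => h g j) (hsum : ∀ j, j < w → ∑ g, h g j = H j) :
    Decomp L fun j : Fin w => H j := by
  refine ⟨List.ofFn fun g => fun j : Fin w => h g j, ?_, fun j => ?_⟩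
  · rw [List.forall₂_iff_get]
    refine ⟨by simp, fun i h1 h2 => ?_⟩
    simp only [List.get_eq_getElem, List.getElem_ofFn]
    exact hok ⟨i, h1⟩
  · change (List.map (fun x => x j) (List.ofFn fun g => fun j : Fin w => h g j)).sum = H j
    rw [← hsum j j.2, List.map_ofFn, List.sum_ofFn]
    rfl

/-- **Numerical criterion** for lists of pairs and rectangles. -/
theorem decomp_crit (L : List Pc) (hL : ∀ p ∈ L, p.free) (w : ℕ) (H : ℕ → ℕ)
    (htot : ∑ j ∈ range w, H j = (L.map Pc.size).sum) (B J₁ : ℕ)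
    (hB : ∀ i j, i < w → j < w → i ≠ j → H i + H j ≤ 2 * B) (h1 : ∀ j, j < w → H j ≤ FL L 1)
    (hJ : J₁ * B ≤ FL L J₁) (hJ' : ∀ p ∈ L, p.size ≤ p.cap * (J₁ + 1)) :
    Decomp L fun j : Fin w => H j := by
  have hFL : ∀ J, ∑ g : Fin L.length, min (L[g].size) (L[g].cap * J) = FL L J := by
    intro J
    rw [FL, ← Fin.sum_univ_fun_getElem]
    rfl
  obtain ⟨h, hh1, hh2, hh3, hh4⟩ := exists_matrix_crit (ι := Fin L.length)
    (fun g => L[g].size) (fun g => L[g].cap) (fun g => Pc.cap_pos _) w H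
    (by rw [htot, ← Fin.sum_univ_fun_getElem]; rfl) B J₁ hB
    (by
      intro j hj
      refine (h1 j hj).trans (le_of_eq ?_)
      rw [← hFL]
      simp only [mul_one])
    (by rw [hFL]; exact hJ) (fun g => hJ' _ (List.getElem_mem _))
  refine decomp_of_matrix L w H h (fun g => ?_) hh4
  have hfree := hL _ (List.getElem_mem g.2)
  have h5 := hh1 g
  have h6 := hh2 g
  rw [← Fin.sum_univ_eq_sum_range (fun j => h g j) w] at h6
  have key : ∀ p : Pc, p.free → (∀ j, h g j ≤ p.cap) → ∑ j : Fin w, h g j = p.size →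
      RowOK p fun j : Fin w => h g j := by
    intro p hp h7 h8
    cases p with
    | pair c => exact ⟨fun j => h7 j, h8⟩
    | rect c k => exact ⟨fun j => h7 j, h8⟩
    | dup c => exact absurd hp (by simp [Pc.free])
    | gap c => exact absurd hp (by simp [Pc.free])
  exact key _ hfree h5 h6

end crit

end Crest.Agent.R195
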