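import Crest.Agent.R195.CovB
import Crest.Agent.R195.Merge
import Crest.Agent.R195.RegionL

/-! Row 195, S0298.  Coverage of family B (`M = 2m` even), `e` odd, by merging the `gap` and `dup`
pieces with pairs. -/

set_option autoImplicit false
set_option linter.unusedSectionVars false
set_option linter.unusedDecidableInType false
set_option linter.unusedSimpArgs false

namespace Crest.Agent.R195

open Finset

/-! ### Admissible lists -/

/-- admissible, all first columns at most `t` -/
def VP (L : List Pc) (t : ℕ) : Prop := validP L ∧ ∀ q ∈ L, q.top ≤ t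

theorem VP_nil (t : ℕ) : VP [] t := ⟨trivial, fun q hq => by simp at hq⟩

theorem VP.mono {L : List Pc} {t t' : ℕ} (h : VP L t) (ht : t ≤ t') : VP L t' :=
  ⟨h.1, fun q hq => (h.2 q hq).trans ht⟩

theorem VP_runP_append {m k t : ℕ} {L : List Pc} (h : 2 * k ≤ m + 1) (hL : VP L (m - 2 * k))
    (ht : m ≤ t) : VP (runP m k ++ L) t := by
  refine ⟨validP_runP_append h hL.1 hL.2, fun q hq => ?_⟩
  rw [List.mem_append] at hq
  rcases hq with hq | hq
  · exact (top_runP q hq).trans ht
  · exact (hL.2 q hq).trans (by omega)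

theorem VP_runP {m k t : ℕ} (h : 2 * k ≤ m + 1) (ht : m ≤ t) : VP (runP m k) t := by
  have := VP_runP_append h (VP_nil (m - 2 * k)) ht
  rwa [List.append_nil] at this

theorem VP_rect {c t : ℕ} {L : List Pc} (h : 1 ≤ c) (hL : VP L (c - 1)) (ht : c ≤ t) :
    VP (.rect c 1 :: L) t := by
  refine ⟨⟨h, hL.2, hL.1⟩, fun q hq => ?_⟩
  rw [List.mem_cons] at hq
  rcases hq with rfl | hq
  · exact ht
  · exact (hL.2 q hq).trans (by omega)

theorem VP_dup {c t : ℕ} {L : List Pc} (h : 1 ≤ c) (hL : VP L (c - 1)) (ht : c ≤ t) :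
    VP (.dup c :: L) t := by
  refine ⟨⟨h, hL.2, hL.1⟩, fun q hq => ?_⟩
  rw [List.mem_cons] at hq
  rcases hq with rfl | hq
  · exact ht
  · exact (hL.2 q hq).trans (by omega)

theorem VP_gap {c t : ℕ} {L : List Pc} (h : 3 ≤ c) (hL : VP L (c - 2)) (ht : c ≤ t) :
    VP (.gap c :: L) t := by
  refine ⟨⟨h, hL.2, hL.1⟩, fun q hq => ?_⟩
  rw [List.mem_cons] at hq
  rcases hq with rfl | hq
  · exact ht
  · exact (hL.2 q hq).trans (by omega)

/-! ### The numerical core -/

/-- a free list with small deficits covers -/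
theorem core_Bodd {m e w w₂ : ℕ} {H : ℕ → ℕ} (hm : 8 ≤ m) (he : 1 ≤ e)
    (hr : Region (m * (2 * m + 1) + 2 * e + 1) (2 * m) w w₂ H) (L : List Pc)
    (hL : ∀ p ∈ L, p.free) (hN : (L.map Pc.size).sum = m * (2 * m + 1) + 2 * e + 1)
    (h1 : 4 * m ≤ FL L 1 + 11) (h2 : (L.map Pc.size).sum ≤ FL L m + (m + 2 * e + 1))
    (h3 : (L.map Pc.size).sum ≤ FL L (m + 1) + 4)
    (h4 : ∀ J, m + 2 ≤ J → (L.map Pc.size).sum ≤ FL L J) :
    Decomp L fun j : Fin w => H j := by
  have hn : 2 * m * (2 * m + 1) ≤ 2 * (m * (2 * m + 1) + 2 * e + 1) := by nlinarith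
  have hB9 : 9 ≤ 2 * m := by omega
  have hw := hr.wlog
  have hH0 : H 0 ≤ 4 * m - 11 := by
    by_contra hcon
    push Not at hcon
    have a1 := hr.n_le_hook (by omega)
    have a2 := hr.H0_add_w hn hB9
    have a3 := hr.col
    have a4 := hr.row
    have a5 : (H 1 - 1) * (w₂ - 1) ≤ 9 * 9 := Nat.mul_le_mul (by omega) (by omega)
    nlinarith
  have hcard : (range w).filter (fun j => H j ≠ 0) = range w := by
    refine filter_true_of_mem fun j hj => ?_
    have := (hr.pos j).1 (mem_range.1 hj)
    omega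
  have hle : ∀ j, j < w → H j ≤ FL L 1 := fun j _ => by
    have := hr.le_H0 j
    omega
  rcases Nat.lt_or_ge w (m + 5) with hw5 | hw5
  · refine decomp_crit2 L hL w H (hr.sum.trans hN.symm) (2 * (m + 4)) (m + 1) w ?_ hle ?_ ?_ ?_
    · intro i j hi hj hij
      have b1 := hr.le_H0 i
      have b2 := hr.le_H0 j
      omega
    · rw [hN] at h3
      nlinarith
    · rw [hcard, card_range]
    · intro J hJ
      exact (h4 J (by omega)).trans (Nat.le_add_right _ _)
  · refine decomp_crit2 L hL w H (hr.sum.trans hN.symm) (4 * m) m w ?_ hle ?_ ?_ ?_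
    · intro i j hi hj hij
      have := hr.pair_le hij
      omega
    · rw [hN] at h2
      nlinarith
    · rw [hcard, card_range]
    · intro J hJ
      rcases Nat.lt_or_ge (m + 1) J with h5 | h5
      · exact (h4 J (by omega)).trans (Nat.le_add_right _ _)
      · have : J = m + 1 := by omega
        subst this
        omega

/-! ### The lists -/

/-- `m` even, `e = 2a+1`, `m = 2a + 2v + 2` -/
def LE (m a v : ℕ) : List Pc :=
  runP (2 * m + 1) a ++ .gap (2 * m + 1 - 2 * a) :: (runP (2 * m - 2 * a - 2) (v - 1) ++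
    .rect (m + 2) 1 :: .dup (m + 1) :: (runP (m - 1) v ++ .dup (2 * a + 1) :: runP (2 * a) a))

/-- `m` odd, `e = 2a+1`, `m = 2a + 2v + 3` -/
def LO (m a v : ℕ) : List Pc :=
  runP (2 * m + 1) a ++ .gap (2 * m + 1 - 2 * a) :: (runP (2 * m - 2 * a - 2) v ++
    .dup (m + 1) :: (runP (m - 1) v ++ .rect (2 * a + 2) 1 :: .dup (2 * a + 1) :: runP (2 * a) a))

/-- `m = 2a + 2`, `e = 2a + 1` -/
def LC (m a : ℕ) : List Pc :=
  runP (2 * m + 1) a ++ .gap (m + 3) :: .rect (m + 1) 1 :: .dup (m - 1) :: runP (2 * a) a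

theorem valid_LE {m a v : ℕ} (hv : 1 ≤ v) (hm : m = 2 * a + 2 * v + 2) : validP (LE m a v) := by
  unfold LE
  refine (VP_runP_append (t := 2 * m + 1) (by omega) (VP_gap (by omega) (VP_runP_append (by omega)
    (VP_rect (by omega) (VP_dup (by omega) (VP_runP_append (by omega) (VP_dup (by omega)
      (VP_runP ?_ ?_) ?_) ?_) ?_) ?_) ?_) ?_) ?_).1
  all_goals omega

theorem cols_LE {m a v : ℕ} (hv : 1 ≤ v) (hm : m = 2 * a + 2 * v + 2) (s : ℕ) :
    (colsP (LE m a v)).getD s 0 = cl (hBm m (2 * a + 1)) s := by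
  unfold LE
  rw [getD_runP_append, getD_gap_cons, getD_runP_append, getD_rect_cons, getD_dup_cons,
    getD_runP_append, getD_dup_cons, getD_colsP_runP, cl_hBm (by omega)]
  split_ifs <;> omega

theorem valid_LO {m a v : ℕ} (hm : m = 2 * a + 2 * v + 3) : validP (LO m a v) := by
  unfold LO
  refine (VP_runP_append (t := 2 * m + 1) (by omega) (VP_gap (by omega) (VP_runP_append (by omega)
    (VP_dup (by omega) (VP_runP_append (by omega) (VP_rect (by omega) (VP_dup (by omega)
      (VP_runP ?_ ?_) ?_) ?_) ?_) ?_) ?_) ?_) ?_).1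
  all_goals omega

theorem cols_LO {m a v : ℕ} (hm : m = 2 * a + 2 * v + 3) (s : ℕ) :
    (colsP (LO m a v)).getD s 0 = cl (hBm m (2 * a + 1)) s := by
  unfold LO
  rw [getD_runP_append, getD_gap_cons, getD_runP_append, getD_dup_cons,
    getD_runP_append, getD_rect_cons, getD_dup_cons, getD_colsP_runP, cl_hBm (by omega)]
  split_ifs <;> omega

theorem valid_LC {m a : ℕ} (hm : m = 2 * a + 2) : validP (LC m a) := by
  unfold LC
  refine (VP_runP_append (t := 2 * m + 1) (by omega) (VP_gap (by omega) (VP_rect (by omega)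
    (VP_dup ?_ (VP_runP ?_ ?_) ?_) ?_) ?_) ?_).1
  all_goals omega

theorem cols_LC {m a : ℕ} (hm : m = 2 * a + 2) (s : ℕ) :
    (colsP (LC m a)).getD s 0 = cl (hBm m (2 * a + 1)) s := by
  unfold LC
  rw [getD_runP_append, getD_gap_cons, getD_rect_cons, getD_dup_cons, getD_colsP_runP,
    cl_hBm (by omega)]
  split_ifs <;> omega

/-! ### The merged lists -/

variable {m w w₂ : ℕ} {H : ℕ → ℕ}

theorem sum_map_size_pair (c : ℕ) (L : List Pc) :
    ((Pc.pair c :: L).map Pc.size).sum = (2 * c - 1) + (L.map Pc.size).sum := rfl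

theorem sum_map_size_rect (c : ℕ) (L : List Pc) :
    ((Pc.rect c 1 :: L).map Pc.size).sum = c + (L.map Pc.size).sum := by
  simp [Pc.size]

theorem sum_map_size_dup (c : ℕ) (L : List Pc) :
    ((Pc.dup c :: L).map Pc.size).sum = 2 * c + (L.map Pc.size).sum := rfl

theorem sum_map_size_gap (c : ℕ) (L : List Pc) :
    ((Pc.gap c :: L).map Pc.size).sum = (2 * c - 2) + (L.map Pc.size).sum := rfl

theorem sum_map_size_append (L L' : List Pc) :
    ((L ++ L').map Pc.size).sum = (L.map Pc.size).sum + (L'.map Pc.size).sum := by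
  rw [List.map_append, List.sum_append]

theorem FL_pair (c J : ℕ) (L : List Pc) :
    FL (.pair c :: L) J = min (2 * c - 1) (4 * J) + FL L J := by
  rw [FL_cons]; rfl

/-- deficit of a run, for `m ≤ 2 J` or `m = 2 J + 1` -/
theorem size_le_FL_runP' {m k J : ℕ} (h : m ≤ 2 * J + 1) :
    ((runP m k).map Pc.size).sum ≤ FL (runP m k) J + (m - 2 * J) := by
  have h1 := size_le_FL_runP m k J
  rcases Nat.lt_or_ge (2 * J) m with h2 | h2
  · have : m - 2 * J = 1 := by omega
    rw [this, tri_one] at h1
    omega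
  · have : m - 2 * J = 0 := by omega
    rw [this, tri_zero] at h1
    omega

/-- case `m` even, `e ≥ 3`, `e ≤ m - 3` -/
theorem dec_LE {a v : ℕ} (hm : m = 2 * (a + 1) + 2 * (v + 1) + 2) (hm8 : 8 ≤ m)
    (hr : Region (m * (2 * m + 1) + 2 * (2 * (a + 1) + 1) + 1) (2 * m) w w₂ H)
    (hN : ((LE m (a + 1) (v + 1)).map Pc.size).sum = m * (2 * m + 1) + 2 * (2 * (a + 1) + 1) + 1) :
    Decomp (LE m (a + 1) (v + 1)) fun j : Fin w => H j := by
  have hw := hr.row
  have e1 : runP (m - 1) (v + 1) = .pair (m - 1) :: runP (m - 3) v := by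
    rw [runP_succ, Nat.sub_sub]
  have e2 : runP (2 * (a + 1)) (a + 1) = runP (2 * (a + 1)) a ++ [.pair 2] := by
    rw [runP_append _ a 1, runP_succ, runP_zero, show 2 * (a + 1) - 2 * a = 2 by omega]
  unfold LE at hN ⊢
  rw [e1, e2, Nat.add_sub_cancel] at hN ⊢
  have h0 : Decomp (.pair (2 * m + 3) :: .pair (2 * m) :: (runP (2 * m + 1) (a + 1) ++ (runP (2 * m - 2 * (a + 1) - 2) v ++ .rect (m + 2) 1 ::
      (runP (m - 3) v ++ runP (2 * (a + 1)) a)))) fun j : Fin w => H j := by
    refine core_Bodd (e := (2 * (a + 1) + 1)) hm8 (by omega) hr _ ?_ ?_ ?_ ?_ ?_ ?_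
    · intro p hp
      simp only [List.mem_cons, List.mem_append, List.not_mem_nil, or_false] at hp
      rcases hp with rfl | rfl | hp | hp | rfl | hp | hp
      · trivial
      · trivial
      · exact free_runP p hp
      · exact free_runP p hp
      · trivial
      · exact free_runP p hp
      · exact free_runP p hp
    · rw [← hN]
      simp only [sum_map_size_append, sum_map_size_pair, sum_map_size_rect, sum_map_size_dup,
        sum_map_size_gap]
      simp only [List.map_nil, List.sum_nil]
      omega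
    · simp only [FL_append, FL_pair, FL_rect, FL_nil]
      rw [FL_one_runP (by omega), FL_one_runP (by omega), FL_one_runP (by omega), FL_one_runP (by omega)]
      omega
    · have b1 := size_le_FL_runP' (m := 2 * m + 1) (k := a + 1) (J := m) (by omega)
      have b2 := size_le_FL_runP' (m := 2 * m - 2 * (a + 1) - 2) (k := v) (J := m) (by omega)
      have b3 := size_le_FL_runP' (m := m - 3) (k := v) (J := m) (by omega)
      have b4 := size_le_FL_runP' (m := 2 * (a + 1)) (k := a) (J := m) (by omega)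
      simp only [sum_map_size_append, sum_map_size_pair, sum_map_size_rect, FL_append, FL_pair,
        FL_rect, List.map_nil, List.sum_nil, FL_nil]
      omega
    · have b1 := size_le_FL_runP' (m := 2 * m + 1) (k := a + 1) (J := m + 1) (by omega)
      have b2 := size_le_FL_runP' (m := 2 * m - 2 * (a + 1) - 2) (k := v) (J := m + 1) (by omega)
      have b3 := size_le_FL_runP' (m := m - 3) (k := v) (J := m + 1) (by omega)
      have b4 := size_le_FL_runP' (m := 2 * (a + 1)) (k := a) (J := m + 1) (by omega)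
      simp only [sum_map_size_append, sum_map_size_pair, sum_map_size_rect, FL_append, FL_pair,
        FL_rect, List.map_nil, List.sum_nil, FL_nil]
      omega
    · intro J hJ
      have b1 := size_le_FL_runP' (m := 2 * m + 1) (k := a + 1) (J := J) (by omega)
      have b2 := size_le_FL_runP' (m := 2 * m - 2 * (a + 1) - 2) (k := v) (J := J) (by omega)
      have b3 := size_le_FL_runP' (m := m - 3) (k := v) (J := J) (by omega)
      have b4 := size_le_FL_runP' (m := 2 * (a + 1)) (k := a) (J := J) (by omega)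
      simp only [sum_map_size_append, sum_map_size_pair, sum_map_size_rect, FL_append, FL_pair,
        FL_rect, List.map_nil, List.sum_nil, FL_nil]
      omega
  rw [show 2 * m + 3 = 2 * m + 1 - 2 * (a + 1) + (2 * (a + 1) + 1) + 2 - 1 by omega] at h0
  have h1 := h0.merge_gap_dup (by omega) (by omega) (by omega) (by omega)
  have h2 := h1.perm (L' := .pair (2 * m) :: .gap (2 * m + 1 - 2 * (a + 1)) ::
      .dup (2 * (a + 1) + 1) :: .pair 2 :: (runP (2 * m + 1) (a + 1) ++ (runP (2 * m - 2 * (a + 1) - 2) v ++ .rect (m + 2) 1 ::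
      (runP (m - 3) v ++ runP (2 * (a + 1)) a)))) (by
    rw [List.perm_iff_count]; intro x
    simp only [List.count_append, List.count_cons]
    ring)
  have h3 : Decomp (.pair (m + 1 + (m - 1)) :: .gap (2 * m + 1 - 2 * (a + 1)) ::
      .dup (2 * (a + 1) + 1) :: .pair 2 :: (runP (2 * m + 1) (a + 1) ++ (runP (2 * m - 2 * (a + 1) - 2) v ++ .rect (m + 2) 1 ::
      (runP (m - 3) v ++ runP (2 * (a + 1)) a)))) fun j : Fin w => H j := by
    rwa [show m + 1 + (m - 1) = 2 * m by omega]
  refine (h3.merge_dup (by omega)).perm ?_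
  rw [List.perm_iff_count]; intro x
  simp only [List.count_append, List.count_cons, List.count_nil]
  ring

/-- case `m` odd, `e ≥ 3`, `e ≤ m - 4` -/
theorem dec_LO {a v : ℕ} (hm : m = 2 * (a + 1) + 2 * (v + 1) + 3) (hm8 : 8 ≤ m)
    (hr : Region (m * (2 * m + 1) + 2 * (2 * (a + 1) + 1) + 1) (2 * m) w w₂ H)
    (hN : ((LO m (a + 1) (v + 1)).map Pc.size).sum = m * (2 * m + 1) + 2 * (2 * (a + 1) + 1) + 1) :
    Decomp (LO m (a + 1) (v + 1)) fun j : Fin w => H j := by
  have hw := hr.row
  have e1 : runP (m - 1) (v + 1) = .pair (m - 1) :: runP (m - 3) v := by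
    rw [runP_succ, Nat.sub_sub]
  have e2 : runP (2 * (a + 1)) (a + 1) = runP (2 * (a + 1)) a ++ [.pair 2] := by
    rw [runP_append _ a 1, runP_succ, runP_zero, show 2 * (a + 1) - 2 * a = 2 by omega]
  unfold LO at hN ⊢
  rw [e1, e2] at hN ⊢
  have h0 : Decomp (.pair (2 * m + 3) :: .pair (2 * m) :: (runP (2 * m + 1) (a + 1) ++ (runP (2 * m - 2 * (a + 1) - 2) (v + 1) ++ (runP (m - 3) v ++
      .rect (2 * (a + 1) + 2) 1 :: runP (2 * (a + 1)) a)))) fun j : Fin w => H j := by
    refine core_Bodd (e := (2 * (a + 1) + 1)) hm8 (by omega) hr _ ?_ ?_ ?_ ?_ ?_ ?_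
    · intro p hp
      simp only [List.mem_cons, List.mem_append, List.not_mem_nil, or_false] at hp
      rcases hp with rfl | rfl | hp | hp | hp | rfl | hp
      · trivial
      · trivial
      · exact free_runP p hp
      · exact free_runP p hp
      · exact free_runP p hp
      · trivial
      · exact free_runP p hp
    · rw [← hN]
      simp only [sum_map_size_append, sum_map_size_pair, sum_map_size_rect, sum_map_size_dup,
        sum_map_size_gap]
      simp only [List.map_nil, List.sum_nil]
      omega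
    · simp only [FL_append, FL_pair, FL_rect, FL_nil]
      rw [FL_one_runP (by omega), FL_one_runP (by omega), FL_one_runP (by omega), FL_one_runP (by omega)]
      omega
    · have b1 := size_le_FL_runP' (m := 2 * m + 1) (k := a + 1) (J := m) (by omega)
      have b2 := size_le_FL_runP' (m := 2 * m - 2 * (a + 1) - 2) (k := v + 1) (J := m) (by omega)
      have b3 := size_le_FL_runP' (m := m - 3) (k := v) (J := m) (by omega)
      have b4 := size_le_FL_runP' (m := 2 * (a + 1)) (k := a) (J := m) (by omega)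
      simp only [sum_map_size_append, sum_map_size_pair, sum_map_size_rect, FL_append, FL_pair,
        FL_rect, List.map_nil, List.sum_nil, FL_nil]
      omega
    · have b1 := size_le_FL_runP' (m := 2 * m + 1) (k := a + 1) (J := m + 1) (by omega)
      have b2 := size_le_FL_runP' (m := 2 * m - 2 * (a + 1) - 2) (k := v + 1) (J := m + 1) (by omega)
      have b3 := size_le_FL_runP' (m := m - 3) (k := v) (J := m + 1) (by omega)
      have b4 := size_le_FL_runP' (m := 2 * (a + 1)) (k := a) (J := m + 1) (by omega)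
      simp only [sum_map_size_append, sum_map_size_pair, sum_map_size_rect, FL_append, FL_pair,
        FL_rect, List.map_nil, List.sum_nil, FL_nil]
      omega
    · intro J hJ
      have b1 := size_le_FL_runP' (m := 2 * m + 1) (k := a + 1) (J := J) (by omega)
      have b2 := size_le_FL_runP' (m := 2 * m - 2 * (a + 1) - 2) (k := v + 1) (J := J) (by omega)
      have b3 := size_le_FL_runP' (m := m - 3) (k := v) (J := J) (by omega)
      have b4 := size_le_FL_runP' (m := 2 * (a + 1)) (k := a) (J := J) (by omega)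
      simp only [sum_map_size_append, sum_map_size_pair, sum_map_size_rect, FL_append, FL_pair,
        FL_rect, List.map_nil, List.sum_nil, FL_nil]
      omega
  rw [show 2 * m + 3 = 2 * m + 1 - 2 * (a + 1) + (2 * (a + 1) + 1) + 2 - 1 by omega] at h0
  have h1 := h0.merge_gap_dup (by omega) (by omega) (by omega) (by omega)
  have h2 := h1.perm (L' := .pair (2 * m) :: .gap (2 * m + 1 - 2 * (a + 1)) ::
      .dup (2 * (a + 1) + 1) :: .pair 2 :: (runP (2 * m + 1) (a + 1) ++ (runP (2 * m - 2 * (a + 1) - 2) (v + 1) ++ (runP (m - 3) v ++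
      .rect (2 * (a + 1) + 2) 1 :: runP (2 * (a + 1)) a)))) (by
    rw [List.perm_iff_count]; intro x
    simp only [List.count_append, List.count_cons]
    ring)
  have h3 : Decomp (.pair (m + 1 + (m - 1)) :: .gap (2 * m + 1 - 2 * (a + 1)) ::
      .dup (2 * (a + 1) + 1) :: .pair 2 :: (runP (2 * m + 1) (a + 1) ++ (runP (2 * m - 2 * (a + 1) - 2) (v + 1) ++ (runP (m - 3) v ++
      .rect (2 * (a + 1) + 2) 1 :: runP (2 * (a + 1)) a)))) fun j : Fin w => H j := by
    rwa [show m + 1 + (m - 1) = 2 * m by omega]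
  refine (h3.merge_dup (by omega)).perm ?_
  rw [List.perm_iff_count]; intro x
  simp only [List.count_append, List.count_cons, List.count_nil]
  ring

/-- case `m` odd, `e = m - 2` -/
theorem dec_LO0 {a : ℕ} (hm : m = 2 * (a + 2) + 3) (hm8 : 8 ≤ m)
    (hr : Region (m * (2 * m + 1) + 2 * (2 * (a + 2) + 1) + 1) (2 * m) w w₂ H)
    (hN : ((LO m (a + 2) 0).map Pc.size).sum = m * (2 * m + 1) + 2 * (2 * (a + 2) + 1) + 1) :
    Decomp (LO m (a + 2) 0) fun j : Fin w => H j := by
  have hw := hr.row
  have e2 : runP (2 * (a + 2)) (a + 2) = .pair (2 * (a + 2)) :: (runP (2 * (a + 2) - 2) a ++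
      [.pair 2]) := by
    rw [runP_succ, runP_append _ a 1, runP_succ, runP_zero,
      show 2 * (a + 2) - 2 - 2 * a = 2 by omega]
  unfold LO at hN ⊢
  rw [e2, runP_zero, runP_zero, List.nil_append, List.nil_append] at hN ⊢
  have h0 : Decomp (.pair (2 * m + 3) :: .pair (2 * m - 2) :: (runP (2 * m + 1) (a + 2) ++ .rect (2 * (a + 2) + 2) 1 :: runP (2 * (a + 2) - 2) a)) fun j : Fin w => H j := by
    refine core_Bodd (e := (2 * (a + 2) + 1)) hm8 (by omega) hr _ ?_ ?_ ?_ ?_ ?_ ?_
    · intro p hp
      simp only [List.mem_cons, List.mem_append, List.not_mem_nil, or_false] at hp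
      rcases hp with rfl | rfl | hp | rfl | hp
      · trivial
      · trivial
      · exact free_runP p hp
      · trivial
      · exact free_runP p hp
    · rw [← hN]
      simp only [sum_map_size_append, sum_map_size_pair, sum_map_size_rect, sum_map_size_dup,
        sum_map_size_gap]
      simp only [List.map_nil, List.sum_nil]
      omega
    · simp only [FL_append, FL_pair, FL_rect, FL_nil]
      rw [FL_one_runP (by omega), FL_one_runP (by omega)]
      omega
    · have b1 := size_le_FL_runP' (m := 2 * m + 1) (k := a + 2) (J := m) (by omega)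
      have b2 := size_le_FL_runP' (m := 2 * (a + 2) - 2) (k := a) (J := m) (by omega)
      simp only [sum_map_size_append, sum_map_size_pair, sum_map_size_rect, FL_append, FL_pair,
        FL_rect, List.map_nil, List.sum_nil, FL_nil]
      omega
    · have b1 := size_le_FL_runP' (m := 2 * m + 1) (k := a + 2) (J := m + 1) (by omega)
      have b2 := size_le_FL_runP' (m := 2 * (a + 2) - 2) (k := a) (J := m + 1) (by omega)
      simp only [sum_map_size_append, sum_map_size_pair, sum_map_size_rect, FL_append, FL_pair,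
        FL_rect, List.map_nil, List.sum_nil, FL_nil]
      omega
    · intro J hJ
      have b1 := size_le_FL_runP' (m := 2 * m + 1) (k := a + 2) (J := J) (by omega)
      have b2 := size_le_FL_runP' (m := 2 * (a + 2) - 2) (k := a) (J := J) (by omega)
      simp only [sum_map_size_append, sum_map_size_pair, sum_map_size_rect, FL_append, FL_pair,
        FL_rect, List.map_nil, List.sum_nil, FL_nil]
      omega
  rw [show 2 * m + 3 = 2 * m + 1 - 2 * (a + 2) + (2 * (a + 2) + 1) + 2 - 1 by omega] at h0
  have h1 := h0.merge_gap_dup (by omega) (by omega) (by omega) (by omega)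
  have h2 := h1.perm (L' := .pair (2 * m - 2) :: .gap (2 * m + 1 - 2 * (a + 2)) ::
      .dup (2 * (a + 2) + 1) :: .pair 2 :: (runP (2 * m + 1) (a + 2) ++ .rect (2 * (a + 2) + 2) 1 :: runP (2 * (a + 2) - 2) a)) (by
    rw [List.perm_iff_count]; intro x
    simp only [List.count_append, List.count_cons]
    ring)
  have h3 : Decomp (.pair (m + 1 + 2 * (a + 2)) :: .gap (2 * m + 1 - 2 * (a + 2)) ::
      .dup (2 * (a + 2) + 1) :: .pair 2 :: (runP (2 * m + 1) (a + 2) ++ .rect (2 * (a + 2) + 2) 1 :: runP (2 * (a + 2) - 2) a)) fun j : Fin w => H j := by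
    rwa [show m + 1 + 2 * (a + 2) = 2 * m - 2 by omega]
  refine (h3.merge_dup (by omega)).perm ?_
  rw [List.perm_iff_count]; intro x
  simp only [List.count_append, List.count_cons, List.count_nil]
  ring

/-- case `m` even, `e = m - 1` -/
theorem dec_LC {a : ℕ} (hm : m = 2 * (a + 1) + 2) (hm8 : 8 ≤ m)
    (hr : Region (m * (2 * m + 1) + 2 * (2 * (a + 1) + 1) + 1) (2 * m) w w₂ H)
    (hN : ((LC m (a + 1)).map Pc.size).sum = m * (2 * m + 1) + 2 * (2 * (a + 1) + 1) + 1) :
    Decomp (LC m (a + 1)) fun j : Fin w => H j := by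
  have hw := hr.row
  have e2 : runP (2 * (a + 1)) (a + 1) = runP (2 * (a + 1)) a ++ [.pair 2] := by
    rw [runP_append _ a 1, runP_succ, runP_zero, show 2 * (a + 1) - 2 * a = 2 by omega]
  unfold LC at hN ⊢
  rw [e2] at hN ⊢
  have h0 : Decomp (.pair (2 * m + 3) :: (runP (2 * m + 1) (a + 1) ++ .rect (m + 1) 1 :: runP (2 * (a + 1)) a)) fun j : Fin w => H j := by
    refine core_Bodd (e := (2 * (a + 1) + 1)) hm8 (by omega) hr _ ?_ ?_ ?_ ?_ ?_ ?_
    · intro p hp
      simp only [List.mem_cons, List.mem_append, List.not_mem_nil, or_false] at hp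
      rcases hp with rfl | hp | rfl | hp
      · trivial
      · exact free_runP p hp
      · trivial
      · exact free_runP p hp
    · rw [← hN]
      simp only [sum_map_size_append, sum_map_size_pair, sum_map_size_rect, sum_map_size_dup,
        sum_map_size_gap]
      simp only [List.map_nil, List.sum_nil]
      omega
    · simp only [FL_append, FL_pair, FL_rect, FL_nil]
      rw [FL_one_runP (by omega), FL_one_runP (by omega)]
      omega
    · have b1 := size_le_FL_runP' (m := 2 * m + 1) (k := a + 1) (J := m) (by omega)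
      have b2 := size_le_FL_runP' (m := 2 * (a + 1)) (k := a) (J := m) (by omega)
      simp only [sum_map_size_append, sum_map_size_pair, sum_map_size_rect, FL_append, FL_pair,
        FL_rect, List.map_nil, List.sum_nil, FL_nil]
      omega
    · have b1 := size_le_FL_runP' (m := 2 * m + 1) (k := a + 1) (J := m + 1) (by omega)
      have b2 := size_le_FL_runP' (m := 2 * (a + 1)) (k := a) (J := m + 1) (by omega)
      simp only [sum_map_size_append, sum_map_size_pair, sum_map_size_rect, FL_append, FL_pair,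
        FL_rect, List.map_nil, List.sum_nil, FL_nil]
      omega
    · intro J hJ
      have b1 := size_le_FL_runP' (m := 2 * m + 1) (k := a + 1) (J := J) (by omega)
      have b2 := size_le_FL_runP' (m := 2 * (a + 1)) (k := a) (J := J) (by omega)
      simp only [sum_map_size_append, sum_map_size_pair, sum_map_size_rect, FL_append, FL_pair,
        FL_rect, List.map_nil, List.sum_nil, FL_nil]
      omega
  rw [show 2 * m + 3 = m + 3 + (m - 1) + 2 - 1 by omega] at h0
  have h1 := h0.merge_gap_dup (by omega) (by omega) (by omega) (by omega)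
  refine h1.perm ?_
  rw [List.perm_iff_count]; intro x
  simp only [List.count_append, List.count_cons, List.count_nil]
  ring

/-- case `m` even, `e = 1` -/
theorem dec_LE1 {v : ℕ} (hm : m = 2 * (v + 3) + 2) (hm8 : 8 ≤ m)
    (hr : Region (m * (2 * m + 1) + 2 * 1 + 1) (2 * m) w w₂ H)
    (hN : ((LE m 0 (v + 3)).map Pc.size).sum = m * (2 * m + 1) + 2 * 1 + 1) :
    Decomp (LE m 0 (v + 3)) fun j : Fin w => H j := by
  have hw := hr.row
  have e1 : runP (m - 1) (v + 3) = .pair (m - 1) :: (runP (m - 3) (v + 1) ++ [.pair 3]) := by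
    rw [runP_succ, Nat.sub_sub, show 1 + 2 = 3 from rfl, runP_append _ (v + 1) 1,
      show m - 3 - 2 * (v + 1) = 3 by omega]
    rfl
  unfold LE at hN ⊢
  rw [e1, runP_zero, List.nil_append, mul_zero, runP_zero, Nat.sub_zero, Nat.zero_add,
    show v + 3 - 1 = v + 2 by omega, Nat.sub_zero] at hN ⊢
  have h0 : Decomp (.pair (2 * m + 4) :: .pair (2 * m) :: (runP (2 * m - 2) (v + 2) ++ .rect (m + 2) 1 :: runP (m - 3) (v + 1))) fun j : Fin w => H j := by
    refine core_Bodd (e := 1) hm8 (by omega) hr _ ?_ ?_ ?_ ?_ ?_ ?_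
    · intro p hp
      simp only [List.mem_cons, List.mem_append, List.not_mem_nil, or_false] at hp
      rcases hp with rfl | rfl | hp | rfl | hp
      · trivial
      · trivial
      · exact free_runP p hp
      · trivial
      · exact free_runP p hp
    · rw [← hN]
      simp only [sum_map_size_append, sum_map_size_pair, sum_map_size_rect, sum_map_size_dup,
        sum_map_size_gap]
      simp only [List.map_nil, List.sum_nil]
      omega
    · simp only [FL_append, FL_pair, FL_rect, FL_nil]
      rw [FL_one_runP (by omega), FL_one_runP (by omega)]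
      omega
    · have b1 := size_le_FL_runP' (m := 2 * m - 2) (k := v + 2) (J := m) (by omega)
      have b2 := size_le_FL_runP' (m := m - 3) (k := v + 1) (J := m) (by omega)
      simp only [sum_map_size_append, sum_map_size_pair, sum_map_size_rect, FL_append, FL_pair,
        FL_rect, List.map_nil, List.sum_nil, FL_nil]
      omega
    · have b1 := size_le_FL_runP' (m := 2 * m - 2) (k := v + 2) (J := m + 1) (by omega)
      have b2 := size_le_FL_runP' (m := m - 3) (k := v + 1) (J := m + 1) (by omega)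
      simp only [sum_map_size_append, sum_map_size_pair, sum_map_size_rect, FL_append, FL_pair,
        FL_rect, List.map_nil, List.sum_nil, FL_nil]
      omega
    · intro J hJ
      have b1 := size_le_FL_runP' (m := 2 * m - 2) (k := v + 2) (J := J) (by omega)
      have b2 := size_le_FL_runP' (m := m - 3) (k := v + 1) (J := J) (by omega)
      simp only [sum_map_size_append, sum_map_size_pair, sum_map_size_rect, FL_append, FL_pair,
        FL_rect, List.map_nil, List.sum_nil, FL_nil]
      omega
  rw [show 2 * m + 4 = 2 * m + 1 + 1 + 3 - 1 by omega] at h0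
  have h1 := h0.merge_gap_dup (by omega) (by omega) (by omega) (by omega)
  have h2 := h1.perm (L' := .pair (2 * m) :: .gap (2 * m + 1) ::
      .dup 1 :: .pair 3 :: (runP (2 * m - 2) (v + 2) ++ .rect (m + 2) 1 :: runP (m - 3) (v + 1))) (by
    rw [List.perm_iff_count]; intro x
    simp only [List.count_append, List.count_cons]
    ring)
  have h3 : Decomp (.pair (m + 1 + (m - 1)) :: .gap (2 * m + 1) ::
      .dup 1 :: .pair 3 :: (runP (2 * m - 2) (v + 2) ++ .rect (m + 2) 1 :: runP (m - 3) (v + 1))) fun j : Fin w => H j := by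
    rwa [show m + 1 + (m - 1) = 2 * m by omega]
  refine (h3.merge_dup (by omega)).perm ?_
  rw [List.perm_iff_count]; intro x
  simp only [List.count_append, List.count_cons, List.count_nil]
  ring

/-- case `m` odd, `e = 1` -/
theorem dec_LO1 {v : ℕ} (hm : m = 2 * (v + 3) + 3) (hm8 : 8 ≤ m)
    (hr : Region (m * (2 * m + 1) + 2 * 1 + 1) (2 * m) w w₂ H)
    (hN : ((LO m 0 (v + 3)).map Pc.size).sum = m * (2 * m + 1) + 2 * 1 + 1) :
    Decomp (LO m 0 (v + 3)) fun j : Fin w => H j := by
  have hw := hr.row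
  have e1 : runP (m - 1) (v + 3) = .pair (m - 1) :: (runP (m - 3) (v + 1) ++ [.pair 4]) := by
    rw [runP_succ, Nat.sub_sub, show 1 + 2 = 3 from rfl, runP_append _ (v + 1) 1,
      show m - 3 - 2 * (v + 1) = 4 by omega]
    rfl
  unfold LO at hN ⊢
  rw [e1, runP_zero, List.nil_append, mul_zero, runP_zero, Nat.sub_zero, Nat.zero_add,
    Nat.sub_zero, Nat.zero_add] at hN ⊢
  have h0 : Decomp (.pair (2 * m + 4) :: .pair (2 * m + 1) :: (runP (2 * m - 2) (v + 3) ++ (runP (m - 3) (v + 1) ++ [.rect 2 1]))) fun j : Fin w => H j := by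
    refine core_Bodd (e := 1) hm8 (by omega) hr _ ?_ ?_ ?_ ?_ ?_ ?_
    · intro p hp
      simp only [List.mem_cons, List.mem_append, List.not_mem_nil, or_false] at hp
      rcases hp with rfl | rfl | hp | hp | rfl
      · trivial
      · trivial
      · exact free_runP p hp
      · exact free_runP p hp
      · trivial
    · rw [← hN]
      simp only [sum_map_size_append, sum_map_size_pair, sum_map_size_rect, sum_map_size_dup,
        sum_map_size_gap]
      simp only [List.map_nil, List.sum_nil]
      omega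
    · simp only [FL_append, FL_pair, FL_rect, FL_nil]
      rw [FL_one_runP (by omega), FL_one_runP (by omega)]
      omega
    · have b1 := size_le_FL_runP' (m := 2 * m - 2) (k := v + 3) (J := m) (by omega)
      have b2 := size_le_FL_runP' (m := m - 3) (k := v + 1) (J := m) (by omega)
      simp only [sum_map_size_append, sum_map_size_pair, sum_map_size_rect, FL_append, FL_pair,
        FL_rect, List.map_nil, List.sum_nil, FL_nil]
      omega
    · have b1 := size_le_FL_runP' (m := 2 * m - 2) (k := v + 3) (J := m + 1) (by omega)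
      have b2 := size_le_FL_runP' (m := m - 3) (k := v + 1) (J := m + 1) (by omega)
      simp only [sum_map_size_append, sum_map_size_pair, sum_map_size_rect, FL_append, FL_pair,
        FL_rect, List.map_nil, List.sum_nil, FL_nil]
      omega
    · intro J hJ
      have b1 := size_le_FL_runP' (m := 2 * m - 2) (k := v + 3) (J := J) (by omega)
      have b2 := size_le_FL_runP' (m := m - 3) (k := v + 1) (J := J) (by omega)
      simp only [sum_map_size_append, sum_map_size_pair, sum_map_size_rect, FL_append, FL_pair,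
        FL_rect, List.map_nil, List.sum_nil, FL_nil]
      omega
  rw [show 2 * m + 4 = 2 * m + 1 + 4 - 1 by omega] at h0
  have h1 := h0.merge_gap (by omega) (by omega) (by omega)
  have h2 := h1.perm (L' := .pair (2 * m + 1) :: .gap (2 * m + 1) :: .pair 4 :: (runP (2 * m - 2) (v + 3) ++ (runP (m - 3) (v + 1) ++ [.rect 2 1]))) (by
    rw [List.perm_iff_count]; intro x
    simp only [List.count_append, List.count_cons]
    ring)
  have h3 : Decomp (.pair (m + 1 + 1 + (m - 1)) :: .gap (2 * m + 1) :: .pair 4 :: (runP (2 * m - 2) (v + 3) ++ (runP (m - 3) (v + 1) ++ [.rect 2 1])))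
      fun j : Fin w => H j := by
    rwa [show m + 1 + 1 + (m - 1) = 2 * m + 1 by omega]
  refine (h3.merge_dup_dup (by omega)).perm ?_
  rw [List.perm_iff_count]; intro x
  simp only [List.count_append, List.count_cons, List.count_nil]
  ring

/-! ### Coverage -/

/-- **Coverage of family B, `e` odd.** -/
theorem covB_odd {m e : ℕ} (hm : 8 ≤ m) (he : e < m) (hodd : e % 2 = 1) : CovB m e := by
  intro H w w₂ hr
  have hv := validH_hBm he
  have hsz := hsize_hBm he
  rw [if_neg (by omega), hsz] at hr
  obtain ⟨a, rfl⟩ : ∃ a, e = 2 * a + 1 := ⟨e / 2, by omega⟩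
  rcases Nat.mod_two_eq_zero_or_one m with hm2 | hm2
  · obtain ⟨v, hv'⟩ : ∃ v, m = 2 * a + 2 * v + 2 := ⟨(m - 2 * a - 2) / 2, by omega⟩
    rcases Nat.eq_zero_or_pos v with rfl | hv1
    · have hm' : m = 2 * a + 2 := by omega
      have hN := sum_size_of_cols hv (valid_LC hm') (cols_LC hm')
      rw [hsz] at hN
      refine ⟨LC m a, valid_LC hm', cols_LC hm', ?_⟩
      obtain ⟨b, rfl⟩ : ∃ b, a = b + 1 := ⟨a - 1, by omega⟩
      exact dec_LC hm' hm hr hN
    · have hN := sum_size_of_cols hv (valid_LE hv1 hv') (cols_LE hv1 hv')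
      rw [hsz] at hN
      refine ⟨LE m a v, valid_LE hv1 hv', cols_LE hv1 hv', ?_⟩
      rcases Nat.eq_zero_or_pos a with rfl | ha
      · obtain ⟨b, rfl⟩ : ∃ b, v = b + 3 := ⟨v - 3, by omega⟩
        exact dec_LE1 (by omega) hm hr hN
      · obtain ⟨b, rfl⟩ : ∃ b, v = b + 1 := ⟨v - 1, by omega⟩
        obtain ⟨c, rfl⟩ : ∃ c, a = c + 1 := ⟨a - 1, by omega⟩
        exact dec_LE hv' hm hr hN
  · obtain ⟨v, hv'⟩ : ∃ v, m = 2 * a + 2 * v + 3 := ⟨(m - 2 * a - 3) / 2, by omega⟩
    have hN := sum_size_of_cols hv (valid_LO hv') (cols_LO hv')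
    rw [hsz] at hN
    refine ⟨LO m a v, valid_LO hv', cols_LO hv', ?_⟩
    rcases Nat.eq_zero_or_pos a with rfl | ha
    · obtain ⟨b, rfl⟩ : ∃ b, v = b + 3 := ⟨v - 3, by omega⟩
      exact dec_LO1 (by omega) hm hr hN
    · rcases Nat.eq_zero_or_pos v with rfl | hv1
      · obtain ⟨b, rfl⟩ : ∃ b, a = b + 2 := ⟨a - 2, by omega⟩
        exact dec_LO0 (by omega) hm hr hN
      · obtain ⟨b, rfl⟩ : ∃ b, v = b + 1 := ⟨v - 1, by omega⟩
        obtain ⟨c, rfl⟩ : ∃ c, a = c + 1 := ⟨a - 1, by omega⟩
        exact dec_LO hv' hm hr hN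

/-- **Family B, `e` odd.** -/
theorem covB_odd' (M e : ℕ) (hM : M % 2 = 0) (hM0 : 16 ≤ M) (he : 2 * e + 2 ≤ M)
    (hodd : e % 2 = 1) : CovH (hB M e) := by
  obtain ⟨m, rfl⟩ : ∃ m, M = 2 * m := ⟨M / 2, by omega⟩
  exact covH_hB_of (by omega) (covB_odd (by omega) (by omega) hodd)

end Crest.Agent.R195
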