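import Crest.Agent.R195.CovC0
import Crest.Agent.R195.CovBodd

/-! Row 195, S0298.  Coverage of family C (`M = 2m+1` odd), `e` odd, by merging the `gap` and `dup`
pieces with pairs. -/

set_option autoImplicit false
set_option linter.unusedSectionVars false
set_option linter.unusedDecidableInType false
set_option linter.unusedSimpArgs false

namespace Crest.Agent.R195

open Finset

/-! ### The numerical core -/

/-- a free list with small deficits covers -/
theorem core_Codd {m e n w w₂ : ℕ} {H : ℕ → ℕ} (hm : 7 ≤ m) (he : 1 ≤ e)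
    (hn : n = 2 * m * m + 3 * m + 2 * e) (hr : Region n (2 * m + 1) w w₂ H) (L : List Pc)
    (hL : ∀ p ∈ L, p.free) (hN : (L.map Pc.size).sum = n)
    (h1 : 4 * m ≤ FL L 1 + 8) (h2 : (L.map Pc.size).sum ≤ FL L m + (2 * m + 2 * e))
    (h3 : (L.map Pc.size).sum ≤ FL L (m + 1) + 5)
    (h4 : (L.map Pc.size).sum ≤ FL L (m + 2) + 1)
    (h5 : ∀ J, m + 3 ≤ J → (L.map Pc.size).sum ≤ FL L J) :
    Decomp L fun j : Fin w => H j := by
  have hn' : (2 * m + 1) * (2 * m + 1 + 1) ≤ 2 * n := by rw [hn]; nlinarith
  have hB9 : 9 ≤ 2 * m + 1 := by omega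
  have hw := hr.wlog
  have hH0 : H 0 ≤ 4 * m - 8 := by
    by_contra hcon
    push Not at hcon
    have a1 := hr.n_le_hook (by omega)
    have a2 := hr.H0_add_w hn' hB9
    have a3 := hr.col
    have a4 := hr.row
    have a5 : (H 1 - 1) * (w₂ - 1) ≤ 8 * 8 := Nat.mul_le_mul (by omega) (by omega)
    nlinarith
  have hcard : (range w).filter (fun j => H j ≠ 0) = range w := by
    refine filter_true_of_mem fun j hj => ?_
    have := (hr.pos j).1 (mem_range.1 hj)
    omega
  have hle : ∀ j, j < w → H j ≤ FL L 1 := fun j _ => by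
    have := hr.le_H0 j
    omega
  rcases Nat.lt_or_ge w (m + 6) with hw5 | hw5
  · refine decomp_crit2 L hL w H (hr.sum.trans hN.symm) (2 * (m + 5)) (m + 2) w ?_ hle ?_ ?_ ?_
    · intro i j hi hj hij
      have b1 := hr.le_H0 i
      have b2 := hr.le_H0 j
      omega
    · rw [hN] at h4
      nlinarith
    · rw [hcard, card_range]
    · intro J hJ
      exact (h5 J (by omega)).trans (Nat.le_add_right _ _)
  · refine decomp_crit2 L hL w H (hr.sum.trans hN.symm) (2 * (2 * m + 1)) m w ?_ hle ?_ ?_ ?_
    · intro i j hi hj hij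
      exact hr.pair_le hij
    · rw [hN] at h2
      nlinarith
    · rw [hcard, card_range]
    · intro J hJ
      rcases Nat.lt_or_ge (m + 2) J with h6 | h6
      · exact (h5 J (by omega)).trans (Nat.le_add_right _ _)
      · rcases Nat.lt_or_ge (m + 1) J with h7 | h7
        · have : J = m + 2 := by omega
          subst this
          omega
        · have : J = m + 1 := by omega
          subst this
          omega

/-! ### The lists -/

/-- `m` even, `e = 2a+1`, `m = 2a + 2v + 2` -/
def CE (m a v : ℕ) : List Pc :=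
  runP (2 * m + 2) a ++ .gap (2 * m + 2 - 2 * a) :: (runP (2 * m - 2 * a - 1) v ++
    .dup m :: (runP (m - 1) v ++ .dup (2 * a + 1) :: runP (2 * a) a))

/-- `m` odd, `e = 2a+1`, `m = 2a + 2v + 3` -/
def CO (m a v : ℕ) : List Pc :=
  runP (2 * m + 2) a ++ .gap (2 * m + 2 - 2 * a) :: (runP (2 * m - 2 * a - 1) v ++
    .gap (m + 2) :: (runP m (v + 1) ++ .dup (2 * a + 1) :: runP (2 * a) a))

theorem valid_CE {m a v : ℕ} (hm : m = 2 * a + 2 * v + 2) : validP (CE m a v) := by
  unfold CE
  refine (VP_runP_append (t := 2 * m + 2) (by omega) (VP_gap (by omega) (VP_runP_append (by omega)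
    (VP_dup (by omega) (VP_runP_append (by omega) (VP_dup (by omega)
      (VP_runP ?_ ?_) ?_) ?_) ?_) ?_) ?_) ?_).1
  all_goals omega

theorem cols_CE {m a v : ℕ} (hm : m = 2 * a + 2 * v + 2) (s : ℕ) :
    (colsP (CE m a v)).getD s 0 = cl (hC (2 * m + 1) (2 * a + 1)) s := by
  unfold CE
  rw [getD_runP_append, getD_gap_cons, getD_runP_append, getD_dup_cons,
    getD_runP_append, getD_dup_cons, getD_colsP_runP, cl_hC (by omega)]
  split_ifs <;> omega

theorem valid_CO {m a v : ℕ} (hm : m = 2 * a + 2 * v + 3) : validP (CO m a v) := by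
  unfold CO
  refine (VP_runP_append (t := 2 * m + 2) (by omega) (VP_gap (by omega) (VP_runP_append (by omega)
    (VP_gap (by omega) (VP_runP_append (by omega) (VP_dup (by omega)
      (VP_runP ?_ ?_) ?_) ?_) ?_) ?_) ?_) ?_).1
  all_goals omega

theorem cols_CO {m a v : ℕ} (hm : m = 2 * a + 2 * v + 3) (s : ℕ) :
    (colsP (CO m a v)).getD s 0 = cl (hC (2 * m + 1) (2 * a + 1)) s := by
  unfold CO
  rw [getD_runP_append, getD_gap_cons, getD_runP_append, getD_gap_cons,
    getD_runP_append, getD_dup_cons, getD_colsP_runP, cl_hC (by omega)]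
  split_ifs <;> omega

/-! ### The merged lists -/

variable {m n w w₂ : ℕ} {H : ℕ → ℕ}

/-- deficit of a run, for `m ≤ 2 J + 2` -/
theorem size_le_FL_runP'' {m k J : ℕ} (h : m ≤ 2 * J + 2) :
    ((runP m k).map Pc.size).sum ≤ FL (runP m k) J + (2 * (m - 2 * J) - 1) := by
  have h1 := size_le_FL_runP m k J
  rcases Nat.lt_or_ge (2 * J + 1) m with h2 | h2
  · have : m - 2 * J = 2 := by omega
    rw [this, tri_two] at h1
    omega
  · have := size_le_FL_runP' (m := m) (k := k) (J := J) (by omega)
    omega

/-- case `m` even, `e ≥ 3`, `e ≤ m - 3` -/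
theorem dec_CE {a v : ℕ} (hm : m = 2 * (a + 1) + 2 * (v + 1) + 2) (hm8 : 7 ≤ m)
    (hn : n = 2 * m * m + 3 * m + 2 * (2 * (a + 1) + 1)) (hr : Region n (2 * m + 1) w w₂ H)
    (hN : ((CE m (a + 1) (v + 1)).map Pc.size).sum = n) :
    Decomp (CE m (a + 1) (v + 1)) fun j : Fin w => H j := by
  have hw := hr.row
  have hw2 := hr.two_w2_ge (by rw [hn]; nlinarith) (by omega)
  have e1 : runP (m - 1) (v + 1) = .pair (m - 1) :: runP (m - 3) v := by
    rw [runP_succ, Nat.sub_sub]
  have e2 : runP (2 * (a + 1)) (a + 1) = runP (2 * (a + 1)) a ++ [.pair 2] := by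
    rw [runP_append _ a 1, runP_succ, runP_zero, show 2 * (a + 1) - 2 * a = 2 by omega]
  unfold CE at hN ⊢
  rw [e1, e2] at hN ⊢
  have h0 : Decomp (.pair (2 * m + 4) :: .pair (2 * m - 1) :: (runP (2 * m + 2) (a + 1) ++ (runP (2 * m - 2 * (a + 1) - 1) (v + 1) ++
      (runP (m - 3) v ++ runP (2 * (a + 1)) a)))) fun j : Fin w => H j := by
    refine core_Codd (e := (2 * (a + 1) + 1)) hm8 (by omega) hn hr _ ?_ ?_ ?_ ?_ ?_ ?_ ?_
    · intro p hp
      simp only [List.mem_cons, List.mem_append, List.not_mem_nil, or_false] at hp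
      rcases hp with rfl | rfl | hp | hp | hp | hp
      · trivial
      · trivial
      · exact free_runP p hp
      · exact free_runP p hp
      · exact free_runP p hp
      · exact free_runP p hp
    · rw [← hN]
      simp only [sum_map_size_append, sum_map_size_pair, sum_map_size_rect, sum_map_size_dup,
        sum_map_size_gap]
      simp only [List.map_nil, List.sum_nil]
      omega
    · simp only [FL_append, FL_pair, FL_rect, FL_nil]
      rw [FL_one_runP (by omega), FL_one_runP (by omega), FL_one_runP (by omega), FL_one_runP (by omega)]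
      omega
    · have b1 := size_le_FL_runP'' (m := 2 * m + 2) (k := a + 1) (J := m) (by omega)
      have b2 := size_le_FL_runP'' (m := 2 * m - 2 * (a + 1) - 1) (k := v + 1) (J := m) (by omega)
      have b3 := size_le_FL_runP'' (m := m - 3) (k := v) (J := m) (by omega)
      have b4 := size_le_FL_runP'' (m := 2 * (a + 1)) (k := a) (J := m) (by omega)
      simp only [sum_map_size_append, sum_map_size_pair, sum_map_size_rect, FL_append, FL_pair,
        FL_rect, List.map_nil, List.sum_nil, FL_nil]
      omega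
    · have b1 := size_le_FL_runP'' (m := 2 * m + 2) (k := a + 1) (J := m + 1) (by omega)
      have b2 := size_le_FL_runP'' (m := 2 * m - 2 * (a + 1) - 1) (k := v + 1) (J := m + 1) (by omega)
      have b3 := size_le_FL_runP'' (m := m - 3) (k := v) (J := m + 1) (by omega)
      have b4 := size_le_FL_runP'' (m := 2 * (a + 1)) (k := a) (J := m + 1) (by omega)
      simp only [sum_map_size_append, sum_map_size_pair, sum_map_size_rect, FL_append, FL_pair,
        FL_rect, List.map_nil, List.sum_nil, FL_nil]
      omega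
    · have b1 := size_le_FL_runP'' (m := 2 * m + 2) (k := a + 1) (J := m + 2) (by omega)
      have b2 := size_le_FL_runP'' (m := 2 * m - 2 * (a + 1) - 1) (k := v + 1) (J := m + 2) (by omega)
      have b3 := size_le_FL_runP'' (m := m - 3) (k := v) (J := m + 2) (by omega)
      have b4 := size_le_FL_runP'' (m := 2 * (a + 1)) (k := a) (J := m + 2) (by omega)
      simp only [sum_map_size_append, sum_map_size_pair, sum_map_size_rect, FL_append, FL_pair,
        FL_rect, List.map_nil, List.sum_nil, FL_nil]
      omega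
    · intro J hJ
      have b1 := size_le_FL_runP'' (m := 2 * m + 2) (k := a + 1) (J := J) (by omega)
      have b2 := size_le_FL_runP'' (m := 2 * m - 2 * (a + 1) - 1) (k := v + 1) (J := J) (by omega)
      have b3 := size_le_FL_runP'' (m := m - 3) (k := v) (J := J) (by omega)
      have b4 := size_le_FL_runP'' (m := 2 * (a + 1)) (k := a) (J := J) (by omega)
      simp only [sum_map_size_append, sum_map_size_pair, sum_map_size_rect, FL_append, FL_pair,
        FL_rect, List.map_nil, List.sum_nil, FL_nil]
      omega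
  rw [show 2 * m + 4 = 2 * m + 2 - 2 * (a + 1) + (2 * (a + 1) + 1) + 2 - 1 by omega] at h0
  have h1 := h0.merge_gap_dup (by omega) (by omega) (by omega) (by omega)
  have h2 := h1.perm (L' := .pair (2 * m - 1) :: .gap (2 * m + 2 - 2 * (a + 1)) ::
      .dup ((2 * (a + 1) + 1)) :: .pair 2 :: (runP (2 * m + 2) (a + 1) ++ (runP (2 * m - 2 * (a + 1) - 1) (v + 1) ++
      (runP (m - 3) v ++ runP (2 * (a + 1)) a)))) (by
    rw [List.perm_iff_count]; intro x
    simp only [List.count_append, List.count_cons]
    ring)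
  have h3 : Decomp (.pair (m + (m - 1)) :: .gap (2 * m + 2 - 2 * (a + 1)) ::
      .dup ((2 * (a + 1) + 1)) :: .pair 2 :: (runP (2 * m + 2) (a + 1) ++ (runP (2 * m - 2 * (a + 1) - 1) (v + 1) ++
      (runP (m - 3) v ++ runP (2 * (a + 1)) a)))) fun j : Fin w => H j := by
    rwa [show m + (m - 1) = 2 * m - 1 by omega]
  refine (h3.merge_dup (by omega)).perm ?_
  rw [List.perm_iff_count]; intro x
  simp only [List.count_append, List.count_cons, List.count_nil]
  ring

/-- case `m` even, `e = m - 1` -/
theorem dec_CE0 {a : ℕ} (hm : m = 2 * (a + 2) + 2) (hm8 : 7 ≤ m)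
    (hn : n = 2 * m * m + 3 * m + 2 * (2 * (a + 2) + 1)) (hr : Region n (2 * m + 1) w w₂ H)
    (hN : ((CE m (a + 2) 0).map Pc.size).sum = n) :
    Decomp (CE m (a + 2) 0) fun j : Fin w => H j := by
  have hw := hr.row
  have hw2 := hr.two_w2_ge (by rw [hn]; nlinarith) (by omega)
  have e2 : runP (2 * (a + 2)) (a + 2) = .pair (2 * (a + 2)) :: (runP (2 * (a + 2) - 2) a ++
      [.pair 2]) := by
    rw [runP_succ, runP_append _ a 1, runP_succ, runP_zero,
      show 2 * (a + 2) - 2 - 2 * a = 2 by omega]
  unfold CE at hN ⊢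
  rw [e2, runP_zero, runP_zero, List.nil_append, List.nil_append] at hN ⊢
  have h0 : Decomp (.pair (2 * m + 4) :: .pair (2 * m - 2) :: (runP (2 * m + 2) (a + 2) ++ runP (2 * (a + 2) - 2) a)) fun j : Fin w => H j := by
    refine core_Codd (e := (2 * (a + 2) + 1)) hm8 (by omega) hn hr _ ?_ ?_ ?_ ?_ ?_ ?_ ?_
    · intro p hp
      simp only [List.mem_cons, List.mem_append, List.not_mem_nil, or_false] at hp
      rcases hp with rfl | rfl | hp | hp
      · trivial
      · trivial
      · exact free_runP p hp
      · exact free_runP p hp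
    · rw [← hN]
      simp only [sum_map_size_append, sum_map_size_pair, sum_map_size_rect, sum_map_size_dup,
        sum_map_size_gap]
      simp only [List.map_nil, List.sum_nil]
      omega
    · simp only [FL_append, FL_pair, FL_rect, FL_nil]
      rw [FL_one_runP (by omega), FL_one_runP (by omega)]
      omega
    · have b1 := size_le_FL_runP'' (m := 2 * m + 2) (k := a + 2) (J := m) (by omega)
      have b2 := size_le_FL_runP'' (m := 2 * (a + 2) - 2) (k := a) (J := m) (by omega)
      simp only [sum_map_size_append, sum_map_size_pair, sum_map_size_rect, FL_append, FL_pair,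
        FL_rect, List.map_nil, List.sum_nil, FL_nil]
      omega
    · have b1 := size_le_FL_runP'' (m := 2 * m + 2) (k := a + 2) (J := m + 1) (by omega)
      have b2 := size_le_FL_runP'' (m := 2 * (a + 2) - 2) (k := a) (J := m + 1) (by omega)
      simp only [sum_map_size_append, sum_map_size_pair, sum_map_size_rect, FL_append, FL_pair,
        FL_rect, List.map_nil, List.sum_nil, FL_nil]
      omega
    · have b1 := size_le_FL_runP'' (m := 2 * m + 2) (k := a + 2) (J := m + 2) (by omega)
      have b2 := size_le_FL_runP'' (m := 2 * (a + 2) - 2) (k := a) (J := m + 2) (by omega)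
      simp only [sum_map_size_append, sum_map_size_pair, sum_map_size_rect, FL_append, FL_pair,
        FL_rect, List.map_nil, List.sum_nil, FL_nil]
      omega
    · intro J hJ
      have b1 := size_le_FL_runP'' (m := 2 * m + 2) (k := a + 2) (J := J) (by omega)
      have b2 := size_le_FL_runP'' (m := 2 * (a + 2) - 2) (k := a) (J := J) (by omega)
      simp only [sum_map_size_append, sum_map_size_pair, sum_map_size_rect, FL_append, FL_pair,
        FL_rect, List.map_nil, List.sum_nil, FL_nil]
      omega
  rw [show 2 * m + 4 = 2 * m + 2 - 2 * (a + 2) + (2 * (a + 2) + 1) + 2 - 1 by omega] at h0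
  have h1 := h0.merge_gap_dup (by omega) (by omega) (by omega) (by omega)
  have h2 := h1.perm (L' := .pair (2 * m - 2) :: .gap (2 * m + 2 - 2 * (a + 2)) ::
      .dup ((2 * (a + 2) + 1)) :: .pair 2 :: (runP (2 * m + 2) (a + 2) ++ runP (2 * (a + 2) - 2) a)) (by
    rw [List.perm_iff_count]; intro x
    simp only [List.count_append, List.count_cons]
    ring)
  have h3 : Decomp (.pair (m + 2 * (a + 2)) :: .gap (2 * m + 2 - 2 * (a + 2)) ::
      .dup ((2 * (a + 2) + 1)) :: .pair 2 :: (runP (2 * m + 2) (a + 2) ++ runP (2 * (a + 2) - 2) a)) fun j : Fin w => H j := by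
    rwa [show m + 2 * (a + 2) = 2 * m - 2 by omega]
  refine (h3.merge_dup (by omega)).perm ?_
  rw [List.perm_iff_count]; intro x
  simp only [List.count_append, List.count_cons, List.count_nil]
  ring

/-- case `m` even, `e = 1` -/
theorem dec_CE1 {v : ℕ} (hm : m = 2 * (v + 2) + 2) (hm8 : 7 ≤ m)
    (hn : n = 2 * m * m + 3 * m + 2 * 1) (hr : Region n (2 * m + 1) w w₂ H)
    (hN : ((CE m 0 (v + 2)).map Pc.size).sum = n) :
    Decomp (CE m 0 (v + 2)) fun j : Fin w => H j := by
  have hw := hr.row
  have hw2 := hr.two_w2_ge (by rw [hn]; nlinarith) (by omega)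
  have e1 : runP (m - 1) (v + 2) = .pair (m - 1) :: (runP (m - 3) v ++ [.pair 3]) := by
    rw [runP_succ, Nat.sub_sub, show 1 + 2 = 3 from rfl, runP_append _ v 1,
      show m - 3 - 2 * v = 3 by omega]
    rfl
  unfold CE at hN ⊢
  rw [e1, runP_zero, List.nil_append, mul_zero, runP_zero, Nat.sub_zero, Nat.zero_add,
    Nat.sub_zero] at hN ⊢
  have h0 : Decomp (.pair (2 * m + 5) :: .pair (2 * m - 1) :: (runP (2 * m - 1) (v + 2) ++ runP (m - 3) v)) fun j : Fin w => H j := by
    refine core_Codd (e := 1) hm8 (by omega) hn hr _ ?_ ?_ ?_ ?_ ?_ ?_ ?_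
    · intro p hp
      simp only [List.mem_cons, List.mem_append, List.not_mem_nil, or_false] at hp
      rcases hp with rfl | rfl | hp | hp
      · trivial
      · trivial
      · exact free_runP p hp
      · exact free_runP p hp
    · rw [← hN]
      simp only [sum_map_size_append, sum_map_size_pair, sum_map_size_rect, sum_map_size_dup,
        sum_map_size_gap]
      simp only [List.map_nil, List.sum_nil]
      omega
    · simp only [FL_append, FL_pair, FL_rect, FL_nil]
      rw [FL_one_runP (by omega), FL_one_runP (by omega)]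
      omega
    · have b1 := size_le_FL_runP'' (m := 2 * m - 1) (k := v + 2) (J := m) (by omega)
      have b2 := size_le_FL_runP'' (m := m - 3) (k := v) (J := m) (by omega)
      simp only [sum_map_size_append, sum_map_size_pair, sum_map_size_rect, FL_append, FL_pair,
        FL_rect, List.map_nil, List.sum_nil, FL_nil]
      omega
    · have b1 := size_le_FL_runP'' (m := 2 * m - 1) (k := v + 2) (J := m + 1) (by omega)
      have b2 := size_le_FL_runP'' (m := m - 3) (k := v) (J := m + 1) (by omega)
      simp only [sum_map_size_append, sum_map_size_pair, sum_map_size_rect, FL_append, FL_pair,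
        FL_rect, List.map_nil, List.sum_nil, FL_nil]
      omega
    · have b1 := size_le_FL_runP'' (m := 2 * m - 1) (k := v + 2) (J := m + 2) (by omega)
      have b2 := size_le_FL_runP'' (m := m - 3) (k := v) (J := m + 2) (by omega)
      simp only [sum_map_size_append, sum_map_size_pair, sum_map_size_rect, FL_append, FL_pair,
        FL_rect, List.map_nil, List.sum_nil, FL_nil]
      omega
    · intro J hJ
      have b1 := size_le_FL_runP'' (m := 2 * m - 1) (k := v + 2) (J := J) (by omega)
      have b2 := size_le_FL_runP'' (m := m - 3) (k := v) (J := J) (by omega)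
      simp only [sum_map_size_append, sum_map_size_pair, sum_map_size_rect, FL_append, FL_pair,
        FL_rect, List.map_nil, List.sum_nil, FL_nil]
      omega
  rw [show 2 * m + 5 = 2 * m + 2 + 1 + 3 - 1 by omega] at h0
  have h1 := h0.merge_gap_dup (by omega) (by omega) (by omega) (by omega)
  have h2 := h1.perm (L' := .pair (2 * m - 1) :: .gap (2 * m + 2) ::
      .dup (1) :: .pair 3 :: (runP (2 * m - 1) (v + 2) ++ runP (m - 3) v)) (by
    rw [List.perm_iff_count]; intro x
    simp only [List.count_append, List.count_cons]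
    ring)
  have h3 : Decomp (.pair (m + (m - 1)) :: .gap (2 * m + 2) ::
      .dup (1) :: .pair 3 :: (runP (2 * m - 1) (v + 2) ++ runP (m - 3) v)) fun j : Fin w => H j := by
    rwa [show m + (m - 1) = 2 * m - 1 by omega]
  refine (h3.merge_dup (by omega)).perm ?_
  rw [List.perm_iff_count]; intro x
  simp only [List.count_append, List.count_cons, List.count_nil]
  ring

/-- case `m` odd, `e ≥ 3` -/
theorem dec_CO {a v : ℕ} (hm : m = 2 * (a + 1) + 2 * v + 3) (hm8 : 7 ≤ m)
    (hn : n = 2 * m * m + 3 * m + 2 * (2 * (a + 1) + 1)) (hr : Region n (2 * m + 1) w w₂ H)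
    (hN : ((CO m (a + 1) v).map Pc.size).sum = n) :
    Decomp (CO m (a + 1) v) fun j : Fin w => H j := by
  have hw := hr.row
  have hw2 := hr.two_w2_ge (by rw [hn]; nlinarith) (by omega)
  have e1 : runP m (v + 1) = .pair m :: runP (m - 2) v := runP_succ _ _
  have e2 : runP (2 * (a + 1)) (a + 1) = runP (2 * (a + 1)) a ++ [.pair 2] := by
    rw [runP_append _ a 1, runP_succ, runP_zero, show 2 * (a + 1) - 2 * a = 2 by omega]
  unfold CO at hN ⊢
  rw [e1, e2] at hN ⊢
  have h0 : Decomp (.pair (2 * m + 4) :: .pair (2 * m + 1) :: (runP (2 * m + 2) (a + 1) ++ (runP (2 * m - 2 * (a + 1) - 1) v ++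
      (runP (m - 2) v ++ runP (2 * (a + 1)) a)))) fun j : Fin w => H j := by
    refine core_Codd (e := (2 * (a + 1) + 1)) hm8 (by omega) hn hr _ ?_ ?_ ?_ ?_ ?_ ?_ ?_
    · intro p hp
      simp only [List.mem_cons, List.mem_append, List.not_mem_nil, or_false] at hp
      rcases hp with rfl | rfl | hp | hp | hp | hp
      · trivial
      · trivial
      · exact free_runP p hp
      · exact free_runP p hp
      · exact free_runP p hp
      · exact free_runP p hp
    · rw [← hN]
      simp only [sum_map_size_append, sum_map_size_pair, sum_map_size_rect, sum_map_size_dup,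
        sum_map_size_gap]
      simp only [List.map_nil, List.sum_nil]
      omega
    · simp only [FL_append, FL_pair, FL_rect, FL_nil]
      rw [FL_one_runP (by omega), FL_one_runP (by omega), FL_one_runP (by omega), FL_one_runP (by omega)]
      omega
    · have b1 := size_le_FL_runP'' (m := 2 * m + 2) (k := a + 1) (J := m) (by omega)
      have b2 := size_le_FL_runP'' (m := 2 * m - 2 * (a + 1) - 1) (k := v) (J := m) (by omega)
      have b3 := size_le_FL_runP'' (m := m - 2) (k := v) (J := m) (by omega)
      have b4 := size_le_FL_runP'' (m := 2 * (a + 1)) (k := a) (J := m) (by omega)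
      simp only [sum_map_size_append, sum_map_size_pair, sum_map_size_rect, FL_append, FL_pair,
        FL_rect, List.map_nil, List.sum_nil, FL_nil]
      omega
    · have b1 := size_le_FL_runP'' (m := 2 * m + 2) (k := a + 1) (J := m + 1) (by omega)
      have b2 := size_le_FL_runP'' (m := 2 * m - 2 * (a + 1) - 1) (k := v) (J := m + 1) (by omega)
      have b3 := size_le_FL_runP'' (m := m - 2) (k := v) (J := m + 1) (by omega)
      have b4 := size_le_FL_runP'' (m := 2 * (a + 1)) (k := a) (J := m + 1) (by omega)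
      simp only [sum_map_size_append, sum_map_size_pair, sum_map_size_rect, FL_append, FL_pair,
        FL_rect, List.map_nil, List.sum_nil, FL_nil]
      omega
    · have b1 := size_le_FL_runP'' (m := 2 * m + 2) (k := a + 1) (J := m + 2) (by omega)
      have b2 := size_le_FL_runP'' (m := 2 * m - 2 * (a + 1) - 1) (k := v) (J := m + 2) (by omega)
      have b3 := size_le_FL_runP'' (m := m - 2) (k := v) (J := m + 2) (by omega)
      have b4 := size_le_FL_runP'' (m := 2 * (a + 1)) (k := a) (J := m + 2) (by omega)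
      simp only [sum_map_size_append, sum_map_size_pair, sum_map_size_rect, FL_append, FL_pair,
        FL_rect, List.map_nil, List.sum_nil, FL_nil]
      omega
    · intro J hJ
      have b1 := size_le_FL_runP'' (m := 2 * m + 2) (k := a + 1) (J := J) (by omega)
      have b2 := size_le_FL_runP'' (m := 2 * m - 2 * (a + 1) - 1) (k := v) (J := J) (by omega)
      have b3 := size_le_FL_runP'' (m := m - 2) (k := v) (J := J) (by omega)
      have b4 := size_le_FL_runP'' (m := 2 * (a + 1)) (k := a) (J := J) (by omega)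
      simp only [sum_map_size_append, sum_map_size_pair, sum_map_size_rect, FL_append, FL_pair,
        FL_rect, List.map_nil, List.sum_nil, FL_nil]
      omega
  rw [show 2 * m + 4 = 2 * m + 2 - 2 * (a + 1) + (2 * (a + 1) + 1) + 2 - 1 by omega] at h0
  have h1 := h0.merge_gap_dup (by omega) (by omega) (by omega) (by omega)
  have h2 := h1.perm (L' := .pair (2 * m + 1) :: .gap (2 * m + 2 - 2 * (a + 1)) ::
      .dup ((2 * (a + 1) + 1)) :: .pair 2 :: (runP (2 * m + 2) (a + 1) ++ (runP (2 * m - 2 * (a + 1) - 1) v ++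
      (runP (m - 2) v ++ runP (2 * (a + 1)) a)))) (by
    rw [List.perm_iff_count]; intro x
    simp only [List.count_append, List.count_cons]
    ring)
  have h3 : Decomp (.pair ((m + 2) + m - 1) :: .gap (2 * m + 2 - 2 * (a + 1)) ::
      .dup ((2 * (a + 1) + 1)) :: .pair 2 :: (runP (2 * m + 2) (a + 1) ++ (runP (2 * m - 2 * (a + 1) - 1) v ++
      (runP (m - 2) v ++ runP (2 * (a + 1)) a)))) fun j : Fin w => H j := by
    rwa [show (m + 2) + m - 1 = 2 * m + 1 by omega]
  refine (h3.merge_gap (by omega) (by omega) (by omega)).perm ?_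
  rw [List.perm_iff_count]; intro x
  simp only [List.count_append, List.count_cons, List.count_nil]
  ring

/-- case `m` odd, `e = 1` -/
theorem dec_CO1 {v : ℕ} (hm : m = 2 * (v + 1) + 3) (hm8 : 7 ≤ m)
    (hn : n = 2 * m * m + 3 * m + 2 * 1) (hr : Region n (2 * m + 1) w w₂ H)
    (hN : ((CO m 0 (v + 1)).map Pc.size).sum = n) :
    Decomp (CO m 0 (v + 1)) fun j : Fin w => H j := by
  have hw := hr.row
  have hw2 := hr.two_w2_ge (by rw [hn]; nlinarith) (by omega)
  have e1 : runP m (v + 1 + 1) = .pair m :: (runP (m - 2) v ++ [.pair 3]) := by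
    rw [runP_succ, runP_append _ v 1, show m - 2 - 2 * v = 3 by omega]
    rfl
  unfold CO at hN ⊢
  rw [e1, runP_zero, List.nil_append, mul_zero, runP_zero, Nat.sub_zero, Nat.zero_add,
    Nat.sub_zero] at hN ⊢
  have h0 : Decomp (.pair (2 * m + 5) :: .pair (2 * m + 1) :: (runP (2 * m - 1) (v + 1) ++ runP (m - 2) v)) fun j : Fin w => H j := by
    refine core_Codd (e := 1) hm8 (by omega) hn hr _ ?_ ?_ ?_ ?_ ?_ ?_ ?_
    · intro p hp
      simp only [List.mem_cons, List.mem_append, List.not_mem_nil, or_false] at hp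
      rcases hp with rfl | rfl | hp | hp
      · trivial
      · trivial
      · exact free_runP p hp
      · exact free_runP p hp
    · rw [← hN]
      simp only [sum_map_size_append, sum_map_size_pair, sum_map_size_rect, sum_map_size_dup,
        sum_map_size_gap]
      simp only [List.map_nil, List.sum_nil]
      omega
    · simp only [FL_append, FL_pair, FL_rect, FL_nil]
      rw [FL_one_runP (by omega), FL_one_runP (by omega)]
      omega
    · have b1 := size_le_FL_runP'' (m := 2 * m - 1) (k := v + 1) (J := m) (by omega)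
      have b2 := size_le_FL_runP'' (m := m - 2) (k := v) (J := m) (by omega)
      simp only [sum_map_size_append, sum_map_size_pair, sum_map_size_rect, FL_append, FL_pair,
        FL_rect, List.map_nil, List.sum_nil, FL_nil]
      omega
    · have b1 := size_le_FL_runP'' (m := 2 * m - 1) (k := v + 1) (J := m + 1) (by omega)
      have b2 := size_le_FL_runP'' (m := m - 2) (k := v) (J := m + 1) (by omega)
      simp only [sum_map_size_append, sum_map_size_pair, sum_map_size_rect, FL_append, FL_pair,
        FL_rect, List.map_nil, List.sum_nil, FL_nil]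
      omega
    · have b1 := size_le_FL_runP'' (m := 2 * m - 1) (k := v + 1) (J := m + 2) (by omega)
      have b2 := size_le_FL_runP'' (m := m - 2) (k := v) (J := m + 2) (by omega)
      simp only [sum_map_size_append, sum_map_size_pair, sum_map_size_rect, FL_append, FL_pair,
        FL_rect, List.map_nil, List.sum_nil, FL_nil]
      omega
    · intro J hJ
      have b1 := size_le_FL_runP'' (m := 2 * m - 1) (k := v + 1) (J := J) (by omega)
      have b2 := size_le_FL_runP'' (m := m - 2) (k := v) (J := J) (by omega)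
      simp only [sum_map_size_append, sum_map_size_pair, sum_map_size_rect, FL_append, FL_pair,
        FL_rect, List.map_nil, List.sum_nil, FL_nil]
      omega
  rw [show 2 * m + 5 = 2 * m + 2 + 1 + 3 - 1 by omega] at h0
  have h1 := h0.merge_gap_dup (by omega) (by omega) (by omega) (by omega)
  have h2 := h1.perm (L' := .pair (2 * m + 1) :: .gap (2 * m + 2) ::
      .dup (1) :: .pair 3 :: (runP (2 * m - 1) (v + 1) ++ runP (m - 2) v)) (by
    rw [List.perm_iff_count]; intro x
    simp only [List.count_append, List.count_cons]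
    ring)
  have h3 : Decomp (.pair ((m + 2) + m - 1) :: .gap (2 * m + 2) ::
      .dup (1) :: .pair 3 :: (runP (2 * m - 1) (v + 1) ++ runP (m - 2) v)) fun j : Fin w => H j := by
    rwa [show (m + 2) + m - 1 = 2 * m + 1 by omega]
  refine (h3.merge_gap (by omega) (by omega) (by omega)).perm ?_
  rw [List.perm_iff_count]; intro x
  simp only [List.count_append, List.count_cons, List.count_nil]
  ring

/-! ### Coverage -/

/-- **Coverage of family C, `e` odd.** -/
theorem covC_odd {m e : ℕ} (hm : 7 ≤ m) (he : e < m) (hodd : e % 2 = 1) :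
    CovH (hC (2 * m + 1) e) := by
  intro H w w₂ hr
  have hv : ValidH (hC (2 * m + 1) e) := validH_hC (by omega)
  have hsz := hsize_hC' he
  rw [headD_hC he, if_neg (by omega)] at hr
  obtain ⟨a, rfl⟩ : ∃ a, e = 2 * a + 1 := ⟨e / 2, by omega⟩
  have hn : hsize (hC (2 * m + 1) (2 * a + 1)) = 2 * m * m + 3 * m + 2 * (2 * a + 1) := by
    have : (2 * m + 1) * (m + 1) = 2 * m * m + 3 * m + 1 := by ring
    omega
  rcases Nat.mod_two_eq_zero_or_one m with hm2 | hm2
  · obtain ⟨v, hv'⟩ : ∃ v, m = 2 * a + 2 * v + 2 := ⟨(m - 2 * a - 2) / 2, by omega⟩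
    have hN := sum_size_of_cols hv (valid_CE hv') (cols_CE hv')
    refine ⟨CE m a v, valid_CE hv', cols_CE hv', ?_⟩
    rcases Nat.eq_zero_or_pos a with rfl | ha
    · obtain ⟨b, rfl⟩ : ∃ b, v = b + 2 := ⟨v - 2, by omega⟩
      exact dec_CE1 (by omega) hm hn hr hN
    · rcases Nat.eq_zero_or_pos v with rfl | hv1
      · obtain ⟨b, rfl⟩ : ∃ b, a = b + 2 := ⟨a - 2, by omega⟩
        exact dec_CE0 (by omega) hm hn hr hN
      · obtain ⟨b, rfl⟩ : ∃ b, v = b + 1 := ⟨v - 1, by omega⟩
        obtain ⟨c, rfl⟩ : ∃ c, a = c + 1 := ⟨a - 1, by omega⟩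
        exact dec_CE hv' hm hn hr hN
  · obtain ⟨v, hv'⟩ : ∃ v, m = 2 * a + 2 * v + 3 := ⟨(m - 2 * a - 3) / 2, by omega⟩
    have hN := sum_size_of_cols hv (valid_CO hv') (cols_CO hv')
    refine ⟨CO m a v, valid_CO hv', cols_CO hv', ?_⟩
    rcases Nat.eq_zero_or_pos a with rfl | ha
    · obtain ⟨b, rfl⟩ : ∃ b, v = b + 1 := ⟨v - 1, by omega⟩
      exact dec_CO1 (by omega) hm hn hr hN
    · obtain ⟨c, rfl⟩ : ∃ c, a = c + 1 := ⟨a - 1, by omega⟩
      exact dec_CO hv' hm hn hr hN

/-- **Family C, `e` odd.** -/
theorem covC_odd' (M e : ℕ) (hM : M % 2 = 1) (hM0 : 15 ≤ M) (he : 2 * e + 3 ≤ M)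
    (hodd : e % 2 = 1) : CovH (hC M e) := by
  obtain ⟨m, rfl⟩ : ∃ m, M = 2 * m + 1 := ⟨M / 2, by omega⟩
  exact covC_odd (by omega) (by omega) hodd

end Crest.Agent.R195
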