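import Crest.Agent.R195.Fam
import Crest.Agent.R195.Merge
import Crest.Agent.R195.CovBeven

/-! Row 195, S0298 (helper864).  Coverage of the family V: `n = T_M - 3` and `n = T_M - 1`,
`M = 2 k`. -/

set_option autoImplicit false
set_option linter.unusedSectionVars false
set_option linter.unusedDecidableInType false

namespace Crest.Agent.R195

open Finset

/-- merging inside a list -/
theorem Decomp.merge_dup_at {w c c₁ : ℕ} {A B : List Pc} {H : Fin w → ℕ} (hc : 2 ≤ c₁)
    (h : Decomp (A ++ .pair (c + c₁) :: B) H) : Decomp (A ++ .dup c :: .pair c₁ :: B) H := by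
  have h1 : Decomp (.pair (c + c₁) :: (A ++ B)) H := h.perm List.perm_middle
  have h2 : Decomp (.dup c :: .pair c₁ :: (A ++ B)) H := h1.merge_dup hc
  refine h2.perm ?_
  have p1 : (A ++ .pair c₁ :: B).Perm (.pair c₁ :: (A ++ B)) := List.perm_middle
  have p2 : (A ++ .dup c :: .pair c₁ :: B).Perm (.dup c :: (A ++ .pair c₁ :: B)) :=
    List.perm_middle
  exact (p2.trans (p1.cons _)).symm

/-- the region of the family V -/
theorem regionV {n k w w₂ : ℕ} {H : ℕ → ℕ} (hk : 12 ≤ k) (hn : k * (2 * k + 1) ≤ n + 3)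
    (hr : Region n (2 * k) w w₂ H) : k + 6 ≤ w ∧ w ≤ 4 * k ∧ H 0 + 16 ≤ 4 * k ∧ H 0 + w ≤ n := by
  have h1 := hr.le_sq
  have h2 : 2 ≤ w₂ := hr.two_le (by nlinarith)
  have h4 := hr.row
  have h6 := hr.le_three h2
  have h7 := hr.col
  have h8 := hr.wlog
  obtain ⟨d, rfl⟩ : ∃ d, k = d + 12 := ⟨k - 12, by omega⟩
  refine ⟨?_, by omega, ?_, ?_⟩
  · by_contra hcon
    push Not at hcon
    have : w ≤ d + 17 := by omega
    nlinarith [Nat.mul_le_mul this this]
  · by_contra hcon
    push Not at hcon
    have a1 : H 1 ≤ 15 := by omega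
    have a2 : w₂ ≤ 15 := by omega
    obtain ⟨v, rfl⟩ : ∃ v, w₂ = v + 2 := ⟨w₂ - 2, by omega⟩
    have e1 : v + 2 - 1 = v + 1 := by omega
    rw [e1] at h6
    have a3 : v * H 1 + 2 * 13 ≤ v * 15 + 2 * H 1 + 2 * (13 - v) + 100 := by
      nlinarith
    nlinarith
  · nlinarith

/-- **Numerical core**: all pieces are pairs and rectangles, `n ≥ T_M - 3`, `M = 2 k`. -/
theorem covV_core {n k w w₂ : ℕ} {H : ℕ → ℕ} (hk : 12 ≤ k) (hn : k * (2 * k + 1) ≤ n + 3)
    (hr : Region n (2 * k) w w₂ H) (L : List Pc) (hL : ∀ p ∈ L, p.free)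
    (hs : (L.map Pc.size).sum = n) (h1 : 4 * k ≤ FL L 1 + 16) (h2 : n ≤ FL L (k - 1) + 17)
    (h3 : n ≤ FL L k + 11) (h4 : ∀ J, k < J → n ≤ FL L J + (k + 6 - J)) :
    Decomp L fun j : Fin w => H j := by
  obtain ⟨a1, a2, a3, a4⟩ := regionV hk hn hr
  have st := St.of_region (Q := 0) hr (by omega)
  have hcap : ∀ j, j < w → H j ≤ FL L 1 := by
    intro j _
    have := hr.le_H0 j
    omega
  obtain ⟨d, rfl⟩ : ∃ d, k = d + 12 := ⟨k - 12, by omega⟩
  have hwl := hr.wlog
  rcases Nat.lt_or_ge w (2 * (d + 12)) with hw | hw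
  · have st3 : St (2 * (d + 12)) (2 * (2 * (d + 12) - 1)) w n 0 H :=
      { st with
        two := fun i j _ _ _ => by
          have h1 := hr.le_H0 i
          have h2 := hr.le_H0 j
          omega }
    refine st3.free L hL hs.symm (d + 12) hcap ?_ ?_
    · have e2 : 2 * (2 * (d + 12) - 1) = 4 * d + 46 := by omega
      rw [e2]
      nlinarith
    · intro J hJ
      have := h4 J hJ
      omega
  · refine st.free L hL hs.symm (d + 12 - 1) hcap ?_ ?_
    · have e1 : d + 12 - 1 = d + 11 := by omega
      rw [e1] at h2 ⊢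
      nlinarith
    · intro J hJ
      rcases Nat.lt_or_ge (d + 12) J with h | h
      · have := h4 J h
        omega
      · have : J = d + 12 := by omega
        subst this
        omega

/-- columns of `hV P 0` -/
theorem cl_hV0 {P : ℕ} (h : 6 ≤ P) (s : ℕ) :
    cl (runH P ((P - 4) / 2) [3]) s = if s < (P - 4) / 2 then P - s
      else min ((P - 4) / 2) (P - s) + if s = (P - 4) / 2 then 3
        else if s ≤ (P - 4) / 2 + 2 then 1 else 0 := by
  have hv : ValidH [3] := ⟨by simp, trivial⟩
  rw [cl_runH (ps := [3]) hv (fun _ => by simp only [List.headD_cons]; omega)]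
  split_ifs with h1 h2 h3
  · rfl
  · rw [show s - (P - 4) / 2 = 0 by omega]; rfl
  · obtain ⟨d, hd⟩ : ∃ d, s - (P - 4) / 2 = d + 1 := ⟨s - (P - 4) / 2 - 1, by omega⟩
    rw [hd, cl_succ, if_pos (by omega)]
    rfl
  · obtain ⟨d, hd⟩ : ∃ d, s - (P - 4) / 2 = d + 1 := ⟨s - (P - 4) / 2 - 1, by omega⟩
    rw [hd, cl_succ, if_neg (by omega)]

/-- columns of `hV P 1`, `P = 2 k - 2` -/
theorem cl_hV1 {k : ℕ} (h : 4 ≤ k) (s : ℕ) :
    cl (hV (2 * k - 2) 1) s = if s = 0 then 2 * k + 1 else if s < k - 2 then 2 * k - s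
      else if s = k - 2 then k + 1 else if s ≤ k then k - 1
      else if s ≤ k + 2 then k - 2 else if s < 2 * k then 2 * k - s
      else if s = 2 * k then 1 else 0 := by
  have e : hV (2 * k - 2) 1 = (2 * k + 1) :: runH (2 * k - 2) ((2 * k - 2 - 4) / 2) [3] := by
    unfold hV
    rw [runH_succ, runH_zero, show 2 * k - 2 + 1 + 2 * 1 = 2 * k + 1 by omega]
  rw [e]
  cases s with
  | zero => rfl
  | succ s =>
    rw [cl_succ, cl_hV0 (by omega)]
    have e3 : (2 * k - 2 - 4) / 2 = k - 3 := by omega
    rw [e3, if_neg (Nat.succ_ne_zero s)]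
    simp only [Nat.min_def]
    split_ifs <;> omega

/-- decide all conditions -/
local macro "ifs_omega" : tactic =>
  `(tactic| repeat (first | rw [if_pos (by omega)] | rw [if_neg (by omega)]))

theorem tailV1e {k r : ℕ} (hk : k = 2 * r + 10) (s : ℕ) :
    (colsP (runP (k - 3) r ++ [.pair 7, .pair 5, .pair 3, .rect 1 2])).getD s 0 =
      if s < k - 4 then k - 3 - s else if s < k - 2 then 1 else 0 := by
  rw [getD_runP_append]
  have e : colsP [.pair 7, .pair 5, .pair 3, .rect 1 2] = [7, 6, 5, 4, 3, 2, 1, 1] := rfl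
  rw [e]
  by_cases hs : s < 2 * r
  · rw [if_pos hs, if_pos (by omega)]
  · rw [if_neg hs]
    obtain ⟨d, rfl⟩ : ∃ d, s = 2 * r + d := ⟨s - 2 * r, by omega⟩
    rw [show 2 * r + d - 2 * r = d by omega]
    rcases Nat.lt_or_ge d 8 with h | h
    · interval_cases d <;> simp <;> split_ifs <;> omega
    · rw [List.getD_eq_default _ _ (by simpa using h)]
      ifs_omega

/-- `M = 2 k`, `k` even -/
theorem covV1_even {k r : ℕ} (hk : k = 2 * r + 10) (hk12 : 12 ≤ k) : CovH (hV (2 * k - 2) 1) := by
  intro H w w₂ hr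
  have hsz := hsize_hV1 (P := 2 * k - 2) (by omega) (by omega)
  have hd : (hV (2 * k - 2) 1).headD 0 - 1 = 2 * k := by
    rw [← cl_zero, cl_hV1 (by omega), if_pos rfl]; omega
  rw [hd] at hr
  have hv := validH_hV (P := 2 * k - 2) (e := 1) (by omega) (by omega)
  have hn : k * (2 * k + 1) ≤ hsize (hV (2 * k - 2) 1) + 3 := by
    rw [show 2 * k - 2 + 2 = 2 * k by omega, show 2 * k - 2 + 3 = 2 * k + 1 by omega] at hsz
    nlinarith
  have hL1 : validP (.gap (2 * k + 1) :: (runP (2 * k - 2) (r + 3) ++ (.rect (k + 1) 1 ::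
      .dup (k - 1) :: .dup (k - 2) :: (runP (k - 3) r ++ [.pair 7, .pair 5, .pair 3,
        .rect 1 2])))) := by
    have v5 : validP [.pair 7, .pair 5, .pair 3, .rect 1 2] := by
      simp [validP, Pc.low, Pc.top, Pc.next]
    have v4 : validP (runP (k - 3) r ++ [.pair 7, .pair 5, .pair 3, .rect 1 2]) := by
      refine validP_runP_append (by omega) v5 fun q hq => ?_
      simp only [List.mem_cons, List.not_mem_nil, or_false] at hq
      rcases hq with rfl | rfl | rfl | rfl <;> simp only [Pc.top] <;> omega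
    have t4 : ∀ q ∈ (runP (k - 3) r ++ [.pair 7, .pair 5, .pair 3, .rect 1 2] : List Pc),
        q.top ≤ k - 3 := by
      intro q hq
      rw [List.mem_append] at hq
      rcases hq with hq | hq
      · exact top_runP q hq
      · simp only [List.mem_cons, List.not_mem_nil, or_false] at hq
        rcases hq with rfl | rfl | rfl | rfl <;> simp only [Pc.top] <;> omega
    have v3 : validP (.rect (k + 1) 1 :: .dup (k - 1) :: .dup (k - 2) ::
        (runP (k - 3) r ++ [.pair 7, .pair 5, .pair 3, .rect 1 2])) := by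
      refine ⟨by simp only [Pc.low, Pc.top]; omega, fun q hq => ?_,
        by simp only [Pc.low, Pc.top]; omega, fun q hq => ?_,
        by simp only [Pc.low, Pc.top]; omega, fun q hq => ?_, v4⟩
      · simp only [List.mem_cons] at hq
        rcases hq with rfl | rfl | hq
        · simp only [Pc.top, Pc.next]; omega
        · simp only [Pc.top, Pc.next]; omega
        · have := t4 q hq
          simp only [Pc.next]; omega
      · simp only [List.mem_cons] at hq
        rcases hq with rfl | hq
        · simp only [Pc.top, Pc.next]; omega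
        · have := t4 q hq
          simp only [Pc.next]; omega
      · have := t4 q hq
        simp only [Pc.next]; omega
    have t3 : ∀ q ∈ (.rect (k + 1) 1 :: .dup (k - 1) :: .dup (k - 2) ::
        (runP (k - 3) r ++ [.pair 7, .pair 5, .pair 3, .rect 1 2]) : List Pc), q.top ≤ k + 1 := by
      intro q hq
      simp only [List.mem_cons] at hq
      rcases hq with rfl | rfl | rfl | hq
      · simp only [Pc.top]; omega
      · simp only [Pc.top]; omega
      · simp only [Pc.top]; omega
      · have := t4 q hq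
        omega
    refine ⟨by simp only [Pc.low, Pc.top]; omega, fun q hq => ?_,
      validP_runP_append (by omega) v3 fun q hq => (t3 q hq).trans (by omega)⟩
    rw [List.mem_append] at hq
    rcases hq with hq | hq
    · have := top_runP q hq
      simp only [Pc.next]; omega
    · have := t3 q hq
      simp only [Pc.next]; omega
  have hL2 : ∀ s, (colsP (.gap (2 * k + 1) :: (runP (2 * k - 2) (r + 3) ++ (.rect (k + 1) 1 ::
      .dup (k - 1) :: .dup (k - 2) :: (runP (k - 3) r ++ [.pair 7, .pair 5, .pair 3,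
        .rect 1 2]))))).getD s 0 = cl (hV (2 * k - 2) 1) s := by
    intro s
    rw [getD_gap_cons, getD_runP_append, getD_rect_cons, getD_dup_cons, getD_dup_cons,
      tailV1e hk, cl_hV1 (by omega)]
    rcases Nat.lt_or_ge s 1 with h0 | h0
    · ifs_omega
    rcases Nat.lt_or_ge s 2 with h1 | h1
    · ifs_omega
      omega
    rcases Nat.lt_or_ge s (k - 2) with h2 | h2
    · ifs_omega
      omega
    rcases Nat.lt_or_ge s (k - 1) with h3 | h3
    · ifs_omega
    rcases Nat.lt_or_ge s (k + 1) with h4 | h4
    · ifs_omega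
    rcases Nat.lt_or_ge s (k + 3) with h5 | h5
    · ifs_omega
    rcases Nat.lt_or_ge s (2 * k - 1) with h6 | h6
    · ifs_omega
      omega
    rcases Nat.lt_or_ge s (2 * k) with h7 | h7
    · ifs_omega
      omega
    rcases Nat.lt_or_ge s (2 * k + 1) with h8 | h8
    · ifs_omega
    · ifs_omega
  refine ⟨_, hL1, hL2, ?_⟩
  have htot := sum_size_of_cols hv hL1 hL2
  -- merging
  have hmerge : Decomp (.pair (2 * k + 1 + 5 - 1) :: .pair (k - 1 + 3) :: .pair (k - 2 + 7) ::
      .rect (k + 1) 1 :: .rect 1 2 :: (runP (2 * k - 2) (r + 3) ++ runP (k - 3) r))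
      (fun j : Fin w => H j) := by
    simp only [List.map_append, List.sum_append, List.map_cons,
      List.map_nil, List.sum_cons, List.sum_nil, Pc.size] at htot
    refine covV_core hk12 hn hr _ ?_ ?_ ?_ ?_ ?_ ?_
    · intro p hp
      simp only [List.mem_cons, List.mem_append] at hp
      rcases hp with rfl | rfl | rfl | rfl | rfl | hp | hp
      · trivial
      · trivial
      · trivial
      · trivial
      · trivial
      · exact free_runP p hp
      · exact free_runP p hp
    · simp only [List.map_append, List.sum_append, List.map_cons, List.sum_cons, Pc.size]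
      omega
    · simp only [FL_append, FL_cons, Pc.size, Pc.cap]
      rw [FL_one_runP (by omega), FL_one_runP (by omega)]
      omega
    · rw [← htot]
      simp only [FL_append, FL_cons, Pc.size, Pc.cap]
      have h1 := size_le_FL_runP (2 * k - 2) (r + 3) (k - 1)
      have h2 := size_le_FL_runP (k - 3) r (k - 1)
      rw [show 2 * k - 2 - 2 * (k - 1) = 0 by omega, tri_zero] at h1
      rw [show k - 3 - 2 * (k - 1) = 0 by omega, tri_zero] at h2
      omega
    · rw [← htot]
      simp only [FL_append, FL_cons, Pc.size, Pc.cap]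
      have h1 := size_le_FL_runP (2 * k - 2) (r + 3) k
      have h2 := size_le_FL_runP (k - 3) r k
      rw [show 2 * k - 2 - 2 * k = 0 by omega, tri_zero] at h1
      rw [show k - 3 - 2 * k = 0 by omega, tri_zero] at h2
      omega
    · intro J hJ
      rw [← htot]
      simp only [FL_append, FL_cons, Pc.size, Pc.cap]
      have h1 := size_le_FL_runP (2 * k - 2) (r + 3) J
      have h2 := size_le_FL_runP (k - 3) r J
      rw [show 2 * k - 2 - 2 * J = 0 by omega, tri_zero] at h1
      rw [show k - 3 - 2 * J = 0 by omega, tri_zero] at h2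
      omega
  have hw : w ≤ 4 * k := by
    have := hr.row
    omega
  have d1 := hmerge.merge_gap (by omega) (by omega) (by omega)
  have d2 := Decomp.merge_dup_at (A := [.gap (2 * k + 1), .pair 5]) (c := k - 1) (c₁ := 3)
    (by omega) d1
  have d3 := Decomp.merge_dup_at (A := [.gap (2 * k + 1), .pair 5, .dup (k - 1), .pair 3])
    (c := k - 2) (c₁ := 7) (by omega) d2
  refine d3.perm (Multiset.coe_eq_coe.1 ?_)
  simp only [List.cons_append, List.nil_append, ← Multiset.cons_coe, ← Multiset.coe_add,
    ← Multiset.singleton_add, Multiset.coe_nil]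
  abel

theorem tailV1o {k r : ℕ} (hk : k = 2 * r + 11) (s : ℕ) :
    (colsP (runP (k - 3) r ++ [.pair 8, .pair 6, .pair 4, .rect 2 1, .rect 1 2])).getD s 0 =
      if s < k - 4 then k - 3 - s else if s < k - 2 then 1 else 0 := by
  rw [getD_runP_append]
  have e : colsP [.pair 8, .pair 6, .pair 4, .rect 2 1, .rect 1 2] = [8, 7, 6, 5, 4, 3, 2, 1, 1] := rfl
  rw [e]
  by_cases hs : s < 2 * r
  · rw [if_pos hs, if_pos (by omega)]
  · rw [if_neg hs]
    obtain ⟨d, rfl⟩ : ∃ d, s = 2 * r + d := ⟨s - 2 * r, by omega⟩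
    rw [show 2 * r + d - 2 * r = d by omega]
    rcases Nat.lt_or_ge d 9 with h | h
    · interval_cases d <;> simp <;> split_ifs <;> omega
    · rw [List.getD_eq_default _ _ (by simpa using h)]
      ifs_omega

/-- `M = 2 k`, `k` odd -/
theorem covV1_odd {k r : ℕ} (hk : k = 2 * r + 11) (hk12 : 12 ≤ k) : CovH (hV (2 * k - 2) 1) := by
  intro H w w₂ hr
  have hsz := hsize_hV1 (P := 2 * k - 2) (by omega) (by omega)
  have hd : (hV (2 * k - 2) 1).headD 0 - 1 = 2 * k := by
    rw [← cl_zero, cl_hV1 (by omega), if_pos rfl]; omega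
  rw [hd] at hr
  have hv := validH_hV (P := 2 * k - 2) (e := 1) (by omega) (by omega)
  have hn : k * (2 * k + 1) ≤ hsize (hV (2 * k - 2) 1) + 3 := by
    rw [show 2 * k - 2 + 2 = 2 * k by omega, show 2 * k - 2 + 3 = 2 * k + 1 by omega] at hsz
    nlinarith
  have hL1 : validP (.gap (2 * k + 1) :: (runP (2 * k - 2) (r + 3) ++ (.rect (k + 3) 1 :: .rect (k + 1) 1 ::
      .dup (k - 1) :: .dup (k - 2) :: (runP (k - 3) r ++ [.pair 8, .pair 6, .pair 4,
        .rect 2 1, .rect 1 2])))) := by
    have v5 : validP [.pair 8, .pair 6, .pair 4, .rect 2 1, .rect 1 2] := by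
      simp [validP, Pc.low, Pc.top, Pc.next]
    have v4 : validP (runP (k - 3) r ++ [.pair 8, .pair 6, .pair 4, .rect 2 1, .rect 1 2]) := by
      refine validP_runP_append (by omega) v5 fun q hq => ?_
      simp only [List.mem_cons, List.not_mem_nil, or_false] at hq
      rcases hq with rfl | rfl | rfl | rfl | rfl <;> simp only [Pc.top] <;> omega
    have t4 : ∀ q ∈ (runP (k - 3) r ++ [.pair 8, .pair 6, .pair 4, .rect 2 1, .rect 1 2] : List Pc),
        q.top ≤ k - 3 := by
      intro q hq
      rw [List.mem_append] at hq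
      rcases hq with hq | hq
      · exact top_runP q hq
      · simp only [List.mem_cons, List.not_mem_nil, or_false] at hq
        rcases hq with rfl | rfl | rfl | rfl | rfl <;> simp only [Pc.top] <;> omega
    have v3 : validP (.rect (k + 1) 1 :: .dup (k - 1) :: .dup (k - 2) ::
        (runP (k - 3) r ++ [.pair 8, .pair 6, .pair 4, .rect 2 1, .rect 1 2])) := by
      refine ⟨by simp only [Pc.low, Pc.top]; omega, fun q hq => ?_,
        by simp only [Pc.low, Pc.top]; omega, fun q hq => ?_,
        by simp only [Pc.low, Pc.top]; omega, fun q hq => ?_, v4⟩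
      · simp only [List.mem_cons] at hq
        rcases hq with rfl | rfl | hq
        · simp only [Pc.top, Pc.next]; omega
        · simp only [Pc.top, Pc.next]; omega
        · have := t4 q hq
          simp only [Pc.next]; omega
      · simp only [List.mem_cons] at hq
        rcases hq with rfl | hq
        · simp only [Pc.top, Pc.next]; omega
        · have := t4 q hq
          simp only [Pc.next]; omega
      · have := t4 q hq
        simp only [Pc.next]; omega
    have t3 : ∀ q ∈ (.rect (k + 1) 1 :: .dup (k - 1) :: .dup (k - 2) ::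
        (runP (k - 3) r ++ [.pair 8, .pair 6, .pair 4, .rect 2 1, .rect 1 2]) : List Pc), q.top ≤ k + 1 := by
      intro q hq
      simp only [List.mem_cons] at hq
      rcases hq with rfl | rfl | rfl | hq
      · simp only [Pc.top]; omega
      · simp only [Pc.top]; omega
      · simp only [Pc.top]; omega
      · have := t4 q hq
        omega
    have v2 : validP (.rect (k + 3) 1 :: .rect (k + 1) 1 :: .dup (k - 1) :: .dup (k - 2) ::
        (runP (k - 3) r ++ [.pair 8, .pair 6, .pair 4, .rect 2 1, .rect 1 2])) := by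
      refine ⟨by simp only [Pc.low, Pc.top]; omega, fun q hq => ?_, v3⟩
      have := t3 q hq
      simp only [Pc.next]; omega
    have t2 : ∀ q ∈ (.rect (k + 3) 1 :: .rect (k + 1) 1 :: .dup (k - 1) :: .dup (k - 2) ::
        (runP (k - 3) r ++ [.pair 8, .pair 6, .pair 4, .rect 2 1, .rect 1 2]) : List Pc),
        q.top ≤ k + 3 := by
      intro q hq
      rw [List.mem_cons] at hq
      rcases hq with rfl | hq
      · simp only [Pc.top]; omega
      · have := t3 q hq
        omega
    refine ⟨by simp only [Pc.low, Pc.top]; omega, fun q hq => ?_,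
      validP_runP_append (by omega) v2 fun q hq => (t2 q hq).trans (by omega)⟩
    rw [List.mem_append] at hq
    rcases hq with hq | hq
    · have := top_runP q hq
      simp only [Pc.next]; omega
    · have := t2 q hq
      simp only [Pc.next]; omega
  have hL2 : ∀ s, (colsP (.gap (2 * k + 1) :: (runP (2 * k - 2) (r + 3) ++ (.rect (k + 3) 1 :: .rect (k + 1) 1 ::
      .dup (k - 1) :: .dup (k - 2) :: (runP (k - 3) r ++ [.pair 8, .pair 6, .pair 4,
        .rect 2 1, .rect 1 2]))))).getD s 0 = cl (hV (2 * k - 2) 1) s := by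
    intro s
    rw [getD_gap_cons, getD_runP_append, getD_rect_cons, getD_rect_cons, getD_dup_cons,
      getD_dup_cons, tailV1o hk, cl_hV1 (by omega)]
    rcases Nat.lt_or_ge s 1 with h0 | h0
    · ifs_omega
    rcases Nat.lt_or_ge s 2 with h1 | h1
    · ifs_omega
      omega
    rcases Nat.lt_or_ge s (k - 3) with h2' | h2'
    · ifs_omega
      omega
    rcases Nat.lt_or_ge s (k - 2) with h2 | h2
    · ifs_omega
      omega
    rcases Nat.lt_or_ge s (k - 1) with h3 | h3
    · ifs_omega
    rcases Nat.lt_or_ge s (k + 1) with h4 | h4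
    · ifs_omega
    rcases Nat.lt_or_ge s (k + 3) with h5 | h5
    · ifs_omega
    rcases Nat.lt_or_ge s (2 * k - 1) with h6 | h6
    · ifs_omega
      omega
    rcases Nat.lt_or_ge s (2 * k) with h7 | h7
    · ifs_omega
      omega
    rcases Nat.lt_or_ge s (2 * k + 1) with h8 | h8
    · ifs_omega
    · ifs_omega
  refine ⟨_, hL1, hL2, ?_⟩
  have htot := sum_size_of_cols hv hL1 hL2
  -- merging
  have hmerge : Decomp (.pair (2 * k + 1 + 4 - 1) :: .pair (k - 1 + 6) :: .pair (k - 2 + 8) ::
      .rect (k + 3) 1 :: .rect (k + 1) 1 :: .rect 2 1 :: .rect 1 2 :: (runP (2 * k - 2) (r + 3) ++ runP (k - 3) r))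
      (fun j : Fin w => H j) := by
    simp only [List.map_append, List.sum_append, List.map_cons,
      List.map_nil, List.sum_cons, List.sum_nil, Pc.size] at htot
    refine covV_core hk12 hn hr _ ?_ ?_ ?_ ?_ ?_ ?_
    · intro p hp
      simp only [List.mem_cons, List.mem_append] at hp
      rcases hp with rfl | rfl | rfl | rfl | rfl | rfl | rfl | hp | hp
      · trivial
      · trivial
      · trivial
      · trivial
      · trivial
      · trivial
      · trivial
      · exact free_runP p hp
      · exact free_runP p hp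
    · simp only [List.map_append, List.sum_append, List.map_cons, List.sum_cons, Pc.size]
      omega
    · simp only [FL_append, FL_cons, Pc.size, Pc.cap]
      rw [FL_one_runP (by omega), FL_one_runP (by omega)]
      omega
    · rw [← htot]
      simp only [FL_append, FL_cons, Pc.size, Pc.cap]
      have h1 := size_le_FL_runP (2 * k - 2) (r + 3) (k - 1)
      have h2 := size_le_FL_runP (k - 3) r (k - 1)
      rw [show 2 * k - 2 - 2 * (k - 1) = 0 by omega, tri_zero] at h1
      rw [show k - 3 - 2 * (k - 1) = 0 by omega, tri_zero] at h2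
      omega
    · rw [← htot]
      simp only [FL_append, FL_cons, Pc.size, Pc.cap]
      have h1 := size_le_FL_runP (2 * k - 2) (r + 3) k
      have h2 := size_le_FL_runP (k - 3) r k
      rw [show 2 * k - 2 - 2 * k = 0 by omega, tri_zero] at h1
      rw [show k - 3 - 2 * k = 0 by omega, tri_zero] at h2
      omega
    · intro J hJ
      rw [← htot]
      simp only [FL_append, FL_cons, Pc.size, Pc.cap]
      have h1 := size_le_FL_runP (2 * k - 2) (r + 3) J
      have h2 := size_le_FL_runP (k - 3) r J
      rw [show 2 * k - 2 - 2 * J = 0 by omega, tri_zero] at h1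
      rw [show k - 3 - 2 * J = 0 by omega, tri_zero] at h2
      omega
  have hw : w ≤ 4 * k := by
    have := hr.row
    omega
  have d1 := hmerge.merge_gap (by omega) (by omega) (by omega)
  have d2 := Decomp.merge_dup_at (A := [.gap (2 * k + 1), .pair 4]) (c := k - 1) (c₁ := 6)
    (by omega) d1
  have d3 := Decomp.merge_dup_at (A := [.gap (2 * k + 1), .pair 4, .dup (k - 1), .pair 6])
    (c := k - 2) (c₁ := 8) (by omega) d2
  refine d3.perm (Multiset.coe_eq_coe.1 ?_)
  simp only [List.cons_append, List.nil_append, ← Multiset.cons_coe, ← Multiset.coe_add,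
    ← Multiset.singleton_add, Multiset.coe_nil]
  abel

/-- **Coverage of `hV P 1`** (`n = T_{P+2} - 3`). -/
theorem covV1 (P : ℕ) (hP : P % 2 = 0) (h : 22 ≤ P) : CovH (hV P 1) := by
  obtain ⟨k, hk⟩ : ∃ k, P = 2 * k - 2 := ⟨P / 2 + 1, by omega⟩
  subst hk
  rcases Nat.mod_two_eq_zero_or_one k with h2 | h2
  · exact covV1_even (r := (k - 10) / 2) (by omega) (by omega)
  · exact covV1_odd (r := (k - 11) / 2) (by omega) (by omega)

end Crest.Agent.R195
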