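import Crest.Agent.R195.Fam
import Crest.Agent.R195.CovBeven
import Crest.Agent.R195.Merge

/-! Row 195, S0298.  Coverage of `hV P 2` (`P = 2k - 4`). -/

set_option autoImplicit false
set_option linter.unusedSectionVars false
set_option linter.unusedDecidableInType false

namespace Crest.Agent.R195

open Finset

theorem cl_three (s : ℕ) : cl [3] s = if s = 0 then 3 else if s < 3 then 1 else 0 := by
  match s with
  | 0 => rfl
  | 1 => rfl
  | 2 => rfl
  | s + 3 =>
    rw [cl_succ, if_neg (by omega), if_neg (by omega), if_neg (by omega)]

theorem cl_hV2 {k : ℕ} (hk : 5 ≤ k) (s : ℕ) : cl (hV (2 * k - 4) 2) s =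
    if s < 2 then 2 * k + 1 - s else if s + 2 < k then 2 * k - s else
      if s + 2 = k then k + 1 else if s < k + 1 then k - 1 else if s < k + 3 then k - 2 else
        if s < 2 * k - 2 then 2 * k - s else 2 * k + 1 - s - (if s = 2 * k - 2 then 1 else 0) := by
  unfold hV
  have e1 : (2 * k - 4 - 4) / 2 = k - 4 := by omega
  have e2 : 2 * k - 4 + 1 + 2 * 2 = 2 * k + 1 := by omega
  have h3 : ValidH [3] := ⟨by simp, trivial⟩
  have hv : ValidH (runH (2 * k - 4) (k - 4) [3]) :=
    validH_runH h3 fun _ => by simp only [List.headD_cons]; omega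
  rw [e1, e2, cl_runH hv fun _ => by
    rw [headD_runH]; split_ifs
    · simp only [List.headD_cons]; omega
    · omega, cl_runH h3 fun _ => by simp only [List.headD_cons]; omega, cl_three]
  split_ifs <;> omega

theorem regionV2 {k w w₂ : ℕ} {H : ℕ → ℕ} (hk : 9 ≤ k)
    (hr : Region (k * (2 * k + 1) - 1) (2 * k) w w₂ H) :
    k + 3 ≤ w ∧ H 0 ≤ 3 * k - 4 := by
  obtain ⟨j, rfl⟩ : ∃ j, k = j + 9 := ⟨k - 9, by omega⟩
  obtain ⟨n, hn⟩ : ∃ n, (j + 9) * (2 * (j + 9) + 1) - 1 = n := ⟨_, rfl⟩
  have hn' : (j + 9) * (2 * (j + 9) + 1) = n + 1 := by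
    have : 1 ≤ (j + 9) * (2 * (j + 9) + 1) := by nlinarith
    omega
  rw [hn] at hr
  have h1 := hr.le_sq
  have h2 : 2 ≤ w₂ := hr.two_le (by nlinarith)
  have h4 := hr.row
  have h6 := hr.le_three h2
  have h7 := hr.col
  have h8 := hr.wlog
  constructor
  · by_contra hcon
    push Not at hcon
    have : w ≤ j + 11 := by omega
    nlinarith [Nat.mul_le_mul this this]
  · by_contra hcon
    push Not at hcon
    have a1 : H 1 ≤ j + 12 := by omega
    have a2 : w₂ ≤ j + 12 := by omega
    obtain ⟨v, rfl⟩ : ∃ v, w₂ = v + 1 := ⟨w₂ - 1, by omega⟩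
    simp only [Nat.add_sub_cancel] at h6
    have a3 : v * H 1 ≤ v * (j + 12) := Nat.mul_le_mul_left _ a1
    have a4 : v * (j + 9) ≤ (j + 11) * (j + 9) := Nat.mul_le_mul_right _ (by omega)
    nlinarith

/-- final step without removed pieces -/
theorem Region.free {n M w w₂ : ℕ} {H : ℕ → ℕ} (h : Region n M w w₂ H) (L : List Pc)
    (hL : ∀ p ∈ L, p.free) (hN : n = (L.map Pc.size).sum) (J₁ : ℕ) (h1 : H 0 ≤ FL L 1)
    (hJ : J₁ * (2 * M) ≤ 2 * FL L J₁)
    (hfree : ∀ J, J₁ < J → (L.map Pc.size).sum ≤ FL L J + (w - J)) :
    Decomp L fun j : Fin w => H j := by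
  refine decomp_crit2 L hL w H (h.sum.trans hN) (2 * M) J₁ w (fun i j _ _ hij => h.pair_le hij)
    (fun j _ => (h.le_H0 j).trans h1) hJ ?_ hfree
  have : (range w).filter (fun j => H j ≠ 0) = range w := by
    refine filter_true_of_mem fun j hj => ?_
    have := (h.pos j).1 (mem_range.1 hj)
    omega
  rw [this, card_range]

/-- **Coverage of `hV (2k-4) 2`.** -/
theorem covV2 {k : ℕ} (hk : 9 ≤ k) : CovH (hV (2 * k - 4) 2) := by
  intro H w w₂ hr
  have hP : (2 * k - 4) % 2 = 0 := by omega
  have hv : ValidH (hV (2 * k - 4) 2) := validH_hV hP (by omega)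
  have hsz : hsize (hV (2 * k - 4) 2) + 1 = k * (2 * k + 1) := by
    have h1 := hsize_hV2 (P := 2 * k - 4) hP (by omega)
    have h2 : (2 * k - 4 + 4) * (2 * k - 4 + 5) = 2 * (k * (2 * k + 1)) := by
      rw [show 2 * k - 4 + 4 = 2 * k by omega, show 2 * k - 4 + 5 = 2 * k + 1 by omega]
      ring
    omega
  have hhead : (hV (2 * k - 4) 2).headD 0 - 1 = 2 * k := by
    unfold hV
    rw [headD_runH, if_neg (by omega)]
    omega
  rw [hhead] at hr
  have hr' := hr
  rw [show hsize (hV (2 * k - 4) 2) = k * (2 * k + 1) - 1 by omega] at hr'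
  obtain ⟨hw1, hH0⟩ := regionV2 hk hr'
  rcases Nat.even_or_odd' k with ⟨t, ht | ht⟩
  · -- `k` even
    obtain ⟨j, hj⟩ : ∃ j, k = 2 * j + 10 := ⟨t - 5, by omega⟩
    have hA : runP (k - 3) (j + 2) = runP (k - 3) j ++ [.pair 7, .pair 5] := by
      rw [runP_append, show k - 3 - 2 * j = 7 by omega]
      rfl
    set L : List Pc := runP (2 * k + 1) 1 ++ (runP (2 * k - 2) (j + 3) ++ .rect (k + 1) 1 ::
      .dup (k - 1) :: .dup (k - 2) :: (runP (k - 3) (j + 2) ++ [.rect 3 1, .dup 2, .rect 1 1]))
      with hL
    have hvL : validP L := by
      have v4 : validP [.rect 3 1, .dup 2, .rect 1 1] := by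
        refine ⟨by simp [Pc.low, Pc.top], ?_, by simp [Pc.low, Pc.top], ?_,
          by simp [Pc.low, Pc.top], ?_, trivial⟩ <;> intro q hq <;>
          simp only [List.mem_cons, List.not_mem_nil, or_false] at hq
        · rcases hq with rfl | rfl <;> simp [Pc.top, Pc.next]
        · subst hq; simp [Pc.top, Pc.next]
      have t4 : ∀ q ∈ ([.rect 3 1, .dup 2, .rect 1 1] : List Pc), q.top ≤ 3 := by
        intro q hq
        simp only [List.mem_cons, List.not_mem_nil, or_false] at hq
        rcases hq with rfl | rfl | rfl <;> simp [Pc.top]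
      have v3 : validP (runP (k - 3) (j + 2) ++ [.rect 3 1, .dup 2, .rect 1 1]) :=
        validP_runP_append (by omega) v4 fun q hq => (t4 q hq).trans (by omega)
      have t3 : ∀ q ∈ (runP (k - 3) (j + 2) ++ [.rect 3 1, .dup 2, .rect 1 1]),
          q.top ≤ k - 3 := by
        intro q hq
        rw [List.mem_append] at hq
        rcases hq with hq | hq
        · exact top_runP q hq
        · exact (t4 q hq).trans (by omega)
      have v2 : validP (.rect (k + 1) 1 :: .dup (k - 1) :: .dup (k - 2) ::
          (runP (k - 3) (j + 2) ++ [.rect 3 1, .dup 2, .rect 1 1])) := by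
        refine ⟨by simp only [Pc.low, Pc.top]; omega, ?_, by simp only [Pc.low, Pc.top]; omega, ?_,
          by simp only [Pc.low, Pc.top]; omega, ?_, v3⟩
        · intro q hq
          simp only [List.mem_cons] at hq
          rcases hq with rfl | rfl | hq
          · simp only [Pc.top, Pc.next]; omega
          · simp only [Pc.top, Pc.next]; omega
          · have := t3 q hq; simp only [Pc.next]; omega
        · intro q hq
          simp only [List.mem_cons] at hq
          rcases hq with rfl | hq
          · simp only [Pc.top, Pc.next]; omega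
          · have := t3 q hq; simp only [Pc.next]; omega
        · intro q hq
          have := t3 q hq; simp only [Pc.next]; omega
      have t2 : ∀ q ∈ (.rect (k + 1) 1 :: .dup (k - 1) :: .dup (k - 2) ::
          (runP (k - 3) (j + 2) ++ [.rect 3 1, .dup 2, .rect 1 1]) : List Pc), q.top ≤ k + 1 := by
        intro q hq
        simp only [List.mem_cons] at hq
        rcases hq with rfl | rfl | rfl | hq
        · simp [Pc.top]
        · simp only [Pc.top]; omega
        · simp only [Pc.top]; omega
        · have := t3 q hq; omega
      refine validP_runP_append (by omega) (validP_runP_append (by omega) v2 fun q hq =>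
        (t2 q hq).trans (by omega)) fun q hq => ?_
      rw [List.mem_append] at hq
      rcases hq with hq | hq
      · exact (top_runP q hq).trans (by omega)
      · exact (t2 q hq).trans (by omega)
    have hcol : ∀ s, (colsP L).getD s 0 = cl (hV (2 * k - 4) 2) s := by
      intro s
      rw [hL, getD_runP_append, getD_runP_append, getD_rect_cons, getD_dup_cons, getD_dup_cons,
        getD_runP_append, getD_rect_cons, getD_dup_cons, getD_rect_cons, colsP_nil, cl_hV2 (by omega)]
      simp only [List.getD_nil]
      split_ifs <;> omega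
    refine ⟨L, hvL, hcol, ?_⟩
    have htot := sum_size_of_cols hv hvL hcol
    set L' : List Pc := runP (2 * k + 1) 1 ++ (runP (2 * k - 2) (j + 3) ++ (runP (k - 3) j ++
      [.rect (k + 1) 1, .pair (k + 6), .pair (k + 5), .rect 3 1, .rect 1 1])) with hL'
    have hN : hsize (hV (2 * k - 4) 2) = (L'.map Pc.size).sum := by
      rw [← htot, hL, hL', hA]
      simp only [List.map_append, List.sum_append, List.map_cons, List.map_nil, List.sum_cons,
        List.sum_nil, Pc.size]
      omega
    have hD : Decomp L' fun j : Fin w => H j := by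
      refine hr.free L' ?_ hN k ?_ ?_ ?_
      · intro p hp
        simp only [hL', List.mem_append, List.mem_cons, List.not_mem_nil, or_false] at hp
        rcases hp with hp | hp | hp | rfl | rfl | rfl | rfl | rfl
        · exact free_runP p hp
        · exact free_runP p hp
        · exact free_runP p hp
        all_goals trivial
      · rw [hL']
        simp only [FL_append, FL_cons, FL_nil, Pc.size, Pc.cap]
        rw [FL_one_runP (by omega), FL_one_runP (by omega), FL_one_runP (by omega)]
        omega
      · have h1 : (L'.map Pc.size).sum ≤ FL L' k + 2 := by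
          rw [hL']
          simp only [FL_append, FL_cons, FL_nil, List.map_append, List.sum_append, List.map_cons,
            List.map_nil, List.sum_cons, List.sum_nil, Pc.size, Pc.cap]
          have h1 := size_le_FL_runP (2 * k + 1) 1 k
          have h2 := size_le_FL_runP (2 * k - 2) (j + 3) k
          have h3 := size_le_FL_runP (k - 3) j k
          rw [show 2 * k + 1 - 2 * k = 1 by omega, tri_one] at h1
          rw [show 2 * k - 2 - 2 * k = 0 by omega, tri_zero] at h2
          rw [show k - 3 - 2 * k = 0 by omega, tri_zero] at h3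
          omega
        have h2 : k * (2 * k + 1) ≤ FL L' k + 3 := by omega
        nlinarith
      · intro J hJ
        rw [hL']
        simp only [FL_append, FL_cons, FL_nil, List.map_append, List.sum_append, List.map_cons,
          List.map_nil, List.sum_cons, List.sum_nil, Pc.size, Pc.cap]
        have h1 := size_le_FL_runP (2 * k + 1) 1 J
        have h2 := size_le_FL_runP (2 * k - 2) (j + 3) J
        have h3 := size_le_FL_runP (k - 3) j J
        rw [show 2 * k + 1 - 2 * J = 0 by omega, tri_zero] at h1
        rw [show 2 * k - 2 - 2 * J = 0 by omega, tri_zero] at h2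
        rw [show k - 3 - 2 * J = 0 by omega, tri_zero] at h3
        omega
    -- undo the merging
    have d1 : Decomp (.pair (k - 1 + 2 + 5) :: .pair (k - 2 + 7) :: (runP (2 * k + 1) 1 ++
        (runP (2 * k - 2) (j + 3) ++ (runP (k - 3) j ++ [.rect (k + 1) 1, .rect 3 1, .rect 1 1]))))
        (fun j : Fin w => H j) := by
      refine hD.perm ?_
      rw [show k - 1 + 2 + 5 = k + 6 by omega, show k - 2 + 7 = k + 5 by omega, hL',
        List.perm_iff_count]
      intro a
      simp only [List.count_append, List.count_cons, List.count_nil]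
      ring
    have d2 := d1.merge_dup_dup (by omega)
    have d3 : Decomp (.pair (k - 2 + 7) :: .dup (k - 1) :: .dup 2 :: .pair 5 ::
        (runP (2 * k + 1) 1 ++ (runP (2 * k - 2) (j + 3) ++ (runP (k - 3) j ++
          [.rect (k + 1) 1, .rect 3 1, .rect 1 1])))) (fun j : Fin w => H j) := by
      refine d2.perm ?_
      rw [List.perm_iff_count]
      intro a
      simp only [List.count_append, List.count_cons, List.count_nil]
      ring
    have d4 := d3.merge_dup (by omega)
    refine d4.perm ?_
    rw [hL, hA, List.perm_iff_count]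
    intro a
    simp only [List.count_append, List.count_cons, List.count_nil]
    ring
  · -- `k` odd
    obtain ⟨j, hj⟩ : ∃ j, k = 2 * j + 9 := ⟨t - 4, by omega⟩
    have hA : runP (k - 3) (j + 2) = runP (k - 3) j ++ [.pair 6, .pair 4] := by
      rw [runP_append, show k - 3 - 2 * j = 6 by omega]
      rfl
    set L : List Pc := runP (2 * k + 1) 1 ++ (runP (2 * k - 2) (j + 2) ++ .rect (k + 3) 1 ::
      .rect (k + 1) 1 :: .dup (k - 1) :: .dup (k - 2) :: (runP (k - 3) (j + 2) ++
        [.dup 2, .rect 1 1])) with hL
    have hvL : validP L := by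
      have v4 : validP [.dup 2, .rect 1 1] := by
        refine ⟨by simp [Pc.low, Pc.top], ?_, by simp [Pc.low, Pc.top], ?_, trivial⟩ <;>
          intro q hq <;> simp only [List.mem_cons, List.not_mem_nil, or_false] at hq
        subst hq; simp [Pc.top, Pc.next]
      have t4 : ∀ q ∈ ([.dup 2, .rect 1 1] : List Pc), q.top ≤ 2 := by
        intro q hq
        simp only [List.mem_cons, List.not_mem_nil, or_false] at hq
        rcases hq with rfl | rfl <;> simp [Pc.top]
      have v3 : validP (runP (k - 3) (j + 2) ++ [.dup 2, .rect 1 1]) :=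
        validP_runP_append (by omega) v4 fun q hq => (t4 q hq).trans (by omega)
      have t3 : ∀ q ∈ (runP (k - 3) (j + 2) ++ [.dup 2, .rect 1 1]), q.top ≤ k - 3 := by
        intro q hq
        rw [List.mem_append] at hq
        rcases hq with hq | hq
        · exact top_runP q hq
        · exact (t4 q hq).trans (by omega)
      have v2 : validP (.rect (k + 3) 1 :: .rect (k + 1) 1 :: .dup (k - 1) :: .dup (k - 2) ::
          (runP (k - 3) (j + 2) ++ [.dup 2, .rect 1 1])) := by
        refine ⟨by simp only [Pc.low, Pc.top]; omega, ?_, by simp only [Pc.low, Pc.top]; omega, ?_,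
          by simp only [Pc.low, Pc.top]; omega, ?_, by simp only [Pc.low, Pc.top]; omega, ?_, v3⟩
        · intro q hq
          simp only [List.mem_cons] at hq
          rcases hq with rfl | rfl | rfl | hq
          · simp only [Pc.top, Pc.next]; omega
          · simp only [Pc.top, Pc.next]; omega
          · simp only [Pc.top, Pc.next]; omega
          · have := t3 q hq; simp only [Pc.next]; omega
        · intro q hq
          simp only [List.mem_cons] at hq
          rcases hq with rfl | rfl | hq
          · simp only [Pc.top, Pc.next]; omega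
          · simp only [Pc.top, Pc.next]; omega
          · have := t3 q hq; simp only [Pc.next]; omega
        · intro q hq
          simp only [List.mem_cons] at hq
          rcases hq with rfl | hq
          · simp only [Pc.top, Pc.next]; omega
          · have := t3 q hq; simp only [Pc.next]; omega
        · intro q hq
          have := t3 q hq; simp only [Pc.next]; omega
      have t2 : ∀ q ∈ (.rect (k + 3) 1 :: .rect (k + 1) 1 :: .dup (k - 1) :: .dup (k - 2) ::
          (runP (k - 3) (j + 2) ++ [.dup 2, .rect 1 1]) : List Pc), q.top ≤ k + 3 := by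
        intro q hq
        simp only [List.mem_cons] at hq
        rcases hq with rfl | rfl | rfl | rfl | hq
        · simp [Pc.top]
        · simp only [Pc.top]; omega
        · simp only [Pc.top]; omega
        · simp only [Pc.top]; omega
        · have := t3 q hq; omega
      refine validP_runP_append (by omega) (validP_runP_append (by omega) v2 fun q hq =>
        (t2 q hq).trans (by omega)) fun q hq => ?_
      rw [List.mem_append] at hq
      rcases hq with hq | hq
      · exact (top_runP q hq).trans (by omega)
      · exact (t2 q hq).trans (by omega)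
    have hcol : ∀ s, (colsP L).getD s 0 = cl (hV (2 * k - 4) 2) s := by
      intro s
      rw [hL, getD_runP_append, getD_runP_append, getD_rect_cons, getD_rect_cons, getD_dup_cons,
        getD_dup_cons, getD_runP_append, getD_dup_cons, getD_rect_cons, colsP_nil,
        cl_hV2 (by omega)]
      simp only [List.getD_nil]
      split_ifs <;> omega
    refine ⟨L, hvL, hcol, ?_⟩
    have htot := sum_size_of_cols hv hvL hcol
    set L' : List Pc := runP (2 * k + 1) 1 ++ (runP (2 * k - 2) (j + 2) ++ (runP (k - 3) j ++
      [.rect (k + 3) 1, .rect (k + 1) 1, .pair (k + 5), .pair (k + 4), .rect 1 1])) with hL'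
    have hN : hsize (hV (2 * k - 4) 2) = (L'.map Pc.size).sum := by
      rw [← htot, hL, hL', hA]
      simp only [List.map_append, List.sum_append, List.map_cons, List.map_nil, List.sum_cons,
        List.sum_nil, Pc.size]
      omega
    have hD : Decomp L' fun j : Fin w => H j := by
      refine hr.free L' ?_ hN k ?_ ?_ ?_
      · intro p hp
        simp only [hL', List.mem_append, List.mem_cons, List.not_mem_nil, or_false] at hp
        rcases hp with hp | hp | hp | rfl | rfl | rfl | rfl | rfl
        · exact free_runP p hp
        · exact free_runP p hp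
        · exact free_runP p hp
        all_goals trivial
      · rw [hL']
        simp only [FL_append, FL_cons, FL_nil, Pc.size, Pc.cap]
        rw [FL_one_runP (by omega), FL_one_runP (by omega), FL_one_runP (by omega)]
        omega
      · have h1 : (L'.map Pc.size).sum ≤ FL L' k + 5 := by
          rw [hL']
          simp only [FL_append, FL_cons, FL_nil, List.map_append, List.sum_append, List.map_cons,
            List.map_nil, List.sum_cons, List.sum_nil, Pc.size, Pc.cap]
          have h1 := size_le_FL_runP (2 * k + 1) 1 k
          have h2 := size_le_FL_runP (2 * k - 2) (j + 2) k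
          have h3 := size_le_FL_runP (k - 3) j k
          rw [show 2 * k + 1 - 2 * k = 1 by omega, tri_one] at h1
          rw [show 2 * k - 2 - 2 * k = 0 by omega, tri_zero] at h2
          rw [show k - 3 - 2 * k = 0 by omega, tri_zero] at h3
          omega
        have h2 : k * (2 * k + 1) ≤ FL L' k + 6 := by omega
        nlinarith
      · intro J hJ
        rw [hL']
        simp only [FL_append, FL_cons, FL_nil, List.map_append, List.sum_append, List.map_cons,
          List.map_nil, List.sum_cons, List.sum_nil, Pc.size, Pc.cap]
        have h1 := size_le_FL_runP (2 * k + 1) 1 J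
        have h2 := size_le_FL_runP (2 * k - 2) (j + 2) J
        have h3 := size_le_FL_runP (k - 3) j J
        rw [show 2 * k + 1 - 2 * J = 0 by omega, tri_zero] at h1
        rw [show 2 * k - 2 - 2 * J = 0 by omega, tri_zero] at h2
        rw [show k - 3 - 2 * J = 0 by omega, tri_zero] at h3
        omega
    -- undo the merging
    have d1 : Decomp (.pair (k - 1 + 2 + 4) :: .pair (k - 2 + 6) :: (runP (2 * k + 1) 1 ++
        (runP (2 * k - 2) (j + 2) ++ (runP (k - 3) j ++
          [.rect (k + 3) 1, .rect (k + 1) 1, .rect 1 1]))))
        (fun j : Fin w => H j) := by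
      refine hD.perm ?_
      rw [show k - 1 + 2 + 4 = k + 5 by omega, show k - 2 + 6 = k + 4 by omega, hL',
        List.perm_iff_count]
      intro a
      simp only [List.count_append, List.count_cons, List.count_nil]
      ring
    have d2 := d1.merge_dup_dup (by omega)
    have d3 : Decomp (.pair (k - 2 + 6) :: .dup (k - 1) :: .dup 2 :: .pair 4 ::
        (runP (2 * k + 1) 1 ++ (runP (2 * k - 2) (j + 2) ++ (runP (k - 3) j ++
          [.rect (k + 3) 1, .rect (k + 1) 1, .rect 1 1])))) (fun j : Fin w => H j) := by
      refine d2.perm ?_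
      rw [List.perm_iff_count]
      intro a
      simp only [List.count_append, List.count_cons, List.count_nil]
      ring
    have d4 := d3.merge_dup (by omega)
    refine d4.perm ?_
    rw [hL, hA, List.perm_iff_count]
    intro a
    simp only [List.count_append, List.count_cons, List.count_nil]
    ring

/-- **Family V, two outer layers.** -/
theorem covV2' (P : ℕ) (hP : P % 2 = 0) (h : 14 ≤ P) : CovH (hV P 2) := by
  obtain ⟨k, hk⟩ : ∃ k, P = 2 * k - 4 ∧ 9 ≤ k := ⟨(P + 4) / 2, by omega, by omega⟩
  rw [hk.1]
  exact covV2 hk.2

end Crest.Agent.R195
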