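import Crest.Agent.R195.MergeCheck2

/-! Row 195, S0298 (helper563).  Small table of plans for the numeric checker: exactly the members of
the families below the thresholds of the uniform proofs (generated by a program, checked by the
kernel). -/

set_option autoImplicit false
set_option Elab.async false

namespace Crest.Agent.R195

namespace MergeS

def tA7_2 : List MEnt := [
  ⟨32, 7, 4, [⟨5, 9, [(8, 1)], [(3, 1), (1, 1)], [([], [2], 5)]⟩]⟩,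
  ⟨34, 7, 5, [⟨5, 8, [(8, 1)], [], [([6], [3], 2)]⟩]⟩]

theorem tA7_2_ok : mtabOK (hA 7) 2 tA7_2 = true := by decide +kernel

theorem covA_7_2 (e : ℕ) (h1 : 2 ≤ e) (h2 : e ≤ 3) : CovH (hA 7 e) :=
  mtab_cov' tA7_2_ok (l := 2) rfl e h1 (by omega)

def tA8_2 : List MEnt := [
  ⟨40, 8, 5, [⟨5, 10, [(9, 1), (6, 1)], [(1, 1)], [([], [2], 4)]⟩]⟩,
  ⟨42, 8, 7, [⟨6, 10, [(9, 1), (5, 1)], [(7, 1)], [([], [3], 2)]⟩]⟩,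
  ⟨44, 8, 5, [⟨6, 10, [(9, 2)], [(1, 1)], [([], [4], 3)]⟩]⟩]

theorem tA8_2_ok : mtabOK (hA 8) 2 tA8_2 = true := by decide +kernel

theorem covA_8_2 (e : ℕ) (h1 : 2 ≤ e) (h2 : e ≤ 4) : CovH (hA 8 e) :=
  mtab_cov' tA8_2_ok (l := 3) rfl e h1 (by omega)

def tA9_2 : List MEnt := [
  ⟨49, 9, 5, [⟨6, 11, [(10, 1), (7, 1)], [(3, 1), (1, 1)], [([], [2], 5)]⟩]⟩,
  ⟨51, 9, 6, [⟨6, 11, [(10, 1), (5, 1)], [], [([8], [3], 2)]⟩]⟩,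
  ⟨53, 9, 5, [⟨6, 11, [(10, 2)], [(5, 1), (1, 1)], [([], [4], 3)]⟩]⟩]

theorem tA9_2_ok : mtabOK (hA 9) 2 tA9_2 = true := by decide +kernel

theorem covA_9_2 (e : ℕ) (h1 : 2 ≤ e) (h2 : e ≤ 4) : CovH (hA 9 e) :=
  mtab_cov' tA9_2_ok (l := 3) rfl e h1 (by omega)

def tA10_1 : List MEnt := [
  ⟨57, 10, 7, [⟨6, 13, [(8, 1)], [(2, 1)], [([11], [], 4), ([], [1], 6)]⟩]⟩]

theorem tA10_1_ok : mtabOK (hA 10) 1 tA10_1 = true := by decide +kernel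

theorem covA_10_1 (e : ℕ) (h1 : 1 ≤ e) (h2 : e ≤ 1) : CovH (hA 10 e) :=
  mtab_cov' tA10_1_ok (l := 1) rfl e h1 (by omega)

def tB8_0 : List MEnt := [
  ⟨37, 7, 6, [⟨6, 8, [(8, 1)], [(6, 1), (1, 1)], [([], [5], 3)]⟩]⟩]

theorem tB8_0_ok : mtabOK (hB 8) 0 tB8_0 = true := by decide +kernel

theorem covB_8_0 (e : ℕ) (h1 : 0 ≤ e) (h2 : e ≤ 0) : CovH (hB 8 e) :=
  mtab_cov' tB8_0_ok (l := 1) rfl e h1 (by omega)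

def tB8_3 : List MEnt := [
  ⟨43, 8, 7, [⟨6, 9, [(9, 1)], [(5, 1)], [([7], [3], 2)]⟩, ⟨10, 10, [(9, 1)], [(7, 1), (3, 2)], [([], [5], 2)]⟩]⟩]

theorem tB8_3_ok : mtabOK (hB 8) 3 tB8_3 = true := by decide +kernel

theorem covB_8_3 (e : ℕ) (h1 : 3 ≤ e) (h2 : e ≤ 3) : CovH (hB 8 e) :=
  mtab_cov' tB8_3_ok (l := 1) rfl e h1 (by omega)

def tB10_0 : List MEnt := [
  ⟨56, 9, 5, [⟨7, 11, [(10, 2), (4, 1)], [], [([], [6], 2)]⟩]⟩]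

theorem tB10_0_ok : mtabOK (hB 10) 0 tB10_0 = true := by decide +kernel

theorem covB_10_0 (e : ℕ) (h1 : 0 ≤ e) (h2 : e ≤ 0) : CovH (hB 10 e) :=
  mtab_cov' tB10_0_ok (l := 1) rfl e h1 (by omega)

def tB10_2 : List MEnt := [
  ⟨60, 10, 6, [⟨6, 13, [(11, 1), (8, 1)], [(1, 1)], [([], [6, 2], 4)]⟩]⟩,
  ⟨62, 10, 9, [⟨7, 8, [], [(4, 1)], [([9], [6], 2), ([], [3], 11)]⟩, ⟨9, 11, [(11, 1)], [(9, 1), (7, 1), (4, 1)], [([], [6, 3], 2)]⟩, ⟨12, 12, [(11, 1)], [(9, 1), (7, 1), (4, 1), (3, 2)], [([], [6], 2)]⟩]⟩,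
  ⟨64, 10, 7, [⟨7, 12, [(11, 2)], [(1, 1)], [([], [6, 4], 3)]⟩]⟩]

theorem tB10_2_ok : mtabOK (hB 10) 2 tB10_2 = true := by decide +kernel

theorem covB_10_2 (e : ℕ) (h1 : 2 ≤ e) (h2 : e ≤ 4) : CovH (hB 10 e) :=
  mtab_cov' tB10_2_ok (l := 3) rfl e h1 (by omega)

def tB12_0 : List MEnt := [
  ⟨79, 11, 8, [⟨8, 13, [(12, 2), (5, 1)], [(8, 1), (1, 1)], [([], [7], 3)]⟩]⟩,
  ⟨81, 12, 13, [⟨7, 13, [(10, 1)], [(8, 1)], [([13], [1], 3), ([], [7], 5)]⟩, ⟨14, 15, [(11, 2), (5, 1)], [(13, 1)], [([], [7, 1], 3)]⟩]⟩,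
  ⟨83, 12, 8, [⟨7, 15, [(13, 1), (10, 1)], [(8, 1), (3, 1), (1, 1)], [([], [7, 2], 5)]⟩]⟩,
  ⟨85, 12, 11, [⟨8, 13, [(13, 1)], [(8, 1)], [([11], [3], 2), ([], [7], 5)]⟩, ⟨14, 15, [(13, 1), (9, 1), (5, 1)], [(11, 1)], [([], [7, 3], 2)]⟩]⟩,
  ⟨87, 12, 8, [⟨8, 15, [(13, 2)], [(8, 1), (5, 1), (1, 1)], [([], [7, 4], 3)]⟩]⟩,
  ⟨89, 12, 8, [⟨8, 15, [(13, 2), (4, 1)], [(7, 1)], [([9], [5], 2)]⟩]⟩]

theorem tB12_0_ok : mtabOK (hB 12) 0 tB12_0 = true := by decide +kernel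

theorem covB_12_0 (e : ℕ) (h1 : 0 ≤ e) (h2 : e ≤ 5) : CovH (hB 12 e) :=
  mtab_cov' tB12_0_ok (l := 6) rfl e h1 (by omega)

def tB14_1 : List MEnt := [
  ⟨108, 14, 10, [⟨8, 17, [(12, 2)], [(2, 1)], [([15], [1], 4), ([], [8], 6)]⟩, ⟨18, 18, [(12, 2)], [(2, 1), (1, 2)], [([15], [], 4), ([], [8], 6)]⟩]⟩]

theorem tB14_1_ok : mtabOK (hB 14) 1 tB14_1 = true := by decide +kernel

theorem covB_14_1 (e : ℕ) (h1 : 1 ≤ e) (h2 : e ≤ 1) : CovH (hB 14 e) :=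
  mtab_cov' tB14_1_ok (l := 1) rfl e h1 (by omega)

def tB14_3 : List MEnt := [
  ⟨112, 14, 11, [⟨8, 17, [(15, 1), (10, 1)], [(4, 1)], [([13], [3], 2), ([], [8], 6)]⟩, ⟨18, 18, [(15, 1), (10, 1), (6, 1)], [(4, 1), (3, 2)], [([13], [8], 2)]⟩]⟩]

theorem tB14_3_ok : mtabOK (hB 14) 3 tB14_3 = true := by decide +kernel

theorem covB_14_3 (e : ℕ) (h1 : 3 ≤ e) (h2 : e ≤ 3) : CovH (hB 14 e) :=
  mtab_cov' tB14_3_ok (l := 1) rfl e h1 (by omega)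

def tB14_5 : List MEnt := [
  ⟨116, 14, 10, [⟨9, 17, [(15, 2)], [(6, 1)], [([11], [5], 2), ([], [8], 4)]⟩, ⟨18, 18, [(15, 2), (4, 1)], [(6, 1), (5, 2)], [([11], [8], 2)]⟩]⟩]

theorem tB14_5_ok : mtabOK (hB 14) 5 tB14_5 = true := by decide +kernel

theorem covB_14_5 (e : ℕ) (h1 : 5 ≤ e) (h2 : e ≤ 5) : CovH (hB 14 e) :=
  mtab_cov' tB14_5_ok (l := 1) rfl e h1 (by omega)

def tC7_0 : List MEnt := [
  ⟨27, 6, 5, [⟨5, 7, [(7, 1)], [(5, 1)], [([], [3], 2)]⟩]⟩]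

theorem tC7_0_ok : mtabOK (hC 7) 0 tC7_0 = true := by decide +kernel

theorem covC_7_0 (e : ℕ) (h1 : 0 ≤ e) (h2 : e ≤ 0) : CovH (hC 7 e) :=
  mtab_cov' tC7_0_ok (l := 1) rfl e h1 (by omega)

def tC9_0 : List MEnt := [
  ⟨44, 8, 5, [⟨6, 10, [(9, 2)], [(1, 1)], [([], [4], 3)]⟩]⟩]

theorem tC9_0_ok : mtabOK (hC 9) 0 tC9_0 = true := by decide +kernel

theorem covC_9_0 (e : ℕ) (h1 : 0 ≤ e) (h2 : e ≤ 0) : CovH (hC 9 e) :=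
  mtab_cov' tC9_0_ok (l := 1) rfl e h1 (by omega)

def tC9_2 : List MEnt := [
  ⟨48, 9, 8, [⟨6, 10, [], [(3, 1), (1, 1)], [([], [4], 7), ([], [2], 10)]⟩, ⟨11, 11, [(10, 1)], [(3, 1), (2, 2), (1, 1)], [([], [4], 7)]⟩, ⟨12, 12, [(10, 1), (7, 1)], [(4, 2), (3, 1), (2, 2), (1, 1)], []⟩]⟩,
  ⟨50, 9, 8, [⟨6, 8, [], [], [([8], [4], 2), ([], [3], 10)]⟩, ⟨9, 10, [(10, 1)], [(8, 1), (6, 1)], [([], [4, 3], 2)]⟩, ⟨11, 11, [(10, 1)], [(8, 1), (6, 1), (3, 2)], [([], [4], 2)]⟩]⟩]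

theorem tC9_2_ok : mtabOK (hC 9) 2 tC9_2 = true := by decide +kernel

theorem covC_9_2 (e : ℕ) (h1 : 2 ≤ e) (h2 : e ≤ 3) : CovH (hC 9 e) :=
  mtab_cov' tC9_2_ok (l := 2) rfl e h1 (by omega)

def tC11_0 : List MEnt := [
  ⟨65, 10, 8, [⟨7, 12, [(11, 1), (5, 2)], [(1, 1)], [([7], [], 9)]⟩]⟩]

theorem tC11_0_ok : mtabOK (hC 11) 0 tC11_0 = true := by decide +kernel

theorem covC_11_0 (e : ℕ) (h1 : 0 ≤ e) (h2 : e ≤ 0) : CovH (hC 11 e) :=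
  mtab_cov' tC11_0_ok (l := 1) rfl e h1 (by omega)

def tC11_2 : List MEnt := [
  ⟨69, 11, 7, [⟨7, 14, [(12, 1), (9, 1)], [(3, 1), (1, 1)], [([7], [2], 5)]⟩]⟩,
  ⟨71, 11, 10, [⟨7, 8, [(5, 1)], [], [([10], [3], 2), ([7], [], 12)]⟩, ⟨10, 14, [(12, 1), (8, 1)], [(10, 1), (4, 1)], [([], [5, 3], 2)]⟩, ⟨9, 9, [], [(7, 1), (4, 1)], [([10], [5], 2), ([], [3], 12)]⟩]⟩,
  ⟨73, 11, 7, [⟨7, 14, [(12, 2)], [(5, 1), (1, 1)], [([7], [4], 3)]⟩]⟩]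

theorem tC11_2_ok : mtabOK (hC 11) 2 tC11_2 = true := by decide +kernel

theorem covC_11_2 (e : ℕ) (h1 : 2 ≤ e) (h2 : e ≤ 4) : CovH (hC 11 e) :=
  mtab_cov' tC11_2_ok (l := 3) rfl e h1 (by omega)

def tC13_0 : List MEnt := [
  ⟨90, 12, 7, [⟨8, 15, [(13, 3), (5, 1)], [(1, 1)], [([], [6], 3)]⟩]⟩,
  ⟨92, 13, 11, [⟨8, 16, [(11, 2)], [], [([14], [1], 3), ([], [6], 5)]⟩, ⟨17, 17, [(11, 2), (5, 1)], [(1, 2)], [([14], [6], 3)]⟩]⟩,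
  ⟨94, 13, 7, [⟨8, 17, [(14, 1), (11, 2)], [(3, 1), (1, 1)], [([], [6, 2], 5)]⟩]⟩,
  ⟨96, 13, 10, [⟨8, 16, [(14, 1), (9, 1)], [], [([12], [3], 2), ([], [6], 5)]⟩, ⟨17, 17, [(14, 1), (9, 1), (5, 1)], [(3, 2)], [([12], [6], 2)]⟩]⟩,
  ⟨98, 13, 7, [⟨8, 16, [(14, 2), (9, 1)], [(5, 1), (1, 1)], [([], [6, 4], 3)]⟩]⟩,
  ⟨100, 13, 9, [⟨8, 16, [(14, 2)], [], [([10], [6], 2), ([], [5], 4)]⟩]⟩]

theorem tC13_0_ok : mtabOK (hC 13) 0 tC13_0 = true := by decide +kernel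

theorem covC_13_0 (e : ℕ) (h1 : 0 ≤ e) (h2 : e ≤ 5) : CovH (hC 13 e) :=
  mtab_cov' tC13_0_ok (l := 6) rfl e h1 (by omega)

def tV18_1 : List MEnt := [
  ⟨207, 20, 16, [⟨11, 25, [(18, 3)], [(11, 1)], [([21], [], 5), ([], [9, 8], 3), ([], [1], 7)]⟩, ⟨26, 26, [(18, 2), (7, 2)], [(9, 1), (1, 2)], [([21], [8], 3), ([11], [], 14)]⟩]⟩]

theorem tV18_1_ok : mtabOK (hV 18) 1 tV18_1 = true := by decide +kernel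

theorem covV_18_1 (e : ℕ) (h1 : 1 ≤ e) (h2 : e ≤ 1) : CovH (hV 18 e) :=
  mtab_cov' tV18_1_ok (l := 1) rfl e h1 (by omega)

def tV20_1 : List MEnt := [
  ⟨250, 22, 23, [⟨12, 21, [(20, 3)], [(4, 1), (1, 2)], [([23], [], 6), ([14], [9], 3), ([], [10], 8)]⟩, ⟨23, 26, [(20, 3)], [(4, 1), (1, 2)], [([23], [], 6), ([14], [9], 3), ([], [10], 8)]⟩, ⟨27, 29, [(21, 4), (8, 2)], [(23, 1), (10, 1), (2, 1)], [([12], [9, 1], 4)]⟩, ⟨22, 22, [(20, 3)], [(14, 1), (12, 1), (2, 1)], [([23], [], 4), ([], [10, 1], 6), ([], [9], 8)]⟩]⟩]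

theorem tV20_1_ok : mtabOK (hV 20) 1 tV20_1 = true := by decide +kernel

theorem covV_20_1 (e : ℕ) (h1 : 1 ≤ e) (h2 : e ≤ 1) : CovH (hV 20 e) :=
  mtab_cov' tV20_1_ok (l := 1) rfl e h1 (by omega)

def tV10_2 : List MEnt := [
  ⟨104, 14, 12, [⟨8, 12, [], [(1, 1)], [([10], [6], 4), ([], [5], 12), ([], [2], 15)]⟩, ⟨13, 15, [(15, 1)], [(10, 1), (6, 1), (1, 1)], [([8], [5], 4), ([], [2], 12)]⟩, ⟨16, 16, [(15, 1), (12, 1)], [(10, 1), (6, 1), (2, 2), (1, 1)], [([8], [5], 4)]⟩, ⟨17, 17, [(15, 1), (4, 1)], [(10, 1), (6, 1), (5, 2), (2, 2), (1, 1)], [([8], [], 12)]⟩, ⟨18, 18, [(15, 1), (12, 1), (4, 1)], [(10, 1), (8, 1), (6, 2), (5, 2), (2, 2), (1, 1)], []⟩]⟩]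

theorem tV10_2_ok : mtabOK (hV 10) 2 tV10_2 = true := by decide +kernel

theorem covV_10_2 (e : ℕ) (h1 : 2 ≤ e) (h2 : e ≤ 2) : CovH (hV 10 e) :=
  mtab_cov' tV10_2_ok (l := 1) rfl e h1 (by omega)

def tV12_2 : List MEnt := [
  ⟨135, 16, 12, [⟨9, 19, [(17, 1), (14, 1)], [(7, 1), (3, 1), (1, 1)], [([9], [6], 5), ([], [2], 12)]⟩, ⟨20, 20, [(17, 1), (14, 2)], [(7, 1), (3, 1), (2, 2), (1, 1)], [([9], [6], 5)]⟩, ⟨21, 21, [(17, 1), (14, 1), (5, 1)], [(7, 1), (6, 2), (3, 1), (2, 2), (1, 1)], [([9], [], 12)]⟩]⟩]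

theorem tV12_2_ok : mtabOK (hV 12) 2 tV12_2 = true := by decide +kernel

theorem covV_12_2 (e : ℕ) (h1 : 2 ≤ e) (h2 : e ≤ 2) : CovH (hV 12 e) :=
  mtab_cov' tV12_2_ok (l := 1) rfl e h1 (by omega)

def tX14 : List MEnt := [
  ⟨104, 13, 8, [⟨8, 16, [(14, 2)], [], [([6], [9], 2), ([], [8], 4)]⟩]⟩]

theorem tX14_ok : mtabOK (fun _ => [14, 12, 10, 8, 5, 4, 2, 1]) 0 tX14 = true := by decide +kernel

theorem cov_X14 : CovH [14, 12, 10, 8, 5, 4, 2, 1] :=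
  mtab_cov' tX14_ok (l := 1) rfl 0 (by omega) (by omega)

def tX16 : List MEnt := [
  ⟨135, 15, 11, [⟨9, 18, [(16, 2)], [(10, 1), (7, 1)], [([12], [5], 2), ([], [9], 4)]⟩, ⟨19, 19, [(16, 2), (4, 1)], [(10, 1), (7, 1), (5, 2)], [([12], [9], 2)]⟩]⟩]

theorem tX16_ok : mtabOK (fun _ => [16, 14, 12, 10, 8, 5, 4, 2, 1]) 0 tX16 = true := by decide +kernel

theorem cov_X16 : CovH [16, 14, 12, 10, 8, 5, 4, 2, 1] :=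
  mtab_cov' tX16_ok (l := 1) rfl 0 (by omega) (by omega)

end MergeS

end Crest.Agent.R195
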