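import Crest.Agent.R195.CovA
import Crest.Agent.R195.CovB
import Crest.Agent.R195.CovBodd
import Crest.Agent.R195.CovCeven
import Crest.Agent.R195.CovCodd
import Crest.Agent.R195.CovV
import Crest.Agent.R195.CovV2
import Crest.Agent.R195.MergeTabS

/-! Row 195, S0298 (helper563).  Coverage of the families: uniform theorems and small table together. -/

set_option autoImplicit false

namespace Crest.Agent.R195

open MergeS

/-- family `hA`: all members with `M ≥ 7`, `e ≥ 1` except `e = 1`, `M ≤ 9` -/
theorem covA_all (M e : ℕ) (hM : 7 ≤ M) (h1 : e = 1 → 10 ≤ M) (he1 : 1 ≤ e) (he : 2 * e ≤ M) :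
    CovH (hA M e) := by
  rcases Nat.lt_or_ge M 11 with h | h
  · interval_cases M
    · exact covA_7_2 e (by omega) (by omega)
    · exact covA_8_2 e (by omega) (by omega)
    · exact covA_9_2 e (by omega) (by omega)
    · by_cases h2 : e = 1
      · exact covA_10_1 e (by omega) (by omega)
      · exact covA'' 10 e (by omega) (by omega) he1 he
  · exact covA'' M e (by omega) (by omega) he1 he

/-- family `hB`: all members with `M ≥ 12`, and `M = 10` without `e = 1` -/
theorem covB_all (M e : ℕ) (hp : M % 2 = 0) (hM : 10 ≤ M) (h1 : e = 1 → 12 ≤ M)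
    (he : 2 * e + 2 ≤ M) : CovH (hB M e) := by
  rcases Nat.lt_or_ge M 16 with h | h
  · obtain ⟨m, rfl⟩ : ∃ m, M = 2 * m := ⟨M / 2, by omega⟩
    have hm : 5 ≤ m := by omega
    have hm' : m ≤ 7 := by omega
    interval_cases m
    · by_cases h2 : e = 0
      · exact covB_10_0 e (by omega) (by omega)
      · exact covB_10_2 e (by omega) (by omega)
    · exact covB_12_0 e (by omega) (by omega)
    · rcases Nat.mod_two_eq_zero_or_one e with h2 | h2
      · exact covB_even' 14 e rfl (by omega) he h2
      · have h3 : e = 1 ∨ e = 3 ∨ e = 5 := by omega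
        rcases h3 with rfl | rfl | rfl
        · exact covB_14_1 1 (by omega) (by omega)
        · exact covB_14_3 3 (by omega) (by omega)
        · exact covB_14_5 5 (by omega) (by omega)
  · rcases Nat.mod_two_eq_zero_or_one e with h2 | h2
    · exact covB_even' M e hp (by omega) he h2
    · exact covB_odd' M e hp h he h2

/-- family `hC`: all members with `M ≥ 13`, and `M = 9, 11` without `e = 1` -/
theorem covC_all (M e : ℕ) (hp : M % 2 = 1) (hM : 9 ≤ M) (h1 : e = 1 → 13 ≤ M)
    (he : 2 * e + 3 ≤ M) : CovH (hC M e) := by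
  rcases Nat.lt_or_ge M 15 with h | h
  · obtain ⟨m, rfl⟩ : ∃ m, M = 2 * m + 1 := ⟨M / 2, by omega⟩
    have hm : 4 ≤ m := by omega
    have hm' : m ≤ 6 := by omega
    interval_cases m
    · by_cases h2 : e = 0
      · exact covC_9_0 e (by omega) (by omega)
      · exact covC_9_2 e (by omega) (by omega)
    · by_cases h2 : e = 0
      · exact covC_11_0 e (by omega) (by omega)
      · exact covC_11_2 e (by omega) (by omega)
    · exact covC_13_0 e (by omega) (by omega)
  · rcases Nat.mod_two_eq_zero_or_one e with h2 | h2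
    · exact covC_even' M e hp (by omega) he h2
    · exact covC_odd' M e hp h he h2

/-- family `hV _ 1` -/
theorem covV1_all (P : ℕ) (hp : P % 2 = 0) (hP : 18 ≤ P) : CovH (hV P 1) := by
  rcases Nat.lt_or_ge P 22 with h | h
  · have h3 : P = 18 ∨ P = 20 := by omega
    rcases h3 with rfl | rfl
    · exact covV_18_1 1 (by omega) (by omega)
    · exact covV_20_1 1 (by omega) (by omega)
  · exact covV1 P hp h

/-- family `hV _ 2` -/
theorem covV2_all (P : ℕ) (hp : P % 2 = 0) (hP : 10 ≤ P) : CovH (hV P 2) := by
  rcases Nat.lt_or_ge P 14 with h | h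
  · have h3 : P = 10 ∨ P = 12 := by omega
    rcases h3 with rfl | rfl
    · exact covV_10_2 2 (by omega) (by omega)
    · exact covV_12_2 2 (by omega) (by omega)
  · exact covV2' P hp h

end Crest.Agent.R195
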