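import Crest.Agent.R195.Fam
import Crest.Agent.R195.CovTools

/-! Row 195, S0298.  Coverage of family C (`M = 2m+1` odd, centre box removed), `e = 0`. -/

set_option autoImplicit false
set_option linter.unusedSectionVars false
set_option linter.unusedDecidableInType false

namespace Crest.Agent.R195

open Finset

theorem cl_hC {m e : ℕ} (h : e < m) (s : ℕ) : cl (hC (2 * m + 1) e) s =
    if s < e then 2 * m + 2 - s else
      (if s = m then m else if s + e ≤ 2 * m + 1 then 2 * m + 1 - s else 2 * m + 2 - s) := by
  have e1 : 2 * m + 1 - 2 * e = 2 * (m - e) + 1 := by omega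
  have e2 : (2 * m + 1 - 1) / 2 - e = m - e := by omega
  have hv : ValidH (runH (2 * m + 1 - 2 * e) ((2 * m + 1 - 1) / 2 - e) []) :=
    validH_runH trivial fun _ => by simp only [List.headD_nil]; omega
  unfold hC
  rw [cl_runH hv fun _ => by
    rw [headD_runH]; split_ifs
    · simp only [List.headD_nil]; omega
    · omega, e1, e2,
    cl_runH (ps := []) (by exact trivial) fun _ => by simp only [List.headD_nil]; omega]
  have hnil : ∀ s, cl [] s = 0 := fun s => by simp [cl]
  rw [hnil]
  split_ifs <;> omega

theorem hsize_hC' {m e : ℕ} (h : e < m) :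
    hsize (hC (2 * m + 1) e) + 1 = (2 * m + 1) * (m + 1) + 2 * e := by
  have h1 := hsize_hC (M := 2 * m + 1) (e := e) (by omega) (by omega)
  have h2 : (2 * m + 1) * (2 * m + 1 + 1) = 2 * ((2 * m + 1) * (m + 1)) := by ring
  omega

theorem headD_hC {m e : ℕ} (h : e < m) :
    (hC (2 * m + 1) e).headD 0 - 1 = if e = 0 then 2 * m else 2 * m + 1 := by
  unfold hC
  rw [headD_runH]
  split_ifs with h0
  · subst h0
    rw [headD_runH, if_neg (by omega)]
    omega
  · omega

theorem regionC0 {m w w₂ : ℕ} {H : ℕ → ℕ} (hm : 5 ≤ m)
    (hr : Region (m * (2 * m + 3)) (2 * m) w w₂ H) : m + 4 ≤ w ∧ w ≤ 3 * m - 1 := by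
  obtain ⟨k, rfl⟩ : ∃ k, m = k + 5 := ⟨m - 5, by omega⟩
  have h1 := hr.le_sq
  have h2 : 2 ≤ w₂ := hr.two_le (by nlinarith)
  have h3 := hr.le_two h2
  have h4 := hr.row
  constructor
  · by_contra hcon
    push Not at hcon
    have : w ≤ k + 8 := by omega
    nlinarith [Nat.mul_le_mul this this]
  · have h5 : k + 6 ≤ w₂ := by
      by_contra hcon
      push Not at hcon
      obtain ⟨d, hd⟩ : ∃ d, w₂ + d = k + 5 := ⟨k + 5 - w₂, by omega⟩
      have : w₂ = k + 5 - d := by omega
      nlinarith
    omega

/-- **Coverage of family C, `e = 0`.** -/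
theorem covC_zero {m : ℕ} (hm : 5 ≤ m) : CovH (hC (2 * m + 1) 0) := by
  intro H w w₂ hr
  have hmm : 0 < m := by omega
  have hv : ValidH (hC (2 * m + 1) 0) := validH_hC (by omega)
  have hsz : hsize (hC (2 * m + 1) 0) = m * (2 * m + 3) := by
    have := hsize_hC' hmm
    nlinarith
  rw [headD_hC hmm, if_pos rfl] at hr
  have hr' := hr
  rw [hsz] at hr'
  obtain ⟨hw1, hw2⟩ := regionC0 hm hr'
  have hH0 := hr.wlog
  -- the list of pieces
  have hlist : ∃ L₁ L₂ : List Pc, validP (L₁ ++ .dup m :: L₂) ∧
      (∀ s, (colsP (L₁ ++ .dup m :: L₂)).getD s 0 = cl (hC (2 * m + 1) 0) s) ∧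
      (∀ p ∈ L₁ ++ L₂, p.free) ∧
      3 * m - 1 ≤ FL (L₁ ++ L₂) 1 ∧
      ((L₁ ++ L₂).map Pc.size).sum ≤ FL (L₁ ++ L₂) (m - 1) + 9 ∧
      ∀ J, m - 1 < J → ((L₁ ++ L₂).map Pc.size).sum ≤ FL (L₁ ++ L₂) J + (m + 4 - J) := by
    rcases Nat.even_or_odd' m with ⟨t, ht | ht⟩
    · refine ⟨runP (2 * m + 1) t, runP (m - 1) t, ?_, ?_, ?_, ?_, ?_, ?_⟩
      · refine validP_runP_append (by omega) ⟨by simp only [Pc.low, Pc.top]; omega, ?_,
          validP_runP (by omega)⟩ ?_
        · intro q hq
          have := top_runP q hq
          simp only [Pc.next]; omega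
        · intro q hq
          rw [List.mem_cons] at hq
          rcases hq with rfl | hq
          · simp only [Pc.top]; omega
          · have := top_runP q hq
            omega
      · intro s
        rw [getD_runP_append, getD_dup_cons, getD_colsP_runP, cl_hC hmm]
        split_ifs <;> omega
      · intro p hp
        rw [List.mem_append] at hp
        rcases hp with hp | hp
        · exact free_runP p hp
        · exact free_runP p hp
      · rw [FL_append, FL_one_runP (by omega)]
        have := FL_one_runP' (m := m - 1) (k := t) (by omega)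
        omega
      · rw [FL_append, List.map_append, List.sum_append]
        have h1 := size_le_FL_runP (2 * m + 1) t (m - 1)
        have h2 := size_le_FL_runP (m - 1) t (m - 1)
        rw [show 2 * m + 1 - 2 * (m - 1) = 3 by omega, tri_three] at h1
        rw [show m - 1 - 2 * (m - 1) = 0 by omega, tri_zero] at h2
        omega
      · intro J hJ
        rw [FL_append, List.map_append, List.sum_append]
        have h1 := size_le_FL_runP (2 * m + 1) t J
        have h2 := size_le_FL_runP (m - 1) t J
        rw [show m - 1 - 2 * J = 0 by omega, tri_zero] at h2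
        rcases Nat.lt_or_ge m J with h | h
        · rw [show 2 * m + 1 - 2 * J = 0 by omega, tri_zero] at h1
          omega
        · rw [show 2 * m + 1 - 2 * J = 1 by omega, tri_one] at h1
          omega
    · refine ⟨runP (2 * m + 1) t ++ [.rect (m + 2) 1], runP (m - 1) t, ?_, ?_, ?_, ?_, ?_, ?_⟩
      · rw [List.append_assoc]
        refine validP_runP_append (by omega) ⟨by simp [Pc.low, Pc.top], ?_,
          by simp only [Pc.low, Pc.top]; omega, ?_, validP_runP (by omega)⟩ ?_
        · intro q hq
          change q ∈ Pc.dup m :: runP (m - 1) t at hq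
          rw [List.mem_cons] at hq
          rcases hq with rfl | hq
          · simp [Pc.top, Pc.next]
          · have := top_runP q hq
            simp only [Pc.next]; omega
        · intro q hq
          have := top_runP q hq
          simp only [Pc.next]; omega
        · intro q hq
          simp only [List.cons_append, List.nil_append, List.mem_cons] at hq
          rcases hq with rfl | rfl | hq
          · simp only [Pc.top]; omega
          · simp only [Pc.top]; omega
          · have := top_runP q hq
            omega
      · intro s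
        rw [List.append_assoc, getD_runP_append, List.cons_append, getD_rect_cons, List.nil_append,
          getD_dup_cons, getD_colsP_runP, cl_hC hmm]
        split_ifs <;> omega
      · intro p hp
        simp only [List.mem_append, List.mem_singleton] at hp
        rcases hp with (hp | rfl) | hp
        · exact free_runP p hp
        · trivial
        · exact free_runP p hp
      · rw [FL_append, FL_append, FL_rect, FL_nil, FL_one_runP (by omega)]
        have := FL_one_runP' (m := m - 1) (k := t) (by omega)
        have h1 : min (m + 2) 1 = 1 := by omega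
        omega
      · rw [FL_append, FL_append, FL_rect, FL_nil, List.map_append, List.map_append,
          List.sum_append, List.sum_append]
        have h1 := size_le_FL_runP (2 * m + 1) t (m - 1)
        have h2 := size_le_FL_runP (m - 1) t (m - 1)
        rw [show 2 * m + 1 - 2 * (m - 1) = 3 by omega, tri_three] at h1
        rw [show m - 1 - 2 * (m - 1) = 0 by omega, tri_zero] at h2
        simp only [List.map_cons, List.map_nil, List.sum_cons, List.sum_nil, Pc.size]
        omega
      · intro J hJ
        rw [FL_append, FL_append, FL_rect, FL_nil, List.map_append, List.map_append,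
          List.sum_append, List.sum_append]
        have h1 := size_le_FL_runP (2 * m + 1) t J
        have h2 := size_le_FL_runP (m - 1) t J
        rw [show m - 1 - 2 * J = 0 by omega, tri_zero] at h2
        simp only [List.map_cons, List.map_nil, List.sum_cons, List.sum_nil, Pc.size]
        rcases Nat.lt_or_ge m J with h | h
        · rw [show 2 * m + 1 - 2 * J = 0 by omega, tri_zero] at h1
          omega
        · rw [show 2 * m + 1 - 2 * J = 1 by omega, tri_one] at h1
          omega
  obtain ⟨L₁, L₂, hL1, hL2, hL3, hL4, hL5, hL6⟩ := hlist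
  refine ⟨_, hL1, hL2, ?_⟩
  have htot := sum_size_of_cols hv hL1 hL2
  rw [hsz] at htot
  obtain ⟨k, rfl⟩ : ∃ k, m = k + 5 := ⟨m - 5, by omega⟩
  have st := St.of_region (Q := (k + 5) * (k + 3)) hr (by
    rw [hsz]
    have : w ≤ 3 * k + 14 := by omega
    nlinarith)
  obtain ⟨H', st', hle, hdec⟩ := st.dup (c := k + 5) (by omega) (by
    have : 2 * (k + 5) - 1 = 2 * k + 9 := by omega
    rw [this]
    nlinarith)
  have hperm : (Pc.dup (k + 5) :: (L₁ ++ L₂)).Perm (L₁ ++ .dup (k + 5) :: L₂) :=
    List.perm_middle.symm
  refine Decomp.perm hperm (hdec _ ?_)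
  have hsum : (L₁.map Pc.size).sum + (L₂.map Pc.size).sum + 2 * (k + 5) =
      hsize (hC (2 * (k + 5) + 1) 0) := by
    rw [hsz, ← htot, List.map_append, List.sum_append, List.map_cons, List.sum_cons]
    simp only [Pc.size]
    ring
  have hN : hsize (hC (2 * (k + 5) + 1) 0) - 2 * (k + 5) = ((L₁ ++ L₂).map Pc.size).sum := by
    rw [List.map_append, List.sum_append]
    omega
  refine st'.free _ hL3 hN (k + 5 - 1) ?_ ?_ ?_
  · intro j hj
    have h1 := hle j
    have h2 := hr.le_H0 j
    omega
  · have h1 : hsize (hC (2 * (k + 5) + 1) 0) ≤ FL (L₁ ++ L₂) (k + 5 - 1) + 9 + 2 * (k + 5) := by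
      rw [← hsum]
      rw [List.map_append, List.sum_append] at hL5
      omega
    rw [hsz] at h1
    have e2 : k + 5 - 1 = k + 4 := by omega
    rw [e2] at h1 ⊢
    nlinarith
  · intro J hJ
    have := hL6 J hJ
    omega

end Crest.Agent.R195
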