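import Mathlib

/-! Row 195, S0298: framework for the combinatorial coverage problem.
Column heights `H : ι → ℕ` of a Young diagram have to be written as a sum of rows `x`, one for every
piece (group of columns of the shape `λ`), of the allowed types:
* `pair c` : entries at most 4, sum `2 c - 1`;
* `rect c k` : entries at most 1, sum `c k`;
* `dup c` : entries at most 4, sum `2 c`, and the columns carry a fixed point free matching (on the
  support) with equal entries;
* `gap c` (columns `c`, `c - 2`) : as `dup (c - 1)`, and the entry 2 must occur. -/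

set_option autoImplicit false

namespace Crest.Agent.R195

open Finset

/-- pieces -/
inductive Pc
  | pair (c : ℕ)
  | rect (c k : ℕ)
  | dup (c : ℕ)
  | gap (c : ℕ)
  deriving DecidableEq

/-- number of cells of a piece -/
def Pc.size : Pc → ℕ
  | .pair c => 2 * c - 1
  | .rect c k => c * k
  | .dup c => 2 * c
  | .gap c => 2 * c - 2

/-- allowed rows -/
def RowOK {ι : Type*} [Fintype ι] : Pc → (ι → ℕ) → Prop
  | .pair c, x => (∀ j, x j ≤ 4) ∧ ∑ j, x j = 2 * c - 1
  | .rect c k, x => (∀ j, x j ≤ 1) ∧ ∑ j, x j = c * k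
  | .dup c, x => (∀ j, x j ≤ 4) ∧ ∑ j, x j = 2 * c ∧
      ∃ σ : Equiv.Perm ι, (∀ j, σ (σ j) = j) ∧ (∀ j, x j ≠ 0 → σ j ≠ j) ∧ ∀ j, x (σ j) = x j
  | .gap c, x => (∀ j, x j ≤ 4) ∧ ∑ j, x j = 2 * c - 2 ∧
      (∃ σ : Equiv.Perm ι, (∀ j, σ (σ j) = j) ∧ (∀ j, x j ≠ 0 → σ j ≠ j) ∧ ∀ j, x (σ j) = x j) ∧
      ∃ j, x j = 2

/-- decomposition of the heights `H` into allowed rows -/
def Decomp {ι : Type*} [Fintype ι] (L : List Pc) (H : ι → ℕ) : Prop :=
  ∃ xs : List (ι → ℕ), List.Forall₂ RowOK L xs ∧ ∀ j, (xs.map fun x => x j).sum = H j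

section basic

variable {ι κ : Type*} [Fintype ι] [Fintype κ]

theorem RowOK.sum_eq {p : Pc} {x : ι → ℕ} (h : RowOK p x) : ∑ j, x j = p.size := by
  cases p with
  | pair c => exact h.2
  | rect c k => exact h.2
  | dup c => exact h.2.1
  | gap c => exact h.2.1

theorem RowOK.comp {p : Pc} {x : ι → ℕ} (h : RowOK p x) (e : κ ≃ ι) : RowOK p (x ∘ e) := by
  have hs : ∑ j, (x ∘ e) j = ∑ j, x j := e.sum_comp x
  cases p with
  | pair c => exact ⟨fun j => h.1 _, by rw [hs]; exact h.2⟩
  | rect c k => exact ⟨fun j => h.1 _, by rw [hs]; exact h.2⟩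
  | dup c =>
    obtain ⟨h1, h2, σ, h3, h4, h5⟩ := h
    refine ⟨fun j => h1 _, by rw [hs]; exact h2, (e.trans σ).trans e.symm, ?_, ?_, ?_⟩
    · intro j; simp [h3]
    · intro j hj h
      apply h4 (e j) hj
      have := congrArg e h
      simpa using this
    · intro j
      simp [h5]
  | gap c =>
    obtain ⟨h1, h2, ⟨σ, h3, h4, h5⟩, j0, h6⟩ := h
    refine ⟨fun j => h1 _, by rw [hs]; exact h2, ⟨(e.trans σ).trans e.symm, ?_, ?_, ?_⟩,
      e.symm j0, by simpa using h6⟩
    · intro j; simp [h3]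
    · intro j hj h
      apply h4 (e j) hj
      have := congrArg e h
      simpa using this
    · intro j
      simp [h5]

theorem Decomp.comp {L : List Pc} {H : ι → ℕ} (h : Decomp L H) (e : κ ≃ ι) :
    Decomp L (H ∘ e) := by
  obtain ⟨xs, h1, h2⟩ := h
  refine ⟨xs.map fun x => x ∘ e, ?_, fun j => ?_⟩
  · rw [List.forall₂_map_right_iff]
    exact h1.imp fun p x hx => hx.comp e
  · rw [List.map_map]
    exact h2 (e j)

theorem Decomp.nil {H : ι → ℕ} (h : ∀ j, H j = 0) : Decomp [] H :=
  ⟨[], List.Forall₂.nil, fun j => by simp [h j]⟩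

theorem Decomp.nil_of_sum {H : ι → ℕ} (h : ∑ j, H j = 0) : Decomp [] H :=
  Decomp.nil fun j => by
    have := Finset.single_le_sum (f := H) (fun i _ => Nat.zero_le _) (Finset.mem_univ j)
    omega

theorem Decomp.cons {p : Pc} {L : List Pc} {H x : ι → ℕ} (hx : RowOK p x) (hle : ∀ j, x j ≤ H j)
    (h : Decomp L fun j => H j - x j) : Decomp (p :: L) H := by
  obtain ⟨xs, h1, h2⟩ := h
  refine ⟨x :: xs, List.Forall₂.cons hx h1, fun j => ?_⟩
  simp only [List.map_cons, List.sum_cons]
  rw [h2 j]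
  exact Nat.add_sub_cancel' (hle j)

theorem Decomp.sum_eq {L : List Pc} {H : ι → ℕ} (h : Decomp L H) :
    ∑ j, H j = (L.map Pc.size).sum := by
  obtain ⟨xs, h1, h2⟩ := h
  induction h1 generalizing H with
  | nil => simp only [List.map_nil, List.sum_nil] at h2 ⊢; simp [← h2]
  | @cons p x L xs hx h1 ih =>
    have h3 := ih (H := fun j => (xs.map fun x => x j).sum) fun j => rfl
    simp only [List.map_cons, List.sum_cons] at h2 ⊢
    rw [← h3, ← hx.sum_eq, ← Finset.sum_add_distrib]
    exact Finset.sum_congr rfl fun j _ => (h2 j).symm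

theorem Decomp.perm {L L' : List Pc} (hL : L.Perm L') {H : ι → ℕ} (h : Decomp L H) :
    Decomp L' H := by
  obtain ⟨xs, h1, h2⟩ := h
  obtain ⟨ys, h3, h4⟩ := List.perm_comp_forall₂ hL.symm h1
  refine ⟨ys, h3, fun j => ?_⟩
  rw [← h2 j]
  exact (h4.map _).sum_eq

/-- zero columns may be added -/
theorem Decomp.extend {L : List Pc} {H : ι → ℕ} (h : Decomp L H) (f : ι → κ)
    (hf : Function.Injective f) (H' : κ → ℕ) (h1 : ∀ i, H' (f i) = H i)
    (h2 : ∀ k, (∀ i, f i ≠ k) → H' k = 0) : Decomp L H' := by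
  classical
  obtain ⟨xs, h3, h4⟩ := h
  let g : (ι → ℕ) → κ → ℕ := fun x => Function.extend f x 0
  have hg1 : ∀ x i, g x (f i) = x i := fun x i => hf.extend_apply _ _ _
  have hg2 : ∀ x k, (∀ i, f i ≠ k) → g x k = 0 := fun x k hk =>
    Function.extend_apply' _ _ _ (by rintro ⟨i, hi⟩; exact hk i hi)
  have hle : ∀ (x : ι → ℕ) (n : ℕ), (∀ i, x i ≤ n) → ∀ k, g x k ≤ n := by
    intro x n hx k
    by_cases hk : ∃ i, f i = k
    · obtain ⟨i, rfl⟩ := hk; rw [hg1]; exact hx i
    · rw [hg2 x k (by push Not at hk; exact hk)]; exact Nat.zero_le _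
  have hsum : ∀ x : ι → ℕ, ∑ k, g x k = ∑ i, x i := by
    intro x
    rw [← Finset.sum_subset (Finset.subset_univ (univ.image f)), Finset.sum_image
      (fun i _ j _ h => hf h)]
    · exact Finset.sum_congr rfl fun i _ => hg1 x i
    · intro k _ hk
      refine hg2 x k fun i hi => hk ?_
      rw [← hi]; exact mem_image_of_mem _ (mem_univ _)
  refine ⟨xs.map g, ?_, fun k => ?_⟩
  · rw [List.forall₂_map_right_iff]
    refine h3.imp fun p x hx => ?_
    cases p with
    | pair c => exact ⟨hle x 4 hx.1, by rw [hsum]; exact hx.2⟩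
    | rect c m => exact ⟨hle x 1 hx.1, by rw [hsum]; exact hx.2⟩
    | dup c =>
      obtain ⟨a1, a2, σ, a3, a4, a5⟩ := hx
      let τ : Equiv.Perm κ := σ.extendDomain (Equiv.ofInjective f hf)
      have hτ1 : ∀ i, τ (f i) = f (σ i) := by
        intro i
        have := Equiv.Perm.extendDomain_apply_image σ (Equiv.ofInjective f hf) i
        simpa using this
      have hτ2 : ∀ k, (∀ i, f i ≠ k) → τ k = k := by
        intro k hk
        apply Equiv.Perm.extendDomain_apply_not_subtype
        rintro ⟨i, hi⟩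
        exact hk i hi
      refine ⟨hle x 4 a1, by rw [hsum]; exact a2, τ, ?_, ?_, ?_⟩
      · intro k
        by_cases hk : ∃ i, f i = k
        · obtain ⟨i, rfl⟩ := hk; rw [hτ1, hτ1, a3]
        · push Not at hk; rw [hτ2 k hk, hτ2 k hk]
      · intro k hxk
        by_cases hk : ∃ i, f i = k
        · obtain ⟨i, rfl⟩ := hk
          rw [hg1] at hxk
          rw [hτ1]
          intro h
          exact a4 i hxk (hf h)
        · push Not at hk; exact absurd (hg2 x k hk) hxk
      · intro k
        by_cases hk : ∃ i, f i = k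
        · obtain ⟨i, rfl⟩ := hk; rw [hτ1, hg1, hg1, a5]
        · push Not at hk; rw [hτ2 k hk]
    | gap c =>
      obtain ⟨a1, a2, ⟨σ, a3, a4, a5⟩, j0, a6⟩ := hx
      let τ : Equiv.Perm κ := σ.extendDomain (Equiv.ofInjective f hf)
      have hτ1 : ∀ i, τ (f i) = f (σ i) := by
        intro i
        have := Equiv.Perm.extendDomain_apply_image σ (Equiv.ofInjective f hf) i
        simpa using this
      have hτ2 : ∀ k, (∀ i, f i ≠ k) → τ k = k := by
        intro k hk
        apply Equiv.Perm.extendDomain_apply_not_subtype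
        rintro ⟨i, hi⟩
        exact hk i hi
      refine ⟨hle x 4 a1, by rw [hsum]; exact a2, ⟨τ, ?_, ?_, ?_⟩, f j0, by rw [hg1]; exact a6⟩
      · intro k
        by_cases hk : ∃ i, f i = k
        · obtain ⟨i, rfl⟩ := hk; rw [hτ1, hτ1, a3]
        · push Not at hk; rw [hτ2 k hk, hτ2 k hk]
      · intro k hxk
        by_cases hk : ∃ i, f i = k
        · obtain ⟨i, rfl⟩ := hk
          rw [hg1] at hxk
          rw [hτ1]
          intro h
          exact a4 i hxk (hf h)
        · push Not at hk; exact absurd (hg2 x k hk) hxk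
      · intro k
        by_cases hk : ∃ i, f i = k
        · obtain ⟨i, rfl⟩ := hk; rw [hτ1, hg1, hg1, a5]
        · push Not at hk; rw [hτ2 k hk]
  · rw [List.map_map]
    by_cases hk : ∃ i, f i = k
    · obtain ⟨i, rfl⟩ := hk
      rw [h1, ← h4 i]
      congr 1
      refine List.map_congr_left fun x _ => ?_
      exact hg1 x i
    · push Not at hk
      rw [h2 k hk]
      have : xs.map ((fun x : κ → ℕ => x k) ∘ g) = xs.map fun _ => 0 :=
        List.map_congr_left fun x _ => hg2 x k hk
      rw [this]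
      simp

end basic

section interpolation

variable {ι : Type*} [Fintype ι]

/-- discrete interpolation between two functions -/
theorem exists_between_sum {l u : ι → ℕ} (h : ∀ j, l j ≤ u j) {S : ℕ} (h1 : ∑ j, l j ≤ S)
    (h2 : S ≤ ∑ j, u j) : ∃ x : ι → ℕ, (∀ j, l j ≤ x j) ∧ (∀ j, x j ≤ u j) ∧ ∑ j, x j = S := by
  classical
  obtain ⟨d, rfl⟩ := Nat.exists_eq_add_of_le h1
  clear h1
  induction d with
  | zero => exact ⟨l, fun _ => le_rfl, h, by simp⟩
  | succ d ih =>
    obtain ⟨x, hx1, hx2, hx3⟩ := ih (by omega)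
    obtain ⟨j, hj⟩ : ∃ j, x j < u j := by
      by_contra hcon
      push Not at hcon
      have : ∑ j, u j ≤ ∑ j, x j := Finset.sum_le_sum fun j _ => hcon j
      omega
    refine ⟨Function.update x j (x j + 1), ?_, ?_, ?_⟩
    · intro i
      by_cases hi : i = j
      · subst hi; simp only [Function.update_self]; exact (hx1 i).trans (Nat.le_succ _)
      · simp only [Function.update_of_ne hi]; exact hx1 i
    · intro i
      by_cases hi : i = j
      · subst hi; simp only [Function.update_self]; exact hj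
      · simp only [Function.update_of_ne hi]; exact hx2 i
    · have h3 := Finset.add_sum_erase univ x (mem_univ j)
      have h4 := Finset.add_sum_erase univ (Function.update x j (x j + 1)) (mem_univ j)
      have h5 : ∑ i ∈ univ.erase j, Function.update x j (x j + 1) i = ∑ i ∈ univ.erase j, x i :=
        Finset.sum_congr rfl fun i hi => Function.update_of_ne (ne_of_mem_erase hi) _ _
      simp only [Function.update_self] at h4
      omega

/-- **Lemma R** (removal step with bounds depending on the column). -/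
theorem removal {H B : ι → ℕ} {cap S : ℕ} (hcap : ∀ j, H j ≤ B j + cap)
    (h1 : ∑ j, (H j - B j) ≤ S) (h2 : S ≤ ∑ j, min cap (H j)) :
    ∃ x : ι → ℕ, (∀ j, x j ≤ cap) ∧ (∀ j, x j ≤ H j) ∧ ∑ j, x j = S ∧ ∀ j, H j - x j ≤ B j := by
  obtain ⟨x, hx1, hx2, hx3⟩ := exists_between_sum (l := fun j => H j - B j)
    (u := fun j => min cap (H j)) (fun j => by have := hcap j; simp only [le_min_iff]; omega) h1 h2
  refine ⟨x, fun j => (hx2 j).trans (min_le_left _ _), fun j => (hx2 j).trans (min_le_right _ _),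
    hx3, fun j => ?_⟩
  have := hx1 j
  omega

theorem sum_sub_eq {H x : ι → ℕ} (h : ∀ j, x j ≤ H j) :
    ∑ j, (H j - x j) = ∑ j, H j - ∑ j, x j := by
  have : ∑ j, (H j - x j) + ∑ j, x j = ∑ j, H j := by
    rw [← Finset.sum_add_distrib]
    exact Finset.sum_congr rfl fun j _ => Nat.sub_add_cancel (h j)
  omega

/-- `∑ min(4,H)·B ≥ 4 N` -/
theorem four_mul_le {H : ι → ℕ} {B : ℕ} (hB : 4 ≤ B) (hH : ∀ j, H j ≤ B) :
    4 * ∑ j, H j ≤ B * ∑ j, min 4 (H j) := by
  rw [Finset.mul_sum, Finset.mul_sum]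
  refine Finset.sum_le_sum fun j _ => ?_
  rcases le_total 4 (H j) with h | h
  · rw [min_eq_left h]; nlinarith [hH j]
  · rw [min_eq_right h]; exact Nat.mul_le_mul_right _ hB

/-- `(B-1) * ∑ (H - (B-2)) ≤ 2 N`, in the floor form -/
theorem sum_excess_le {H : ι → ℕ} {B : ℕ} (hB : 2 ≤ B) (hH : ∀ j, H j ≤ B) :
    ∑ j, (H j - (B - 2)) ≤ 2 * ((∑ j, H j) / (B - 1)) := by
  classical
  have h1 : ∑ j, (H j - (B - 2)) ≤ 2 * (univ.filter fun j => B - 1 ≤ H j).card := by
    rw [Finset.card_filter, Finset.mul_sum]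
    refine Finset.sum_le_sum fun j _ => ?_
    have := hH j
    split_ifs with h <;> omega
  refine h1.trans (Nat.mul_le_mul_left 2 ?_)
  rw [Nat.le_div_iff_mul_le (by omega)]
  calc (univ.filter fun j => B - 1 ≤ H j).card * (B - 1)
      = ∑ j ∈ univ.filter (fun j => B - 1 ≤ H j), (B - 1) := by rw [Finset.sum_const]; rfl
    _ ≤ ∑ j ∈ univ.filter (fun j => B - 1 ≤ H j), H j :=
        Finset.sum_le_sum fun j hj => (mem_filter.1 hj).2
    _ ≤ ∑ j, H j := Finset.sum_le_sum_of_subset (filter_subset _ _)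

end interpolation

end Crest.Agent.R195
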