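import Crest.Agent.R195.EnumCov

/-! Row 195, S0298 (helper195): small members by kernel enumeration (generated). -/

set_option autoImplicit false

namespace Crest.Agent.R195

def eP_10_7_5_3_1 : List MPlan := [⟨0, 0, [.f (.pair 7), .f (.pair 5), .m [.gap 10, .dup 1] 3]⟩]

def eQ_10_7_5_3_1 : List MPlan := [⟨6, 8, [.f (.pair 7), .f (.pair 5), .m [.gap 10, .dup 1] 3]⟩,
  ⟨10, 12, [.f (.rect 10 1), .f (.pair 8), .f (.pair 6), .f (.pair 4), .f (.rect 2 1), .f (.rect 1 2)]⟩]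

def eT_10_7_5_3_1 : List (List ℕ) := [[12, 24, 33, 38, 42, 46, 47, 47, 47, 47, 47, 47, 47, 47, 47, 47, 47, 47, 47, 47]]

def eX_10_7_5_3_1 : List (List ℕ) := []

set_option maxRecDepth 100000 in
theorem eH_10_7_5_3_1_9 : echeckH [10, 7, 5, 3, 1] eT_10_7_5_3_1 eX_10_7_5_3_1 9 = true := by decide +kernel

theorem fullE_10_7_5_3_1 (hf : FullH [7, 5, 3, 1]) : FullH [10, 7, 5, 3, 1] := by
  refine fullH_of_enum (by decide) (HC_of (by decide) (by decide)) hf 20 eP_10_7_5_3_1 eQ_10_7_5_3_1 eT_10_7_5_3_1 eX_10_7_5_3_1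
    (fun q hq => by simp [eX_10_7_5_3_1] at hq) (by decide +kernel) (by decide +kernel)
    (enum_split [9] (by decide +kernel) ?_)
  intro h hh
  simp only [List.mem_cons, List.not_mem_nil, or_false] at hh
  rcases hh with rfl
  · exact eH_10_7_5_3_1_9

def eP_9_6_4_2 : List MPlan := [⟨0, 0, [.f (.pair 6), .m [.gap 9] 4, .f (.rect 2 1), .f (.rect 1 2)]⟩]

def eQ_9_6_4_2 : List MPlan := [⟨5, 7, [.m [.dup 1] 6, .m [.gap 9] 4, .f (.rect 2 1)]⟩,
  ⟨9, 10, [.f (.rect 9 1), .f (.pair 7), .f (.pair 5), .f (.pair 3), .f (.rect 1 2)]⟩]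

def eT_9_6_4_2 : List (List ℕ) := [[10, 20, 27, 31, 35, 38, 38, 38, 38, 38, 38, 38, 38, 38, 38, 38, 38, 38]]

def eX_9_6_4_2 : List (List ℕ) := []

set_option maxRecDepth 100000 in
theorem eH_9_6_4_2_8 : echeckH [9, 6, 4, 2] eT_9_6_4_2 eX_9_6_4_2 8 = true := by decide +kernel

theorem fullE_9_6_4_2 (hf : FullH [6, 4, 2]) : FullH [9, 6, 4, 2] := by
  refine fullH_of_enum (by decide) (HC_of (by decide) (by decide)) hf 18 eP_9_6_4_2 eQ_9_6_4_2 eT_9_6_4_2 eX_9_6_4_2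
    (fun q hq => by simp [eX_9_6_4_2] at hq) (by decide +kernel) (by decide +kernel)
    (enum_split [8] (by decide +kernel) ?_)
  intro h hh
  simp only [List.mem_cons, List.not_mem_nil, or_false] at hh
  rcases hh with rfl
  · exact eH_9_6_4_2_8

end Crest.Agent.R195
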