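import Crest.Agent.R195.EnumCov

/-! Row 195, S0298 (helper195): small members by kernel enumeration (generated). -/

set_option autoImplicit false

namespace Crest.Agent.R195

def eP_11_8_6_4_2_1 : List MPlan := [⟨0, 0, [.m [.dup 6] 8, .m [.gap 11] 4, .f (.rect 2 1), .f (.rect 1 2)]⟩,
  ⟨0, 0, [.m [.gap 11] 8, .f (.rect 4 1), .m [.dup 6] 3, .f (.rect 1 2)]⟩,
  ⟨0, 0, [.f (.rect 11 1), .f (.pair 9), .f (.rect 7 1), .f (.rect 4 1), .m [.dup 6] 3, .f (.rect 1 2)]⟩]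

def eQ_11_8_6_4_2_1 : List MPlan := [⟨6, 8, [.m [.dup 6, .dup 1] 8, .m [.gap 11] 4, .f (.rect 2 1)]⟩,
  ⟨12, 12, [.f (.rect 11 1), .f (.pair 9), .f (.rect 7 1), .m [.dup 6] 4, .f (.rect 2 1), .f (.rect 1 2)]⟩]

def eT_11_8_6_4_2_1 : List (List ℕ) := [[10, 20, 28, 36, 44, 52, 58, 58, 58, 58, 58, 58, 58, 58, 58, 58, 58, 58, 58, 58, 58, 58],
  [10, 20, 29, 38, 43, 47, 51, 55, 58, 58, 58, 58, 58, 58, 58, 58, 58, 58, 58, 58, 58, 58],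
  [12, 24, 35, 46, 50, 52, 54, 55, 56, 57, 58, 58, 58, 58, 58, 58, 58, 58, 58, 58, 58, 58]]

def eX_11_8_6_4_2_1 : List (List ℕ) := [[9, 9, 9, 9, 9, 8, 1, 1, 1, 1, 1],
  [10, 10, 10, 10, 10, 3, 1, 1, 1, 1, 1],
  [10, 10, 10, 10, 9, 4, 1, 1, 1, 1, 1],
  [10, 10, 10, 10, 8, 5, 1, 1, 1, 1, 1],
  [10, 10, 10, 10, 7, 6, 1, 1, 1, 1, 1],
  [10, 10, 10, 10, 3, 3, 3, 3, 3, 3],
  [10, 10, 10, 9, 9, 5, 1, 1, 1, 1, 1],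
  [10, 10, 10, 9, 8, 6, 1, 1, 1, 1, 1],
  [10, 10, 10, 9, 7, 7, 1, 1, 1, 1, 1],
  [10, 10, 10, 9, 4, 3, 3, 3, 3, 3],
  [10, 10, 10, 8, 8, 7, 1, 1, 1, 1, 1],
  [10, 10, 10, 8, 5, 3, 3, 3, 3, 3],
  [10, 10, 10, 8, 4, 4, 3, 3, 3, 3],
  [10, 10, 10, 7, 6, 3, 3, 3, 3, 3],
  [10, 10, 10, 7, 5, 4, 3, 3, 3, 3],
  [10, 10, 10, 7, 4, 4, 4, 3, 3, 3],
  [10, 10, 10, 6, 6, 4, 3, 3, 3, 3],
  [10, 10, 10, 6, 5, 5, 3, 3, 3, 3],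
  [10, 10, 10, 6, 5, 4, 4, 3, 3, 3],
  [10, 10, 10, 6, 4, 4, 4, 4, 3, 3],
  [10, 10, 10, 5, 5, 5, 4, 3, 3, 3],
  [10, 10, 10, 5, 5, 4, 4, 4, 3, 3],
  [10, 10, 10, 5, 4, 4, 4, 4, 4, 3],
  [10, 10, 10, 4, 4, 4, 4, 4, 4, 4],
  [10, 10, 9, 9, 9, 6, 1, 1, 1, 1, 1],
  [10, 10, 9, 9, 8, 7, 1, 1, 1, 1, 1],
  [10, 10, 9, 8, 8, 8, 1, 1, 1, 1, 1],
  [10, 9, 9, 9, 9, 7, 1, 1, 1, 1, 1],
  [10, 9, 9, 9, 8, 8, 1, 1, 1, 1, 1],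
  [13, 7, 7, 7, 7, 7, 4, 1, 1, 1, 1, 1, 1],
  [13, 7, 7, 7, 7, 6, 5, 1, 1, 1, 1, 1, 1],
  [13, 7, 7, 7, 6, 6, 6, 1, 1, 1, 1, 1, 1]]

set_option maxRecDepth 100000 in
theorem eH_11_8_6_4_2_1_9 : echeckH [11, 8, 6, 4, 2, 1] eT_11_8_6_4_2_1 eX_11_8_6_4_2_1 9 = true := by decide +kernel

set_option maxRecDepth 100000 in
theorem eH_11_8_6_4_2_1_10 : echeckH [11, 8, 6, 4, 2, 1] eT_11_8_6_4_2_1 eX_11_8_6_4_2_1 10 = true := by decide +kernel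

set_option maxRecDepth 100000 in
theorem eH_11_8_6_4_2_1_11 : echeckH [11, 8, 6, 4, 2, 1] eT_11_8_6_4_2_1 eX_11_8_6_4_2_1 11 = true := by decide +kernel

set_option maxRecDepth 100000 in
theorem eH_11_8_6_4_2_1_13 : echeckH [11, 8, 6, 4, 2, 1] eT_11_8_6_4_2_1 eX_11_8_6_4_2_1 13 = true := by decide +kernel

theorem fullE_11_8_6_4_2_1 (hf : FullH [8, 6, 4, 2, 1])
    (hexc : ∀ q ∈ eX_11_8_6_4_2_1, ∀ μ : YoungDiagram, μ.card = hsize [11, 8, 6, 4, 2, 1] →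
      (List.range (μ.rowLen 0)).map μ.colLen = q → OccSh (hk [11, 8, 6, 4, 2, 1]) (hk [11, 8, 6, 4, 2, 1]) μ) : FullH [11, 8, 6, 4, 2, 1] := by
  refine fullH_of_enum (by decide) (HC_of (by decide) (by decide)) hf 22 eP_11_8_6_4_2_1 eQ_11_8_6_4_2_1 eT_11_8_6_4_2_1 eX_11_8_6_4_2_1
    hexc (by decide +kernel) (by decide +kernel)
    (enum_split [9, 10, 11, 13] (by decide +kernel) ?_)
  intro h hh
  simp only [List.mem_cons, List.not_mem_nil, or_false] at hh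
  rcases hh with rfl | rfl | rfl | rfl
  · exact eH_11_8_6_4_2_1_9
  · exact eH_11_8_6_4_2_1_10
  · exact eH_11_8_6_4_2_1_11
  · exact eH_11_8_6_4_2_1_13

end Crest.Agent.R195
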