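import Crest.Agent.R195.EnumCov

/-! Row 195, S0298 (helper195): small members by kernel enumeration (generated). -/

set_option autoImplicit false

namespace Crest.Agent.R195

def eP_12_9_7_5_3 : List MPlan := [⟨0, 0, [.m [.dup 5] 9, .f (.rect 7 1), .m [.gap 12] 4, .f (.rect 2 1), .f (.rect 1 2)]⟩,
  ⟨0, 0, [.f (.pair 9), .f (.rect 7 1), .f (.rect 5 2), .m [.gap 12] 4, .f (.rect 2 1), .f (.rect 1 2)]⟩,
  ⟨0, 0, [.f (.rect 12 1), .f (.pair 10), .f (.pair 8), .f (.rect 4 1), .m [.dup 5] 3, .f (.rect 1 2)]⟩]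

def eQ_12_9_7_5_3 : List MPlan := [⟨7, 9, [.m [.dup 5, .dup 1] 9, .f (.rect 7 1), .m [.gap 12] 4, .f (.rect 2 1)]⟩,
  ⟨12, 14, [.f (.rect 12 1), .f (.pair 10), .f (.pair 8), .m [.dup 5] 4, .f (.rect 2 1), .f (.rect 1 2)]⟩]

def eT_12_9_7_5_3 : List (List ℕ) := [[11, 22, 31, 40, 49, 58, 66, 67, 67, 67, 67, 67, 67, 67, 67, 67, 67, 67, 67, 67, 67, 67, 67, 67],
  [12, 24, 34, 44, 51, 57, 63, 65, 66, 67, 67, 67, 67, 67, 67, 67, 67, 67, 67, 67, 67, 67, 67, 67],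
  [15, 30, 44, 56, 60, 61, 62, 63, 64, 65, 66, 67, 67, 67, 67, 67, 67, 67, 67, 67, 67, 67, 67, 67]]

def eX_12_9_7_5_3 : List (List ℕ) := []

set_option maxRecDepth 100000 in
theorem eH_12_9_7_5_3_10 : echeckH [12, 9, 7, 5, 3] eT_12_9_7_5_3 eX_12_9_7_5_3 10 = true := by decide +kernel

set_option maxRecDepth 100000 in
theorem eH_12_9_7_5_3_11 : echeckH [12, 9, 7, 5, 3] eT_12_9_7_5_3 eX_12_9_7_5_3 11 = true := by decide +kernel

theorem fullE_12_9_7_5_3 (hf : FullH [9, 7, 5, 3]) : FullH [12, 9, 7, 5, 3] := by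
  refine fullH_of_enum (by decide) (HC_of (by decide) (by decide)) hf 24 eP_12_9_7_5_3 eQ_12_9_7_5_3 eT_12_9_7_5_3 eX_12_9_7_5_3
    (fun q hq => by simp [eX_12_9_7_5_3] at hq) (by decide +kernel) (by decide +kernel)
    (enum_split [10, 11] (by decide +kernel) ?_)
  intro h hh
  simp only [List.mem_cons, List.not_mem_nil, or_false] at hh
  rcases hh with rfl | rfl
  · exact eH_12_9_7_5_3_10
  · exact eH_12_9_7_5_3_11

end Crest.Agent.R195
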