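import Crest.Agent.R195.EnumCov

/-! Row 195, S0298 (helper195): small members by kernel enumeration (generated). -/

set_option autoImplicit false

namespace Crest.Agent.R195

def eP_10_7_5_3 : List MPlan := [⟨0, 0, [.f (.pair 7), .f (.rect 4 2), .m [.gap 10, .dup 1] 3]⟩,
  ⟨0, 0, [.m [.gap 10] 7, .f (.rect 4 2), .f (.pair 3), .f (.rect 1 2)]⟩,
  ⟨0, 0, [.f (.rect 10 1), .f (.pair 8), .f (.rect 6 1), .m [.dup 4] 3, .f (.rect 1 2)]⟩]

def eQ_10_7_5_3 : List MPlan := [⟨6, 8, [.m [.dup 4] 7, .m [.gap 10, .dup 1] 3]⟩,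
  ⟨11, 11, [.f (.rect 10 1), .f (.pair 8), .f (.rect 6 1), .m [.dup 4] 3, .f (.rect 1 2)]⟩,
  ⟨12, 12, [.f (.rect 10 1), .f (.pair 8), .f (.rect 6 1), .f (.rect 4 2), .f (.pair 3), .f (.rect 1 2)]⟩]

def eT_10_7_5_3 : List (List ℕ) := [[9, 18, 27, 33, 38, 43, 45, 46, 46, 46, 46, 46, 46, 46, 46, 46, 46, 46, 46, 46],
  [10, 17, 22, 27, 32, 37, 42, 46, 46, 46, 46, 46, 46, 46, 46, 46, 46, 46, 46, 46],
  [11, 22, 32, 38, 40, 42, 43, 44, 45, 46, 46, 46, 46, 46, 46, 46, 46, 46, 46, 46]]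

def eX_10_7_5_3 : List (List ℕ) := []

set_option maxRecDepth 100000 in
theorem eH_10_7_5_3_9 : echeckH [10, 7, 5, 3] eT_10_7_5_3 eX_10_7_5_3 9 = true := by decide +kernel

set_option maxRecDepth 100000 in
theorem eH_10_7_5_3_10 : echeckH [10, 7, 5, 3] eT_10_7_5_3 eX_10_7_5_3 10 = true := by decide +kernel

theorem fullE_10_7_5_3 (hf : FullH [7, 5, 3]) : FullH [10, 7, 5, 3] := by
  refine fullH_of_enum (by decide) (HC_of (by decide) (by decide)) hf 20 eP_10_7_5_3 eQ_10_7_5_3 eT_10_7_5_3 eX_10_7_5_3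
    (fun q hq => by simp [eX_10_7_5_3] at hq) (by decide +kernel) (by decide +kernel)
    (enum_split [9, 10] (by decide +kernel) ?_)
  intro h hh
  simp only [List.mem_cons, List.not_mem_nil, or_false] at hh
  rcases hh with rfl | rfl
  · exact eH_10_7_5_3_9
  · exact eH_10_7_5_3_10

end Crest.Agent.R195
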