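import Crest.Agent.R195.EnumCov

/-! Row 195, S0298 (helper195): small members by kernel enumeration (generated). -/

set_option autoImplicit false

namespace Crest.Agent.R195

def eP_17_14_12_10_8_6_3 : List MPlan := [⟨0, 0, [.f (.pair 14), .m [.dup 6] 12, .f (.rect 9 1), .m [.dup 7] 5, .m [.gap 17, .dup 1] 3]⟩,
  ⟨0, 0, [.f (.pair 14), .f (.pair 12), .f (.rect 9 1), .f (.rect 7 2), .f (.rect 6 2), .m [.gap 17] 5, .f (.pair 3), .f (.rect 1 2)]⟩]

def eQ_17_14_12_10_8_6_3 : List MPlan := [⟨9, 15, [.m [.dup 1] 14, .m [.dup 6] 12, .f (.rect 9 1), .m [.gap 17] 5, .m [.dup 7] 3]⟩,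
  ⟨17, 18, [.f (.pair 14), .f (.pair 12), .f (.rect 9 1), .m [.gap 17] 5, .m [.dup 7, .dup 6] 3, .f (.rect 1 2)]⟩,
  ⟨19, 20, [.f (.rect 17 1), .f (.pair 15), .f (.pair 13), .f (.rect 11 1), .f (.rect 9 1), .m [.dup 7, .dup 6] 5, .f (.pair 3), .f (.rect 1 2)]⟩,
  ⟨21, 21, [.f (.rect 17 1), .m [.dup 7] 15, .f (.pair 13), .f (.rect 11 1), .f (.rect 9 1), .f (.rect 6 2), .f (.pair 5), .f (.pair 3), .f (.rect 1 2)]⟩]

def eT_17_14_12_10_8_6_3 : List (List ℕ) := [[17, 34, 51, 68, 85, 101, 113, 122, 130, 133, 133, 133, 133, 133, 133, 133, 133, 133, 133, 133, 133, 133, 133, 133, 133, 133, 133, 133, 133, 133, 133, 133, 133, 133],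
  [20, 37, 52, 67, 82, 96, 106, 113, 120, 126, 129, 131, 132, 133, 133, 133, 133, 133, 133, 133, 133, 133, 133, 133, 133, 133, 133, 133, 133, 133, 133, 133, 133, 133]]

def eX_17_14_12_10_8_6_3 : List (List ℕ) := []

set_option maxRecDepth 100000 in
theorem eH_17_14_12_10_8_6_3_16 : echeckH [17, 14, 12, 10, 8, 6, 3] eT_17_14_12_10_8_6_3 eX_17_14_12_10_8_6_3 16 = true := by decide +kernel

theorem fullE_17_14_12_10_8_6_3 (hf : FullH [14, 12, 10, 8, 6, 3]) : FullH [17, 14, 12, 10, 8, 6, 3] := by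
  refine fullH_of_enum (by decide) (HC_of (by decide) (by decide)) hf 34 eP_17_14_12_10_8_6_3 eQ_17_14_12_10_8_6_3 eT_17_14_12_10_8_6_3 eX_17_14_12_10_8_6_3
    (fun q hq => by simp [eX_17_14_12_10_8_6_3] at hq) (by decide +kernel) (by decide +kernel)
    (enum_split [16] (by decide +kernel) ?_)
  intro h hh
  simp only [List.mem_cons, List.not_mem_nil, or_false] at hh
  rcases hh with rfl
  · exact eH_17_14_12_10_8_6_3_16

end Crest.Agent.R195
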