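import Crest.Agent.R195.EnumCov

/-! Row 195, S0298 (helper195): small members by kernel enumeration (generated). -/

set_option autoImplicit false

namespace Crest.Agent.R195

def eP_19_16_14_12_10_8_6_3 : List MPlan := [⟨0, 0, [.f (.pair 16), .f (.pair 14), .f (.rect 12 1), .f (.rect 10 1), .f (.rect 6 1), .m [.gap 19] 5, .m [.dup 8, .dup 7] 3, .f (.rect 1 2)]⟩,
  ⟨0, 0, [.f (.rect 19 1), .f (.pair 17), .f (.pair 15), .f (.pair 13), .f (.rect 10 1), .f (.rect 6 1), .m [.dup 7] 5, .m [.dup 8] 3, .f (.rect 1 2)]⟩]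

def eQ_19_16_14_12_10_8_6_3 : List MPlan := [⟨10, 17, [.m [.dup 1] 16, .f (.pair 14), .f (.rect 12 1), .f (.rect 10 1), .f (.rect 6 1), .m [.gap 19] 5, .m [.dup 8, .dup 7] 3]⟩,
  ⟨19, 24, [.f (.rect 19 1), .f (.pair 17), .f (.pair 15), .f (.pair 13), .f (.rect 10 1), .m [.dup 7] 6, .m [.dup 8] 4, .f (.rect 2 1), .f (.rect 1 2)]⟩]

def eT_19_16_14_12_10_8_6_3 : List (List ℕ) := [[20, 40, 59, 78, 97, 116, 133, 146, 155, 161, 166, 168, 168, 168, 168, 168, 168, 168, 168, 168, 168, 168, 168, 168, 168, 168, 168, 168, 168, 168, 168, 168, 168, 168, 168, 168, 168, 168],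
  [24, 48, 71, 94, 117, 136, 147, 154, 157, 159, 160, 161, 162, 163, 164, 165, 166, 167, 168, 168, 168, 168, 168, 168, 168, 168, 168, 168, 168, 168, 168, 168, 168, 168, 168, 168, 168, 168]]

def eX_19_16_14_12_10_8_6_3 : List (List ℕ) := []

set_option maxRecDepth 100000 in
theorem eH_19_16_14_12_10_8_6_3_18 : echeckH [19, 16, 14, 12, 10, 8, 6, 3] eT_19_16_14_12_10_8_6_3 eX_19_16_14_12_10_8_6_3 18 = true := by decide +kernel

theorem fullE_19_16_14_12_10_8_6_3 (hf : FullH [16, 14, 12, 10, 8, 6, 3]) : FullH [19, 16, 14, 12, 10, 8, 6, 3] := by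
  refine fullH_of_enum (by decide) (HC_of (by decide) (by decide)) hf 38 eP_19_16_14_12_10_8_6_3 eQ_19_16_14_12_10_8_6_3 eT_19_16_14_12_10_8_6_3 eX_19_16_14_12_10_8_6_3
    (fun q hq => by simp [eX_19_16_14_12_10_8_6_3] at hq) (by decide +kernel) (by decide +kernel)
    (enum_split [18] (by decide +kernel) ?_)
  intro h hh
  simp only [List.mem_cons, List.not_mem_nil, or_false] at hh
  rcases hh with rfl
  · exact eH_19_16_14_12_10_8_6_3_18

end Crest.Agent.R195
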