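import Crest.Agent.R195.Hit3

/-! Row 195.  The sequential engine with four block types (pair, rectangle, duplicate, gap) and
shapes described by lists of column lengths. -/

set_option autoImplicit false
set_option linter.unusedSectionVars false
set_option linter.unusedDecidableInType false

namespace Crest.Agent.R195

open Finset Function Equiv

section colS

/-- the shape with given column lengths -/
def colS (cs : List ℕ) : Finset (ℕ × ℕ) :=
  (range (cs.foldr max 0) ×ˢ range cs.length).filter fun q => q.1 < cs.getD q.2 0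

theorem getD_le_foldr (cs : List ℕ) (j : ℕ) : cs.getD j 0 ≤ cs.foldr max 0 := by
  induction cs generalizing j with
  | nil => simp
  | cons a cs ih =>
    cases j with
    | zero => simp
    | succ j =>
      have := ih j
      simp only [List.getD_cons_succ, List.foldr_cons]
      exact this.trans (le_max_right _ _)

theorem mem_colS {cs : List ℕ} {q : ℕ × ℕ} : q ∈ colS cs ↔ q.1 < cs.getD q.2 0 := by
  unfold colS
  simp only [mem_filter, mem_product, mem_range]
  constructor
  · exact fun h => h.2
  · intro h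
    refine ⟨⟨lt_of_lt_of_le h (getD_le_foldr _ _), ?_⟩, h⟩
    by_contra hcon
    rw [List.getD_eq_default _ _ (not_lt.mp hcon)] at h
    exact absurd h (Nat.not_lt_zero _)

theorem colS_snd_lt {cs : List ℕ} {q : ℕ × ℕ} (h : q ∈ colS cs) : q.2 < cs.length := by
  by_contra hcon
  rw [mem_colS, List.getD_eq_default _ _ (not_lt.mp hcon)] at h
  exact absurd h (Nat.not_lt_zero _)

theorem colS_append (cs ds : List ℕ) : colS (cs ++ ds) = addC cs.length (colS cs) (colS ds) := by
  ext ⟨i, j⟩
  simp only [addC, shiftC, mem_union, mem_image, mem_colS, Prod.mk.injEq, Prod.exists]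
  constructor
  · intro h
    rcases Nat.lt_or_ge j cs.length with hj | hj
    · left
      rwa [List.getD_append _ _ _ _ hj] at h
    · right
      rw [List.getD_append_right _ _ _ _ hj] at h
      exact ⟨i, j - cs.length, h, rfl, by omega⟩
  · rintro (h | ⟨a, b, h, rfl, rfl⟩)
    · rcases Nat.lt_or_ge j cs.length with hj | hj
      · rwa [List.getD_append _ _ _ _ hj]
      · rw [List.getD_eq_default _ _ hj] at h
        exact absurd h (Nat.not_lt_zero _)
    · rw [List.getD_append_right _ _ _ _ (by omega)]
      simpa using h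

theorem colS_nil : colS [] = ∅ := by
  ext q
  simp [mem_colS]

theorem colS_congr {cs ds : List ℕ} (h : ∀ j, cs.getD j 0 = ds.getD j 0) : colS cs = colS ds := by
  ext q
  rw [mem_colS, mem_colS, h]

theorem pairShape_eq (c : ℕ) : pairShape c = colS [c, c - 1] := by
  ext ⟨i, j⟩
  simp only [pairShape, mem_filter, mem_product, mem_range, mem_colS]
  match j with
  | 0 => simp
  | 1 => simp; omega
  | (j + 2) => simp

theorem rectShape_eq (c k : ℕ) : rectShape c k = colS (List.replicate k c) := by
  ext ⟨i, j⟩
  simp only [rectShape, mem_product, mem_range, mem_colS]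
  rcases Nat.lt_or_ge j k with hj | hj
  · rw [List.getD_eq_getElem _ _ (by simpa using hj), List.getElem_replicate]
    simp [hj]
  · rw [List.getD_eq_default _ _ (by simpa using hj)]
    simp only [not_lt_zero, iff_false, not_and, not_lt]
    exact fun _ => hj

end colS

/-- blocks: `pair c` = columns `c, c - 1`; `rect c k` = `k` columns `c` (one row arrangements);
`dup c` = columns `c, c` (columns matched); `gap c` = columns `c, c - 2` (columns matched, one pair
of height two). -/
inductive Bk4
  | pair (c : ℕ)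
  | rect (c k : ℕ)
  | dup (c : ℕ)
  | gap (c : ℕ)
  deriving DecidableEq

namespace Bk4

/-- columns -/
def cols : Bk4 → List ℕ
  | pair c => [c, c - 1]
  | rect c k => List.replicate k c
  | dup c => [c, c]
  | gap c => [c, c - 2]

/-- length of the first column -/
def top : Bk4 → ℕ
  | pair c => c
  | rect c _ => c
  | dup c => c
  | gap c => c

/-- minimal admissible length of the first column -/
def low : Bk4 → ℕ
  | pair _ => 1
  | rect _ _ => 1
  | dup _ => 1
  | gap _ => 3

/-- bound for the later columns -/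
def next : Bk4 → ℕ
  | pair c => c - 2
  | rect c _ => c - 1
  | dup c => c - 1
  | gap c => c - 2

/-- cells used at minimal cost -/
def Z : Bk4 → Set (ℕ × ℕ)
  | pair c => zigZ c
  | rect c _ => antiZ c
  | dup c => antiZ c
  | gap c => zigZ c

theorem Z_le (g : Bk4) : ∀ c ∈ g.Z, c.1 + c.2 + 1 ≤ g.top := by
  intro c hc
  cases g with
  | pair n =>
    simp only [Z, zigZ, Set.mem_ofPred_eq] at hc
    simp only [top]
    omega
  | rect n k =>
    simp only [Z, antiZ, Set.mem_ofPred_eq] at hc
    simp only [top]
    omega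
  | dup n =>
    simp only [Z, antiZ, Set.mem_ofPred_eq] at hc
    simp only [top]
    omega
  | gap n =>
    simp only [Z, zigZ, Set.mem_ofPred_eq] at hc
    simp only [top]
    omega

theorem Z_gt (g : Bk4) (hg : 1 ≤ g.top) : ∀ c ∈ g.Z, g.next < c.1 + c.2 + 1 := by
  intro c hc
  cases g with
  | pair n =>
    simp only [Z, zigZ, Set.mem_ofPred_eq] at hc
    simp only [next, top] at hg ⊢
    omega
  | rect n k =>
    simp only [Z, antiZ, Set.mem_ofPred_eq] at hc
    simp only [next, top] at hg ⊢
    omega
  | dup n =>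
    simp only [Z, antiZ, Set.mem_ofPred_eq] at hc
    simp only [next, top] at hg ⊢
    omega
  | gap n =>
    simp only [Z, zigZ, Set.mem_ofPred_eq] at hc
    simp only [next, top] at hg ⊢
    omega

theorem low_pos (g : Bk4) : 1 ≤ g.low := by cases g <;> simp [low]

/-- condition on the arrangement of the letters of one block: `rk` = row, `col` = column. -/
def OK (κ : Bk4) (T : Type) [Fintype T] (rk col : T → ℕ) : Prop :=
  match κ with
  | pair c => Fintype.card T + 1 = 2 * c ∧ ∀ t, rk t < 4
  | rect c k => Fintype.card T = c * k ∧ ∀ t, rk t = 0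
  | dup c => Fintype.card T = 2 * c ∧ (∀ t, rk t < 4) ∧ ∃ π : T → T, (∀ t, π (π t) = t) ∧
      (∀ t, π t ≠ t) ∧ (∀ t, rk (π t) = rk t) ∧ (∀ s t, col s = col t → col (π s) = col (π t))
  | gap c => Fintype.card T + 2 = 2 * c ∧ (∀ t, rk t < 4) ∧ (∃ π : T → T, (∀ t, π (π t) = t) ∧
      (∀ t, π t ≠ t) ∧ (∀ t, rk (π t) = rk t) ∧ (∀ s t, col s = col t → col (π s) = col (π t))) ∧
      ∃ a0 a1, col a0 = col a1 ∧ rk a0 = 0 ∧ rk a1 = 1 ∧ ∀ t, col t = col a0 → t = a0 ∨ t = a1

theorem exists_pi_congr {S T : Type} (e : S ≃ T) {rk col : T → ℕ}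
    (h : ∃ π : T → T, (∀ t, π (π t) = t) ∧
      (∀ t, π t ≠ t) ∧ (∀ t, rk (π t) = rk t) ∧ (∀ s t, col s = col t → col (π s) = col (π t))) :
    ∃ π : S → S, (∀ t, π (π t) = t) ∧ (∀ t, π t ≠ t) ∧ (∀ t, rk (e (π t)) = rk (e t)) ∧
      (∀ s t, col (e s) = col (e t) → col (e (π s)) = col (e (π t))) := by
  obtain ⟨π, h3, h4, h5, h6⟩ := h
  refine ⟨fun s => e.symm (π (e s)), ?_, ?_, ?_, ?_⟩
  · intro s; simp [h3]
  · intro s hs
    apply h4 (e s)
    have := congrArg e hs
    simpa using this
  · intro s; simp [h5]
  · intro s t hst; simpa using h6 _ _ hst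

theorem OK.congr {κ : Bk4} {S T : Type} [Fintype S] [Fintype T] (e : S ≃ T) {rk col : T → ℕ}
    (h : κ.OK T rk col) : κ.OK S (fun s => rk (e s)) (fun s => col (e s)) := by
  cases κ with
  | pair c =>
    refine ⟨?_, fun s => h.2 _⟩
    rw [Fintype.card_congr e]; exact h.1
  | rect c k =>
    refine ⟨?_, fun s => h.2 _⟩
    rw [Fintype.card_congr e]; exact h.1
  | dup c =>
    obtain ⟨h1, h2, h3⟩ := h
    refine ⟨?_, fun s => h2 _, exists_pi_congr e h3⟩
    rw [Fintype.card_congr e]; exact h1
  | gap c =>
    obtain ⟨h1, h2, h3, a0, a1, h4, h5, h6, h7⟩ := h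
    refine ⟨?_, fun s => h2 _, exists_pi_congr e h3, e.symm a0, e.symm a1, ?_, ?_, ?_, ?_⟩
    · rw [Fintype.card_congr e]; exact h1
    · simpa using h4
    · simpa using h5
    · simpa using h6
    · intro t ht
      have := h7 (e t) (by simpa using ht)
      rcases this with h | h
      · left; rw [← h]; simp
      · right; rw [← h]; simp

end Bk4

/-- admissible lists -/
def validB : List Bk4 → Prop
  | [] => True
  | g :: L => g.low ≤ g.top ∧ (∀ h ∈ L, h.top ≤ g.next) ∧ validB L

/-- minimal cost cells -/
def ZB : List Bk4 → Set (ℕ × ℕ)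
  | [] => ∅
  | g :: L => g.Z ∪ ZB L

/-- columns of a list of blocks -/
def colsB (L : List Bk4) : List ℕ := L.flatMap Bk4.cols

theorem ZB_le {L : List Bk4} {n : ℕ} (h : ∀ g ∈ L, g.top ≤ n) : ∀ c ∈ ZB L, c.1 + c.2 + 1 ≤ n := by
  induction L with
  | nil => intro c hc; exact hc.elim
  | cons g L ih =>
    rintro c (hc | hc)
    · exact (g.Z_le c hc).trans (h g (by simp))
    · exact ih (fun g' hg' => h g' (by simp [hg'])) c hc

universe u

/-- the block `κ` is hit by all vectors with an admissible arrangement -/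
def Hits (κ : Bk4) : Prop :=
  ∀ {T : Type} [Fintype T] [DecidableEq T] {W : Type u} [AddCommGroup W] [Module ℂ W]
    (ρ : Representation ℂ (Perm T) W) (rk col : T → ℕ)
    (_ : ∀ s t, rk s = rk t → col s = col t → s = t)
    (_ : ∀ t a, a < rk t → ∃ s, rk s = a ∧ col s = col t)
    (_ : κ.OK T rk col) (x : W) (_ : SwapFixed ρ rk x) (_ : colAsym ρ col x ≠ 0),
    HitZ ρ (colS κ.cols) (colS κ.cols) κ.Z x

theorem hits_pair (c : ℕ) (hc : 1 ≤ c) : Hits.{u} (.pair c) := by
  intro T _ _ W _ _ ρ rk col hinj htop hok x hfix hA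
  have hx : x ≠ 0 := by
    rintro rfl
    exact hA (map_zero _)
  obtain ⟨h1, h2⟩ := hok
  change HitZ ρ (colS [c, c - 1]) (colS [c, c - 1]) (zigZ c) x
  rw [← pairShape_eq]
  exact hitZ_pair c hc h1 ρ rk h2 x hx hfix

theorem hits_rect (c k : ℕ) : Hits.{u} (.rect c k) := by
  intro T _ _ W _ _ ρ rk col hinj htop hok x hfix hA
  have hx : x ≠ 0 := by
    rintro rfl
    exact hA (map_zero _)
  obtain ⟨h1, h2⟩ := hok
  change HitZ ρ (colS (List.replicate k c)) (colS (List.replicate k c)) (antiZ c) x
  rw [← rectShape_eq]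
  exact hitZ_rect c k h1 ρ rk h2 x hx hfix

theorem hits_dup (c : ℕ) : Hits.{u} (.dup c) := by
  intro T _ _ W _ _ ρ rk col hinj htop hok x hfix hA
  obtain ⟨h1, h2, π, h3, h4, h5, h6⟩ := hok
  change HitZ ρ (colS (List.replicate 2 c)) (colS (List.replicate 2 c)) (antiZ c) x
  rw [← rectShape_eq]
  exact hitZ_dup c h1 ρ rk col h2 hinj htop π h3 h4 h5 h6 x hfix hA

/-- **The engine**: a list of blocks. -/
theorem hit4_list : ∀ (L : List Bk4), validB L → (∀ κ ∈ L, Hits.{u} κ) →
    ∀ {T : Type} [Fintype T] [DecidableEq T] {W : Type u} [AddCommGroup W] [Module ℂ W]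
      (ρ : Representation ℂ (Perm T) W) (γ rk col : T → ℕ) (_ : ∀ t, γ t < L.length)
      (_ : ∀ s t, γ s = γ t → rk s = rk t → col s = col t → s = t)
      (_ : ∀ t a, a < rk t → ∃ s, γ s = γ t ∧ rk s = a ∧ col s = col t)
      (_ : ∀ (i : ℕ) (hi : i < L.length), (L[i]).OK {t // γ t = i} (fun t => rk t) (fun t => col t))
      (x : W) (_ : SwapFixed ρ (fun t => (γ t, rk t)) x)
      (_ : colAsym ρ (fun t => Nat.pair (γ t) (col t)) x ≠ 0),
      HitZ ρ (colS (colsB L)) (colS (colsB L)) (ZB L) x := by
  intro L
  induction L with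
  | nil =>
    intro _ _ T _ _ W _ _ ρ γ rk col hγ _ _ _ x _ hA
    have hT : IsEmpty T := ⟨fun t => by simpa using hγ t⟩
    have hx : x ≠ 0 := by
      rintro rfl
      exact hA (map_zero _)
    have htab : IsTab (∅ : Finset (ℕ × ℕ)) (fun _ : T => ((0, 0) : ℕ × ℕ)) := by
      constructor
      · intro s; exact (hT.false s).elim
      · ext c
        simp
    have hnil : colS (colsB []) = ∅ := colS_nil
    rw [hnil]
    refine ⟨0, prodF (polyF fun _ : T => (0, 0)) (polyF fun _ : T => (0, 0)),
      Submodule.subset_span ⟨_, _, htab, htab, rfl⟩, ?_, fun _ => (0, 0), ?_, ?_, ?_⟩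
    · intro v _
      exact ⟨Nat.zero_le _, fun _ t => (hT.false t).elim⟩
    · unfold cost
      simp
    · intro t; exact (hT.false t).elim
    · have hone : ∀ w : T → ℕ, polyF (fun _ : T => ((0, 0) : ℕ × ℕ)) w = 1 := by
        intro w
        unfold polyF
        rw [Fintype.sum_unique]
        have : (default : Perm T) = 1 := Subsingleton.elim _ _
        rw [if_pos ⟨fun i => (hT.false i).elim, fun i => (hT.false i).elim⟩, this]
        simp
      rw [hitOp_apply, Fintype.sum_unique]
      have : (default : Perm T) = 1 := Subsingleton.elim _ _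
      rw [this]
      unfold prodF
      rw [hone, hone]
      simpa using hx
  | cons κ L ih =>
    intro hL hHits T _ _ W _ _ ρ γ rk col hγ hinj htop hok x hfix hA
    obtain ⟨h1, h2, h3⟩ := hL
    let p : T → Prop := fun t => γ t = 0
    have hd : ∀ s t, Nat.pair (γ s) (col s) = Nat.pair (γ t) (col t) → (p s ↔ p t) := by
      intro s t h
      have := (Nat.pair_eq_pair.1 h).1
      simp only [p, this]
    have hdis : Disjoint κ.Z (ZB L) := by
      rw [Set.disjoint_left]
      intro c hc1 hc2
      have h4 := κ.Z_gt (κ.low_pos.trans h1) c hc1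
      have h5 := ZB_le h2 c hc2
      omega
    have hdP : ∀ s t : {t // p t}, resP p (fun t => Nat.pair (γ t) (col t)) s =
        resP p (fun t => Nat.pair (γ t) (col t)) t ↔ col s = col t := by
      intro s t
      change Nat.pair (γ s) (col s) = Nat.pair (γ t) (col t) ↔ _
      rw [Nat.pair_eq_pair]
      have hs : γ s = 0 := s.2
      have ht : γ t = 0 := t.2
      rw [hs, ht]
      simp
    have hdN : ∀ s t : {t // ¬ p t}, resN p (fun t => Nat.pair (γ t) (col t)) s =
        resN p (fun t => Nat.pair (γ t) (col t)) t ↔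
        Nat.pair (γ s - 1) (col s) = Nat.pair (γ t - 1) (col t) := by
      intro s t
      change Nat.pair (γ s) (col s) = Nat.pair (γ t) (col t) ↔ _
      rw [Nat.pair_eq_pair, Nat.pair_eq_pair]
      have hs : γ s ≠ 0 := s.2
      have ht : γ t ≠ 0 := t.2
      constructor
      · rintro ⟨h, h'⟩; exact ⟨by omega, h'⟩
      · rintro ⟨h, h'⟩; exact ⟨by omega, h'⟩
    have hcols : colsB (κ :: L) = κ.cols ++ colsB L := rfl
    rw [hcols, colS_append]
    change HitZ ρ _ _ (κ.Z ∪ ZB L) x
    refine HitZ.step (p := p) (fun c hc => colS_snd_lt hc) (fun c hc => colS_snd_lt hc) hdis hd hA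
      ?_ ?_
    · intro hne
      rw [colAsym_congr (resRepN p ρ) (d := resN p fun t => Nat.pair (γ t) (col t)) hdN] at hne
      refine ih h3 (fun κ' hκ' => hHits κ' (List.mem_cons_of_mem _ hκ')) (resRepN p ρ)
        (fun t => γ t - 1) (fun t => rk t) (fun t => col t) ?_ ?_ ?_ ?_ _ ?_ hne
      · intro t
        have h4 := hγ t
        have h5 : γ t ≠ 0 := t.2
        simp only [List.length_cons] at h4
        omega
      · intro s t ha hb hc
        have hs : γ s ≠ 0 := s.2
        have ht : γ t ≠ 0 := t.2
        exact Subtype.ext (hinj _ _ (by omega) hb hc)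
      · intro t a ha
        obtain ⟨s, hs1, hs2, hs3⟩ := htop t a ha
        exact ⟨⟨s, fun h => t.2 (hs1.symm.trans h)⟩, by simp only [hs1], hs2, hs3⟩
      · intro i hi
        have h4 := hok (i + 1) (by simp only [List.length_cons]; omega)
        let e : {s : {t // ¬ p t} // γ s - 1 = i} ≃ {t // γ t = i + 1} :=
          { toFun := fun s => ⟨s.1.1, by
              have hs : γ s.1.1 ≠ 0 := s.1.2
              have := s.2
              omega⟩
            invFun := fun t => ⟨⟨t.1, by
              have := t.2
              change ¬ γ t.1 = 0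
              omega⟩, by
              have := t.2
              simp only
              omega⟩
            left_inv := fun s => rfl
            right_inv := fun t => rfl }
        exact Bk4.OK.congr e h4
      · intro a b hab
        have hs : γ a ≠ 0 := a.2
        have ht : γ b ≠ 0 := b.2
        rw [colAsymP_comm]
        congr 1
        have h5 : γ a - 1 = γ b - 1 := congrArg Prod.fst hab
        have h6 : rk a = rk b := congrArg Prod.snd hab
        refine hfix.resN p a b ?_
        change (γ a, rk a) = (γ b, rk b)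
        rw [h6, show γ a = γ b by omega]
    · intro G u hne
      rw [colAsym_congr (resRepP p ρ) (d := resP p fun t => Nat.pair (γ t) (col t)) hdP] at hne
      refine hHits κ List.mem_cons_self (resRepP p ρ) (fun t => rk t) (fun t => col t)
        ?_ ?_ ?_ _ ?_ hne
      · intro s t hb hc
        have hs : γ s = 0 := s.2
        have ht : γ t = 0 := t.2
        exact Subtype.ext (hinj _ _ (by rw [hs, ht]) hb hc)
      · intro t a ha
        obtain ⟨s, hs1, hs2, hs3⟩ := htop t a ha
        exact ⟨⟨s, by change γ s = 0; rw [hs1]; exact t.2⟩, hs2, hs3⟩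
      · exact hok 0 (by simp)
      · intro a b hab
        rw [hitOpN_comm]
        congr 1
        refine hfix.resP p a b ?_
        have hs : γ a = 0 := a.2
        have ht : γ b = 0 := b.2
        change (γ a, rk a) = (γ b, rk b)
        rw [hs, ht]
        exact congrArg _ hab

end Crest.Agent.R195
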