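import Crest.Agent.R195.MergeCheck

/-! Row 195, S0298 (helper195).  Kernel enumeration of the both-short region for single members:
prefixes `(H 0, …, H (k-1))` with columns at least 2, pruned by the Gale–Ryser tables of merged lists
of pieces; leaves (remaining columns `1`) are checked exactly, up to transposition and up to a list of
exceptions with separate proofs. -/

set_option autoImplicit false

namespace Crest.Agent.R195

open Finset Function

/-- all prefix sums of the list are bounded by the table -/
def prefOK : List ℕ → List ℕ → ℕ → Bool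
  | [], _, _ => true
  | _ :: _, [], _ => false
  | h :: H, t :: T, a => Nat.ble (a + h) t && prefOK H T (a + h)

/-- every completion with columns at most `b` and total `r` respects the table -/
def classOK : List ℕ → ℕ → ℕ → ℕ → Bool
  | [], _, _, _ => true
  | t :: T, a, r, b =>
    if Nat.ble r b then Nat.ble (a + r) t else Nat.ble (a + b) t && classOK T (a + b) (r - b) b

/-- tables which survive the next column -/
def adv (a : ℕ) : List (List ℕ) → List (List ℕ)
  | [] => []
  | [] :: al => adv a al
  | (t :: T) :: al => if Nat.ble a t then T :: adv a al else adv a al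

/-- descending loop over the next column -/
def loopI (g : ℕ → Bool) (c1 r : ℕ) : ℕ → Bool
  | 0 => true
  | i + 1 =>
    if Nat.ble (i + 1) 1 then true
    else if Nat.ble r (c1 * (i + 1)) then g (i + 1) && loopI g c1 r i else true

/-- leaf: the remaining columns are ones -/
def leafOK (fb : List ℕ → Bool) (h0 r a : ℕ) (pre : List ℕ) (al : List (List ℕ)) : Bool :=
  Nat.ble (pre.length + r + 1) h0 || al.any (fun T => classOK T a r 1) ||
    fb (pre.reverse ++ List.replicate r 1)

/-- pruned enumeration -/
def goE (fb : List ℕ → Bool) (h0 : ℕ) : ℕ → ℕ → ℕ → ℕ → List ℕ → List (List ℕ) → Bool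
  | 0, _, r, a, pre, al => !(Nat.beq r 0) || leafOK fb h0 r a pre al
  | c + 1, mx, r, a, pre, al =>
    al.any (fun T => classOK T a r mx) ||
      ((!(Nat.ble r (2 * (c + 1))) || leafOK fb h0 r a pre al) &&
        loopI (fun i => goE fb h0 c i (r - i) (a + i) (i :: pre) (adv (a + i) al)) (c + 1) r
          (if Nat.ble mx r then mx else r))

/-! ### Soundness -/

theorem prefOK_sound {F : ℕ → ℕ} : ∀ (q T : List ℕ) (a k : ℕ), prefOK q T a = true →
    (∀ i, i < T.length → T.getD i 0 = F (k + i)) →
    ∀ J, 1 ≤ J → J ≤ q.length → a + (q.take J).sum ≤ F (k + J - 1) := by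
  intro q
  induction q with
  | nil => intro T a k _ _ J h1 h2; simp at h2; omega
  | cons h q ih =>
    intro T a k hp hT J h1 h2
    cases T with
    | nil => simp [prefOK] at hp
    | cons t T =>
      simp only [prefOK, Bool.and_eq_true, Nat.ble_eq] at hp
      have ht : t = F k := by simpa using hT 0 (by simp)
      obtain ⟨J, rfl⟩ : ∃ J', J = J' + 1 := ⟨J - 1, by omega⟩
      rcases Nat.eq_zero_or_pos J with h3 | h3
      · subst h3
        simp only [zero_add, List.take_succ_cons, List.take_zero, List.sum_cons, List.sum_nil,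
          Nat.add_sub_cancel]
        rw [← ht]; omega
      · have h4 := ih T (a + h) (k + 1) hp.2 (fun i hi => by
          have := hT (i + 1) (by simpa using hi)
          simpa [Nat.add_assoc, Nat.add_comm, Nat.add_left_comm] using this) J h3
          (by simpa using h2)
        rw [List.take_succ_cons, List.sum_cons]
        have h5 : k + 1 + J - 1 = k + (J + 1) - 1 := by omega
        rw [h5] at h4
        omega

theorem classOK_sound {F : ℕ → ℕ} (hF : Monotone F) : ∀ (T : List ℕ) (a r b k : ℕ),
    classOK T a r b = true → (∀ i, i < T.length → T.getD i 0 = F (k + i)) →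
    ∀ i, i < T.length → min (a + r) (a + (i + 1) * b) ≤ F (k + i) := by
  intro T
  induction T with
  | nil => intro a r b k _ _ i hi; simp at hi
  | cons t T ih =>
    intro a r b k hc hT i hi
    have ht : t = F k := by simpa using hT 0 (by simp)
    unfold classOK at hc
    by_cases hb : r ≤ b
    · rw [if_pos (by rw [Nat.ble_eq]; exact hb), Nat.ble_eq] at hc
      calc min (a + r) (a + (i + 1) * b) ≤ a + r := min_le_left _ _
        _ ≤ F k := by rw [← ht]; exact hc
        _ ≤ F (k + i) := hF (Nat.le_add_right _ _)
    · rw [if_neg (by rw [Nat.ble_eq]; exact hb), Bool.and_eq_true, Nat.ble_eq] at hc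
      rcases Nat.eq_zero_or_pos i with h0 | h0
      · subst h0
        calc min (a + r) (a + (0 + 1) * b) ≤ a + (0 + 1) * b := min_le_right _ _
          _ = a + b := by ring
          _ ≤ F (k + 0) := by rw [Nat.add_zero, ← ht]; exact hc.1
      · obtain ⟨i, rfl⟩ : ∃ i', i = i' + 1 := ⟨i - 1, by omega⟩
        have h1 := ih (a + b) (r - b) b (k + 1) hc.2 (fun i hi => by
          have := hT (i + 1) (by simpa using hi)
          simpa [Nat.add_assoc, Nat.add_comm, Nat.add_left_comm] using this) i (by simpa using hi)
        have h2 : a + b + (r - b) = a + r := by omega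
        have h3 : a + b + (i + 1) * b = a + (i + 1 + 1) * b := by ring
        have h4 : k + 1 + i = k + (i + 1) := by ring
        rw [h2, h3, h4] at h1
        exact h1

theorem mem_adv {a : ℕ} {al : List (List ℕ)} {T : List ℕ} (h : T ∈ adv a al) :
    ∃ t, (t :: T) ∈ al ∧ a ≤ t := by
  induction al with
  | nil => simp [adv] at h
  | cons x al ih =>
    cases x with
    | nil =>
      rw [adv] at h
      obtain ⟨t, h1, h2⟩ := ih h
      exact ⟨t, List.mem_cons_of_mem _ h1, h2⟩
    | cons t T' =>
      rw [adv] at h
      by_cases hb : a ≤ t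
      · rw [if_pos (by rw [Nat.ble_eq]; exact hb)] at h
        rcases List.mem_cons.1 h with rfl | h
        · exact ⟨t, List.mem_cons_self, hb⟩
        · obtain ⟨t', h1, h2⟩ := ih h
          exact ⟨t', List.mem_cons_of_mem _ h1, h2⟩
      · rw [if_neg (by rw [Nat.ble_eq]; exact hb)] at h
        obtain ⟨t', h1, h2⟩ := ih h
        exact ⟨t', List.mem_cons_of_mem _ h1, h2⟩

theorem loopI_sound {g : ℕ → Bool} {c1 r : ℕ} : ∀ {m : ℕ}, loopI g c1 r m = true →
    ∀ i, 2 ≤ i → i ≤ m → r ≤ c1 * i → g i = true := by
  intro m
  induction m with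
  | zero => intro _ i h1 h2; omega
  | succ m ih =>
    intro h i h1 h2 h3
    unfold loopI at h
    rw [if_neg (by rw [Nat.ble_eq]; omega)] at h
    have h4 : r ≤ c1 * (m + 1) := h3.trans (Nat.mul_le_mul_left _ h2)
    rw [if_pos (by rw [Nat.ble_eq]; exact h4), Bool.and_eq_true] at h
    rcases Nat.lt_or_ge i (m + 1) with h5 | h5
    · exact ih h.2 i h1 (by omega) h3
    · obtain rfl : i = m + 1 := by omega
      exact h.1

/-- the data of an alive table -/
def Alive (Fs : List (ℕ → ℕ)) (K : ℕ) (H : ℕ → ℕ) (k : ℕ) (T : List ℕ) : Prop :=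
  ∃ F ∈ Fs, T.length + k = K ∧ (∀ i, i < T.length → T.getD i 0 = F (k + i)) ∧
    ∀ J, 1 ≤ J → J ≤ k → ∑ j ∈ range J, H j ≤ F (J - 1)

theorem goE_sound {n B w w₂ K : ℕ} {H : ℕ → ℕ} (hr : Region n B w w₂ H) (Fs : List (ℕ → ℕ))
    (hmono : ∀ F ∈ Fs, Monotone F) (hwK : w ≤ K) (fb : List ℕ → Bool) :
    ∀ (c k mx r a : ℕ) (pre : List ℕ) (al : List (List ℕ)),
      c + k = B → k ≤ w₂ → H k ≤ mx → a = ∑ j ∈ range k, H j → a + r = n →
      pre = ((List.range k).map H).reverse → (∀ T ∈ al, Alive Fs K H k T) →
      goE fb (H 0) c mx r a pre al = true →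
      (∃ F ∈ Fs, ∀ J, 1 ≤ J → J ≤ w → ∑ j ∈ range J, H j ≤ F (J - 1)) ∨
        fb ((List.range w).map H) = true := by
  have hw2w : w₂ ≤ w := hr.w2_le
  -- a class check suffices
  have hclass : ∀ (k r a b : ℕ) (T : List ℕ), k ≤ w → (∀ j, k ≤ j → H j ≤ b) →
      a = ∑ j ∈ range k, H j → a + r = n → Alive Fs K H k T → classOK T a r b = true →
      ∃ F ∈ Fs, ∀ J, 1 ≤ J → J ≤ w → ∑ j ∈ range J, H j ≤ F (J - 1) := by
    rintro k r a b T hk hb ha har ⟨F, hF, hlen, hT, hpre⟩ hc
    refine ⟨F, hF, fun J h1 h2 => ?_⟩
    rcases Nat.lt_or_ge k J with h3 | h3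
    · obtain ⟨i, rfl⟩ : ∃ i, J = k + (i + 1) := ⟨J - k - 1, by omega⟩
      have h4 := classOK_sound (hmono F hF) T a r b k hc hT i (by omega)
      have h5 : ∑ j ∈ range (k + (i + 1)), H j ≤ n := by
        rw [← hr.sum]
        exact sum_le_sum_of_subset (range_mono h2)
      have h6 : ∑ j ∈ range (k + (i + 1)), H j ≤ a + (i + 1) * b := by
        rw [sum_range_add, ← ha]
        refine Nat.add_le_add_left ?_ _
        calc ∑ x ∈ range (i + 1), H (k + x) ≤ ∑ _x ∈ range (i + 1), b :=
              sum_le_sum fun x _ => hb _ (Nat.le_add_right _ _)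
          _ = (i + 1) * b := by rw [sum_const, card_range, smul_eq_mul]
      have h7 : k + (i + 1) - 1 = k + i := by omega
      rw [h7]
      exact (le_min (by omega) h6).trans h4
    · exact hpre J h1 h3
  -- leaves
  have hleaf : ∀ (k r a : ℕ) (pre : List ℕ) (al : List (List ℕ)), k = w₂ →
      a = ∑ j ∈ range k, H j → a + r = n → pre = ((List.range k).map H).reverse →
      (∀ T ∈ al, Alive Fs K H k T) → leafOK fb (H 0) r a pre al = true →
      (∃ F ∈ Fs, ∀ J, 1 ≤ J → J ≤ w → ∑ j ∈ range J, H j ≤ F (J - 1)) ∨
        fb ((List.range w).map H) = true := by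
    intro k r a pre al hk ha har hpre hal hl
    subst hk
    have hone : ∀ j, k ≤ j → j < w → H j = 1 := fun j h1 h2 => by
      have h3 := (hr.pos j).1 h2
      have h4 : ¬ j < k := by omega
      rw [hr.two j] at h4
      omega
    have hr' : r = w - k := by
      have h1 : ∑ j ∈ range w, H j = ∑ j ∈ range k, H j + (w - k) := by
        obtain ⟨d, hd⟩ := Nat.exists_eq_add_of_le hw2w
        rw [hd, sum_range_add]
        congr 1
        have h2 : ∑ x ∈ range d, H (k + x) = ∑ _x ∈ range d, 1 := by
          refine sum_congr rfl fun x hx => hone _ (Nat.le_add_right _ _) ?_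
          have := mem_range.1 hx; omega
        rw [h2]; simp
      rw [hr.sum, ← ha] at h1
      omega
    have hlen : pre.length = k := by rw [hpre]; simp
    simp only [leafOK, Bool.or_eq_true, Nat.ble_eq, List.any_eq_true] at hl
    rcases hl with (hl | ⟨T, hT, hc⟩) | hl
    · exfalso
      have := hr.wlog
      rw [hlen, hr'] at hl
      omega
    · left
      refine hclass k r a 1 T hw2w ?_ ha har (hal T hT) hc
      intro j hj
      by_contra hcon
      have h1 : j < k := (hr.two j).2 (by omega)
      omega
    · right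
      rw [hpre, List.reverse_reverse] at hl
      convert hl using 2
      have h1 : (List.range w).map H = (List.range k).map H ++
          (List.range (w - k)).map fun x => H (k + x) := by
        obtain ⟨d, hd⟩ := Nat.exists_eq_add_of_le hw2w
        rw [hd, List.range_add, List.map_append, List.map_map, Nat.add_sub_cancel_left]
        rfl
      rw [h1, hr']
      congr 1
      rw [List.eq_replicate_iff]
      refine ⟨by simp, fun x hx => ?_⟩
      obtain ⟨y, hy, rfl⟩ := List.mem_map.1 hx
      exact hone _ (Nat.le_add_right _ _) (by have := List.mem_range.1 hy; omega)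
  intro c
  induction c with
  | zero =>
    intro k mx r a pre al hck hk hmx ha har hpre hal hgo
    have h1 := hr.row
    have hk2 : k = w₂ := by omega
    have hwk : w = k := by omega
    have hr0 : r = 0 := by
      have := hr.sum
      rw [hwk, ← ha] at this
      omega
    simp only [goE, Bool.or_eq_true, Bool.not_eq_true'] at hgo
    rcases hgo with hgo | hgo
    · rw [hr0] at hgo; simp at hgo
    · exact hleaf k r a pre al hk2 ha har hpre hal hgo
  | succ c ih =>
    intro k mx r a pre al hck hk hmx ha har hpre hal hgo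
    simp only [goE, Bool.or_eq_true, Bool.and_eq_true, Bool.not_eq_true', List.any_eq_true] at hgo
    rcases hgo with ⟨T, hT, hc⟩ | ⟨h1, h2⟩
    · left
      exact hclass k r a mx T (hk.trans hw2w) (fun j hj => (hr.anti hj).trans hmx) ha har
        (hal T hT) hc
    · rcases Nat.lt_or_ge k w₂ with h3 | h3
      · -- next column at least 2
        have h4 : 2 ≤ H k := (hr.two k).1 h3
        have h5 : H k ≤ r := by
          have h6 : ∑ j ∈ range (k + 1), H j ≤ n := by
            rw [← hr.sum]
            exact sum_le_sum_of_subset (range_mono (by omega))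
          rw [sum_range_succ, ← ha] at h6
          omega
        have h6 : H k ≤ if Nat.ble mx r then mx else r := by
          split_ifs
          · exact hmx
          · exact h5
        have h7 : r ≤ (c + 1) * H k := by
          -- r = ∑_{k ≤ j < w} H j
          have h8 : r = ∑ x ∈ range (w - k), H (k + x) := by
            have := hr.sum
            rw [show w = k + (w - k) by omega, sum_range_add, ← ha] at this
            omega
          have h9 : ∑ x ∈ range (w - k), H (k + x) =
              ∑ x ∈ range (w₂ - k), H (k + x) + (w - w₂) := by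
            rw [show w - k = (w₂ - k) + (w - w₂) by omega, sum_range_add]
            congr 1
            have h10 : ∑ x ∈ range (w - w₂), H (k + (w₂ - k + x)) = ∑ _x ∈ range (w - w₂), 1 := by
              refine sum_congr rfl fun x hx => ?_
              have h11 := mem_range.1 hx
              have h12 := (hr.pos (k + (w₂ - k + x))).1 (by omega)
              have h13 : ¬ (k + (w₂ - k + x)) < w₂ := by omega
              rw [hr.two] at h13
              omega
            rw [h10]; simp
          have h14 : ∑ x ∈ range (w₂ - k), H (k + x) ≤ (w₂ - k) * H k := by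
            calc ∑ x ∈ range (w₂ - k), H (k + x) ≤ ∑ _x ∈ range (w₂ - k), H k :=
                  sum_le_sum fun x _ => hr.anti (Nat.le_add_right _ _)
              _ = (w₂ - k) * H k := by rw [sum_const, card_range, smul_eq_mul]
          have h15 := hr.row
          -- w - w₂ ≤ 2 (B - w₂)
          have h16 : (c + 1) = (w₂ - k) + (B - w₂) := by omega
          have h17 : w - w₂ ≤ (B - w₂) * H k := by
            calc w - w₂ ≤ (B - w₂) * 2 := by omega
              _ ≤ (B - w₂) * H k := Nat.mul_le_mul_left _ h4
          rw [h16, add_mul, h8, h9]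
          omega
        have h8 := loopI_sound h2 (H k) h4 h6 h7
        refine ih (k + 1) (H k) (r - H k) (a + H k) (H k :: pre) (adv (a + H k) al) (by omega)
          (by omega) (hr.anti (Nat.le_succ k)) (by rw [sum_range_succ, ha]) (by omega) ?_ ?_ h8
        · rw [hpre, List.range_succ, List.map_append, List.reverse_append]
          rfl
        · intro T hT
          obtain ⟨t, ht, hat⟩ := mem_adv hT
          obtain ⟨F, hF, hlen, hTF, hp⟩ := hal _ ht
          refine ⟨F, hF, by simp at hlen; omega, fun i hi => ?_, fun J hJ1 hJ2 => ?_⟩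
          · have := hTF (i + 1) (by simpa using hi)
            simpa [Nat.add_assoc, Nat.add_comm, Nat.add_left_comm] using this
          · rcases Nat.lt_or_ge k J with h9 | h9
            · obtain rfl : J = k + 1 := by omega
              have h10 := hTF 0 (by simp)
              simp only [List.getD_cons_zero, Nat.add_zero] at h10
              rw [sum_range_succ, ← ha, Nat.add_sub_cancel, ← h10]
              exact hat
            · exact hp J hJ1 h9
      · have hk2 : k = w₂ := by omega
        rcases h1 with h1 | h1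
        · exfalso
          have h4 : ¬ r ≤ 2 * (c + 1) := by
            intro h5
            rw [← Nat.ble_eq] at h5
            rw [h5] at h1
            exact absurd h1 (by simp)
          have h5 := hr.row
          have h6 : r = w - k := by
            have h7 : r = ∑ x ∈ range (w - k), H (k + x) := by
              have := hr.sum
              rw [show w = k + (w - k) by omega, sum_range_add, ← ha] at this
              omega
            rw [h7]
            have h8 : ∑ x ∈ range (w - k), H (k + x) = ∑ _x ∈ range (w - k), 1 := by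
              refine sum_congr rfl fun x hx => ?_
              have h11 := mem_range.1 hx
              have h12 := (hr.pos (k + x)).1 (by omega)
              have h13 : ¬ (k + x) < w₂ := by omega
              rw [hr.two] at h13
              omega
            rw [h8]; simp
          omega
        · exact hleaf k r a pre al hk2 ha har hpre hal h1


/-! ### Final theorem -/

/-- conjugate of a list of column lengths -/
def conjQ (q : List ℕ) : List ℕ :=
  (List.range (q.headD 0)).map fun i => q.countP fun x => Nat.ble (i + 1) x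

/-- fall back: the transposed diagram, or an exception -/
def fbE (tabs exc : List (List ℕ)) (q : List ℕ) : Bool :=
  tabs.any (fun T => prefOK (conjQ q) T 0) || exc.contains q

/-- the Gale–Ryser table of a plan -/
def MPlan.tab (K : ℕ) (P : MPlan) : List ℕ :=
  (List.range K).map fun m => FL (P.bs.map MBlk.row) (m + 1)

/-- structural check of the plans and their tables -/
def echeckS (ps : List ℕ) (K : ℕ) (Ps : List MPlan) (tabs : List (List ℕ)) : Bool :=
  let n := hsize ps
  let B := ps.headD 0 - 1
  Nat.ble (2 * B + 1) n && Nat.ble (2 * B) K &&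
    Ps.all (fun P => P.okS ps B && Nat.beq ((P.bs.map MBlk.row).map Pc.size).sum n) &&
    (tabs == Ps.map (MPlan.tab K))

/-- structural check of the plans used with the numeric criterion `chkH` -/
def echeckQ (ps : List ℕ) (K : ℕ) (Qs : List MPlan) : Bool :=
  let n := hsize ps
  let B := ps.headD 0 - 1
  Qs.all (fun P => P.okS ps B && Nat.ble n (FL (P.bs.map MBlk.row) K) &&
    Nat.beq ((P.bs.map MBlk.row).map Pc.size).sum n &&
    (List.range (P.hi + 1 - P.lo)).all fun i => chkH n B K (P.bs.map MBlk.row) (P.lo + i))

/-- check of one value `h` of `H 0` by enumeration -/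
def echeckH (ps : List ℕ) (tabs exc : List (List ℕ)) (h : ℕ) : Bool :=
  let n := hsize ps
  let B := ps.headD 0 - 1
  goE (fbE tabs exc) h (B - 1) (if Nat.ble h (2 * B - h) then h else 2 * B - h) (n - h) h [h]
    (adv h tabs)

theorem tab_getD (K : ℕ) (P : MPlan) {i : ℕ} (hi : i < K) :
    (P.tab K).getD i 0 = FL (P.bs.map MBlk.row) (i + 1) := by
  rw [MPlan.tab, List.getD_eq_getElem?_getD, List.getElem?_map, List.getElem?_range hi]
  rfl

theorem occSh_of_prefix {ps : List ℕ} (hv : ValidH ps) {P : MPlan}
    (hS : P.okS ps (ps.headD 0 - 1) = true)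
    (htot : ((P.bs.map MBlk.row).map Pc.size).sum = hsize ps) {μ : YoungDiagram}
    (hn : μ.card = hsize ps) (hw : μ.rowLen 0 ≤ 2 * (ps.headD 0 - 1) - 1)
    (hp : ∀ J, 1 ≤ J → J ≤ μ.rowLen 0 →
      ∑ j ∈ range J, μ.colLen j ≤ FL (P.bs.map MBlk.row) J) : OccSh (hk ps) (hk ps) μ := by
  simp only [MPlan.okS, Bool.and_eq_true, beq_iff_eq, List.all_eq_true] at hS
  obtain ⟨⟨hval, hcols⟩, hok⟩ := hS
  have hperm : (P.bs.flatMap MBlk.pcs).Perm P.pieces := (List.perm_insertionSort _ _).symm
  have hmain : Decomp (P.bs.map MBlk.row) fun j : Fin (μ.rowLen 0) => μ.colLen j := by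
    refine decomp_GR _ ?_ _ _ ?_ ?_
    · intro p hp
      obtain ⟨b, hb, rfl⟩ := List.mem_map.1 hp
      have h5 := hok b hb
      cases b with
      | f p => exact Pc.free_of_freeb h5
      | m s c => trivial
    · rw [sum_colLen, hn, htot]
    · intro J hJ
      have hJw : J.card ≤ μ.rowLen 0 := by
        have := card_le_card hJ
        rwa [card_range] at this
      rcases Nat.eq_zero_or_pos J.card with h0 | h0
      · rw [card_eq_zero] at h0
        subst h0
        simp
      · exact (sum_le_top (fun _ _ h => μ.colLen_anti _ _ h) J).trans (hp _ h0 hJw)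
  have h8 := blks_merge (W := 2 * (ps.headD 0 - 1) - 1) (bs := P.bs) hw
    (List.all_eq_true.2 hok) (L := []) (H := fun j : Fin (μ.rowLen 0) => μ.colLen j)
    (by rwa [List.append_nil])
  rw [List.append_nil] at h8
  have h9 : OccSh (colS (colsP P.pieces)) (colS (colsP P.pieces)) μ :=
    occSh_of_decompP P.pieces (validP_of_validPb hval) (Decomp.perm hperm h8)
  rwa [colS_eq_hk hv (fun s => by rw [hcols, getD_map_range hv])] at h9

/-- sum over a prefix of the list of column lengths -/
theorem take_map_range_sum (f : ℕ → ℕ) (w J : ℕ) (h : J ≤ w) :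
    (((List.range w).map f).take J).sum = ∑ j ∈ range J, f j := by
  rw [← List.map_take, List.take_range, min_eq_left h]
  induction J with
  | zero => simp
  | succ J ih =>
    rw [List.range_succ, List.map_append, List.sum_append, ih (by omega), sum_range_succ]
    simp

theorem conjQ_colLen (μ : YoungDiagram) (h : 0 < μ.rowLen 0) :
    conjQ ((List.range (μ.rowLen 0)).map μ.colLen) = (List.range (μ.colLen 0)).map μ.rowLen := by
  have h0 : ((List.range (μ.rowLen 0)).map μ.colLen).headD 0 = μ.colLen 0 := by
    obtain ⟨w, hw⟩ : ∃ w, μ.rowLen 0 = w + 1 := ⟨μ.rowLen 0 - 1, by omega⟩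
    rw [hw, List.range_succ_eq_map]
    rfl
  rw [conjQ, h0]
  refine List.map_congr_left fun i _ => ?_
  rw [List.countP_map]
  have h1 : ∀ w, (∀ j, j < μ.rowLen i → j < w) →
      (List.range w).countP ((fun x => Nat.ble (i + 1) x) ∘ μ.colLen) = μ.rowLen i := by
    intro w hw
    have h2 : ∀ v, (List.range v).countP ((fun x => Nat.ble (i + 1) x) ∘ μ.colLen)
        = min v (μ.rowLen i) := by
      intro v
      induction v with
      | zero => simp
      | succ v ih =>
        rw [List.range_succ, List.countP_append, ih]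
        have h3 : Nat.ble (i + 1) (μ.colLen v) = true ↔ v < μ.rowLen i := by
          rw [Nat.ble_eq, ← YoungDiagram.mem_iff_lt_rowLen, YoungDiagram.mem_iff_lt_colLen]
          exact Iff.rfl
        by_cases h4 : v < μ.rowLen i
        · rw [List.countP_cons_of_pos (by simpa using h3.2 h4)]
          simp only [List.countP_nil]
          omega
        · rw [List.countP_cons_of_neg (by simpa using fun h => h4 (h3.1 h))]
          simp only [List.countP_nil]
          omega
    rw [h2 w]
    refine min_eq_right ?_
    by_contra hcon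
    exact absurd (hw w (by omega)) (lt_irrefl _)
  refine h1 _ fun j hj => ?_
  exact lt_of_lt_of_le hj (μ.rowLen_anti 0 i (Nat.zero_le _))

/-- **Fullness by enumeration of the both-short region.** -/
theorem fullH_of_enum {p : ℕ} {ps : List ℕ} (hv : ValidH (p :: ps)) (hc : HC p ps) (hf : FullH ps)
    (K : ℕ) (Ps Qs : List MPlan) (tabs exc : List (List ℕ))
    (hexc : ∀ q ∈ exc, ∀ μ : YoungDiagram, μ.card = hsize (p :: ps) →
      (List.range (μ.rowLen 0)).map μ.colLen = q → OccSh (hk (p :: ps)) (hk (p :: ps)) μ)
    (hS : echeckS (p :: ps) K Ps tabs = true) (hQ : echeckQ (p :: ps) K Qs = true)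
    (hH : ∀ h, h ≤ 2 * (p - 1) → noH (hsize (p :: ps)) (p - 1) h = true ∨
      (∃ P ∈ Qs, P.lo ≤ h ∧ h ≤ P.hi) ∨ echeckH (p :: ps) tabs exc h = true) :
    FullH (p :: ps) := by
  refine rule1 hv hc hf fun μ hn hr => ?_
  simp only [echeckS, Bool.and_eq_true, Nat.ble_eq, List.all_eq_true, beq_iff_eq,
    Nat.beq_eq] at hS
  obtain ⟨⟨⟨hnB, hK⟩, hP⟩, htab⟩ := hS
  simp only [echeckQ, Bool.and_eq_true, Nat.ble_eq, List.all_eq_true, List.mem_range,
    Nat.beq_eq] at hQ
  have hB : (p :: ps).headD 0 - 1 = p - 1 := rfl
  rw [hB] at hnB hK hP hQ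
  set n := hsize (p :: ps) with hndef
  set B := p - 1 with hBdef
  have hn' : 2 * B < n := by omega
  have hh : μ.colLen 0 ≤ 2 * B := by have := hr.col; omega
  have h2 := hr.H0_ge_two hn'
  obtain ⟨hw1, hw2⟩ := hr.w_lt hn'
  have hw3 : μ.colLen 0 ≤ 2 * B - 1 := hr.wlog.trans hw1
  have hw0 : 1 ≤ μ.rowLen 0 := hw2.trans hr.w2_le
  rcases hH (μ.colLen 0) hh with h3 | ⟨P, hPm, hlo, hhi⟩ | h3
  · exfalso
    simp only [noH, Bool.or_eq_true, Nat.ble_eq, Bool.and_eq_true] at h3
    rcases h3 with h3 | ⟨h3, h4⟩
    · have h5 := hr.n_le_hook (by omega)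
      have h6 := hr.w2_le_B
      have h7 : (μ.colLen 1 - 1) * (μ.rowLen 1 - 1) ≤ (μ.colLen 0 - 1) * (μ.rowLen 1 - 1) :=
        Nat.mul_le_mul_right _ (by have := hr.H_le_zero 1; omega)
      have h8 := hr.row
      obtain ⟨y, hy⟩ : ∃ y, μ.rowLen 1 = y + 1 := ⟨μ.rowLen 1 - 1, by omega⟩
      obtain ⟨x, hx⟩ : ∃ x, μ.colLen 0 = x + 2 := ⟨μ.colLen 0 - 2, by omega⟩
      obtain ⟨b, hb⟩ : ∃ b, B = y + 1 + b := ⟨B - (y + 1), by omega⟩
      rw [hx, hy] at h7 h5
      simp only [Nat.add_sub_cancel, show x + 2 - 1 = x + 1 by omega] at h7 h5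
      rw [hx] at h3
      rw [hy] at h8
      have h9 : μ.rowLen 0 ≤ 2 * B - (y + 1) := by omega
      have h10 : n + 1 ≤ x + 2 + (2 * B - (y + 1)) + (x + 1) * y := by omega
      have h11 : (x + 2) * B = x * y + x + 2 * y + 2 + x * b + 2 * b := by rw [hb]; ring
      have h12 : (x + 1) * y = x * y + y := by ring
      rw [h11] at h3
      rw [h12] at h10
      generalize x * y = q at *
      generalize x * b = r at *
      omega
    · rcases hr.n_le_wide hn' with h5 | h5 <;> omega
  · -- numeric criterion
    obtain ⟨⟨⟨hSP, hKP⟩, htot⟩, hchk⟩ := hQ P hPm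
    refine occSh_of_prefix hv hSP htot hn hw1 fun J h4 h5 => ?_
    have h6 := hchk (μ.colLen 0 - P.lo) (by omega)
    rw [show P.lo + (μ.colLen 0 - P.lo) = μ.colLen 0 by omega] at h6
    simp only [chkH, List.all_eq_true, List.mem_range, Bool.or_eq_true, Nat.ble_eq] at h6
    have h7 := h6 (J - 1) (by omega)
    rw [show J - 1 + 1 = J by omega] at h7
    rcases h7 with h7 | h7
    · refine le_trans ?_ h7
      rw [← hr.sum]
      exact sum_le_sum_of_subset (range_mono h5)
    · exact (hr.sum_top_le h5 h4).trans h7
  · -- enumeration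
    have hal : ∀ T ∈ adv (μ.colLen 0) tabs,
        Alive (Ps.map fun P m => FL (P.bs.map MBlk.row) (m + 1)) K μ.colLen 1 T := by
      intro T hT
      obtain ⟨t, ht, hat⟩ := mem_adv hT
      rw [htab] at ht
      obtain ⟨P, hPm, hPt⟩ := List.mem_map.1 ht
      have hlen : T.length + 1 = K := by
        have := congrArg List.length hPt
        simpa [MPlan.tab] using this.symm
      refine ⟨_, List.mem_map.2 ⟨P, hPm, rfl⟩, hlen, fun i hi => ?_, fun J h4 h5 => ?_⟩
      · have h6 := tab_getD K P (i := i + 1) (by omega)
        rw [hPt] at h6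
        simp only [List.getD_cons_succ] at h6
        rw [h6]
        congr 1
        ring
      · obtain rfl : J = 1 := by omega
        have h6 := tab_getD K P (i := 0) (by omega)
        rw [hPt] at h6
        simp only [List.getD_cons_zero] at h6
        simp only [sum_range_one, Nat.sub_self]
        rw [← h6]
        exact hat
    have hmono : ∀ F ∈ Ps.map (fun P m => FL (P.bs.map MBlk.row) (m + 1)), Monotone F := by
      intro F hF
      obtain ⟨P, -, rfl⟩ := List.mem_map.1 hF
      exact fun a b hab => FL_mono _ (by omega)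
    have hmx : μ.colLen 1 ≤ if Nat.ble (μ.colLen 0) (2 * B - μ.colLen 0) then μ.colLen 0
        else 2 * B - μ.colLen 0 := by
      split_ifs
      · exact hr.H_le_zero 1
      · have := hr.col; omega
    have e1 : B - 1 + 1 = B := by omega
    have e2 : μ.colLen 0 = ∑ j ∈ range 1, μ.colLen j := by simp
    have e3 : μ.colLen 0 + (n - μ.colLen 0) = n := by
      have h5 : ∑ j ∈ range 1, μ.colLen j ≤ n := by
        rw [← hr.sum]
        exact sum_le_sum_of_subset (range_mono (by omega))
      simp only [sum_range_one] at h5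
      omega
    have e4 : [μ.colLen 0] = ((List.range 1).map μ.colLen).reverse := by simp
    have e5 : μ.rowLen 0 ≤ K := by omega
    have h4 := goE_sound hr _ hmono e5 (fbE tabs exc) (B - 1) 1 _
      (n - μ.colLen 0) (μ.colLen 0) [μ.colLen 0] _ e1 hw2 hmx e2 e3 e4 hal h3
    rcases h4 with ⟨F, hF, h5⟩ | h4
    · obtain ⟨P, hPm, rfl⟩ := List.mem_map.1 hF
      obtain ⟨hSP, htot⟩ := hP P hPm
      refine occSh_of_prefix hv hSP htot hn hw1 fun J h6 h7 => ?_
      have h8 := h5 J h6 h7
      simp only [Nat.sub_add_cancel h6] at h8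
      exact h8
    · simp only [fbE, Bool.or_eq_true, List.any_eq_true] at h4
      rcases h4 with ⟨T, hT, h5⟩ | h4
      · -- the transposed diagram
        rw [htab] at hT
        obtain ⟨P, hPm, rfl⟩ := List.mem_map.1 hT
        obtain ⟨hSP, htot⟩ := hP P hPm
        rw [conjQ_colLen μ (by omega)] at h5
        refine OccSh.of_transpose (hk_swap _) (occSh_of_prefix hv hSP htot
          (by rw [card_transpose']; exact hn)
          (by rw [YoungDiagram.rowLen_transpose]; exact hw3) fun J h6 h7 => ?_)
        rw [YoungDiagram.rowLen_transpose] at h7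
        have h8 := prefOK_sound (F := fun m => FL (P.bs.map MBlk.row) (m + 1)) _ _ 0 0 h5
          (fun i hi => by
            rw [tab_getD K P (by simpa [MPlan.tab] using hi)]
            simp) J h6 (by simpa using h7)
        rw [take_map_range_sum _ _ _ h7, Nat.zero_add, Nat.zero_add, Nat.sub_add_cancel h6] at h8
        refine le_trans (le_of_eq ?_) h8
        exact sum_congr rfl fun j _ => YoungDiagram.colLen_transpose μ j
      · exact hexc _ (by simpa using h4) μ hn rfl

/-- the hypothesis `hH` of `fullH_of_enum` from a list of values to be enumerated -/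
theorem enum_split {ps : List ℕ} {n B : ℕ} {Qs : List MPlan} {tabs exc : List (List ℕ)}
    (hs : List ℕ)
    (h1 : (List.range (2 * B + 1)).all (fun h => noH n B h ||
      Qs.any (fun P => Nat.ble P.lo h && Nat.ble h P.hi) || hs.contains h) = true)
    (h2 : ∀ h ∈ hs, echeckH ps tabs exc h = true) :
    ∀ h, h ≤ 2 * B → noH n B h = true ∨ (∃ P ∈ Qs, P.lo ≤ h ∧ h ≤ P.hi) ∨
      echeckH ps tabs exc h = true := by
  intro h hh
  simp only [List.all_eq_true, List.mem_range, Bool.or_eq_true, List.any_eq_true,
    Bool.and_eq_true, Nat.ble_eq] at h1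
  rcases h1 h (by omega) with (h3 | h3) | h3
  · exact Or.inl h3
  · exact Or.inr (Or.inl h3)
  · exact Or.inr (Or.inr (h2 h (by simpa using h3)))

end Crest.Agent.R195
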