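import Crest.Agent.R195.EnumCov

/-! Row 195, S0298 (helper195).  Kernel enumeration, second part: explicit rows for the `dup` and
`gap` pieces at the leaves (level rows on neighbouring columns of the sorted list). -/

set_option autoImplicit false

namespace Crest.Agent.R195

open Finset Function

/-! ### Decompositions of lists of column lengths -/

/-- decomposition of a list of column lengths -/
def DecL (L : List Pc) (q : List ℕ) : Prop := Decomp L fun j : Fin q.length => q.getD j 0

/-- permuted lists: equivalence of positions -/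
theorem exists_equiv_of_perm {q q' : List ℕ} (h : q.Perm q') :
    ∃ e : Fin q'.length ≃ Fin q.length, ∀ j, q.getD (e j) 0 = q'.getD j 0 := by
  induction h with
  | nil => exact ⟨Equiv.refl _, fun j => rfl⟩
  | @cons x l l' _ ih =>
    obtain ⟨e, he⟩ := ih
    refine ⟨((finSuccEquiv l'.length).trans (Equiv.optionCongr e)).trans
      (finSuccEquiv l.length).symm, fun j => ?_⟩
    refine Fin.cases ?_ (fun i => ?_) j
    · simp
    · have := he i
      simpa using this
  | swap x y l =>
    refine ⟨Equiv.swap (⟨0, by simp⟩ : Fin (l.length + 2)) ⟨1, by simp⟩, fun j => ?_⟩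
    obtain ⟨j, hj⟩ := j
    rcases j with _ | _ | j
    · rw [show (⟨0, hj⟩ : Fin (x :: y :: l).length) = (⟨0, by simp⟩ : Fin (l.length + 2)) from rfl,
        Equiv.swap_apply_left]
      rfl
    · rw [show (⟨0 + 1, hj⟩ : Fin (x :: y :: l).length) = (⟨1, by simp⟩ : Fin (l.length + 2)) from rfl,
        Equiv.swap_apply_right]
      rfl
    · have h1 : Equiv.swap (⟨0, by simp⟩ : Fin (l.length + 2)) ⟨1, by simp⟩
          (⟨j + 1 + 1, hj⟩ : Fin (l.length + 2)) = ⟨j + 1 + 1, hj⟩ :=
        Equiv.swap_apply_of_ne_of_ne (by simp [Fin.ext_iff]) (by simp [Fin.ext_iff])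
      have h2 : ((Equiv.swap (⟨0, by simp⟩ : Fin (l.length + 2)) ⟨1, by simp⟩
          (⟨j + 1 + 1, hj⟩ : Fin (l.length + 2)) : Fin (l.length + 2)) : ℕ) = j + 1 + 1 := by
        rw [h1]
      change (y :: x :: l).getD ((Equiv.swap (⟨0, by simp⟩ : Fin (l.length + 2)) ⟨1, by simp⟩
          (⟨j + 1 + 1, hj⟩ : Fin (l.length + 2)) : Fin (l.length + 2)) : ℕ) 0 = _
      rw [h2]
      rfl
  | trans _ _ ih1 ih2 =>
    obtain ⟨e1, h1⟩ := ih1
    obtain ⟨e2, h2⟩ := ih2
    exact ⟨e2.trans e1, fun j => by rw [Equiv.trans_apply, h1, h2]⟩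

theorem DecL.perm_cols {L : List Pc} {q q' : List ℕ} (h : q.Perm q') (hd : DecL L q) :
    DecL L q' := by
  obtain ⟨e, he⟩ := exists_equiv_of_perm h
  have h1 := Decomp.comp hd e
  have h2 : ((fun j : Fin q.length => q.getD j 0) ∘ e) = fun j : Fin q'.length => q'.getD j 0 :=
    funext fun j => he j
  rw [h2] at h1
  exact h1

/-- subtract the row: `ys i` from the columns `2 i` and `2 i + 1` -/
def subY : List ℕ → List ℕ → List ℕ
  | a :: b :: q, y :: ys => (a - y) :: (b - y) :: subY q ys
  | q, _ => q

/-- admissible row -/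
def okY : List ℕ → List ℕ → Bool
  | a :: b :: q, y :: ys => Nat.ble y a && (Nat.ble y b && (Nat.ble y 4 && okY q ys))
  | _, [] => true
  | _, _ :: _ => false

theorem okY_spec : ∀ (q ys : List ℕ), okY q ys = true →
    2 * ys.length ≤ q.length ∧ (subY q ys).length = q.length ∧
    (∀ i, ys.getD i 0 ≤ 4) ∧ (∀ j, ys.getD (j / 2) 0 ≤ q.getD j 0) ∧
    ∀ j, (subY q ys).getD j 0 = q.getD j 0 - ys.getD (j / 2) 0
  | _, [], _ => by
    refine ⟨by simp, ?_, by simp, by simp, ?_⟩
    · simp [subY]
    · intro j; simp [subY]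
  | [], _ :: _, h => by simp [okY] at h
  | [_], _ :: _, h => by simp [okY] at h
  | a :: b :: q, y :: ys, h => by
    simp only [okY, Bool.and_eq_true, Nat.ble_eq] at h
    obtain ⟨h1, h2, h3, h4⟩ := h
    obtain ⟨i1, i2, i3, i4, i5⟩ := okY_spec q ys h4
    refine ⟨by simp; omega, by simp [subY, i2], ?_, ?_, ?_⟩
    · intro i
      rcases i with _ | i
      · simpa using h3
      · simpa using i3 i
    · intro j
      rcases j with _ | _ | j
      · simpa using h1
      · simpa using h2
      · have h5 : (j + 1 + 1) / 2 = j / 2 + 1 := by omega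
        rw [h5]
        simpa using i4 j
    · intro j
      rcases j with _ | _ | j
      · simp [subY]
      · simp [subY]
      · have h5 : (j + 1 + 1) / 2 = j / 2 + 1 := by omega
        rw [h5]
        simpa [subY] using i5 j

theorem sum_range_getD (ys : List ℕ) (m : ℕ) (h : ys.length ≤ m) :
    ∑ i ∈ range m, ys.getD i 0 = ys.sum := by
  induction ys generalizing m with
  | nil => simp
  | cons y ys ih =>
    obtain ⟨m, rfl⟩ : ∃ m', m = m' + 1 := ⟨m - 1, by simp at h; omega⟩
    rw [sum_range_succ', List.sum_cons, ← ih m (by simpa using h)]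
    simp [add_comm]

theorem DecL.dup {c : ℕ} {L : List Pc} {q ys : List ℕ} (h : okY q ys = true) (hs : ys.sum = c)
    (hd : DecL L (subY q ys)) : DecL (.dup c :: L) q := by
  obtain ⟨h1, h2, h3, h4, h5⟩ := okY_spec q ys h
  have h0 : ∀ i, q.length ≤ 2 * i + 1 → ys.getD i 0 = 0 := by
    intro i hi
    rw [List.getD_eq_default]
    omega
  refine Decomp.cons (x := fun j : Fin q.length => ys.getD (j / 2) 0)
    (rowOK_dup (y := fun i => ys.getD i 0) h3 h0 ?_) (fun j => h4 j) ?_
  · rw [sum_range_getD _ _ (by omega), hs]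
  · have h6 := Decomp.comp hd (finCongr h2.symm)
    have h7 : ((fun j : Fin (subY q ys).length => (subY q ys).getD j 0) ∘ finCongr h2.symm) =
        fun j : Fin q.length => q.getD j 0 - ys.getD (j / 2) 0 := funext fun j => h5 j
    rw [h7] at h6
    exact h6

theorem DecL.gap {c : ℕ} {L : List Pc} {q ys : List ℕ} (h : okY q ys = true) (hs : ys.sum = c - 1)
    (h2' : 2 ∈ ys) (hd : DecL L (subY q ys)) : DecL (.gap c :: L) q := by
  obtain ⟨h1, h2, h3, h4, h5⟩ := okY_spec q ys h
  have h0 : ∀ i, q.length ≤ 2 * i + 1 → ys.getD i 0 = 0 := by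
    intro i hi
    rw [List.getD_eq_default]
    omega
  obtain ⟨i, hi, hi2⟩ := List.mem_iff_getElem.1 h2'
  refine Decomp.cons (x := fun j : Fin q.length => ys.getD (j / 2) 0)
    (rowOK_gap (y := fun i => ys.getD i 0) h3 h0 ?_ ⟨i, by omega, ?_⟩) (fun j => h4 j) ?_
  · rw [sum_range_getD _ _ (by omega), hs]
  · simp only [List.getD_eq_getElem?_getD, List.getElem?_eq_getElem hi, hi2]
    rfl
  · have h6 := Decomp.comp hd (finCongr h2.symm)
    have h7 : ((fun j : Fin (subY q ys).length => (subY q ys).getD j 0) ∘ finCongr h2.symm) =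
        fun j : Fin q.length => q.getD j 0 - ys.getD (j / 2) 0 := funext fun j => h5 j
    rw [h7] at h6
    exact h6

/-! ### Level rows (no correctness needed: the rows are checked) -/

def mn (a b : ℕ) : ℕ := if Nat.ble a b then a else b

def yth : List ℕ → ℕ → ℕ → List ℕ
  | a :: b :: q, th, 0 => 0 :: yth q th (a + b + 100)
  | a :: b :: q, th, f + 1 => mn 4 (mn b (a - th)) :: yth q th f
  | _, _, _ => []

def bump : List ℕ → List ℕ → ℕ → List ℕ
  | p :: P, c :: C, d =>
    if Nat.beq d 0 then p :: P
    else if Nat.ble c p then p :: bump P C d else (p + 1) :: bump P C (d - 1)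
  | P, _, _ => P

def lsum : List ℕ → ℕ
  | [] => 0
  | a :: l => a + lsum l

theorem lsum_eq (l : List ℕ) : lsum l = l.sum := by
  induction l with
  | nil => rfl
  | cons a l ih => rw [lsum, ih, List.sum_cons]

def lev (q : List ℕ) (need f : ℕ) : ℕ → List ℕ → ℕ → List ℕ
  | 0, prev, _ => prev
  | th + 1, prev, ps =>
    (fun cur => (fun s => if Nat.ble need s then bump prev cur (need - ps)
      else lev q need f th cur s) (lsum cur)) (yth q th f)

def set2 : List ℕ → ℕ → List ℕ
  | _ :: l, 0 => 2 :: l
  | a :: l, f + 1 => a :: set2 l f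
  | [], _ => []

/-- insertion in a decreasing list -/
def insD (a : ℕ) : List ℕ → List ℕ
  | [] => [a]
  | b :: l => if Nat.ble b a then a :: b :: l else b :: insD a l

def sortD : List ℕ → List ℕ
  | [] => []
  | a :: l => insD a (sortD l)

theorem insD_perm (a : ℕ) (l : List ℕ) : (insD a l).Perm (a :: l) := by
  induction l with
  | nil => exact List.Perm.refl _
  | cons b l ih =>
    unfold insD
    split_ifs
    · exact List.Perm.refl _
    · exact (List.Perm.cons b ih).trans (List.Perm.swap a b l)

theorem sortD_perm (l : List ℕ) : (sortD l).Perm l := by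
  induction l with
  | nil => exact List.Perm.refl _
  | cons a l ih => exact (insD_perm a _).trans (List.Perm.cons a ih)

/-- decreasing -/
def antiB : List ℕ → Bool
  | a :: b :: l => Nat.ble b a && antiB (b :: l)
  | _ => true

theorem antiB_spec : ∀ (q : List ℕ), antiB q = true → Antitone fun j => q.getD j 0 := by
  intro q hq
  refine antitone_nat_of_succ_le ?_
  induction q with
  | nil => intro n; simp
  | cons a l ih =>
    cases l with
    | nil => intro n; simp
    | cons b l =>
      simp only [antiB, Bool.and_eq_true, Nat.ble_eq] at hq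
      intro n
      rcases n with _ | n
      · simpa using hq.1
      · simpa using ih hq.2 n

/-- special pieces by level rows, then the Gale–Ryser table `T` -/
def rowsB (T : List ℕ) (N : ℕ) : List Pc → List ℕ → Bool
  | [], q => antiB q && (Nat.beq (lsum q) N && prefOK q T 0)
  | .dup c :: sp, q =>
    (fun ys => okY q ys && (Nat.beq (lsum ys) c && rowsB T N sp (sortD (subY q ys))))
      (lev q c 1000 (q.headD 0) (yth q (q.headD 0) 1000) 0)
  | .gap c :: sp, q => (List.range (q.length / 2)).any fun f =>
    (fun ys => okY q ys && (Nat.beq (lsum ys) (c - 1) && (ys.contains 2 &&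
      rowsB T N sp (sortD (subY q ys)))))
      (set2 (lev q (c - 3) f (q.headD 0) (yth q (q.headD 0) f) 0) f)
  | _, _ => false

theorem rowsB_sound {fr : List Pc} (hfr : ∀ p ∈ fr, p.free) {T : List ℕ}
    (hT : ∀ i, i < T.length → T.getD i 0 = FL fr (i + 1)) :
    ∀ (sp : List Pc) (q : List ℕ), rowsB T (fr.map Pc.size).sum sp q = true →
      DecL (sp ++ fr) q := by
  intro sp
  induction sp with
  | nil =>
    intro q hq
    simp only [rowsB, Bool.and_eq_true, Nat.beq_eq] at hq
    obtain ⟨h1, h2, h3⟩ := hq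
    rw [lsum_eq] at h2
    refine decomp_GR fr hfr q.length (fun j => q.getD j 0) ?_ ?_
    · rw [sum_range_getD _ _ le_rfl, h2]
    · intro J hJ
      have hJw : J.card ≤ q.length := by
        have := card_le_card hJ
        rwa [card_range] at this
      rcases Nat.eq_zero_or_pos J.card with h0 | h0
      · rw [card_eq_zero] at h0
        subst h0
        simp
      · refine (sum_le_top (antiB_spec q h1) J).trans ?_
        have h4 := prefOK_sound (F := fun m => FL fr (m + 1)) q T 0 0 h3
          (fun i hi => by simpa using hT i hi) J.card h0 hJw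
        simp only [Nat.zero_add, Nat.sub_add_cancel h0] at h4
        refine le_trans (le_of_eq ?_) h4
        have h5 : ∀ (l : List ℕ) (J : ℕ), J ≤ l.length →
            ∑ j ∈ range J, l.getD j 0 = (l.take J).sum := by
          intro l
          induction l with
          | nil => intro J hJ; simp at hJ; subst hJ; simp
          | cons a l ih =>
            intro J hJ
            rcases J with _ | J
            · simp
            · rw [sum_range_succ', List.take_succ_cons, List.sum_cons, ← ih J (by simpa using hJ)]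
              simp [add_comm]
        exact h5 q _ hJw
  | cons p sp ih =>
    intro q hq
    cases p with
    | pair c => simp [rowsB] at hq
    | rect c k => simp [rowsB] at hq
    | dup c =>
      simp only [rowsB, Bool.and_eq_true, Nat.beq_eq] at hq
      obtain ⟨h1, h2, h3⟩ := hq
      rw [lsum_eq] at h2
      exact DecL.dup h1 h2 ((ih _ h3).perm_cols (sortD_perm _))
    | gap c =>
      simp only [rowsB, List.any_eq_true, Bool.and_eq_true, Nat.beq_eq] at hq
      obtain ⟨f, -, h1, h2, h2', h3⟩ := hq
      rw [lsum_eq] at h2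
      exact DecL.gap h1 h2 (by simpa using h2') ((ih _ h3).perm_cols (sortD_perm _))

/-! ### Row plans -/

/-- special pieces in the order of removal, free pieces, table of the free pieces -/
structure RPlan where
  sp : List Pc
  fr : List Pc
  T : List ℕ
  N : ℕ

def RPlan.pieces (R : RPlan) : List Pc :=
  (R.sp ++ R.fr).insertionSort fun p q => q.top ≤ p.top

/-- structural check of a row plan -/
def RPlan.okS (ps : List ℕ) (R : RPlan) : Bool :=
  validPb R.pieces && (colsP R.pieces == (List.range (ps.headD 0)).map (cl ps)) &&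
    R.fr.all Pc.freeb && (R.T == (List.range R.T.length).map fun m => FL R.fr (m + 1)) &&
    Nat.beq (R.fr.map Pc.size).sum R.N

/-- fall back at the leaves -/
def fbR (tabs exc : List (List ℕ)) (Rs : List RPlan) (q : List ℕ) : Bool :=
  Rs.any (fun R => rowsB R.T R.N R.sp q) || (fbE tabs exc q ||
    Rs.any (fun R => rowsB R.T R.N R.sp (conjQ q)))

theorem occSh_of_rows {ps : List ℕ} (hv : ValidH ps) {R : RPlan} (hS : R.okS ps = true)
    {μ : YoungDiagram}
    (h : rowsB R.T R.N R.sp ((List.range (μ.rowLen 0)).map μ.colLen) = true) :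
    OccSh (hk ps) (hk ps) μ := by
  simp only [RPlan.okS, Bool.and_eq_true, beq_iff_eq, List.all_eq_true, Nat.beq_eq] at hS
  obtain ⟨⟨⟨⟨hval, hcols⟩, hfr⟩, hT⟩, hN⟩ := hS
  rw [← hN] at h
  have h1 : DecL (R.sp ++ R.fr) ((List.range (μ.rowLen 0)).map μ.colLen) := by
    refine rowsB_sound (fun p hp => Pc.free_of_freeb (hfr p hp)) ?_ R.sp _ h
    intro i hi
    rw [hT, List.getD_eq_getElem?_getD, List.getElem?_map, List.getElem?_range hi]
    rfl
  have hlen : ((List.range (μ.rowLen 0)).map μ.colLen).length = μ.rowLen 0 := by simp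
  have h2 := Decomp.comp h1 (finCongr hlen.symm)
  have h3 : Decomp (R.sp ++ R.fr) fun j : Fin (μ.rowLen 0) => μ.colLen j := by
    convert h2 using 1
    funext j
    have hj : (j : ℕ) < μ.rowLen 0 := j.2
    simp [List.getD_eq_getElem?_getD, hj]
  have hperm : (R.sp ++ R.fr).Perm R.pieces := (List.perm_insertionSort _ _).symm
  have h9 : OccSh (colS (colsP R.pieces)) (colS (colsP R.pieces)) μ :=
    occSh_of_decompP R.pieces (validP_of_validPb hval) (Decomp.perm hperm h3)
  rwa [colS_eq_hk hv (fun s => by rw [hcols, getD_map_range hv])] at h9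

/-- check of one value `h` of `H 0` by enumeration, with row plans -/
def echeckR (ps : List ℕ) (tabs exc : List (List ℕ)) (Rs : List RPlan) (h : ℕ) : Bool :=
  let n := hsize ps
  let B := ps.headD 0 - 1
  goE (fbR tabs exc Rs) h (B - 1) (if Nat.ble h (2 * B - h) then h else 2 * B - h) (n - h) h [h]
    (adv h tabs)

/-- **Fullness by enumeration of the both-short region**, with row plans. -/
theorem fullH_of_enumR {p : ℕ} {ps : List ℕ} (hv : ValidH (p :: ps)) (hc : HC p ps) (hf : FullH ps)
    (K : ℕ) (Ps Qs : List MPlan) (tabs exc : List (List ℕ))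
    (hexc : ∀ q ∈ exc, ∀ μ : YoungDiagram, μ.card = hsize (p :: ps) →
      (List.range (μ.rowLen 0)).map μ.colLen = q → OccSh (hk (p :: ps)) (hk (p :: ps)) μ)
    (hS : echeckS (p :: ps) K Ps tabs = true) (hQ : echeckQ (p :: ps) K Qs = true)
    (Rs : List RPlan) (hR : (Rs.all fun R => R.okS (p :: ps)) = true)
    (hH : ∀ h, h ≤ 2 * (p - 1) → noH (hsize (p :: ps)) (p - 1) h = true ∨
      (∃ P ∈ Qs, P.lo ≤ h ∧ h ≤ P.hi) ∨ echeckR (p :: ps) tabs exc Rs h = true) :
    FullH (p :: ps) := by
  refine rule1 hv hc hf fun μ hn hr => ?_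
  simp only [echeckS, Bool.and_eq_true, Nat.ble_eq, List.all_eq_true, beq_iff_eq,
    Nat.beq_eq] at hS
  obtain ⟨⟨⟨hnB, hK⟩, hP⟩, htab⟩ := hS
  simp only [echeckQ, Bool.and_eq_true, Nat.ble_eq, List.all_eq_true, List.mem_range,
    Nat.beq_eq] at hQ
  have hB : (p :: ps).headD 0 - 1 = p - 1 := rfl
  rw [hB] at hnB hK hP hQ
  set n := hsize (p :: ps) with hndef
  set B := p - 1 with hBdef
  have hn' : 2 * B < n := by omega
  have hh : μ.colLen 0 ≤ 2 * B := by have := hr.col; omega
  have h2 := hr.H0_ge_two hn'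
  obtain ⟨hw1, hw2⟩ := hr.w_lt hn'
  have hw3 : μ.colLen 0 ≤ 2 * B - 1 := hr.wlog.trans hw1
  have hw0 : 1 ≤ μ.rowLen 0 := hw2.trans hr.w2_le
  rcases hH (μ.colLen 0) hh with h3 | ⟨P, hPm, hlo, hhi⟩ | h3
  · exfalso
    simp only [noH, Bool.or_eq_true, Nat.ble_eq, Bool.and_eq_true] at h3
    rcases h3 with h3 | ⟨h3, h4⟩
    · have h5 := hr.n_le_hook (by omega)
      have h6 := hr.w2_le_B
      have h7 : (μ.colLen 1 - 1) * (μ.rowLen 1 - 1) ≤ (μ.colLen 0 - 1) * (μ.rowLen 1 - 1) :=
        Nat.mul_le_mul_right _ (by have := hr.H_le_zero 1; omega)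
      have h8 := hr.row
      obtain ⟨y, hy⟩ : ∃ y, μ.rowLen 1 = y + 1 := ⟨μ.rowLen 1 - 1, by omega⟩
      obtain ⟨x, hx⟩ : ∃ x, μ.colLen 0 = x + 2 := ⟨μ.colLen 0 - 2, by omega⟩
      obtain ⟨b, hb⟩ : ∃ b, B = y + 1 + b := ⟨B - (y + 1), by omega⟩
      rw [hx, hy] at h7 h5
      simp only [Nat.add_sub_cancel, show x + 2 - 1 = x + 1 by omega] at h7 h5
      rw [hx] at h3
      rw [hy] at h8
      have h9 : μ.rowLen 0 ≤ 2 * B - (y + 1) := by omega
      have h10 : n + 1 ≤ x + 2 + (2 * B - (y + 1)) + (x + 1) * y := by omega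
      have h11 : (x + 2) * B = x * y + x + 2 * y + 2 + x * b + 2 * b := by rw [hb]; ring
      have h12 : (x + 1) * y = x * y + y := by ring
      rw [h11] at h3
      rw [h12] at h10
      generalize x * y = q at *
      generalize x * b = r at *
      omega
    · rcases hr.n_le_wide hn' with h5 | h5 <;> omega
  · -- numeric criterion
    obtain ⟨⟨⟨hSP, hKP⟩, htot⟩, hchk⟩ := hQ P hPm
    refine occSh_of_prefix hv hSP htot hn hw1 fun J h4 h5 => ?_
    have h6 := hchk (μ.colLen 0 - P.lo) (by omega)
    rw [show P.lo + (μ.colLen 0 - P.lo) = μ.colLen 0 by omega] at h6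
    simp only [chkH, List.all_eq_true, List.mem_range, Bool.or_eq_true, Nat.ble_eq] at h6
    have h7 := h6 (J - 1) (by omega)
    rw [show J - 1 + 1 = J by omega] at h7
    rcases h7 with h7 | h7
    · refine le_trans ?_ h7
      rw [← hr.sum]
      exact sum_le_sum_of_subset (range_mono h5)
    · exact (hr.sum_top_le h5 h4).trans h7
  · -- enumeration
    have hal : ∀ T ∈ adv (μ.colLen 0) tabs,
        Alive (Ps.map fun P m => FL (P.bs.map MBlk.row) (m + 1)) K μ.colLen 1 T := by
      intro T hT
      obtain ⟨t, ht, hat⟩ := mem_adv hT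
      rw [htab] at ht
      obtain ⟨P, hPm, hPt⟩ := List.mem_map.1 ht
      have hlen : T.length + 1 = K := by
        have := congrArg List.length hPt
        simpa [MPlan.tab] using this.symm
      refine ⟨_, List.mem_map.2 ⟨P, hPm, rfl⟩, hlen, fun i hi => ?_, fun J h4 h5 => ?_⟩
      · have h6 := tab_getD K P (i := i + 1) (by omega)
        rw [hPt] at h6
        simp only [List.getD_cons_succ] at h6
        rw [h6]
        congr 1
        ring
      · obtain rfl : J = 1 := by omega
        have h6 := tab_getD K P (i := 0) (by omega)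
        rw [hPt] at h6
        simp only [List.getD_cons_zero] at h6
        simp only [sum_range_one, Nat.sub_self]
        rw [← h6]
        exact hat
    have hmono : ∀ F ∈ Ps.map (fun P m => FL (P.bs.map MBlk.row) (m + 1)), Monotone F := by
      intro F hF
      obtain ⟨P, -, rfl⟩ := List.mem_map.1 hF
      exact fun a b hab => FL_mono _ (by omega)
    have hmx : μ.colLen 1 ≤ if Nat.ble (μ.colLen 0) (2 * B - μ.colLen 0) then μ.colLen 0
        else 2 * B - μ.colLen 0 := by
      split_ifs
      · exact hr.H_le_zero 1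
      · have := hr.col; omega
    have e1 : B - 1 + 1 = B := by omega
    have e2 : μ.colLen 0 = ∑ j ∈ range 1, μ.colLen j := by simp
    have e3 : μ.colLen 0 + (n - μ.colLen 0) = n := by
      have h5 : ∑ j ∈ range 1, μ.colLen j ≤ n := by
        rw [← hr.sum]
        exact sum_le_sum_of_subset (range_mono (by omega))
      simp only [sum_range_one] at h5
      omega
    have e4 : [μ.colLen 0] = ((List.range 1).map μ.colLen).reverse := by simp
    have e5 : μ.rowLen 0 ≤ K := by omega
    have h4 := goE_sound hr _ hmono e5 (fbR tabs exc Rs) (B - 1) 1 _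
      (n - μ.colLen 0) (μ.colLen 0) [μ.colLen 0] _ e1 hw2 hmx e2 e3 e4 hal h3
    rcases h4 with ⟨F, hF, h5⟩ | h4
    · obtain ⟨P, hPm, rfl⟩ := List.mem_map.1 hF
      obtain ⟨hSP, htot⟩ := hP P hPm
      refine occSh_of_prefix hv hSP htot hn hw1 fun J h6 h7 => ?_
      have h8 := h5 J h6 h7
      simp only [Nat.sub_add_cancel h6] at h8
      exact h8
    · rw [List.all_eq_true] at hR
      simp only [fbR, Bool.or_eq_true, List.any_eq_true] at h4
      rcases h4 with ⟨R, hRm, h4⟩ | h4 | ⟨R, hRm, h4⟩
      · exact occSh_of_rows hv (hR R hRm) h4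
      · simp only [fbE, Bool.or_eq_true, List.any_eq_true] at h4
        rcases h4 with ⟨T, hT, h5⟩ | h4
        · -- the transposed diagram
          rw [htab] at hT
          obtain ⟨P, hPm, rfl⟩ := List.mem_map.1 hT
          obtain ⟨hSP, htot⟩ := hP P hPm
          rw [conjQ_colLen μ (by omega)] at h5
          refine OccSh.of_transpose (hk_swap _) (occSh_of_prefix hv hSP htot
            (by rw [card_transpose']; exact hn)
            (by rw [YoungDiagram.rowLen_transpose]; exact hw3) fun J h6 h7 => ?_)
          rw [YoungDiagram.rowLen_transpose] at h7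
          have h8 := prefOK_sound (F := fun m => FL (P.bs.map MBlk.row) (m + 1)) _ _ 0 0 h5
            (fun i hi => by
              rw [tab_getD K P (by simpa [MPlan.tab] using hi)]
              simp) J h6 (by simpa using h7)
          rw [take_map_range_sum _ _ _ h7, Nat.zero_add, Nat.zero_add, Nat.sub_add_cancel h6] at h8
          refine le_trans (le_of_eq ?_) h8
          exact sum_congr rfl fun j _ => YoungDiagram.colLen_transpose μ j
        · exact hexc _ (by simpa using h4) μ hn rfl
      · refine OccSh.of_transpose (hk_swap _) (occSh_of_rows hv (hR R hRm) ?_)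
        rw [conjQ_colLen μ (by omega)] at h4
        have h5 : (List.range (μ.transpose.rowLen 0)).map μ.transpose.colLen =
            (List.range (μ.colLen 0)).map μ.rowLen := by
          rw [YoungDiagram.rowLen_transpose]
          exact List.map_congr_left fun j _ => YoungDiagram.colLen_transpose μ j
        rw [h5]
        exact h4

/-- the hypothesis `hH` of `fullH_of_enumR` from a list of values to be enumerated -/
theorem enum_splitR {ps : List ℕ} {n B : ℕ} {Qs : List MPlan} {tabs exc : List (List ℕ)} {Rs : List RPlan}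
    (hs : List ℕ)
    (h1 : (List.range (2 * B + 1)).all (fun h => noH n B h ||
      Qs.any (fun P => Nat.ble P.lo h && Nat.ble h P.hi) || hs.contains h) = true)
    (h2 : ∀ h ∈ hs, echeckR ps tabs exc Rs h = true) :
    ∀ h, h ≤ 2 * B → noH n B h = true ∨ (∃ P ∈ Qs, P.lo ≤ h ∧ h ≤ P.hi) ∨
      echeckR ps tabs exc Rs h = true := by
  intro h hh
  simp only [List.all_eq_true, List.mem_range, Bool.or_eq_true, List.any_eq_true,
    Bool.and_eq_true, Nat.ble_eq] at h1
  rcases h1 h (by omega) with (h3 | h3) | h3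
  · exact Or.inl h3
  · exact Or.inr (Or.inl h3)
  · exact Or.inr (Or.inr (h2 h (by simpa using h3)))

end Crest.Agent.R195
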