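import Crest.Agent.R195.CovTools

/-! Row 195, S0298.  Family B: `M = 2m` even, `e` outer layers, centre box added.
Definitions, columns, the numerical condition of RULE 1 and the induction skeleton. -/

set_option autoImplicit false
set_option linter.unusedSectionVars false
set_option linter.unusedDecidableInType false

namespace Crest.Agent.R195

open Finset

/-- hooks `2m+1, 2m-1, …` (`e` of them), then `2(m-e), 2(m-e)-2, …, 2`, then `1` -/
def hBm (m e : ℕ) : List ℕ := runH (2 * m + 1) e (runH (2 * (m - e)) (m - e) [1])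

theorem validH_coreB (k : ℕ) : ValidH (runH (2 * k) k [1]) :=
  validH_runH (by decide) fun _ => by simp only [List.headD_cons]; omega

theorem headD_coreB {k : ℕ} (hk : 1 ≤ k) : (runH (2 * k) k [1]).headD 0 = 2 * k := by
  rw [headD_runH, if_neg (by omega)]

theorem validH_hBm {m e : ℕ} (h : e < m) : ValidH (hBm m e) :=
  validH_runH (validH_coreB _) fun _ => by rw [headD_coreB (by omega)]; omega

theorem cl_one (s : ℕ) : cl [1] s = if s = 0 then 1 else 0 := by
  cases s with
  | zero => rfl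
  | succ s => simp [cl]

theorem cl_coreB (k s : ℕ) : cl (runH (2 * k) k [1]) s = 2 * k - s + if s = k then 1 else 0 := by
  rw [cl_runH (by decide) fun _ => by simp only [List.headD_cons]; omega, cl_one]
  split_ifs <;> omega

theorem cl_hBm {m e : ℕ} (h : e < m) (s : ℕ) : cl (hBm m e) s =
    if s < e then 2 * m + 1 - s else
      (if s = m then m + 1 else if s + e ≤ 2 * m then 2 * m - s else 2 * m + 1 - s) := by
  unfold hBm
  rw [cl_runH (validH_coreB _) fun _ => by rw [headD_coreB (by omega)]; omega, cl_coreB]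
  split_ifs <;> omega

theorem hsize_hBm {m e : ℕ} (h : e < m) : hsize (hBm m e) = m * (2 * m + 1) + 2 * e + 1 := by
  unfold hBm
  have h1 := hsize_runH (a := 2 * m + 1) (k := e) (ps := runH (2 * (m - e)) (m - e) [1]) (by omega)
  have h2 := hsize_runH (a := 2 * (m - e)) (k := m - e) (ps := [1]) (by omega)
  have h3 : hsize [1] = 1 := rfl
  rw [h3] at h2
  obtain ⟨k, rfl⟩ : ∃ k, m = e + k + 1 := ⟨m - e - 1, by omega⟩
  have h4 : e + k + 1 - e = k + 1 := by omega
  rw [h4] at h1 h2 ⊢
  simp only [Nat.add_sub_cancel] at h2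
  rcases Nat.eq_zero_or_pos e with rfl | he
  · simp only [Nat.zero_add, mul_zero, Nat.zero_mul, Nat.add_zero] at h1 ⊢
    nlinarith
  · obtain ⟨e', rfl⟩ : ∃ e', e = e' + 1 := ⟨e - 1, by omega⟩
    simp only [Nat.add_sub_cancel] at h1
    nlinarith

theorem hBm_zero (m : ℕ) (h : 1 ≤ m) : hBm m 0 = 2 * m :: runH (2 * (m - 1)) (m - 1) [1] := by
  unfold hBm
  rw [runH_zero]
  obtain ⟨k, rfl⟩ : ∃ k, m = k + 1 := ⟨m - 1, by omega⟩
  have h1 : k + 1 - 0 = k + 1 := rfl
  rw [h1, runH_succ]
  have h2 : 2 * (k + 1) - 2 = 2 * (k + 1 - 1) := by omega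
  rw [h2]
  simp

theorem hBm_zero' (m : ℕ) : hBm m 0 = runH (2 * m) m [1] := by
  unfold hBm
  rw [runH_zero]
  rfl

theorem hBm_succ (m e : ℕ) : hBm (m + 1) (e + 1) = (2 * m + 3) :: hBm m e := by
  unfold hBm
  rw [runH_succ]
  have h1 : 2 * (m + 1) + 1 - 2 = 2 * m + 1 := by omega
  have h2 : m + 1 - (e + 1) = m - e := by omega
  rw [h1, h2]
  rfl

/-- the numerical condition of RULE 1, `e ≥ 1` -/
theorem HC_hBm_succ {m e : ℕ} (h : e < m) : HC (2 * m + 3) (hBm m e) := by
  intro s hs
  rw [cl_hBm h]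
  have h1 : 2 * (2 * m + 3) - (s + 1) ≤ max (2 * m + 3) (2 * (2 * m + 3) - (s + 1)) :=
    le_max_right _ _
  refine le_trans ?_ h1
  split_ifs <;> omega

/-- the numerical condition of RULE 1, `e = 0` -/
theorem HC_hBm_zero {m : ℕ} (h : 1 ≤ m) : HC (2 * m + 2) (hBm m 0) := by
  intro s hs
  rw [cl_hBm (by omega)]
  have h1 : 2 * (2 * m + 2) - (s + 1) ≤ max (2 * m + 2) (2 * (2 * m + 2) - (s + 1)) :=
    le_max_right _ _
  refine le_trans ?_ h1
  split_ifs <;> omega

/-- coverage of the member `(m, e)` -/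
def CovB (m e : ℕ) : Prop :=
  ∀ (H : ℕ → ℕ) (w w₂ : ℕ), Region (hsize (hBm m e)) (if e = 0 then 2 * m - 1 else 2 * m) w w₂ H →
    ∃ L : List Pc, validP L ∧ (∀ s, (colsP L).getD s 0 = cl (hBm m e) s) ∧
      Decomp L fun j : Fin w => H j

/-- **Induction skeleton.** -/
theorem fullB_of_cov {m₀ : ℕ} (hm₀ : 3 ≤ m₀)
    (hbase : ∀ m e, 2 ≤ m → m < m₀ → e < m → FullH (hBm m e))
    (hcov : ∀ m e, m₀ ≤ m → e < m → CovB m e) :
    ∀ m e, 2 ≤ m → e < m → FullH (hBm m e) := by
  intro m
  induction m with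
  | zero => intro e h1; omega
  | succ m ih =>
    intro e h1 h2
    rcases Nat.lt_or_ge (m + 1) m₀ with h3 | h3
    · exact hbase _ _ h1 h3 h2
    · cases e with
      | zero =>
        have e1 : hBm (m + 1) 0 = (2 * m + 2) :: hBm m 0 := by
          rw [hBm_zero (m + 1) (by omega), hBm_zero' m]
          simp only [Nat.add_sub_cancel]
          rfl
        rw [e1]
        refine rule1_pieces ?_ (HC_hBm_zero (by omega)) (ih 0 (by omega) (by omega)) ?_
        · rw [← e1]; exact validH_hBm (by omega)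
        · intro H w w₂ hr
          rw [← e1] at hr ⊢
          exact hcov (m + 1) 0 h3 (by omega) H w w₂ hr
      | succ e =>
        rw [hBm_succ]
        refine rule1_pieces ?_ (HC_hBm_succ (by omega)) (ih e (by omega) (by omega)) ?_
        · rw [← hBm_succ]; exact validH_hBm (by omega)
        · intro H w w₂ hr
          rw [← hBm_succ] at hr ⊢
          exact hcov (m + 1) (e + 1) h3 (by omega) H w w₂ hr

end Crest.Agent.R195
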