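import Crest.Agent.R195.Words

/-! Row 195, the H-step core (helper545's note 5402 (A), general row contents).
Words `T → Option (Fin p × Fin p)`, `none` is the new letter `0`.
`DD q Φ w = ∑_{x : w (x i) = q i} Φ (w with all x i replaced by none)`.
Main theorem `hcore`: if `Φ` is supported on words with exactly `p` letters `none`, in which the cell
`(e k, rev (e k))` occurs less than `p - k` times, and `∑_σ sign σ • DD (i, σ i) Φ = 0`, then `Φ = 0`. -/

set_option autoImplicit false
set_option linter.unusedSectionVars false
set_option linter.unusedDecidableInType false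

namespace Crest.Agent.R195

open Finset Function

section strip

variable {T X : Type*} [Fintype T] [DecidableEq T] [DecidableEq X]

/-- replace the letters at the positions `x i` by `none` -/
def strip {k : ℕ} (x : Fin k → T) (w : T → Option X) : T → Option X :=
  fun t => if ∃ i, x i = t then none else w t

/-- `DD q Φ w = ∑_{x : w (x i) = q i} Φ (strip x w)` -/
def DD {k : ℕ} (q : Fin k → X) (Φ : (T → Option X) → ℂ) (w : T → Option X) : ℂ :=
  ∑ x : Fin k → T, if ∀ i, w (x i) = some (q i) then Φ (strip x w) else 0

theorem strip_zero (x : Fin 0 → T) (w : T → Option X) : strip x w = w := by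
  funext t; simp [strip]

theorem DD_zero (q : Fin 0 → X) (Φ : (T → Option X) → ℂ) (w : T → Option X) : DD q Φ w = Φ w := by
  simp [DD, strip_zero]

theorem strip_snoc {k : ℕ} (x : Fin k → T) (t : T) (w : T → Option X) :
    strip (Fin.snoc (α := fun _ => T) x t) w = strip x (update w t none) := by
  funext s
  unfold strip
  by_cases h : s = t
  · subst h
    have : ∃ i, (Fin.snoc (α := fun _ => T) x s : Fin (k+1) → T) i = s := ⟨Fin.last k, by simp⟩
    rw [if_pos this]
    simp
  · have h1 : (∃ i, (Fin.snoc (α := fun _ => T) x t : Fin (k+1) → T) i = s) ↔ ∃ i, x i = s := by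
      constructor
      · rintro ⟨i, hi⟩
        refine Fin.lastCases (fun hi => ?_) (fun j hi => ?_) i hi
        · simp at hi; exact absurd hi.symm h
        · simp at hi; exact ⟨j, hi⟩
      · rintro ⟨i, hi⟩
        exact ⟨i.castSucc, by simpa using hi⟩
    simp only [h1, update_of_ne h]

theorem DD_succ {k : ℕ} (q : Fin (k+1) → X) (hq : Injective q) (Φ : (T → Option X) → ℂ)
    (w : T → Option X) :
    DD q Φ w = raise none (some (q (Fin.last k))) (DD (fun i : Fin k => q i.castSucc) Φ) w := by
  classical
  unfold raise DD
  have e := (Fin.snocEquiv (fun _ : Fin (k+1) => T))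
  rw [← (Fin.snocEquiv (fun _ : Fin (k+1) => T)).sum_comp, Fintype.sum_prod_type]
  refine Finset.sum_congr rfl fun t _ => ?_
  by_cases ht : w t = some (q (Fin.last k))
  · rw [if_pos ht]
    refine Finset.sum_congr rfl fun x _ => ?_
    simp only [Fin.snocEquiv_apply]
    have h1 : (∀ i : Fin (k+1), w ((Fin.snoc (α := fun _ => T) x t : Fin (k+1) → T) i) = some (q i)) ↔
        ∀ i : Fin k, (update w t none) (x i) = some (q i.castSucc) := by
      constructor
      · intro h i
        have hi := h i.castSucc
        simp only [Fin.snoc_castSucc] at hi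
        have hne : x i ≠ t := by
          intro hx
          rw [hx, ht] at hi
          have := hq (Option.some_injective _ hi)
          exact absurd this (Fin.castSucc_lt_last i).ne'
        rw [update_of_ne hne]; exact hi
      · intro h i
        refine Fin.lastCases ?_ (fun j => ?_) i
        · simpa using ht
        · have hj := h j
          have hne : x j ≠ t := by
            intro hx
            rw [hx] at hj; simp at hj
          rw [update_of_ne hne] at hj
          simpa using hj
    have h3 : strip ((Fin.snocEquiv (fun _ : Fin (k+1) => T)) (t, x)) w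
        = strip x (update w t none) := strip_snoc x t w
    rw [h3]
    by_cases h2 : ∀ i : Fin k, (update w t none) (x i) = some (q i.castSucc)
    · rw [if_pos (h1.2 h2), if_pos h2]
    · rw [if_neg (fun h => h2 (h1.1 h)), if_neg h2]
  · rw [if_neg ht]
    refine Finset.sum_eq_zero fun x _ => ?_
    rw [if_neg]
    intro h
    apply ht
    simpa using h (Fin.last k)

theorem cnt_strip_none {k : ℕ} (q : Fin k → X) (hq : Injective q) (x : Fin k → T)
    (w : T → Option X) (h : ∀ i, w (x i) = some (q i)) :
    cnt (strip x w) none = cnt w none + k := by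
  classical
  have hx : Injective x := by
    intro i j hij
    have := h i
    rw [hij, h j] at this
    exact (hq (Option.some_injective _ this)).symm
  unfold cnt
  have : univ.filter (fun t => strip x w t = none)
      = univ.filter (fun t => w t = none) ∪ univ.image x := by
    ext t
    simp only [mem_filter, mem_univ, true_and, mem_union, mem_image]
    unfold strip
    by_cases ht : ∃ i, x i = t
    · rw [if_pos ht]
      exact ⟨fun _ => Or.inr ht, fun _ => rfl⟩
    · rw [if_neg ht]
      exact ⟨fun h => Or.inl h, fun h => h.resolve_right ht⟩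
  rw [this, Finset.card_union_of_disjoint]
  · congr 1
    rw [Finset.card_image_of_injective _ hx]; simp
  · rw [Finset.disjoint_left]
    intro t ht ht'
    simp only [mem_filter, mem_univ, true_and, mem_image] at ht ht'
    obtain ⟨i, hi⟩ := ht'
    rw [← hi, h i] at ht
    exact absurd ht (by simp)

theorem cnt_strip_some {k : ℕ} (q : Fin k → X) (x : Fin k → T)
    (w : T → Option X) (h : ∀ i, w (x i) = some (q i)) (c : X) (hc : ∀ i, q i ≠ c) :
    cnt (strip x w) (some c) = cnt w (some c) := by
  classical
  unfold cnt
  refine congrArg _ (Finset.filter_congr fun t _ => ?_)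
  by_cases ht : ∃ i, x i = t
  · have h1 : strip x w t = none := if_pos ht
    rw [h1]
    obtain ⟨i, hi⟩ := ht
    constructor
    · intro h'; exact absurd h' (by simp)
    · intro h'
      rw [← hi, h i] at h'
      exact absurd (Option.some_injective _ h') (hc i)
  · have h1 : strip x w t = w t := if_neg ht
    rw [h1]

theorem DD_inj [Fintype X] {k : ℕ} (p : ℕ) (q : Fin k → X) (hq : Injective q)
    (Φ : (T → Option X) → ℂ)
    (hn : ∀ w, Φ w ≠ 0 → cnt w none = p)
    (hc : ∀ w, Φ w ≠ 0 → ∀ i : Fin k, cnt w (some (q i)) < p - i)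
    (h0 : ∀ w, DD q Φ w = 0) : ∀ w, Φ w = 0 := by
  classical
  induction k with
  | zero =>
    intro w
    have := h0 w
    rwa [DD_zero] at this
  | succ k ih =>
    have hq' : Injective (fun i : Fin k => q i.castSucc) :=
      fun i j hij => Fin.castSucc_injective _ (hq hij)
    refine ih (fun i : Fin k => q i.castSucc) hq' (fun w hw i => ?_) ?_
    · simpa using hc w hw i.castSucc
    · refine raise_inj (p := none) (q := some (q (Fin.last k))) (by simp) ?_ ?_
      · intro w hw
        unfold DD at hw
        obtain ⟨x, -, hx⟩ := Finset.exists_ne_zero_of_sum_ne_zero hw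
        by_cases hxw : ∀ i : Fin k, w (x i) = some (q i.castSucc)
        · rw [if_pos hxw] at hx
          have h1 := hn _ hx
          rw [cnt_strip_none _ hq' x w hxw] at h1
          have h2 := hc _ hx (Fin.last k)
          rw [cnt_strip_some (fun i : Fin k => q i.castSucc) x w hxw] at h2
          · simp at h2; omega
          · intro i hi
            exact absurd (hq hi) (Fin.castSucc_lt_last i).ne
        · rw [if_neg hxw] at hx; exact absurd rfl hx
      · intro w
        rw [← DD_succ q hq]
        exact h0 w

theorem DD_comp_equiv {k : ℕ} (q : Fin k → X) (e : Fin k ≃ Fin k)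
    (Φ : (T → Option X) → ℂ) (w : T → Option X) :
    DD (fun i => q (e i)) Φ w = DD q Φ w := by
  classical
  unfold DD
  rw [← (Equiv.arrowCongr e (Equiv.refl T)).sum_comp
    (fun x : Fin k → T => if ∀ i, w (x i) = some (q i) then Φ (strip x w) else 0)]
  refine Finset.sum_congr rfl fun x _ => ?_
  have h1 : (∀ i, w ((Equiv.arrowCongr e (Equiv.refl T)) x i) = some (q i)) ↔
      ∀ i, w (x i) = some (q (e i)) := by
    constructor
    · intro h i
      have := h (e i)
      simpa [Equiv.arrowCongr] using this
    · intro h i
      have := h (e.symm i)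
      simpa [Equiv.arrowCongr] using this
  have h2 : strip ((Equiv.arrowCongr e (Equiv.refl T)) x) w = strip x w := by
    funext t
    unfold strip
    have : (∃ i, (Equiv.arrowCongr e (Equiv.refl T)) x i = t) ↔ ∃ i, x i = t := by
      constructor
      · rintro ⟨i, hi⟩; exact ⟨e.symm i, by simpa [Equiv.arrowCongr] using hi⟩
      · rintro ⟨i, hi⟩; exact ⟨e i, by simpa [Equiv.arrowCongr] using hi⟩
    simp only [this]
  rw [h2]
  by_cases h : ∀ i, w (x i) = some (q (e i))
  · rw [if_pos h, if_pos (h1.2 h)]
  · rw [if_neg h, if_neg (fun h' => h (h1.1 h'))]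

end strip

section core

variable {T : Type*} [Fintype T] [DecidableEq T]

/-- weight of a cell: distance squared to the main antidiagonal -/
def cwt (p : ℕ) : Option (Fin p × Fin p) → ℕ
  | none => 0
  | some c => (((c.1 : ℤ) + c.2 - (p - 1)) ^ 2).toNat

/-- total weight of a word -/
def wwt (p : ℕ) (w : T → Option (Fin p × Fin p)) : ℕ := ∑ t, cwt p (w t)

theorem wwt_strip {p k : ℕ} (q : Fin k → Fin p × Fin p) (hq : Injective q) (x : Fin k → T)
    (w : T → Option (Fin p × Fin p)) (h : ∀ i, w (x i) = some (q i)) :
    wwt p w = wwt p (strip x w) + ∑ i, cwt p (some (q i)) := by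
  classical
  have hx : Injective x := by
    intro i j hij
    have := h i
    rw [hij, h j] at this
    exact (hq (Option.some_injective _ this)).symm
  unfold wwt
  have h1 : ∀ t, cwt p (w t) = cwt p (strip x w t)
      + (if t ∈ univ.image x then cwt p (w t) else 0) := by
    intro t
    unfold strip
    by_cases ht : ∃ i, x i = t
    · have : t ∈ univ.image x := by simpa using ht
      rw [if_pos ht, if_pos this]; simp [cwt]
    · have : t ∉ univ.image x := by simpa using ht
      rw [if_neg ht, if_neg this]; simp
  rw [Finset.sum_congr rfl fun t _ => h1 t, Finset.sum_add_distrib]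
  congr 1
  rw [← Finset.sum_filter]
  have : univ.filter (fun t => t ∈ univ.image x) = univ.image x := by ext t; simp
  rw [this, Finset.sum_image (fun i _ j _ hij => hx hij)]
  exact Finset.sum_congr rfl fun i _ => by rw [h i]

theorem cwt_perm_eq_zero {p : ℕ} (σ : Equiv.Perm (Fin p))
    (h : ∑ i, cwt p (some (i, σ i)) = 0) : σ = Fin.revPerm := by
  ext i
  have h1 : cwt p (some (i, σ i)) = 0 := by
    by_contra hne
    have := Finset.single_le_sum (f := fun i => cwt p (some (i, σ i)))
      (fun j _ => Nat.zero_le _) (Finset.mem_univ i)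
    simp only [h] at this
    omega
  simp only [cwt, Int.toNat_eq_zero] at h1
  have h2 : ((i : ℤ) + (σ i : ℤ) - (p - 1)) ^ 2 = 0 := le_antisymm h1 (sq_nonneg _)
  have h3 : ((i : ℤ) + (σ i : ℤ) - (p - 1)) = 0 := by
    simpa using h2
  simp only [Fin.revPerm_apply, Fin.val_rev]
  have := i.2
  omega

theorem cwt_rev {p : ℕ} : ∑ i, cwt p (some (i, Fin.rev i)) = 0 := by
  refine Finset.sum_eq_zero fun i _ => ?_
  simp only [cwt, Fin.val_rev]
  have := i.2
  have h : ((i : ℤ) + ((p - (i + 1) : ℕ) : ℤ) - (p - 1)) = 0 := by omega
  rw [h]; simp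

/-- **H-step core.** -/
theorem hcore {p : ℕ} (e : Fin p ≃ Fin p) (Φ : (T → Option (Fin p × Fin p)) → ℂ)
    (hn : ∀ w, Φ w ≠ 0 → cnt w none = p)
    (hc : ∀ w, Φ w ≠ 0 → ∀ k : Fin p, cnt w (some (e k, Fin.rev (e k))) < p - k)
    (h0 : ∀ w, ∑ σ : Equiv.Perm (Fin p),
      ((Equiv.Perm.sign σ : ℤ) : ℂ) * DD (fun i => (i, σ i)) Φ w = 0) :
    ∀ w, Φ w = 0 := by
  classical
  by_contra hcon
  push Not at hcon
  -- minimal weight word in the support
  have hne : ∃ n, ∃ w, Φ w ≠ 0 ∧ wwt p w = n := by
    obtain ⟨w, hw⟩ := hcon; exact ⟨_, w, hw, rfl⟩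
  set M := Nat.find hne with hM
  obtain ⟨w0, hw0, hw0M⟩ := Nat.find_spec hne
  have hmin : ∀ w, Φ w ≠ 0 → M ≤ wwt p w := fun w hw => Nat.find_min' hne ⟨w, hw, rfl⟩
  have hcell : ∀ σ : Equiv.Perm (Fin p), Injective (fun i : Fin p => (i, σ i)) :=
    fun σ i j hij => (Prod.mk.inj hij).1
  set Φ0 : (T → Option (Fin p × Fin p)) → ℂ := fun w => if wwt p w = M then Φ w else 0 with hΦ0
  have hsub : ∀ w, Φ0 w ≠ 0 → Φ w ≠ 0 := by
    intro w hw
    simp only [hΦ0] at hw
    split_ifs at hw with h1
    · exact hw
    · exact absurd rfl hw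
  have hz : ∀ w, Φ0 w = 0 := by
    refine DD_inj p (fun k => (e k, Fin.rev (e k))) ?_ Φ0 ?_ ?_ ?_
    · intro i j hij
      exact e.injective (Prod.mk.inj hij).1
    · exact fun w hw => hn w (hsub w hw)
    · exact fun w hw => hc w (hsub w hw)
    · intro w
      rw [DD_comp_equiv (fun i : Fin p => (i, Fin.rev i)) e]
      by_cases hwM : wwt p w = M
      · have h1 := h0 w
        have h2 : ∀ σ : Equiv.Perm (Fin p), σ ≠ Fin.revPerm → DD (fun i => (i, σ i)) Φ w = 0 := by
          intro σ hσ
          unfold DD
          refine Finset.sum_eq_zero fun x _ => ?_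
          by_cases hx : ∀ i, w (x i) = some (i, σ i)
          · rw [if_pos hx]
            by_contra hΦ
            have h3 := hmin _ hΦ
            have h4 := wwt_strip (fun i => (i, σ i)) (hcell σ) x w hx
            have h5 : ∑ i, cwt p (some (i, σ i)) ≠ 0 := fun h => hσ (cwt_perm_eq_zero σ h)
            omega
          · rw [if_neg hx]
        rw [Finset.sum_eq_single (Fin.revPerm) (fun σ _ hσ => by rw [h2 σ hσ, mul_zero])
          (fun h => absurd (Finset.mem_univ _) h)] at h1
        have h3 : DD (fun i : Fin p => (i, Fin.rev i)) Φ w = 0 := by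
          rcases mul_eq_zero.1 h1 with h | h
          · exfalso
            have := (Equiv.Perm.sign (Fin.revPerm : Equiv.Perm (Fin p))).ne_zero
            exact this (by exact_mod_cast h)
          · simpa using h
        rw [← h3]
        unfold DD
        refine Finset.sum_congr rfl fun x _ => ?_
        by_cases hx : ∀ i, w (x i) = some (i, Fin.rev i)
        · rw [if_pos hx, if_pos hx]
          have h4 := wwt_strip (fun i : Fin p => (i, Fin.rev i))
            (fun i j hij => (Prod.mk.inj hij).1) x w hx
          rw [cwt_rev, add_zero] at h4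
          simp only [hΦ0]
          rw [if_pos (by rw [← h4, hwM])]
        · rw [if_neg hx, if_neg hx]
      · unfold DD
        refine Finset.sum_eq_zero fun x _ => ?_
        by_cases hx : ∀ i, w (x i) = some (i, Fin.rev i)
        · rw [if_pos hx]
          have h4 := wwt_strip (fun i : Fin p => (i, Fin.rev i))
            (fun i j hij => (Prod.mk.inj hij).1) x w hx
          rw [cwt_rev, add_zero] at h4
          simp only [hΦ0]
          rw [if_neg (by rw [← h4]; exact hwM)]
        · rw [if_neg hx]
  have := hz w0
  simp only [hΦ0] at this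
  rw [if_pos (by rw [hw0M])] at this
  exact hw0 this

end core

end Crest.Agent.R195
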