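import Crest.Agent.R195.HStep

/-! Row 195: H-step for arbitrary letter types, Young diagram form, staircase corollary. -/

set_option autoImplicit false
set_option linter.unusedSectionVars false
set_option linter.unusedDecidableInType false

namespace Crest.Agent.R195

open Finset Function

section transport

variable {T₁ T₂ : Type*} [Fintype T₁] [DecidableEq T₁] [Fintype T₂] [DecidableEq T₂]

theorem polyF_relabel (θ : T₁ ≃ T₂) (τ : T₂ → ℕ × ℕ) (w : T₂ → ℕ) :
    polyF (τ ∘ θ) (w ∘ θ) = polyF τ w := by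
  unfold polyF
  refine Fintype.sum_equiv θ.permCongr _ _ fun σ => ?_
  have h1 : ((∀ i, ((τ ∘ θ) (σ i)).2 = ((τ ∘ θ) i).2) ∧ ∀ i, (w ∘ θ) (σ i) = ((τ ∘ θ) i).1) ↔
      ((∀ i, (τ ((θ.permCongr σ) i)).2 = (τ i).2) ∧ ∀ i, w ((θ.permCongr σ) i) = (τ i).1) := by
    simp only [comp_apply, Equiv.permCongr_apply]
    constructor
    · rintro ⟨ha, hb⟩
      refine ⟨fun i => ?_, fun i => ?_⟩
      · simpa using ha (θ.symm i)
      · simpa using hb (θ.symm i)
    · rintro ⟨ha, hb⟩
      refine ⟨fun i => ?_, fun i => ?_⟩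
      · simpa using ha (θ i)
      · simpa using hb (θ i)
  rw [Equiv.Perm.sign_permCongr]
  by_cases h : (∀ i, ((τ ∘ θ) (σ i)).2 = ((τ ∘ θ) i).2) ∧ ∀ i, (w ∘ θ) (σ i) = ((τ ∘ θ) i).1
  · rw [if_pos h, if_pos (h1.1 h)]
  · rw [if_neg h, if_neg (fun h' => h (h1.2 h'))]

theorem IsTab.relabel {D : Finset (ℕ × ℕ)} {τ : T₁ → ℕ × ℕ} (h : IsTab D τ) (θ : T₂ ≃ T₁) :
    IsTab D (τ ∘ θ) := by
  refine ⟨h.1.comp θ.injective, ?_⟩
  rw [← h.2]
  ext c
  simp only [mem_image, mem_univ, true_and, comp_apply]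
  exact ⟨fun ⟨t, ht⟩ => ⟨θ t, ht⟩, fun ⟨t, ht⟩ => ⟨θ.symm t, by simpa using ht⟩⟩

theorem Sp_relabel (θ : T₁ ≃ T₂) {D : Finset (ℕ × ℕ)} {f : (T₁ → ℕ) → ℂ} (hf : f ∈ Sp T₁ D) :
    (fun w : T₂ → ℕ => f (w ∘ θ)) ∈ Sp T₂ D := by
  unfold Sp at hf ⊢
  induction hf using Submodule.span_induction with
  | mem x hx =>
    obtain ⟨τ, hτ, rfl⟩ := hx
    refine Submodule.subset_span ⟨τ ∘ θ.symm, hτ.relabel θ.symm, ?_⟩
    funext w
    rw [← polyF_relabel θ (τ ∘ θ.symm) w]
    congr 1
    funext t; simp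
  | zero => exact Submodule.zero_mem _
  | add x y _ _ hx hy => exact Submodule.add_mem _ hx hy
  | smul a x _ hx => exact Submodule.smul_mem _ a hx

theorem Kr_relabel (θ : T₁ ≃ T₂) {D E : Finset (ℕ × ℕ)} {f : (T₁ → ℕ × ℕ) → ℂ}
    (hf : f ∈ Kr T₁ D E) : (fun w : T₂ → ℕ × ℕ => f (w ∘ θ)) ∈ Kr T₂ D E := by
  unfold Kr at hf ⊢
  induction hf using Submodule.span_induction with
  | mem x hx =>
    obtain ⟨τ, τ', hτ, hτ', rfl⟩ := hx
    refine Submodule.subset_span ⟨τ ∘ θ.symm, τ' ∘ θ.symm, hτ.relabel θ.symm,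
      hτ'.relabel θ.symm, ?_⟩
    funext w
    unfold prodF
    rw [← polyF_relabel θ (τ ∘ θ.symm), ← polyF_relabel θ (τ' ∘ θ.symm)]
    have h1 : (τ ∘ θ.symm) ∘ θ = τ := by funext t; simp
    have h2 : (τ' ∘ θ.symm) ∘ θ = τ' := by funext t; simp
    rw [h1, h2]
    rfl
  | zero => exact Submodule.zero_mem _
  | add x y _ _ hx hy => exact Submodule.add_mem _ hx hy
  | smul a x _ hx => exact Submodule.smul_mem _ a hx

/-- transport of a representation along `θ : T₁ ≃ T₂` -/
def relRep {W : Type*} [AddCommGroup W] [Module ℂ W] (θ : T₁ ≃ T₂)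
    (ρ : Representation ℂ (Equiv.Perm T₂) W) : Representation ℂ (Equiv.Perm T₁) W :=
  ρ.comp θ.permCongrHom.toMonoidHom

theorem relRep_apply {W : Type*} [AddCommGroup W] [Module ℂ W] (θ : T₁ ≃ T₂)
    (ρ : Representation ℂ (Equiv.Perm T₂) W) (g : Equiv.Perm T₁) (v : W) :
    relRep θ ρ g v = ρ (θ.permCongr g) v := rfl

theorem Occ.relabel {W : Type*} [AddCommGroup W] [Module ℂ W] (θ : T₁ ≃ T₂)
    {ρ : Representation ℂ (Equiv.Perm T₂) W} {D E : Finset (ℕ × ℕ)}
    (h : Occ (relRep θ ρ) (Kr T₁ D E)) : Occ ρ (Kr T₂ D E) := by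
  obtain ⟨φ, hφ0, hφm, hφe⟩ := h
  refine ⟨{ toFun := fun v w => φ v (w ∘ θ), map_add' := ?_, map_smul' := ?_ }, ?_, ?_, ?_⟩
  · intro u v; funext w; simp
  · intro c v; funext w; simp
  · intro h0
    apply hφ0
    ext v w
    have := congrFun (LinearMap.congr_fun h0 v) (w ∘ θ.symm)
    simp only [LinearMap.coe_mk, AddHom.coe_mk, LinearMap.zero_apply, Pi.zero_apply] at this
    have h1 : (w ∘ θ.symm) ∘ θ = w := by funext t; simp
    rw [h1] at this
    rw [this]; rfl
  · intro v
    exact Kr_relabel θ (hφm v)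
  · intro g v w
    simp only [LinearMap.coe_mk, AddHom.coe_mk]
    have h1 : ρ g v = relRep θ ρ (θ.permCongr.symm g) v := by
      rw [relRep_apply, Equiv.apply_symm_apply]
    rw [h1, hφe]
    refine congrArg (φ v) (funext fun t => ?_)
    simp [Equiv.permCongr_symm, Equiv.permCongr_apply]

end transport

section general

/-- **H-step**, letters `T`, the column of length `p` is filled by a `p`-subset `K`. -/
theorem hstep {p : ℕ} {a b : Finset (ℕ × ℕ)} (ha : ∀ c ∈ a, c.1 < p) (hb : ∀ c ∈ b, c.1 < p)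
    (e : Fin p ≃ Fin p)
    (he : ∀ k : Fin p, min (rowlen a (e k)) (rowlen b (Fin.rev (e k))) < p - k)
    (hfull : Full a b)
    {T : Type} [Fintype T] [DecidableEq T] (hT : Fintype.card T = p + a.card)
    (K : Finset T) (hK : K.card = p)
    {W : Type} [AddCommGroup W] [Module ℂ W] (ρ : Representation ℂ (Equiv.Perm T) W)
    (v : W) (hv0 : v ≠ 0) (hv : ∀ x ∈ K, ∀ y ∈ K, ρ (Equiv.swap x y) v = v) :
    Occ ρ (Kr T (addCol p a) (addCol p b)) := by
  classical
  set θ : Fin p ⊕ {t : T // ¬ t ∈ K} ≃ T :=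
    (Equiv.sumCongr (K.equivFinOfCardEq hK).symm (Equiv.refl _)).trans
      (Equiv.sumCompl (fun t => t ∈ K)) with hθ
  refine Occ.relabel θ ?_
  have hcard : Fintype.card {t : T // ¬ t ∈ K} = a.card := by
    have h1 := Fintype.card_congr θ
    rw [Fintype.card_sum, Fintype.card_fin, hT] at h1
    omega
  refine hstep_sum ha hb e he hcard hfull (relRep θ ρ) v hv0 ?_
  have hθK : ∀ i : Fin p, θ (Sum.inl i) ∈ K := by
    intro i
    simp [hθ]
  intro h
  induction h using Equiv.Perm.swap_induction_on with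
  | one => rw [Equiv.Perm.sumCongr_one, map_one]; rfl
  | swap_mul f x y hxy ih =>
    have h1 : Equiv.Perm.sumCongr (Equiv.swap x y * f) (1 : Equiv.Perm {t : T // ¬ t ∈ K})
        = Equiv.Perm.sumCongr (Equiv.swap x y) 1 * Equiv.Perm.sumCongr f 1 := by
      rw [Equiv.Perm.sumCongr_mul]; simp
    rw [h1, map_mul, Module.End.mul_apply, ih, Equiv.Perm.sumCongr_swap_one, relRep_apply]
    have h2 : θ.permCongr (Equiv.swap (Sum.inl x) (Sum.inl y))
        = Equiv.swap (θ (Sum.inl x)) (θ (Sum.inl y)) := by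
      ext t
      simp [Equiv.permCongr_apply, Equiv.swap_apply_def, Equiv.symm_apply_eq]
      split_ifs <;> simp_all
    rw [h2]
    exact hv _ (hθK x) _ (hθK y)

/-- enumeration in decreasing order -/
theorem exists_enum {p : ℕ} (f : Fin p → ℕ)
    (hf : ∀ s, 1 ≤ s → (univ.filter (fun i => s ≤ f i)).card ≤ p - s) :
    ∃ e : Fin p ≃ Fin p, ∀ k : Fin p, f (e k) < p - k := by
  classical
  refine ⟨Fin.revPerm.trans (Tuple.sort f), fun k => ?_⟩
  set e : Fin p ≃ Fin p := Fin.revPerm.trans (Tuple.sort f) with he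
  have hanti : Antitone (f ∘ e) := by
    intro i j hij
    have := Tuple.monotone_sort f (Fin.rev_le_rev.2 hij)
    simpa [he] using this
  by_cases h0 : f (e k) = 0
  · rw [h0]; have := k.2; omega
  · have h1 := hf (f (e k)) (by omega)
    have h2 : (Finset.Iic k).card ≤ (univ.filter (fun i => f (e k) ≤ f i)).card := by
      rw [← Finset.card_image_of_injective (Finset.Iic k) e.injective]
      refine Finset.card_le_card ?_
      intro i hi
      simp only [mem_image, Finset.mem_Iic] at hi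
      obtain ⟨j, hj, rfl⟩ := hi
      simp only [mem_filter, mem_univ, true_and]
      exact hanti hj
    rw [Fin.card_Iic] at h2
    omega

theorem rowlen_cells (μ : YoungDiagram) (i : ℕ) : rowlen μ.cells i = μ.rowLen i := by
  rw [YoungDiagram.rowLen_eq_card]
  rfl

theorem young_rows {p : ℕ} (μ : YoungDiagram) (hμ : μ.colLen 0 ≤ p) : ∀ c ∈ μ.cells, c.1 < p := by
  intro c hc
  have h1 : (c.1, c.2) ∈ μ := hc
  have h2 := YoungDiagram.mem_iff_lt_colLen.1 h1
  exact lt_of_lt_of_le h2 ((μ.colLen_anti 0 c.2 (Nat.zero_le _)).trans hμ)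

theorem young_enum {p : ℕ} (μ ν : YoungDiagram) (hν : ν.colLen 0 ≤ p)
    (hc : ∀ s, μ.colLen s + ν.colLen s ≤ max p (2 * p - (s + 1))) :
    ∃ e : Fin p ≃ Fin p, ∀ k : Fin p,
      min (rowlen μ.cells (e k)) (rowlen ν.cells (Fin.rev (e k))) < p - k := by
  refine exists_enum (fun i : Fin p => min (rowlen μ.cells i)
      (rowlen ν.cells (Fin.rev i))) ?_
  intro s hs
  obtain ⟨s, rfl⟩ : ∃ s', s = s' + 1 := ⟨s - 1, by omega⟩
  have h1 : ∀ (μ : YoungDiagram) (i : ℕ), s + 1 ≤ rowlen μ.cells i ↔ i < μ.colLen s := by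
    intro μ i
    rw [rowlen_cells, Nat.succ_le_iff, ← YoungDiagram.mem_iff_lt_rowLen,
      YoungDiagram.mem_iff_lt_colLen]
  have h2 : (univ.filter (fun i : Fin p => s + 1 ≤ min (rowlen μ.cells i)
      (rowlen ν.cells (Fin.rev i)))).card ≤ μ.colLen s + ν.colLen s - p := by
    have h3 : (univ.filter (fun i : Fin p => s + 1 ≤ min (rowlen μ.cells i)
        (rowlen ν.cells (Fin.rev i)))).map Fin.valEmbedding
        ⊆ Finset.Ico (p - ν.colLen s) (μ.colLen s) := by
      intro j hj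
      simp only [mem_map, mem_filter, mem_univ, true_and, le_min_iff, h1,
        Fin.valEmbedding_apply, Fin.val_rev] at hj
      obtain ⟨i, ⟨hi1, hi2⟩, rfl⟩ := hj
      rw [Finset.mem_Ico]
      have := i.2
      omega
    have h4 := Finset.card_le_card h3
    rw [Finset.card_map, Nat.card_Ico] at h4
    have h5 : ν.colLen s ≤ p := (ν.colLen_anti 0 s (Nat.zero_le _)).trans hν
    omega
  have := hc s
  omega

/-- **H-step for Young diagrams.** `μ'_s + ν'_s ≤ max p (2p - s)` for `s = 1, 2, …`. -/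
theorem hstep_young {p : ℕ} (μ ν : YoungDiagram) (hμ : μ.colLen 0 ≤ p) (hν : ν.colLen 0 ≤ p)
    (hc : ∀ s, μ.colLen s + ν.colLen s ≤ max p (2 * p - (s + 1)))
    (hfull : Full μ.cells ν.cells)
    {T : Type} [Fintype T] [DecidableEq T] (hT : Fintype.card T = p + μ.card)
    (K : Finset T) (hK : K.card = p)
    {W : Type} [AddCommGroup W] [Module ℂ W] (ρ : Representation ℂ (Equiv.Perm T) W)
    (v : W) (hv0 : v ≠ 0) (hv : ∀ x ∈ K, ∀ y ∈ K, ρ (Equiv.swap x y) v = v) :
    Occ ρ (Kr T (addCol p μ.cells) (addCol p ν.cells)) := by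
  obtain ⟨e, he⟩ := young_enum μ ν hν hc
  exact hstep (young_rows μ hμ) (young_rows ν hν) e he hfull hT K hK ρ v hv0 hv

end general

section staircase

open Crest.AlgebraR.Specht

theorem mem_stair {m : ℕ} {c : ℕ × ℕ} : c ∈ staircaseShape m ↔ c.1 + c.2 < m := by
  unfold staircaseShape
  simp only [mem_filter, mem_product, Finset.mem_range]
  omega

theorem staircase_succ (m : ℕ) : staircaseShape (m + 1) = addCol (m + 1) (staircaseShape m) := by
  ext c
  rw [mem_stair]
  unfold addCol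
  simp only [mem_union, mem_image, Finset.mem_range, mem_stair]
  constructor
  · intro h
    rcases Nat.eq_zero_or_pos c.2 with h0 | h0
    · left; exact ⟨c.1, by omega, Prod.ext rfl h0.symm⟩
    · right; exact ⟨(c.1, c.2 - 1), by simp; omega, Prod.ext rfl (by simp; omega)⟩
  · rintro (⟨i, hi, rfl⟩ | ⟨d, hd, rfl⟩)
    · simpa using hi
    · simp; omega

theorem card_addCol (p : ℕ) (a : Finset (ℕ × ℕ)) : (addCol p a).card = p + a.card := by
  unfold addCol
  rw [Finset.card_union_of_disjoint, Finset.card_image_of_injective, Finset.card_image_of_injective,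
    Finset.card_range]
  · intro c d h
    simp only [Prod.mk.injEq, add_left_inj] at h
    exact Prod.ext h.1 h.2
  · intro i j h
    exact (Prod.mk.inj h).1
  · rw [Finset.disjoint_left]
    intro c hc hc'
    simp only [mem_image, Finset.mem_range] at hc hc'
    obtain ⟨i, -, rfl⟩ := hc
    obtain ⟨d, -, hd⟩ := hc'
    simp at hd

/-- H-step for the staircases: if `Full` holds for `m` then every rep of `Perm T`, `|T|` of size
`T_{m+1}`, having a nonzero vector fixed by `Perm K`, `|K| = m + 1`, occurs. -/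
theorem hstep_stair (m : ℕ) (hfull : Full (staircaseShape m) (staircaseShape m))
    {T : Type} [Fintype T] [DecidableEq T] (hT : Fintype.card T = (staircaseShape (m + 1)).card)
    (K : Finset T) (hK : K.card = m + 1)
    {W : Type} [AddCommGroup W] [Module ℂ W] (ρ : Representation ℂ (Equiv.Perm T) W)
    (v : W) (hv0 : v ≠ 0) (hv : ∀ x ∈ K, ∀ y ∈ K, ρ (Equiv.swap x y) v = v) :
    Occ ρ (Kr T (staircaseShape (m + 1)) (staircaseShape (m + 1))) := by
  have hrow : ∀ i, rowlen (staircaseShape m) i ≤ m - i := by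
    intro i
    unfold rowlen
    have h1 : (staircaseShape m).filter (fun c => c.1 = i) ⊆
        (Finset.range (m - i)).image (fun j => (i, j)) := by
      intro c hc
      simp only [mem_filter, mem_stair] at hc
      simp only [mem_image, Finset.mem_range]
      exact ⟨c.2, by omega, Prod.ext hc.2.symm rfl⟩
    exact (Finset.card_le_card h1).trans (Finset.card_image_le.trans (by simp))
  rw [staircase_succ] at hT ⊢
  rw [card_addCol] at hT
  refine hstep (p := m + 1) ?_ ?_ (Equiv.refl _) ?_ hfull hT K hK ρ v hv0 hv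
  · intro c hc
    rw [mem_stair] at hc; omega
  · intro c hc
    rw [mem_stair] at hc; omega
  · intro k
    have h1 := hrow (k : ℕ)
    have h2 : min (rowlen (staircaseShape m) ((Equiv.refl (Fin (m+1))) k : Fin (m+1)))
      (rowlen (staircaseShape m) (Fin.rev ((Equiv.refl (Fin (m+1))) k) : Fin (m+1))) ≤
        rowlen (staircaseShape m) (k : ℕ) := min_le_left _ _
    have := k.2
    omega

end staircase

end Crest.Agent.R195
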