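import Crest.Agent.R195.HCore
import Crest.Agent.R195.SpDefs

/-! Row 195, A-link: the H-step for Specht modules in the word model.
Letters `Fin p ⊕ T`. If `Full a b` and the rep `ρ` of `Perm (Fin p ⊕ T)` has a nonzero vector fixed by
`Perm (Fin p)`, then `Occ ρ (Kr (Fin p ⊕ T) (addCol p a) (addCol p b))`. -/

set_option autoImplicit false
set_option linter.unusedSectionVars false
set_option linter.unusedDecidableInType false

namespace Crest.Agent.R195

open Finset Function

/-- add a new first column with `p` cells -/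
def addCol (p : ℕ) (a : Finset (ℕ × ℕ)) : Finset (ℕ × ℕ) :=
  (Finset.range p).image (fun i => (i, 0)) ∪ a.image (fun c => (c.1, c.2 + 1))

/-- number of cells of `a` in row `i` -/
def rowlen (a : Finset (ℕ × ℕ)) (i : ℕ) : ℕ := (a.filter (fun c => c.1 = i)).card

section tab

variable {p : ℕ} {T : Type*} [Fintype T] [DecidableEq T]

/-- extend a tableau by a first column filled with the letters `inl i` -/
def extTab (p : ℕ) (τ : T → ℕ × ℕ) : Fin p ⊕ T → ℕ × ℕ :=
  Sum.elim (fun i => ((i : ℕ), 0)) (fun t => ((τ t).1, (τ t).2 + 1))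

theorem IsTab.ext {a : Finset (ℕ × ℕ)} {τ : T → ℕ × ℕ} (h : IsTab a τ) :
    IsTab (addCol p a) (extTab p τ) := by
  refine ⟨?_, ?_⟩
  · intro x y hxy
    rcases x with i | t <;> rcases y with j | s
    · simp only [extTab, Sum.elim_inl, Prod.mk.injEq, and_true] at hxy
      rw [Fin.ext hxy]
    · simp [extTab] at hxy
    · simp [extTab] at hxy
    · simp only [extTab, Sum.elim_inr, Prod.mk.injEq, add_left_inj] at hxy
      rw [h.1 (Prod.ext hxy.1 hxy.2)]
  · ext c
    simp only [mem_image, mem_univ, true_and, addCol, mem_union, Finset.mem_range]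
    rw [← h.2]
    constructor
    · rintro ⟨x, hx⟩
      rcases x with i | t
      · left; exact ⟨i, i.2, hx⟩
      · right; exact ⟨τ t, by simp, hx⟩
    · rintro (⟨i, hi, hc⟩ | ⟨d, hd, hc⟩)
      · exact ⟨Sum.inl ⟨i, hi⟩, hc⟩
      · simp only [mem_image, mem_univ, true_and] at hd
        obtain ⟨t, ht⟩ := hd
        exact ⟨Sum.inr t, by rw [← hc, ← ht]; rfl⟩

/-- alternating function of the letters `inl i` -/
noncomputable def altK (p : ℕ) (u : Fin p ⊕ T → ℕ) : ℂ :=
  ∑ π : Equiv.Perm (Fin p), if ∀ i, u (Sum.inl (π i)) = (i : ℕ)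
    then ((Equiv.Perm.sign π : ℤ) : ℂ) else 0

theorem polyF_ext (τ : T → ℕ × ℕ) (u : Fin p ⊕ T → ℕ) :
    polyF (extTab p τ) u = altK p u * polyF τ (fun t => u (Sum.inr t)) := by
  classical
  unfold altK polyF
  rw [Finset.sum_mul_sum, ← Finset.sum_product']
  have hinj : Set.InjOn (fun x : Equiv.Perm (Fin p) × Equiv.Perm T => Equiv.Perm.sumCongr x.1 x.2)
      (Finset.univ : Finset (Equiv.Perm (Fin p) × Equiv.Perm T)) := by
    intro x _ y _ hxy
    exact Equiv.Perm.sumCongrHom_injective hxy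
  have hprod : ∀ x ∈ (Finset.univ : Finset (Equiv.Perm (Fin p))) ×ˢ
      (Finset.univ : Finset (Equiv.Perm T)),
      ((if ∀ i, u (Sum.inl (x.1 i)) = (i : ℕ) then ((Equiv.Perm.sign x.1 : ℤ) : ℂ) else 0) *
        (if (∀ i, (τ (x.2 i)).2 = (τ i).2) ∧ (∀ i, (fun t => u (Sum.inr t)) (x.2 i) = (τ i).1)
          then ((Equiv.Perm.sign x.2 : ℤ) : ℂ) else 0))
      = (if (∀ i, (extTab p τ ((Equiv.Perm.sumCongr x.1 x.2) i)).2 = (extTab p τ i).2) ∧
          (∀ i, u ((Equiv.Perm.sumCongr x.1 x.2) i) = (extTab p τ i).1)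
          then ((Equiv.Perm.sign (Equiv.Perm.sumCongr x.1 x.2) : ℤ) : ℂ) else 0) := by
    intro x _
    have h1 : ((∀ i, (extTab p τ ((Equiv.Perm.sumCongr x.1 x.2) i)).2 = (extTab p τ i).2) ∧
          (∀ i, u ((Equiv.Perm.sumCongr x.1 x.2) i) = (extTab p τ i).1)) ↔
        ((∀ i, u (Sum.inl (x.1 i)) = (i : ℕ)) ∧ ((∀ i, (τ (x.2 i)).2 = (τ i).2) ∧
          (∀ i, (fun t => u (Sum.inr t)) (x.2 i) = (τ i).1))) := by
      constructor
      · rintro ⟨h1, h2⟩
        refine ⟨fun i => ?_, fun i => ?_, fun i => ?_⟩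
        · simpa [extTab] using h2 (Sum.inl i)
        · simpa [extTab] using h1 (Sum.inr i)
        · simpa [extTab] using h2 (Sum.inr i)
      · rintro ⟨h1, h2, h3⟩
        refine ⟨fun i => ?_, fun i => ?_⟩
        · rcases i with i | t
          · simp [extTab]
          · simpa [extTab] using h2 t
        · rcases i with i | t
          · simpa [extTab] using h1 i
          · simpa [extTab] using h3 t
    by_cases hA : ∀ i, u (Sum.inl (x.1 i)) = (i : ℕ)
    · by_cases hB : (∀ i, (τ (x.2 i)).2 = (τ i).2) ∧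
          (∀ i, (fun t => u (Sum.inr t)) (x.2 i) = (τ i).1)
      · rw [if_pos hA, if_pos hB, if_pos (h1.2 ⟨hA, hB⟩), Equiv.Perm.sign_sumCongr]
        push_cast; ring
      · rw [if_neg hB, if_neg (fun h => hB (h1.1 h).2), mul_zero]
    · rw [if_neg hA, if_neg (fun h => hA (h1.1 h).1), zero_mul]
  rw [Finset.sum_congr rfl hprod]
  symm
  rw [Finset.univ_product_univ]
  rw [← Finset.sum_image (f := fun σ : Equiv.Perm (Fin p ⊕ T) =>
    if (∀ i, (extTab p τ (σ i)).2 = (extTab p τ i).2) ∧ (∀ i, u (σ i) = (extTab p τ i).1)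
          then ((Equiv.Perm.sign σ : ℤ) : ℂ) else 0) hinj]
  refine Finset.sum_subset (Finset.subset_univ _) fun σ _ hσ => ?_
  rw [if_neg]
  rintro ⟨h1, -⟩
  apply hσ
  have hm : Set.MapsTo σ (Set.range (Sum.inl : Fin p → Fin p ⊕ T))
      (Set.range (Sum.inl : Fin p → Fin p ⊕ T)) := by
    rintro _ ⟨i, rfl⟩
    have := h1 (Sum.inl i)
    rcases hσi : σ (Sum.inl i) with j | t
    · exact ⟨j, rfl⟩
    · rw [hσi] at this; simp [extTab] at this
  obtain ⟨x, hx⟩ := Equiv.Perm.mem_sumCongrHom_range_of_perm_mapsTo_inl hm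
  exact Finset.mem_image.2 ⟨x, Finset.mem_univ _, hx⟩

end tab

section link

variable {p : ℕ} {T : Type*} [Fintype T] [DecidableEq T]

/-- put `none` on the letters `inl i` -/
noncomputable def extN (F : (T → ℕ × ℕ) → ℂ) (w : Fin p ⊕ T → Option (ℕ × ℕ)) : ℂ :=
  if (∀ i, w (Sum.inl i) = none) ∧ (∀ t, w (Sum.inr t) ≠ none)
    then F (fun t => (w (Sum.inr t)).getD (0, 0)) else 0

/-- the cells `(i, σ i)` -/
def cell (σ : Equiv.Perm (Fin p)) (i : Fin p) : ℕ × ℕ := ((i : ℕ), (σ i : ℕ))

theorem cell_inj (σ : Equiv.Perm (Fin p)) : Injective (cell σ) := by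
  intro i j h
  exact Fin.ext (Prod.mk.inj h).1

theorem DD_extN (F : (T → ℕ × ℕ) → ℂ) (w : Fin p ⊕ T → ℕ × ℕ) :
    ∑ σ : Equiv.Perm (Fin p), ((Equiv.Perm.sign σ : ℤ) : ℂ) *
      DD (cell σ) (extN F) (fun t => some (w t))
    = altK p (fun t => (w t).1) * altK p (fun t => (w t).2) * F (fun t => w (Sum.inr t)) := by
  classical
  have h1 : ∀ σ : Equiv.Perm (Fin p), DD (cell σ) (extN F) (fun t => some (w t))
      = ∑ π : Equiv.Perm (Fin p), if ∀ i, w (Sum.inl (π i)) = cell σ i
          then F (fun t => w (Sum.inr t)) else 0 := by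
    intro σ
    unfold DD
    have key : ∀ x : Fin p → Fin p ⊕ T,
        (if ∀ i, (fun t => some (w t)) (x i) = some (cell σ i)
          then extN F (strip x (fun t => some (w t))) else 0)
        = if ((∀ i, ∃ j, x j = Sum.inl i) ∧ (∀ t, ¬ ∃ j, x j = Sum.inr t)) then
            (if ∀ i, w (x i) = cell σ i then F (fun t => w (Sum.inr t)) else 0) else 0 := by
      intro x
      simp only [Option.some.injEq]
      by_cases hA : ∀ i, w (x i) = cell σ i
      · rw [if_pos hA, if_pos hA]
        unfold extN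
        have hiff : ((∀ i, strip x (fun t => some (w t)) (Sum.inl i) = none) ∧
            (∀ t, strip x (fun t => some (w t)) (Sum.inr t) ≠ none)) ↔
            ((∀ i, ∃ j, x j = Sum.inl i) ∧ (∀ t, ¬ ∃ j, x j = Sum.inr t)) := by
          unfold strip
          constructor
          · rintro ⟨h1, h2⟩
            refine ⟨fun i => ?_, fun t ht => ?_⟩
            · by_contra hc
              have := h1 i
              rw [if_neg hc] at this
              exact absurd this (by simp)
            · exact h2 t (if_pos ht)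
          · rintro ⟨h1, h2⟩
            refine ⟨fun i => if_pos (h1 i), fun t => ?_⟩
            rw [if_neg (h2 t)]; simp
        by_cases hB : ((∀ i, ∃ j, x j = Sum.inl i) ∧ (∀ t, ¬ ∃ j, x j = Sum.inr t))
        · rw [if_pos hB, if_pos (hiff.2 hB)]
          congr 1
          funext t
          unfold strip
          rw [if_neg (hB.2 t)]; rfl
        · rw [if_neg hB, if_neg (fun h => hB (hiff.1 h))]
      · rw [if_neg hA, if_neg hA]; simp
    rw [Finset.sum_congr rfl fun x _ => key x, ← Finset.sum_filter]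
    symm
    refine Finset.sum_bij (fun (π : Equiv.Perm (Fin p)) _ => fun i => Sum.inl (π i)) ?_ ?_ ?_ ?_
    · intro π _
      simp only [mem_filter, mem_univ, true_and]
      refine ⟨fun i => ⟨π.symm i, by simp⟩, fun t => ?_⟩
      rintro ⟨j, hj⟩
      exact absurd hj (by simp)
    · intro π _ π' _ h
      ext i
      have := congrFun h i
      simp only [Sum.inl.injEq] at this
      rw [this]
    · intro x hx
      simp only [mem_filter, mem_univ, true_and] at hx
      have hy : ∀ j, ∃ i, x j = Sum.inl i := by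
        intro j
        rcases hxj : x j with i | t
        · exact ⟨i, rfl⟩
        · exact absurd ⟨j, hxj⟩ (hx.2 t)
      choose y hy using hy
      have hsurj : Surjective y := by
        intro i
        obtain ⟨j, hj⟩ := hx.1 i
        refine ⟨j, ?_⟩
        rw [hy j] at hj
        exact Sum.inl_injective hj
      refine ⟨Equiv.ofBijective y ⟨Finite.injective_iff_surjective.2 hsurj, hsurj⟩,
        Finset.mem_univ _, ?_⟩
      funext j
      rw [hy j]; rfl
    · intro π _; rfl
  have h2 : ∀ u : Fin p ⊕ T → ℕ, altK p u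
      = ∑ π : Equiv.Perm (Fin p), if ∀ i, u (Sum.inl (π i)) = (i : ℕ)
        then ((Equiv.Perm.sign π : ℤ) : ℂ) else 0 := fun u => rfl
  rw [Finset.sum_congr rfl fun σ _ => by rw [h1 σ, Finset.mul_sum], h2, h2, Finset.sum_mul_sum,
    Finset.sum_mul, Finset.sum_comm]
  refine Finset.sum_congr rfl fun π _ => ?_
  rw [Finset.sum_mul]
  -- substitute `π' = π * σ⁻¹`
  refine Finset.sum_bij' (fun σ _ => π * σ⁻¹) (fun π' _ => π'⁻¹ * π) (fun _ _ => Finset.mem_univ _)
    (fun _ _ => Finset.mem_univ _) ?_ ?_ ?_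
  · intro σ _; simp
  · intro π' _; simp
  · intro σ _
    by_cases hA : ∀ i, (w (Sum.inl (π i))).1 = (i : ℕ)
    · by_cases hB : ∀ i, (w (Sum.inl ((π * σ⁻¹) i))).2 = (i : ℕ)
      · have hC : ∀ i, w (Sum.inl (π i)) = cell σ i := by
          intro i
          refine Prod.ext (hA i) ?_
          have := hB (σ i)
          simpa [cell] using this
        rw [if_pos hC, if_pos hA, if_pos hB, Equiv.Perm.sign_mul, Equiv.Perm.sign_inv]
        have h3 : ((Equiv.Perm.sign π : ℤ) : ℂ) * ((Equiv.Perm.sign π : ℤ) : ℂ) = 1 := by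
          rw [← Int.cast_mul, ← Units.val_mul, Int.units_mul_self]; simp
        push_cast
        linear_combination (-((Equiv.Perm.sign σ : ℤ) : ℂ) * F (fun t => w (Sum.inr t))) * h3
      · have hC : ¬ ∀ i, w (Sum.inl (π i)) = cell σ i := by
          intro h
          apply hB
          intro i
          have := h (σ⁻¹ i)
          rw [Equiv.Perm.mul_apply, this]
          simp [cell]
        rw [if_neg hC, if_neg hB]; simp
    · have hC : ¬ ∀ i, w (Sum.inl (π i)) = cell σ i := by
        intro h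
        apply hA
        intro i
        rw [h i]; rfl
      rw [if_neg hC, if_neg hA]; simp

/-- products of polytabloids stay products of polytabloids -/
theorem DD_extN_mem {a b : Finset (ℕ × ℕ)} {F : (T → ℕ × ℕ) → ℂ} (hF : F ∈ Kr T a b) :
    (fun w : Fin p ⊕ T → ℕ × ℕ => ∑ σ : Equiv.Perm (Fin p), ((Equiv.Perm.sign σ : ℤ) : ℂ) *
      DD (cell σ) (extN F) (fun t => some (w t))) ∈ Kr (Fin p ⊕ T) (addCol p a) (addCol p b) := by
  have h : (fun w : Fin p ⊕ T → ℕ × ℕ => ∑ σ : Equiv.Perm (Fin p), ((Equiv.Perm.sign σ : ℤ) : ℂ) *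
      DD (cell σ) (extN F) (fun t => some (w t)))
      = fun w => altK p (fun t => (w t).1) * altK p (fun t => (w t).2) *
        F (fun t => w (Sum.inr t)) := funext fun w => DD_extN F w
  rw [h]
  unfold Kr at hF ⊢
  induction hF using Submodule.span_induction with
  | mem x hx =>
    obtain ⟨τ, τ', hτ, hτ', rfl⟩ := hx
    refine Submodule.subset_span ⟨extTab p τ, extTab p τ', hτ.ext, hτ'.ext, ?_⟩
    funext w
    unfold prodF
    rw [polyF_ext, polyF_ext]
    ring
  | zero =>
    convert Submodule.zero_mem _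
    simp
  | add x y _ _ hx hy =>
    convert Submodule.add_mem _ (hx (funext fun w => DD_extN x w))
      (hy (funext fun w => DD_extN y w)) using 1
    funext w
    simp only [Pi.add_apply]; ring
  | smul c x _ hx =>
    convert Submodule.smul_mem _ c (hx (funext fun w => DD_extN x w)) using 1
    funext w
    simp only [Pi.smul_apply, smul_eq_mul]; ring

end link

end Crest.Agent.R195
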