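import Crest.Agent.R195.HGen
import Crest.Agent.R195.Twist

/-! Row 195: relative H-step (only the fixed vectors of `Perm K` have to occur) and hook-layer step. -/

set_option autoImplicit false
set_option linter.unusedSectionVars false
set_option linter.unusedDecidableInType false

namespace Crest.Agent.R195

open Finset Function

section fix

variable {T : Type} [Fintype T] [DecidableEq T] {W : Type} [AddCommGroup W] [Module ℂ W]

/-- vectors fixed by the transpositions of letters in `K` -/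
def fixSub (ρ : Representation ℂ (Equiv.Perm T) W) (K : Finset T) : Submodule ℂ W where
  carrier := {v | ∀ x ∈ K, ∀ y ∈ K, ρ (Equiv.swap x y) v = v}
  add_mem' := by
    intro a b ha hb x hx y hy
    rw [map_add, ha x hx y hy, hb x hx y hy]
  zero_mem' := by intro x _ y _; simp
  smul_mem' := by
    intro c v hv x hx y hy
    rw [map_smul, hv x hx y hy]

theorem mem_fixSub {ρ : Representation ℂ (Equiv.Perm T) W} {K : Finset T} {v : W} :
    v ∈ fixSub ρ K ↔ ∀ x ∈ K, ∀ y ∈ K, ρ (Equiv.swap x y) v = v := Iff.rfl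

theorem ofSubtype_swap_comm {K : Finset T} (g : Equiv.Perm {t : T // t ∉ K}) {x y : T}
    (hx : x ∈ K) (hy : y ∈ K) :
    Equiv.swap x y * Equiv.Perm.ofSubtype g = Equiv.Perm.ofSubtype g * Equiv.swap x y := by
  have h1 : Equiv.Perm.ofSubtype g x = x :=
    Equiv.Perm.ofSubtype_apply_of_not_mem g (by simpa using hx)
  have h2 : Equiv.Perm.ofSubtype g y = y :=
    Equiv.Perm.ofSubtype_apply_of_not_mem g (by simpa using hy)
  rw [Equiv.mul_swap_eq_swap_mul, h1, h2]

/-- `Perm (T \ K)` acts on the vectors fixed by `Perm K` -/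
def fixRep (ρ : Representation ℂ (Equiv.Perm T) W) (K : Finset T) :
    Representation ℂ (Equiv.Perm {t : T // t ∉ K}) (fixSub ρ K) where
  toFun g := (ρ (Equiv.Perm.ofSubtype g)).restrict (p := fixSub ρ K) (q := fixSub ρ K) (by
    intro v hv x hx y hy
    rw [← Module.End.mul_apply, ← map_mul, ofSubtype_swap_comm g hx hy, map_mul,
      Module.End.mul_apply, hv x hx y hy])
  map_one' := by
    ext v
    simp only [map_one]
    rfl
  map_mul' g g' := by
    ext v
    simp only [map_mul]
    rfl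

theorem fixRep_apply (ρ : Representation ℂ (Equiv.Perm T) W) (K : Finset T)
    (g : Equiv.Perm {t : T // t ∉ K}) (v : fixSub ρ K) :
    ((fixRep ρ K g v : fixSub ρ K) : W) = ρ (Equiv.Perm.ofSubtype g) (v : W) := rfl

/-- the bijection used for the H-step -/
noncomputable def thetaK {p : ℕ} (K : Finset T) (hK : K.card = p) :
    Fin p ⊕ {t : T // t ∉ K} ≃ T :=
  (Equiv.sumCongr (K.equivFinOfCardEq hK).symm (Equiv.refl _)).trans
      (Equiv.sumCompl (fun t => t ∈ K))

theorem thetaK_inl {p : ℕ} (K : Finset T) (hK : K.card = p) (i : Fin p) :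
    thetaK K hK (Sum.inl i) ∈ K := by
  simp [thetaK]

theorem thetaK_inr {p : ℕ} (K : Finset T) (hK : K.card = p) (t : {t : T // t ∉ K}) :
    thetaK K hK (Sum.inr t) = (t : T) := by
  simp [thetaK]

theorem exists_thetaK_inl {p : ℕ} (K : Finset T) (hK : K.card = p) {x : T} (hx : x ∈ K) :
    ∃ i, thetaK K hK (Sum.inl i) = x := by
  rcases h : (thetaK K hK).symm x with i | t
  · exact ⟨i, by rw [← h]; simp⟩
  · exfalso
    have h1 : thetaK K hK (Sum.inr t) = x := by rw [← h]; simp
    rw [thetaK_inr] at h1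
    exact t.2 (h1 ▸ hx)

theorem thetaK_permCongr {p : ℕ} (K : Finset T) (hK : K.card = p)
    (g : Equiv.Perm {t : T // t ∉ K}) :
    (thetaK K hK).permCongr (Equiv.Perm.sumCongr 1 g) = Equiv.Perm.ofSubtype g := by
  ext x
  rw [Equiv.permCongr_apply]
  rcases h : (thetaK K hK).symm x with i | t
  · have hx : thetaK K hK (Sum.inl i) = x := by rw [← h]; simp
    have hxK : x ∈ K := hx ▸ thetaK_inl K hK i
    have h1 : Equiv.Perm.ofSubtype g x = x :=
      Equiv.Perm.ofSubtype_apply_of_not_mem g (by simpa using hxK)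
    rw [h1]
    simpa using hx
  · have hx : thetaK K hK (Sum.inr t) = x := by rw [← h]; simp
    rw [thetaK_inr] at hx
    subst hx
    rw [Equiv.Perm.ofSubtype_apply_coe]
    simp [thetaK_inr]

theorem thetaK_swap {p : ℕ} (K : Finset T) (hK : K.card = p) (x y : Fin p) :
    (thetaK K hK).permCongr (Equiv.swap (Sum.inl x) (Sum.inl y))
        = Equiv.swap (thetaK K hK (Sum.inl x)) (thetaK K hK (Sum.inl y)) := by
  ext t
  simp [Equiv.permCongr_apply, Equiv.swap_apply_def, Equiv.symm_apply_eq]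
  split_ifs <;> simp_all

theorem fixedK_relRep {p : ℕ} (K : Finset T) (hK : K.card = p)
    (ρ : Representation ℂ (Equiv.Perm T) W) :
    fixedK (relRep (thetaK K hK) ρ) = fixSub ρ K := by
  ext v
  constructor
  · intro hv x hx y hy
    obtain ⟨i, rfl⟩ := exists_thetaK_inl K hK hx
    obtain ⟨j, rfl⟩ := exists_thetaK_inl K hK hy
    have h1 := hv (Equiv.swap i j)
    rw [Equiv.Perm.sumCongr_swap_one, relRep_apply, thetaK_swap] at h1
    exact h1
  · intro hv h
    induction h using Equiv.Perm.swap_induction_on with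
    | one => rw [Equiv.Perm.sumCongr_one, map_one]; rfl
    | swap_mul f x y hxy ih =>
      have h1 : Equiv.Perm.sumCongr (Equiv.swap x y * f) (1 : Equiv.Perm {t : T // t ∉ K})
          = Equiv.Perm.sumCongr (Equiv.swap x y) 1 * Equiv.Perm.sumCongr f 1 := by
        rw [Equiv.Perm.sumCongr_mul]; simp
      rw [h1, map_mul, Module.End.mul_apply, ih, Equiv.Perm.sumCongr_swap_one, relRep_apply,
        thetaK_swap]
      exact hv _ (thetaK_inl K hK x) _ (thetaK_inl K hK y)

/-- **relative H-step** -/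
theorem hstep_occ {p : ℕ} {a b : Finset (ℕ × ℕ)} (ha : ∀ c ∈ a, c.1 < p)
    (hb : ∀ c ∈ b, c.1 < p) (e : Fin p ≃ Fin p)
    (he : ∀ k : Fin p, min (rowlen a (e k)) (rowlen b (Fin.rev (e k))) < p - k)
    (K : Finset T) (hK : K.card = p) (ρ : Representation ℂ (Equiv.Perm T) W)
    (h : Occ (fixRep ρ K) (Kr {t : T // t ∉ K} a b)) :
    Occ ρ (Kr T (addCol p a) (addCol p b)) := by
  classical
  refine Occ.relabel (thetaK K hK) (hstep_sum_occ ha hb e he _ ?_)
  obtain ⟨φ, hφ0, hφm, hφe⟩ := h
  have hsub := fixedK_relRep K hK ρ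
  set ι : fixedK (relRep (thetaK K hK) ρ) ≃ₗ[ℂ] fixSub ρ K := LinearEquiv.ofEq _ _ hsub with hι
  refine ⟨φ.comp (ι : fixedK (relRep (thetaK K hK) ρ) →ₗ[ℂ] fixSub ρ K), ?_,
    fun v => hφm _, ?_⟩
  · intro h0
    apply hφ0
    ext v w
    have h1 := congrFun (LinearMap.congr_fun h0 (ι.symm v)) w
    simpa using h1
  · intro g v w
    simp only [LinearMap.comp_apply, LinearEquiv.coe_coe]
    have h1 : ι (fixedRep (relRep (thetaK K hK) ρ) g v) = fixRep ρ K g (ι v) := by
      apply Subtype.ext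
      change ((fixedRep (relRep (thetaK K hK) ρ) g v : fixedK _) : W) = _
      rw [fixedRep_apply, fixRep_apply, relRep_apply, thetaK_permCongr]
      rfl
    rw [h1, hφe]

/-- **relative H-step for Young diagrams** -/
theorem hstep_young_occ {p : ℕ} (μ ν : YoungDiagram) (hμ : μ.colLen 0 ≤ p) (hν : ν.colLen 0 ≤ p)
    (hc : ∀ s, μ.colLen s + ν.colLen s ≤ max p (2 * p - (s + 1)))
    (K : Finset T) (hK : K.card = p) (ρ : Representation ℂ (Equiv.Perm T) W)
    (h : Occ (fixRep ρ K) (Kr {t : T // t ∉ K} μ.cells ν.cells)) :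
    Occ ρ (Kr T (addCol p μ.cells) (addCol p ν.cells)) := by
  obtain ⟨e, he⟩ := young_enum μ ν hν hc
  exact hstep_occ (young_rows μ hμ) (young_rows ν hν) e he K hK ρ h

end fix

end Crest.Agent.R195
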