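import Crest.Agent.R195.HLink

/-! Row 195, H-step in representation form. -/

set_option autoImplicit false
set_option linter.unusedSectionVars false
set_option linter.unusedDecidableInType false

namespace Crest.Agent.R195

open Finset Function

section ddlin

variable {T X : Type*} [Fintype T] [DecidableEq T] [DecidableEq X]

theorem DD_add {k : ℕ} (q : Fin k → X) (Φ Ψ : (T → Option X) → ℂ) (w : T → Option X) :
    DD q (Φ + Ψ) w = DD q Φ w + DD q Ψ w := by
  unfold DD
  rw [← Finset.sum_add_distrib]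
  refine Finset.sum_congr rfl fun x _ => ?_
  split_ifs <;> simp

theorem DD_smul {k : ℕ} (q : Fin k → X) (c : ℂ) (Φ : (T → Option X) → ℂ) (w : T → Option X) :
    DD q (c • Φ) w = c * DD q Φ w := by
  unfold DD
  rw [Finset.mul_sum]
  refine Finset.sum_congr rfl fun x _ => ?_
  split_ifs <;> simp

theorem DD_sum {ι : Type*} (s : Finset ι) {k : ℕ} (q : Fin k → X)
    (Ψ : ι → (T → Option X) → ℂ) (w : T → Option X) :
    DD q (fun w => ∑ i ∈ s, Ψ i w) w = ∑ i ∈ s, DD q (Ψ i) w := by
  unfold DD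
  rw [Finset.sum_comm]
  refine Finset.sum_congr rfl fun x _ => ?_
  split_ifs <;> simp

theorem strip_comp {k : ℕ} (x : Fin k → T) (g : Equiv.Perm T) (w : T → Option X) :
    strip x (w ∘ g) = (strip (fun i => g (x i)) w) ∘ g := by
  funext t
  unfold strip
  simp only [comp_apply]
  have : (∃ i, x i = t) ↔ ∃ i, g (x i) = g t := by simp
  simp only [this]

theorem DD_act {k : ℕ} (q : Fin k → X) (Φ : (T → Option X) → ℂ) (g : Equiv.Perm T)
    (w : T → Option X) : DD q (fun w => Φ (w ∘ g)) w = DD q Φ (w ∘ g) := by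
  unfold DD
  symm
  refine Fintype.sum_equiv (Equiv.arrowCongr (Equiv.refl _) g) _ _ fun x => ?_
  have h1 : (Equiv.arrowCongr (Equiv.refl (Fin k)) g) x = fun i => g (x i) := rfl
  rw [h1, strip_comp]
  rfl

end ddlin

section fixed

variable {p : ℕ} {T : Type} [Fintype T] [DecidableEq T] {W : Type} [AddCommGroup W] [Module ℂ W]

/-- vectors fixed by the permutations of the letters `inl i` -/
def fixedK (ρ : Representation ℂ (Equiv.Perm (Fin p ⊕ T)) W) : Submodule ℂ W where
  carrier := {v | ∀ h : Equiv.Perm (Fin p), ρ (Equiv.Perm.sumCongr h 1) v = v}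
  add_mem' := by
    intro a b ha hb h
    rw [map_add, ha h, hb h]
  zero_mem' := by intro h; simp
  smul_mem' := by
    intro c v hv h
    rw [map_smul, hv h]

theorem sumCongr_comm (h : Equiv.Perm (Fin p)) (g : Equiv.Perm T) :
    Equiv.Perm.sumCongr h (1 : Equiv.Perm T) * Equiv.Perm.sumCongr (1 : Equiv.Perm (Fin p)) g
      = Equiv.Perm.sumCongr (1 : Equiv.Perm (Fin p)) g * Equiv.Perm.sumCongr h 1 := by
  rw [Equiv.Perm.sumCongr_mul, Equiv.Perm.sumCongr_mul]; simp

/-- `Perm T` acts on the fixed vectors -/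
def fixedRep (ρ : Representation ℂ (Equiv.Perm (Fin p ⊕ T)) W) :
    Representation ℂ (Equiv.Perm T) (fixedK ρ) where
  toFun g := (ρ (Equiv.Perm.sumCongr 1 g)).restrict (p := fixedK ρ) (q := fixedK ρ) (by
    intro v hv h
    have : ρ (Equiv.Perm.sumCongr h 1) (ρ (Equiv.Perm.sumCongr 1 g) v)
        = ρ (Equiv.Perm.sumCongr 1 g) (ρ (Equiv.Perm.sumCongr h 1) v) := by
      rw [← Module.End.mul_apply, ← Module.End.mul_apply, ← map_mul, ← map_mul, sumCongr_comm]
    rw [this, hv h])
  map_one' := by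
    ext v
    simp only [Equiv.Perm.sumCongr_one, map_one]
    rfl
  map_mul' g g' := by
    ext v
    have : Equiv.Perm.sumCongr (1 : Equiv.Perm (Fin p)) (g * g')
        = Equiv.Perm.sumCongr 1 g * Equiv.Perm.sumCongr 1 g' := by
      rw [Equiv.Perm.sumCongr_mul]; simp
    simp only [this, map_mul]
    rfl

theorem fixedRep_apply (ρ : Representation ℂ (Equiv.Perm (Fin p ⊕ T)) W) (g : Equiv.Perm T)
    (v : fixedK ρ) : ((fixedRep ρ g v : fixedK ρ) : W) = ρ (Equiv.Perm.sumCongr 1 g) (v : W) := rfl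

/-- averaging over the permutations of the letters `inl i` -/
noncomputable def avgK (ρ : Representation ℂ (Equiv.Perm (Fin p ⊕ T)) W) : W →ₗ[ℂ] fixedK ρ :=
  LinearMap.codRestrict (fixedK ρ)
    (((Fintype.card (Equiv.Perm (Fin p)) : ℂ)⁻¹) •
      ∑ h : Equiv.Perm (Fin p), (ρ (Equiv.Perm.sumCongr h 1)))
    (by
      intro v h
      simp only [LinearMap.smul_apply, LinearMap.sum_apply, map_smul, map_sum]
      congr 1
      refine Fintype.sum_equiv (Equiv.mulLeft h) _ _ fun h' => ?_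
      rw [← Module.End.mul_apply, ← map_mul, Equiv.Perm.sumCongr_mul]
      simp)

theorem avgK_apply (ρ : Representation ℂ (Equiv.Perm (Fin p ⊕ T)) W) (v : W) :
    ((avgK ρ v : fixedK ρ) : W) = ((Fintype.card (Equiv.Perm (Fin p)) : ℂ)⁻¹) •
      ∑ h : Equiv.Perm (Fin p), (ρ (Equiv.Perm.sumCongr h 1)) v := by
  change (((Fintype.card (Equiv.Perm (Fin p)) : ℂ)⁻¹) •
      ∑ h : Equiv.Perm (Fin p), (ρ (Equiv.Perm.sumCongr h 1))) v = _
  simp only [LinearMap.smul_apply, LinearMap.sum_apply]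

theorem avgK_fixed (ρ : Representation ℂ (Equiv.Perm (Fin p ⊕ T)) W) (v : fixedK ρ) :
    avgK ρ (v : W) = v := by
  apply Subtype.ext
  rw [avgK_apply]
  rw [Finset.sum_congr rfl fun h _ => v.2 h]
  simp only [Finset.sum_const, Finset.card_univ]
  rw [← Nat.cast_smul_eq_nsmul ℂ, smul_smul, inv_mul_cancel₀, one_smul]
  exact_mod_cast Fintype.card_ne_zero

/-- a permutation of `Fin p ⊕ T` preserving the letters `inl` -/
theorem exists_sumCongr (g : Equiv.Perm (Fin p ⊕ T)) (h : ∀ i, ∃ j, g (Sum.inl i) = Sum.inl j) :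
    ∃ g1 g2, g = Equiv.Perm.sumCongr g1 g2 := by
  have hm : Set.MapsTo g (Set.range (Sum.inl : Fin p → Fin p ⊕ T))
      (Set.range (Sum.inl : Fin p → Fin p ⊕ T)) := by
    rintro _ ⟨i, rfl⟩
    obtain ⟨j, hj⟩ := h i
    exact ⟨j, hj.symm⟩
  obtain ⟨x, hx⟩ := Equiv.Perm.mem_sumCongrHom_range_of_perm_mapsTo_inl hm
  exact ⟨x.1, x.2, hx.symm⟩

end fixed

section hstep

variable {p : ℕ} {T : Type} [Fintype T] [DecidableEq T] {W : Type} [AddCommGroup W] [Module ℂ W]

theorem extN_add (F G : (T → ℕ × ℕ) → ℂ) :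
    (extN (F + G) : (Fin p ⊕ T → Option (ℕ × ℕ)) → ℂ) = extN F + extN G := by
  funext w
  unfold extN
  simp only [Pi.add_apply]
  split_ifs <;> simp

theorem extN_smul (c : ℂ) (F : (T → ℕ × ℕ) → ℂ) :
    (extN (c • F) : (Fin p ⊕ T → Option (ℕ × ℕ)) → ℂ) = c • extN F := by
  funext w
  unfold extN
  simp only [Pi.smul_apply]
  split_ifs <;> simp

variable (ρ : Representation ℂ (Equiv.Perm (Fin p ⊕ T)) W)
  (α : fixedK ρ →ₗ[ℂ] ((T → ℕ × ℕ) → ℂ))

/-- the family with letters `none` -/
noncomputable def PhiV (v : W) (w : Fin p ⊕ T → Option (ℕ × ℕ)) : ℂ :=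
  ∑ g : Equiv.Perm (Fin p ⊕ T), extN (α (avgK ρ (ρ g⁻¹ v))) (w ∘ g)

theorem PhiV_add (v v' : W) : PhiV ρ α (v + v') = PhiV ρ α v + PhiV ρ α v' := by
  funext w
  unfold PhiV
  simp only [Pi.add_apply, map_add, extN_add, Finset.sum_add_distrib]

theorem PhiV_smul (c : ℂ) (v : W) : PhiV ρ α (c • v) = c • PhiV ρ α v := by
  funext w
  unfold PhiV
  simp only [Pi.smul_apply, map_smul, extN_smul, Finset.smul_sum]

theorem PhiV_act (g : Equiv.Perm (Fin p ⊕ T)) (v : W) (w : Fin p ⊕ T → Option (ℕ × ℕ)) :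
    PhiV ρ α (ρ g v) w = PhiV ρ α v (w ∘ g) := by
  unfold PhiV
  refine Fintype.sum_equiv (Equiv.mulLeft g⁻¹) _ _ fun h => ?_
  have h1 : ρ h⁻¹ (ρ g v) = ρ ((Equiv.mulLeft g⁻¹) h)⁻¹ v := by
    rw [← Module.End.mul_apply, ← map_mul]
    congr 2
  have h2 : (w ∘ g) ∘ ((Equiv.mulLeft g⁻¹) h) = w ∘ h := by
    funext t
    simp
  rw [h1, h2]

/-- the intertwiner -/
noncomputable def phiL : W →ₗ[ℂ] ((Fin p ⊕ T → ℕ × ℕ) → ℂ) where
  toFun v w := ∑ σ : Equiv.Perm (Fin p), ((Equiv.Perm.sign σ : ℤ) : ℂ) *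
      DD (cell σ) (PhiV ρ α v) (fun t => some (w t))
  map_add' v v' := by
    funext w
    simp only [Pi.add_apply]
    rw [← Finset.sum_add_distrib]
    refine Finset.sum_congr rfl fun σ _ => ?_
    rw [PhiV_add, DD_add, mul_add]
  map_smul' c v := by
    funext w
    simp only [Pi.smul_apply, smul_eq_mul, RingHom.id_apply]
    rw [Finset.mul_sum]
    refine Finset.sum_congr rfl fun σ _ => ?_
    rw [PhiV_smul, DD_smul]; ring

theorem phiL_apply (v : W) (w : Fin p ⊕ T → ℕ × ℕ) : phiL ρ α v w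
    = ∑ σ : Equiv.Perm (Fin p), ((Equiv.Perm.sign σ : ℤ) : ℂ) *
      DD (cell σ) (PhiV ρ α v) (fun t => some (w t)) := rfl

theorem phiL_act (g : Equiv.Perm (Fin p ⊕ T)) (v : W) (w : Fin p ⊕ T → ℕ × ℕ) :
    phiL ρ α (ρ g v) w = phiL ρ α v (w ∘ g) := by
  rw [phiL_apply, phiL_apply]
  refine Finset.sum_congr rfl fun σ _ => ?_
  congr 1
  have h1 : PhiV ρ α (ρ g v) = fun w => PhiV ρ α v (w ∘ g) := funext fun w => PhiV_act ρ α g v w
  rw [h1, DD_act]
  rfl

theorem phiL_mem {a b : Finset (ℕ × ℕ)} (hα : ∀ u, α u ∈ Kr T a b) (v : W) :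
    phiL ρ α v ∈ Kr (Fin p ⊕ T) (addCol p a) (addCol p b) := by
  have h1 : phiL ρ α v = ∑ g : Equiv.Perm (Fin p ⊕ T), (fun w : Fin p ⊕ T → ℕ × ℕ =>
      (fun w : Fin p ⊕ T → ℕ × ℕ => ∑ σ : Equiv.Perm (Fin p), ((Equiv.Perm.sign σ : ℤ) : ℂ) *
      DD (cell σ) (extN (α (avgK ρ (ρ g⁻¹ v)))) (fun t => some (w t))) (w ∘ g)) := by
    funext w
    rw [phiL_apply, Finset.sum_apply, Finset.sum_comm]
    refine Finset.sum_congr rfl fun σ _ => ?_
    rw [← Finset.mul_sum]
    congr 1
    unfold PhiV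
    rw [DD_sum]
    refine Finset.sum_congr rfl fun g _ => ?_
    rw [DD_act]
    rfl
  rw [h1]
  refine Submodule.sum_mem _ fun g _ => ?_
  exact Kr_act (DD_extN_mem (hα _)) g

end hstep

section content

variable {T : Type*} [Fintype T] [DecidableEq T]

theorem polyF_content {D : Finset (ℕ × ℕ)} {τ : T → ℕ × ℕ} (hτ : IsTab D τ) {w : T → ℕ}
    (hw : polyF τ w ≠ 0) (i : ℕ) : (univ.filter (fun t => w t = i)).card = rowlen D i := by
  obtain ⟨σ, -, hσ⟩ := polyF_support hw
  unfold rowlen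
  have h1 : (univ.filter (fun t => w t = i)) = (univ.filter (fun t => (τ t).1 = i)).map
      σ.toEmbedding := by
    ext t
    simp only [mem_filter, mem_univ, true_and, mem_map_equiv]
    have := hσ (σ.symm t)
    rw [Equiv.apply_symm_apply] at this
    rw [this]
  rw [h1, Finset.card_map, ← hτ.2, Finset.filter_image, Finset.card_image_of_injective _ hτ.1]

theorem Kr_content {a b : Finset (ℕ × ℕ)} {F : (T → ℕ × ℕ) → ℂ} (hF : F ∈ Kr T a b) :
    ∀ x : T → ℕ × ℕ, F x ≠ 0 → (∀ i, (univ.filter (fun t => (x t).1 = i)).card = rowlen a i) ∧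
      (∀ j, (univ.filter (fun t => (x t).2 = j)).card = rowlen b j) := by
  unfold Kr at hF
  induction hF using Submodule.span_induction with
  | mem f hf =>
    obtain ⟨τ, τ', hτ, hτ', rfl⟩ := hf
    intro x hx
    unfold prodF at hx
    exact ⟨polyF_content hτ (left_ne_zero_of_mul hx), polyF_content hτ' (right_ne_zero_of_mul hx)⟩
  | zero => intro x hx; exact absurd rfl hx
  | add f g _ _ hf hg =>
    intro x hx
    by_cases h : f x = 0
    · exact hg x (fun h' => hx (by simp [h, h']))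
    · exact hf x h
  | smul c f _ hf =>
    intro x hx
    exact hf x (fun h => hx (by simp [h]))

theorem cnt_comp {X : Type*} [DecidableEq X] (w : T → X) (g : Equiv.Perm T) (q : X) :
    cnt (w ∘ g) q = cnt w q := by
  unfold cnt
  have h1 : (univ.filter (fun t => w t = q)) = (univ.filter (fun t => (w ∘ g) t = q)).map
      g.toEmbedding := by
    ext t
    simp only [mem_filter, mem_univ, true_and, mem_map_equiv, comp_apply, Equiv.apply_symm_apply]
  rw [h1, Finset.card_map]

end content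

section final

variable {p : ℕ} {T : Type} [Fintype T] [DecidableEq T] {W : Type} [AddCommGroup W] [Module ℂ W]

theorem PhiV_base (ρ : Representation ℂ (Equiv.Perm (Fin p ⊕ T)) W)
    (α : fixedK ρ →ₗ[ℂ] ((T → ℕ × ℕ) → ℂ))
    (hα : ∀ (g : Equiv.Perm T) (u : fixedK ρ) (w : T → ℕ × ℕ),
      α (fixedRep ρ g u) w = α u (w ∘ g))
    (u : fixedK ρ) (x : T → ℕ × ℕ) (hx : α u x ≠ 0) :
    PhiV ρ α (u : W) (Sum.elim (fun _ => none) (fun t => some (x t))) ≠ 0 := by
  classical
  set w0 : Fin p ⊕ T → Option (ℕ × ℕ) := Sum.elim (fun _ => none) (fun t => some (x t)) with hw0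
  have key : ∀ g : Equiv.Perm (Fin p ⊕ T), extN (α (avgK ρ (ρ g⁻¹ (u : W)))) (w0 ∘ g)
      = if (∀ i, ∃ j, g (Sum.inl i) = Sum.inl j) then α u x else 0 := by
    intro g
    by_cases hg : ∀ i, ∃ j, g (Sum.inl i) = Sum.inl j
    · rw [if_pos hg]
      obtain ⟨g1, g2, rfl⟩ := exists_sumCongr g hg
      have h1 : (∀ i, (w0 ∘ Equiv.Perm.sumCongr g1 g2) (Sum.inl i) = none) ∧
          (∀ t, (w0 ∘ Equiv.Perm.sumCongr g1 g2) (Sum.inr t) ≠ none) := by
        refine ⟨fun i => ?_, fun t => ?_⟩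
        · simp [hw0]
        · simp [hw0]
      unfold extN
      rw [if_pos h1]
      have h2 : ρ (Equiv.Perm.sumCongr g1 g2)⁻¹ (u : W) = (fixedRep ρ g2⁻¹ u : W) := by
        rw [fixedRep_apply]
        have : (Equiv.Perm.sumCongr g1 g2)⁻¹ = Equiv.Perm.sumCongr 1 g2⁻¹
            * Equiv.Perm.sumCongr g1⁻¹ 1 := by
          rw [Equiv.Perm.sumCongr_mul, Equiv.Perm.sumCongr_inv]; simp
        rw [this, map_mul, Module.End.mul_apply, u.2 g1⁻¹]
      rw [h2, avgK_fixed, hα]
      refine congrArg (α u) (funext fun t => ?_)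
      simp [hw0]
    · rw [if_neg hg]
      unfold extN
      rw [if_neg]
      rintro ⟨h1, -⟩
      apply hg
      intro i
      have := h1 i
      rcases hgi : g (Sum.inl i) with j | t
      · exact ⟨j, rfl⟩
      · simp [hw0, hgi] at this
  unfold PhiV
  rw [Finset.sum_congr rfl fun g _ => key g, ← Finset.sum_filter, Finset.sum_const, nsmul_eq_mul]
  refine mul_ne_zero ?_ hx
  have : (univ.filter (fun g : Equiv.Perm (Fin p ⊕ T) =>
      ∀ i, ∃ j, g (Sum.inl i) = Sum.inl j)).Nonempty :=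
    ⟨1, by simp⟩
  exact_mod_cast this.card_pos.ne'

theorem PhiV_content {a b : Finset (ℕ × ℕ)} (ρ : Representation ℂ (Equiv.Perm (Fin p ⊕ T)) W)
    (α : fixedK ρ →ₗ[ℂ] ((T → ℕ × ℕ) → ℂ)) (hα : ∀ u, α u ∈ Kr T a b) (v : W)
    (w : Fin p ⊕ T → Option (ℕ × ℕ)) (hw : PhiV ρ α v w ≠ 0) :
    cnt w none = p ∧ ∀ i j, cnt w (some (i, j)) ≤ min (rowlen a i) (rowlen b j) := by
  classical
  unfold PhiV at hw
  obtain ⟨g, -, hg⟩ := Finset.exists_ne_zero_of_sum_ne_zero hw
  set y := w ∘ g with hy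
  have hcnt : ∀ q, cnt w q = cnt y q := fun q => (cnt_comp w g q).symm
  unfold extN at hg
  by_cases hc : (∀ i, y (Sum.inl i) = none) ∧ (∀ t, y (Sum.inr t) ≠ none)
  · rw [if_pos hc] at hg
    have hcont := Kr_content (hα _) _ hg
    constructor
    · rw [hcnt]
      unfold cnt
      have : (univ.filter (fun t => y t = none)) = univ.image (Sum.inl : Fin p → Fin p ⊕ T) := by
        ext z
        simp only [mem_filter, mem_univ, true_and, mem_image]
        rcases z with i | t
        · exact ⟨fun _ => ⟨i, rfl⟩, fun _ => hc.1 i⟩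
        · exact ⟨fun h => absurd h (hc.2 t), fun ⟨j, hj⟩ => absurd hj (by simp)⟩
      rw [this, Finset.card_image_of_injective _ Sum.inl_injective]; simp
    · intro i j
      rw [hcnt]
      have h1 : cnt y (some (i, j)) = (univ.filter (fun t : T => y (Sum.inr t) = some (i, j))).card := by
        unfold cnt
        rw [← Finset.card_image_of_injective (univ.filter (fun t : T => y (Sum.inr t) = some (i, j)))
          (Sum.inr_injective : Injective (Sum.inr : T → Fin p ⊕ T))]
        congr 1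
        ext z
        simp only [mem_filter, mem_univ, true_and, mem_image]
        rcases z with k | t
        · constructor
          · intro h; rw [hc.1 k] at h; exact absurd h (by simp)
          · rintro ⟨t, -, ht⟩; exact absurd ht (by simp)
        · constructor
          · intro h; exact ⟨t, h, rfl⟩
          · rintro ⟨s, hs, hst⟩
            rw [← hst]; exact hs
      rw [h1, le_min_iff, ← hcont.1 i, ← hcont.2 j]
      constructor
      · refine Finset.card_le_card fun t => ?_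
        simp only [mem_filter, mem_univ, true_and]
        intro h; rw [h]; rfl
      · refine Finset.card_le_card fun t => ?_
        simp only [mem_filter, mem_univ, true_and]
        intro h; rw [h]; rfl
  · rw [if_neg hc] at hg; exact absurd rfl hg

/-- embed the letters -/
def embL (p : ℕ) : Option (Fin p × Fin p) → Option (ℕ × ℕ) :=
  Option.map (fun c => ((c.1 : ℕ), (c.2 : ℕ)))

theorem embL_inj (p : ℕ) : Injective (embL p) := by
  refine Option.map_injective ?_
  intro c d h
  exact Prod.ext (Fin.ext (Prod.mk.inj h).1) (Fin.ext (Prod.mk.inj h).2)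

theorem DD_emb (σ : Equiv.Perm (Fin p)) (Φ : (Fin p ⊕ T → Option (ℕ × ℕ)) → ℂ)
    (w : Fin p ⊕ T → Option (Fin p × Fin p)) :
    DD (fun i => (i, σ i)) (fun w => Φ (embL p ∘ w)) w = DD (cell σ) Φ (embL p ∘ w) := by
  classical
  unfold DD
  refine Finset.sum_congr rfl fun x _ => ?_
  have h1 : (∀ i, w (x i) = some (i, σ i)) ↔ (∀ i, (embL p ∘ w) (x i) = some (cell σ i)) := by
    constructor
    · intro h i
      simp [h i, embL, cell]
    · intro h i
      have h2 := h i
      apply embL_inj p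
      rw [comp_apply] at h2
      rw [h2]; rfl
  have h2 : embL p ∘ strip x w = strip x (embL p ∘ w) := by
    funext t
    unfold strip
    simp only [comp_apply]
    split_ifs <;> rfl
  by_cases h : ∀ i, w (x i) = some (i, σ i)
  · rw [if_pos h, if_pos (h1.1 h)]
    simp only [h2]
  · rw [if_neg h, if_neg (fun h' => h (h1.2 h'))]

/-- **H-step**, relative form: it suffices that the fixed vectors of `Perm (Fin p)` occur. -/
theorem hstep_sum_occ {a b : Finset (ℕ × ℕ)} (ha : ∀ c ∈ a, c.1 < p) (hb : ∀ c ∈ b, c.1 < p)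
    (e : Fin p ≃ Fin p)
    (he : ∀ k : Fin p, min (rowlen a (e k)) (rowlen b (Fin.rev (e k))) < p - k)
    (ρ : Representation ℂ (Equiv.Perm (Fin p ⊕ T)) W) (hocc : Occ (fixedRep ρ) (Kr T a b)) :
    Occ ρ (Kr (Fin p ⊕ T) (addCol p a) (addCol p b)) := by
  classical
  obtain ⟨α, hα0, hαm, hαe⟩ := hocc
  refine ⟨phiL ρ α, ?_, fun v => phiL_mem ρ α hαm v, fun g v w => phiL_act ρ α g v w⟩
  intro hzero
  obtain ⟨u, hu⟩ : ∃ u, α u ≠ 0 := by
    by_contra hcon
    push Not at hcon
    exact hα0 (LinearMap.ext hcon)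
  obtain ⟨x, hx⟩ : ∃ x, α u x ≠ 0 := by
    by_contra hcon
    push Not at hcon
    exact hu (funext hcon)
  have hbase := PhiV_base ρ α hαe u x hx
  have hcontent := fun w hw => PhiV_content ρ α hαm (u : W) w hw
  have hemb0 : ∀ (w : Fin p ⊕ T → Option (Fin p × Fin p)) (q : Option (Fin p × Fin p)),
      cnt w q = cnt (embL p ∘ w) (embL p q) := by
    intro w q
    unfold cnt
    congr 1
    ext t
    simp only [mem_filter, mem_univ, true_and, comp_apply]
    exact ⟨fun h => by rw [h], fun h => embL_inj p h⟩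
  have hz := hcore e (fun w => PhiV ρ α (u : W) (embL p ∘ w)) ?_ ?_ ?_
  · -- contradiction with the base word
    have hxp : ∀ t, (x t).1 < p ∧ (x t).2 < p := by
      intro t
      have hc := Kr_content (hαm u) x hx
      constructor
      · have h1 : 0 < rowlen a (x t).1 := by
          rw [← hc.1 (x t).1]
          exact Finset.card_pos.2 ⟨t, by simp⟩
        obtain ⟨c, hcm⟩ := Finset.card_pos.1 h1
        have := Finset.mem_filter.1 hcm
        rw [← this.2]; exact ha c this.1
      · have h1 : 0 < rowlen b (x t).2 := by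
          rw [← hc.2 (x t).2]
          exact Finset.card_pos.2 ⟨t, by simp⟩
        obtain ⟨c, hcm⟩ := Finset.card_pos.1 h1
        have := Finset.mem_filter.1 hcm
        rw [← this.2]; exact hb c this.1
    have h1 := hz (Sum.elim (fun _ => none)
      (fun t => some (⟨(x t).1, (hxp t).1⟩, ⟨(x t).2, (hxp t).2⟩)))
    apply hbase
    rw [← h1]
    congr 1
    funext z
    rcases z with i | t
    · rfl
    · simp [embL]
  · intro w hw
    rw [hemb0]
    exact (hcontent _ hw).1
  · intro w hw k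
    rw [hemb0]
    exact lt_of_le_of_lt ((hcontent _ hw).2 _ _) (he k)
  · intro w
    by_cases hwn : ∀ z, w z ≠ none
    · have h1 : ∀ z, ∃ c, w z = some c := fun z => Option.ne_none_iff_exists'.1 (hwn z)
      choose c hc using h1
      have h2 : embL p ∘ w = fun z => some (((c z).1 : ℕ), ((c z).2 : ℕ)) := by
        funext z
        simp [hc z, embL]
      have h3 := congrFun (LinearMap.congr_fun hzero (u : W))
        (fun z => (((c z).1 : ℕ), ((c z).2 : ℕ)))
      rw [phiL_apply] at h3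
      rw [← h2] at h3
      simp only [LinearMap.zero_apply, Pi.zero_apply] at h3
      rw [← h3]
      refine Finset.sum_congr rfl fun σ _ => ?_
      rw [DD_emb]
    · push Not at hwn
      obtain ⟨z, hz⟩ := hwn
      refine Finset.sum_eq_zero fun σ _ => ?_
      have : DD (fun i => (i, σ i)) (fun w => PhiV ρ α (u : W) (embL p ∘ w)) w = 0 := by
        unfold DD
        refine Finset.sum_eq_zero fun y _ => ?_
        by_cases hy : ∀ i, w (y i) = some (i, σ i)
        · rw [if_pos hy]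
          by_contra hne
          have h1 := (hcontent _ hne).1
          have h2 := hemb0 (strip y w) none
          have h3 : embL p none = none := rfl
          rw [h3, h1] at h2
          have h4 := cnt_strip_none (fun i => (i, σ i)) (fun i j hij => (Prod.mk.inj hij).1) y w hy
          rw [h4] at h2
          have h5 : 0 < cnt w none := Finset.card_pos.2 ⟨z, by simp [hz]⟩
          omega
        · rw [if_neg hy]
      rw [this, mul_zero]

/-- **H-step** (column of length `p` added on the left of both shapes). -/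
theorem hstep_sum {a b : Finset (ℕ × ℕ)} (ha : ∀ c ∈ a, c.1 < p) (hb : ∀ c ∈ b, c.1 < p)
    (e : Fin p ≃ Fin p)
    (he : ∀ k : Fin p, min (rowlen a (e k)) (rowlen b (Fin.rev (e k))) < p - k)
    (hT : Fintype.card T = a.card) (hfull : Full a b)
    (ρ : Representation ℂ (Equiv.Perm (Fin p ⊕ T)) W) (v : W) (hv0 : v ≠ 0)
    (hv : ∀ h : Equiv.Perm (Fin p), ρ (Equiv.Perm.sumCongr h 1) v = v) :
    Occ ρ (Kr (Fin p ⊕ T) (addCol p a) (addCol p b)) :=
  hstep_sum_occ ha hb e he ρ (hfull T hT (fixedK ρ) (fixedRep ρ)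
    ⟨⟨v, hv⟩, fun h => hv0 (congrArg Subtype.val h)⟩)

end final

end Crest.Agent.R195
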