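import Crest.Agent.R195.Zig3

/-! Row 195.  Hit operators `A(G,u) = ∑_g G(u ∘ g) ρ(g⁻¹)` and the product step. -/

set_option autoImplicit false
set_option linter.unusedSectionVars false
set_option linter.unusedDecidableInType false

namespace Crest.Agent.R195

open Finset Function

section hit

variable {T : Type*} [Fintype T] [DecidableEq T]
variable {W : Type*} [AddCommGroup W] [Module ℂ W]

/-- the operator `A(G,u) x = ∑ g, G (u ∘ g) • ρ g⁻¹ x` -/
noncomputable def hitOp (ρ : Representation ℂ (Equiv.Perm T) W) (G : (T → ℕ × ℕ) → ℂ)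
    (u : T → ℕ × ℕ) : W →ₗ[ℂ] W := ∑ g : Equiv.Perm T, G (u ∘ g) • ρ g⁻¹

theorem hitOp_apply (ρ : Representation ℂ (Equiv.Perm T) W) (G : (T → ℕ × ℕ) → ℂ)
    (u : T → ℕ × ℕ) (x : W) : hitOp ρ G u x = ∑ g : Equiv.Perm T, G (u ∘ g) • ρ g⁻¹ x := by
  simp [hitOp, LinearMap.sum_apply]

/-- right translation of the word -/
theorem hitOp_comp (ρ : Representation ℂ (Equiv.Perm T) W) (G : (T → ℕ × ℕ) → ℂ)
    (u : T → ℕ × ℕ) (h : Equiv.Perm T) (x : W) :
    hitOp ρ G (u ∘ h) x = hitOp ρ G u (ρ h x) := by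
  rw [hitOp_apply, hitOp_apply,
    ← Equiv.sum_comp (Equiv.mulLeft h) (fun g => G (u ∘ g) • ρ g⁻¹ (ρ h x))]
  refine Finset.sum_congr rfl fun g _ => ?_
  have h1 : ρ (Equiv.mulLeft h g)⁻¹ (ρ h x) = ρ g⁻¹ x := by
    rw [← Module.End.mul_apply, ← map_mul]
    congr 2
    change (h * g)⁻¹ * h = g⁻¹
    group
  rw [h1]
  rfl

/-- a nonzero value of a hit operator with `G ∈ Kr` gives an occurrence -/
theorem occ_of_hit {ρ : Representation ℂ (Equiv.Perm T) W} {D E : Finset (ℕ × ℕ)}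
    {G : (T → ℕ × ℕ) → ℂ} (hG : G ∈ Kr T D E) {u : T → ℕ × ℕ} {x : W}
    (h : hitOp ρ G u x ≠ 0) : Occ ρ (Kr T D E) := by
  classical
  obtain ⟨ℓ, hℓ⟩ : ∃ ℓ : Module.Dual ℂ W, ℓ (hitOp ρ G u x) ≠ 0 := by
    by_contra hcon
    push Not at hcon
    exact h ((Module.forall_dual_apply_eq_zero_iff ℂ _).1 hcon)
  let φ : W →ₗ[ℂ] ((T → ℕ × ℕ) → ℂ) := LinearMap.pi fun v => ℓ ∘ₗ hitOp ρ G v
  have hφ : ∀ y v, φ y v = ℓ (hitOp ρ G v y) := fun y v => rfl
  refine ⟨φ, ?_, ?_, ?_⟩
  · intro h0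
    apply hℓ
    rw [← hφ, h0]
    rfl
  · intro y
    have : φ y = ∑ g : Equiv.Perm T, ℓ (ρ g⁻¹ y) • (fun v => G (v ∘ g)) := by
      funext v
      rw [hφ, hitOp_apply, map_sum, Finset.sum_apply]
      refine Finset.sum_congr rfl fun g _ => ?_
      rw [map_smul]
      simp only [Pi.smul_apply, smul_eq_mul]
      ring
    rw [this]
    exact Submodule.sum_mem _ fun g _ => Submodule.smul_mem _ _ (Kr_act hG g)
  · intro g y v
    rw [hφ, hφ, hitOp_comp]

/-- restriction of a representation to the permutations of the letters satisfying `p` -/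
def resRepP (p : T → Prop) [DecidablePred p] (ρ : Representation ℂ (Equiv.Perm T) W) :
    Representation ℂ (Equiv.Perm {t // p t}) W :=
  ρ.comp ((Equiv.Perm.subtypeCongrHom p).comp (MonoidHom.inl _ _))

/-- restriction of a representation to the permutations of the letters not satisfying `p` -/
def resRepN (p : T → Prop) [DecidablePred p] (ρ : Representation ℂ (Equiv.Perm T) W) :
    Representation ℂ (Equiv.Perm {t // ¬ p t}) W :=
  ρ.comp ((Equiv.Perm.subtypeCongrHom p).comp (MonoidHom.inr _ _))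

theorem resRepP_apply (p : T → Prop) [DecidablePred p] (ρ : Representation ℂ (Equiv.Perm T) W)
    (a : Equiv.Perm {t // p t}) : resRepP p ρ a = ρ (Equiv.Perm.subtypeCongr a 1) := rfl

theorem resRepN_apply (p : T → Prop) [DecidablePred p] (ρ : Representation ℂ (Equiv.Perm T) W)
    (b : Equiv.Perm {t // ¬ p t}) : resRepN p ρ b = ρ (Equiv.Perm.subtypeCongr 1 b) := rfl

theorem rho_subtypeCongr (p : T → Prop) [DecidablePred p]
    (ρ : Representation ℂ (Equiv.Perm T) W) (a : Equiv.Perm {t // p t})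
    (b : Equiv.Perm {t // ¬ p t}) (x : W) :
    ρ (Equiv.Perm.subtypeCongr a b) x = resRepP p ρ a (resRepN p ρ b x) := by
  rw [resRepP_apply, resRepN_apply, ← Module.End.mul_apply, ← map_mul]
  congr 2
  have := map_mul (Equiv.Perm.subtypeCongrHom p) (a, 1) (1, b)
  simp only [Prod.mk_mul_mk, mul_one, one_mul] at this
  exact this

theorem resRep_comm (p : T → Prop) [DecidablePred p]
    (ρ : Representation ℂ (Equiv.Perm T) W) (a : Equiv.Perm {t // p t})
    (b : Equiv.Perm {t // ¬ p t}) (x : W) :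
    resRepP p ρ a (resRepN p ρ b x) = resRepN p ρ b (resRepP p ρ a x) := by
  rw [resRepP_apply, resRepN_apply, ← Module.End.mul_apply, ← Module.End.mul_apply, ← map_mul,
    ← map_mul]
  congr 2
  have h1 := map_mul (Equiv.Perm.subtypeCongrHom p) (a, 1) (1, b)
  have h2 := map_mul (Equiv.Perm.subtypeCongrHom p) (1, b) (a, 1)
  simp only [Prod.mk_mul_mk, mul_one, one_mul] at h1 h2
  exact h1.symm.trans h2

theorem subtypeCongr_inv (p : T → Prop) [DecidablePred p] (a : Equiv.Perm {t // p t})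
    (b : Equiv.Perm {t // ¬ p t}) :
    (Equiv.Perm.subtypeCongr a b)⁻¹ = Equiv.Perm.subtypeCongr a⁻¹ b⁻¹ := by
  have := map_inv (Equiv.Perm.subtypeCongrHom p) (a, b)
  exact this.symm

/-- lower bound for the cost on the support of `G`, with the cells in `Z` at equality -/
def Bd (G : (T → ℕ × ℕ) → ℂ) (Z : Set (ℕ × ℕ)) (c : ℕ) : Prop :=
  ∀ v, G v ≠ 0 → c ≤ cost v ∧ (cost v = c → ∀ t, v t ∈ Z)

/-- product of functions of words on complementary sets of letters -/
def mulG (p : T → Prop) (G' : ({t // p t} → ℕ × ℕ) → ℂ) (G'' : ({t // ¬ p t} → ℕ × ℕ) → ℂ) :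
    (T → ℕ × ℕ) → ℂ := fun w => G' (resP p w) * G'' (resN p w)

theorem Bd.mul {p : T → Prop} [DecidablePred p] {G' : ({t // p t} → ℕ × ℕ) → ℂ}
    {G'' : ({t // ¬ p t} → ℕ × ℕ) → ℂ} {Z' Z'' : Set (ℕ × ℕ)} {c' c'' : ℕ}
    (h' : Bd G' Z' c') (h'' : Bd G'' Z'' c'') :
    Bd (mulG p G' G'') (Z' ∪ Z'') (c' + c'') := by
  intro v hv
  have h1 := h' _ (left_ne_zero_of_mul hv)
  have h2 := h'' _ (right_ne_zero_of_mul hv)
  have h3 := cost_res p v
  refine ⟨by omega, fun hc t => ?_⟩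
  by_cases ht : p t
  · exact Or.inl (h1.2 (by omega) ⟨t, ht⟩)
  · exact Or.inr (h2.2 (by omega) ⟨t, ht⟩)

/-- **Product step** for hit operators. -/
theorem hitOp_mul {p : T → Prop} [DecidablePred p] (ρ : Representation ℂ (Equiv.Perm T) W)
    {G' : ({t // p t} → ℕ × ℕ) → ℂ} {G'' : ({t // ¬ p t} → ℕ × ℕ) → ℂ}
    {Z' Z'' : Set (ℕ × ℕ)} {c' c'' : ℕ} (h' : Bd G' Z' c') (h'' : Bd G'' Z'' c'')
    (hZ : Disjoint Z' Z'') {u' : {t // p t} → ℕ × ℕ} {u'' : {t // ¬ p t} → ℕ × ℕ}
    (hu' : cost u' = c') (hu'' : cost u'' = c'') (hZ' : ∀ t, u' t ∈ Z') (hZ'' : ∀ t, u'' t ∈ Z'')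
    (x : W) :
    hitOp ρ (mulG p G' G'') (glueW p u' u'') x =
      hitOp (resRepP p ρ) G' u' (hitOp (resRepN p ρ) G'' u'' x) := by
  classical
  set u : T → ℕ × ℕ := glueW p u' u'' with hu
  have hcu : cost u = c' + c'' := by
    rw [cost_res p, hu, resP_glueW, resN_glueW, hu', hu'']
  have hF : ∀ g : Equiv.Perm T, (¬ ∀ i, p (g i) ↔ p i) →
      mulG p G' G'' (u ∘ g) • ρ g⁻¹ x = 0 := by
    intro g hg
    have : mulG p G' G'' (u ∘ g) = 0 := by
      by_contra hcon
      apply hg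
      have h1 := h' _ (left_ne_zero_of_mul hcon)
      have h2 := h'' _ (right_ne_zero_of_mul hcon)
      have h3 : cost u = cost (resP p (u ∘ g)) + cost (resN p (u ∘ g)) := by
        rw [← cost_res, cost_comp]
      have h4 := h1.2 (by omega)
      have h5 := h2.2 (by omega)
      have hdis : ∀ c, c ∈ Z' → c ∈ Z'' → False := fun c hc hc' =>
        Set.disjoint_left.1 hZ hc hc'
      intro i
      constructor
      · intro hi
        by_contra hni
        have h6 := h5 ⟨i, hni⟩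
        simp only [resN, comp_apply] at h6
        have h7 : u (g i) = u' ⟨g i, hi⟩ := by rw [hu]; simp [glueW, hi]
        rw [h7] at h6
        exact hdis _ (hZ' _) h6
      · intro hi
        by_contra hni
        have h6 := h4 ⟨i, hi⟩
        simp only [resP, comp_apply] at h6
        have h7 : u (g i) = u'' ⟨g i, hni⟩ := by rw [hu]; simp [glueW, hni]
        rw [h7] at h6
        exact hdis _ h6 (hZ'' _)
    rw [this, zero_smul]
  rw [hitOp_apply, sum_perm_preserving p _ hF, hitOp_apply]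
  refine Finset.sum_congr rfl fun a _ => ?_
  rw [hitOp_apply, map_sum, Finset.smul_sum]
  refine Finset.sum_congr rfl fun b _ => ?_
  rw [subtypeCongr_inv, rho_subtypeCongr, map_smul, smul_smul]
  congr 1
  unfold mulG
  rw [resP_congr, resN_congr, hu, resP_glueW, resN_glueW]

end hit

end Crest.Agent.R195
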