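import Crest.Agent.R195.Hit1
import Crest.Agent.R195.Zig4
import Crest.Agent.R195.ChainGadget
import Crest.Agent.R195.DupGadget

/-! Row 195.  Hits with cost bounds: the single blocks (pair, rectangle, duplicate). -/

set_option autoImplicit false
set_option linter.unusedSectionVars false
set_option linter.unusedDecidableInType false

namespace Crest.Agent.R195

open Finset Function Equiv

section cyc

variable {T : Type*} [Fintype T] [DecidableEq T]
variable {W : Type*} [AddCommGroup W] [Module ℂ W]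

/-- the cyclic submodule generated by `y` -/
def cyc (ρ : Representation ℂ (Perm T) W) (y : W) : Submodule ℂ W :=
  Submodule.span ℂ (Set.range fun g => ρ g y)

theorem mem_cyc (ρ : Representation ℂ (Perm T) W) (y : W) : y ∈ cyc ρ y :=
  Submodule.subset_span ⟨1, by simp⟩

theorem cyc_stable (ρ : Representation ℂ (Perm T) W) (y : W) :
    ∀ g, ∀ u ∈ cyc ρ y, ρ g u ∈ cyc ρ y := by
  intro g x hx
  unfold cyc at hx
  induction hx using Submodule.span_induction with
  | mem z hz =>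
    obtain ⟨h, rfl⟩ := hz
    refine Submodule.subset_span ⟨g * h, ?_⟩
    simp only [map_mul, Module.End.mul_apply]
  | zero => rw [map_zero]; exact Submodule.zero_mem _
  | add a b _ _ ha hb => rw [map_add]; exact Submodule.add_mem _ ha hb
  | smul a b _ hb => rw [map_smul]; exact Submodule.smul_mem _ a hb

/-- a hit in the cyclic module gives a hit at the generator -/
theorem hit_cyc (ρ : Representation ℂ (Perm T) W) (y : W) (G : (T → ℕ × ℕ) → ℂ)
    (u : T → ℕ × ℕ)
    (h : ∃ x : cyc ρ y, ∑ g : Perm T, G (u ∘ g) • subRep ρ (cyc ρ y) (cyc_stable ρ y) g⁻¹ x ≠ 0) :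
    ∃ k : Perm T, hitOp ρ G (u ∘ k) y ≠ 0 := by
  by_contra hcon
  push Not at hcon
  obtain ⟨x, hx⟩ := h
  apply hx
  have hL : ∀ z ∈ cyc ρ y, hitOp ρ G u z = 0 := by
    intro z hz
    unfold cyc at hz
    induction hz using Submodule.span_induction with
    | mem z hz =>
      obtain ⟨k, rfl⟩ := hz
      rw [← hitOp_comp]
      exact hcon k
    | zero => rw [map_zero]
    | add a b _ _ ha hb => rw [map_add, ha, hb, add_zero]
    | smul a b _ hb => rw [map_smul, hb, smul_zero]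
  apply Subtype.ext
  have h2 := hL x x.2
  rw [hitOp_apply] at h2
  rw [Submodule.coe_sum]
  simpa [subRep_coe] using h2

end cyc

/-- a hit at `x`: a function in the kernel space of `D, E`, cost bounded below, cells in `Z` at
minimal cost, the hit operator at a word of minimal cost does not kill `x`. -/
def HitZ {T : Type*} [Fintype T] [DecidableEq T] {W : Type*} [AddCommGroup W] [Module ℂ W]
    (ρ : Representation ℂ (Perm T) W) (D E : Finset (ℕ × ℕ)) (Z : Set (ℕ × ℕ)) (x : W) : Prop :=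
  ∃ (c : ℕ) (G : (T → ℕ × ℕ) → ℂ), G ∈ Kr T D E ∧ Bd G Z c ∧
    ∃ u : T → ℕ × ℕ, cost u = c ∧ (∀ t, u t ∈ Z) ∧ hitOp ρ G u x ≠ 0

theorem HitZ.occ {T : Type*} [Fintype T] [DecidableEq T] {W : Type*} [AddCommGroup W] [Module ℂ W]
    {ρ : Representation ℂ (Perm T) W} {D E : Finset (ℕ × ℕ)} {Z : Set (ℕ × ℕ)} {x : W}
    (h : HitZ ρ D E Z x) : Occ ρ (Kr T D E) := by
  obtain ⟨c, G, hG, -, u, -, -, hx⟩ := h
  exact occ_of_hit hG hx

/-- a hit with a dual certificate -/
theorem hitZ_of_cert {T : Type*} [Fintype T] [DecidableEq T] {W : Type*} [AddCommGroup W]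
    [Module ℂ W] {ρ : Representation ℂ (Perm T) W} {D E : Finset (ℕ × ℕ)} {Z : Set (ℕ × ℕ)} {x : W}
    {N : ℕ} (hN : 0 < N) (α β : ℕ → ℤ)
    (hle : ∀ i j, α i + β j ≤ N * (i * j)) (heq : ∀ i j, α i + β j = N * (i * j) ↔ (i, j) ∈ Z)
    (h : ∃ G ∈ Kr T D E, ∃ u : T → ℕ × ℕ, (∀ t, u t ∈ Z) ∧ hitOp ρ G u x ≠ 0) :
    HitZ ρ D E Z x := by
  obtain ⟨G, hG, u, hu, hx⟩ := h
  have h1 : ∃ g : Perm T, G (u ∘ g) ≠ 0 := by
    by_contra hcon
    push Not at hcon
    apply hx
    rw [hitOp_apply]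
    refine Finset.sum_eq_zero fun g _ => ?_
    rw [hcon g, zero_smul]
  obtain ⟨g, hg⟩ := h1
  have hb := Kr_cost_bound hN α β hle heq hG hg (fun t => hu (g t))
  refine ⟨cost u, G, hG, ?_, u, rfl, hu, hx⟩
  intro v hv
  have := hb.2 G hG v hv
  rw [cost_comp] at this
  exact this

section cert

theorem anti_le (c : ℕ) (i j : ℕ) : (-(i : ℤ) ^ 2 + 2 * ((c : ℤ) - 1) * i - ((c : ℤ) - 1) ^ 2) +
    (-(j : ℤ) ^ 2 + 2 * ((c : ℤ) - 1) * j) ≤ ((2 : ℕ) : ℤ) * ((i : ℤ) * j) := by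
  have := sq_nonneg ((i : ℤ) + j - (c - 1))
  push_cast
  nlinarith

theorem anti_eq (c : ℕ) (i j : ℕ) : (-(i : ℤ) ^ 2 + 2 * ((c : ℤ) - 1) * i - ((c : ℤ) - 1) ^ 2) +
    (-(j : ℤ) ^ 2 + 2 * ((c : ℤ) - 1) * j) = ((2 : ℕ) : ℤ) * ((i : ℤ) * j) ↔
    (i, j) ∈ antiZ c := by
  simp only [antiZ, Set.mem_ofPred_eq]
  constructor
  · intro h
    have h2 : ((i : ℤ) + j - (c - 1)) ^ 2 = 0 := by push_cast at h; nlinarith
    have h3 : (i : ℤ) + j - (c - 1) = 0 := by simpa using h2
    omega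
  · intro h
    have : (c : ℤ) = i + j + 1 := by exact_mod_cast h.symm
    rw [this]
    push_cast
    ring

theorem zig_le (c : ℕ) (i j : ℕ) :
    (-(i : ℤ) ^ 2 + (2 * (c : ℤ) - 3) * i - ((c : ℤ) - 1) * (c - 2)) +
    (-(j : ℤ) ^ 2 + (2 * (c : ℤ) - 3) * j) ≤ ((2 : ℕ) : ℤ) * ((i : ℤ) * j) := by
  have : 0 ≤ ((i : ℤ) + j - (c - 1)) * ((i : ℤ) + j - (c - 2)) := by
    rcases le_or_gt ((c : ℤ) - 1) (i + j) with h | h
    · exact mul_nonneg (by linarith) (by linarith)
    · have h' : (i : ℤ) + j ≤ c - 2 := by omega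
      exact mul_nonneg_of_nonpos_of_nonpos (by linarith) (by linarith)
  push_cast
  nlinarith

theorem zig_eq (c : ℕ) (i j : ℕ) :
    (-(i : ℤ) ^ 2 + (2 * (c : ℤ) - 3) * i - ((c : ℤ) - 1) * (c - 2)) +
    (-(j : ℤ) ^ 2 + (2 * (c : ℤ) - 3) * j) = ((2 : ℕ) : ℤ) * ((i : ℤ) * j) ↔
    (i, j) ∈ zigZ c := by
  simp only [zigZ, Set.mem_ofPred_eq]
  constructor
  · intro h
    have h2 : ((i : ℤ) + j - (c - 1)) * ((i : ℤ) + j - (c - 2)) = 0 := by
      push_cast at h; nlinarith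
    rcases mul_eq_zero.1 h2 with h3 | h3
    · left; omega
    · right; omega
  · rintro (h | h)
    · have : (c : ℤ) = i + j + 1 := by exact_mod_cast h.symm
      rw [this]; push_cast; ring
    · have : (c : ℤ) = i + j + 2 := by exact_mod_cast h.symm
      rw [this]; push_cast; ring

end cert

section single

variable {T : Type} [Fintype T] [DecidableEq T]
variable {W : Type*} [AddCommGroup W] [Module ℂ W]

/-- the pair block -/
theorem hitZ_pair (c : ℕ) (hc : 1 ≤ c) (hT : Fintype.card T + 1 = 2 * c)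
    (ρ : Representation ℂ (Perm T) W) (rk : T → ℕ) (hrk : ∀ t, rk t < 4) (x : W) (hx : x ≠ 0)
    (hfix : SwapFixed ρ rk x) : HitZ ρ (pairShape c) (pairShape c) (zigZ c) x := by
  classical
  refine hitZ_of_cert (N := 2) (by norm_num) _ _ (zig_le c) (zig_eq c) ?_
  obtain ⟨G, hG, u, hu, hex⟩ := pair_gadget c hc (T := T) (by omega) (pairShape c) (fun x => by
    unfold pairShape
    simp only [mem_filter, mem_product, Finset.mem_range]
    constructor
    · rintro ⟨⟨-, h2⟩, h3⟩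
      exact ⟨h2, h3⟩
    · rintro ⟨h2, h3⟩
      exact ⟨⟨by omega, h2⟩, h3⟩) (subRep ρ (cyc ρ x) (cyc_stable ρ x))
      (fun t => (⟨rk t, hrk t⟩ : Fin 4)) ⟨x, mem_cyc ρ x⟩
      (fun h => hx (congrArg Subtype.val h)) (by
        intro a b hab
        apply Subtype.ext
        rw [subRep_coe]
        exact hfix a b (congrArg Fin.val hab))
  obtain ⟨k, hk⟩ := hit_cyc ρ x G u hex
  exact ⟨G, hG, u ∘ k, fun t => hu (k t), hk⟩

/-- the rectangle block -/
theorem hitZ_rect (c k : ℕ) (hT : Fintype.card T = c * k)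
    (ρ : Representation ℂ (Perm T) W) (rk : T → ℕ) (hrk : ∀ t, rk t = 0) (x : W) (hx : x ≠ 0)
    (hfix : SwapFixed ρ rk x) : HitZ ρ (rectShape c k) (rectShape c k) (antiZ c) x := by
  classical
  refine hitZ_of_cert (N := 2) (by norm_num) _ _ (anti_le c) (anti_eq c) ?_
  have hcard : Fintype.card T = (rectShape c k).card := by
    rw [hT, rectShape, card_product, card_range, card_range]
  obtain ⟨τ, hτ⟩ := exists_isTab hcard
  have hlt : ∀ t, (τ t).1 < c ∧ (τ t).2 < k := by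
    intro t
    have : τ t ∈ rectShape c k := by rw [← hτ.2]; exact mem_image_of_mem _ (mem_univ _)
    simpa [rectShape] using this
  refine ⟨prodF (polyF τ) (polyF τ), Submodule.subset_span ⟨τ, τ, hτ, hτ, rfl⟩,
    fun t => ((τ t).1, c - 1 - (τ t).1), ?_, ?_⟩
  · intro t
    have := (hlt t).1
    simp only [antiZ, Set.mem_ofPred_eq]
    omega
  · rw [hitOp_apply]
    have hw' : ∀ g : Equiv.Perm T, ρ g⁻¹ x = x := fun g => hfix.perm _ fun t => by
      rw [hrk, hrk]
    simp only [hw']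
    rw [← Finset.sum_smul]
    refine smul_ne_zero ?_ hx
    obtain ⟨s, hs, hrev⟩ := polyI_rev hτ
    have h2 : ∀ g : Equiv.Perm T,
        prodF (polyF τ) (polyF τ) ((fun t => ((τ t).1, c - 1 - (τ t).1)) ∘ g) =
        (s : ℂ) * ((polyI τ (fun t => (τ (g t)).1)) ^ 2 : ℤ) := by
      intro g
      unfold prodF
      rw [polyF_eq_polyI, polyF_eq_polyI]
      have h3 := hrev g
      simp only [comp_apply]
      rw [h3]
      push_cast
      ring
    simp only [h2]
    rw [← Finset.mul_sum]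
    refine mul_ne_zero (by exact_mod_cast hs) ?_
    have h4 : 0 < ∑ g : Equiv.Perm T, (polyI τ (fun t => (τ (g t)).1)) ^ 2 := by
      refine Finset.sum_pos' (fun g _ => sq_nonneg _) ⟨1, mem_univ _, ?_⟩
      have : polyI τ (fun t => (τ ((1 : Equiv.Perm T) t)).1) = 1 := polyI_self hτ.1
      rw [this]; norm_num
    have h5 : (∑ g : Equiv.Perm T, (((polyI τ (fun t => (τ (g t)).1)) ^ 2 : ℤ) : ℂ)) =
        ((∑ g : Equiv.Perm T, (polyI τ (fun t => (τ (g t)).1)) ^ 2 : ℤ) : ℂ) := by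
      push_cast; rfl
    rw [h5]
    exact_mod_cast h4.ne'

/-- the duplicate block -/
theorem hitZ_dup (c : ℕ) (hT : Fintype.card T = 2 * c)
    (ρ : Representation ℂ (Perm T) W) (rk col : T → ℕ) (hrk : ∀ t, rk t < 4)
    (hinj : ∀ s t, rk s = rk t → col s = col t → s = t)
    (htop : ∀ t a, a < rk t → ∃ s, rk s = a ∧ col s = col t)
    (π : T → T) (hπ : ∀ t, π (π t) = t) (hπ0 : ∀ t, π t ≠ t) (hπr : ∀ t, rk (π t) = rk t)
    (hπc : ∀ s t, col s = col t → col (π s) = col (π t)) (x : W)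
    (hfix : SwapFixed ρ rk x) (hA : colAsym ρ col x ≠ 0) :
    HitZ ρ (rectShape c 2) (rectShape c 2) (antiZ c) x := by
  classical
  refine hitZ_of_cert (N := 2) (by norm_num) _ _ (anti_le c) (anti_eq c) ?_
  obtain ⟨G, hG, u, hu, hex⟩ := dup_gadget_aux c hT (subRep ρ (cyc ρ x) (cyc_stable ρ x))
    (fun t => (⟨rk t, hrk t⟩ : Fin 4)) col (fun s t h1 h2 => hinj s t (congrArg Fin.val h1) h2)
    (fun t a ha => by
      obtain ⟨s, h1, h2⟩ := htop t a.1 ha
      exact ⟨s, Fin.ext h1, h2⟩)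
    π hπ hπ0 (fun t => Fin.ext (hπr t)) hπc ⟨x, mem_cyc ρ x⟩ (by
      intro g hg
      apply Subtype.ext
      rw [subRep_coe]
      exact hfix.perm g fun t => congrArg Fin.val (hg t)) (by
      intro h0
      apply hA
      have h1 := congrArg Subtype.val h0
      rw [colAsym_apply, Submodule.coe_sum] at h1
      rw [colAsym_apply]
      simpa [subRep_coe] using h1)
  obtain ⟨k, hk⟩ := hit_cyc ρ x G u hex
  exact ⟨G, hG, u ∘ k, fun t => hu (k t), hk⟩

end single

end Crest.Agent.R195
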