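import Crest.Agent.R195.Matrix
import Crest.Agent.R195.Cover
import Crest.Agent.R195.CertShape

/-! Row 195 (T1): from a decomposition of the column heights (`Decomp`) to the block data of the
sequential engine. -/

set_option autoImplicit false
set_option linter.unusedSectionVars false
set_option linter.unusedDecidableInType false

namespace Crest.Agent.R195

open Finset Function Equiv

section blocks

variable {T : Type*} [Fintype T] [DecidableEq T]

/-- the block condition for a piece on the letters of the group `i` -/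
def PcBlock (γ rk col : T → ℕ) (i : ℕ) : Pc → Prop
  | .pair c => Fintype.card {t // γ t = i} = 2 * c - 1 ∧ ∀ t, γ t = i → rk t < 4
  | .rect c k => Fintype.card {t // γ t = i} = c * k ∧ ∀ t, γ t = i → rk t = 0
  | .dup c => Fintype.card {t // γ t = i} = 2 * c ∧ (∀ t, γ t = i → rk t < 4) ∧
      ∃ π : {t // γ t = i} → {t // γ t = i}, (∀ t, π (π t) = t) ∧ (∀ t, π t ≠ t) ∧
        (∀ t, rk (π t) = rk t) ∧
        ∀ s t : {t // γ t = i}, col s = col t → col (π s) = col (π t)
  | .gap c => Fintype.card {t // γ t = i} = 2 * c - 2 ∧ (∀ t, γ t = i → rk t < 4) ∧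
      (∃ π : {t // γ t = i} → {t // γ t = i}, (∀ t, π (π t) = t) ∧ (∀ t, π t ≠ t) ∧
        (∀ t, rk (π t) = rk t) ∧
        ∀ s t : {t // γ t = i}, col s = col t → col (π s) = col (π t)) ∧
      ∃ a0 a1 : {t // γ t = i}, rk a0 = 0 ∧ rk a1 = 1 ∧ col a1 = col a0 ∧
        ∀ t : {t // γ t = i}, col t = col a0 → t = a0 ∨ t = a1

/-- ranks fill the columns -/
theorem exists_rank {γ rk col : T → ℕ} (h : ℕ → ℕ) (i : ℕ)
    (hc : ∀ j, (univ.filter fun t => γ t = i ∧ col t = j).card = h j)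
    (hinj : ∀ s t, γ s = γ t → rk s = rk t → col s = col t → s = t)
    (hlt : ∀ t, γ t = i → rk t < h (col t)) (j a : ℕ) (ha : a < h j) :
    ∃ t, γ t = i ∧ rk t = a ∧ col t = j := by
  classical
  have h1 : (univ.filter fun t => γ t = i ∧ col t = j).image rk = range (h j) := by
    apply eq_of_subset_of_card_le
    · intro x hx
      obtain ⟨s, hs, rfl⟩ := mem_image.mp hx
      simp only [mem_filter, mem_univ, true_and] at hs
      rw [mem_range, ← hs.2]
      exact hlt s hs.1
    · rw [card_range, card_image_of_injOn, hc]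
      intro x hx y hy hxy
      simp only [coe_filter, mem_univ, true_and, Set.mem_ofPred_eq] at hx hy
      exact hinj x y (hx.1.trans hy.1.symm) hxy (hx.2.trans hy.2.symm)
  have h2 : a ∈ (univ.filter fun t => γ t = i ∧ col t = j).image rk := by
    rw [h1, mem_range]; exact ha
  obtain ⟨s, hs, hsa⟩ := mem_image.mp h2
  simp only [mem_filter, mem_univ, true_and] at hs
  exact ⟨s, hs.1, hsa, hs.2⟩

/-- the matching of the columns gives a matching of the letters -/
theorem exists_letter_matching {γ rk col : T → ℕ} (h : ℕ → ℕ) (i : ℕ)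
    (hc : ∀ j, (univ.filter fun t => γ t = i ∧ col t = j).card = h j)
    (hinj : ∀ s t, γ s = γ t → rk s = rk t → col s = col t → s = t)
    (hlt : ∀ t, γ t = i → rk t < h (col t)) (σ : ℕ → ℕ) (hσ : ∀ j, h j ≠ 0 → σ (σ j) = j)
    (hσ0 : ∀ j, h j ≠ 0 → σ j ≠ j) (hσh : ∀ j, h j ≠ 0 → h (σ j) = h j) :
    ∃ π : {t // γ t = i} → {t // γ t = i}, (∀ t, π (π t) = t) ∧ (∀ t, π t ≠ t) ∧
        (∀ t, rk (π t) = rk t) ∧
        ∀ s t : {t // γ t = i}, col s = col t → col (π s) = col (π t) := by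
  classical
  have hne : ∀ t : {t // γ t = i}, h (col t) ≠ 0 := fun t => by
    have := hlt t t.2
    omega
  have hex : ∀ t : {t // γ t = i}, ∃ s, γ s = i ∧ rk s = rk t ∧ col s = σ (col t) := fun t =>
    exists_rank h i hc hinj hlt _ _ (by rw [hσh _ (hne t)]; exact hlt t t.2)
  choose p hp1 hp2 hp3 using hex
  have hpc : ∀ t, col (p t) = σ (col t) := hp3
  refine ⟨fun t => ⟨p t, hp1 t⟩, ?_, ?_, ?_, ?_⟩
  · intro t
    apply Subtype.ext
    refine hinj _ _ ?_ ?_ ?_
    · simp only [hp1, t.2]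
    · simp only [hp2]
    · rw [hpc]
      simp only [hpc]
      exact hσ _ (hne t)
  · intro t h1
    have h2 : col (p t) = col t := by
      have := congrArg (fun s : {t // γ t = i} => col s) h1
      exact this
    rw [hpc] at h2
    exact hσ0 _ (hne t) h2
  · intro t
    exact hp2 t
  · intro s t h1
    change col (p s) = col (p t)
    rw [hpc, hpc, h1]

/-- a column of height two -/
theorem exists_letters_two {γ rk col : T → ℕ} (h : ℕ → ℕ) (i : ℕ)
    (hc : ∀ j, (univ.filter fun t => γ t = i ∧ col t = j).card = h j)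
    (hinj : ∀ s t, γ s = γ t → rk s = rk t → col s = col t → s = t)
    (hlt : ∀ t, γ t = i → rk t < h (col t)) (j : ℕ) (hj : h j = 2) :
    ∃ a0 a1 : {t // γ t = i}, rk a0 = 0 ∧ rk a1 = 1 ∧ col a1 = col a0 ∧
        ∀ t : {t // γ t = i}, col t = col a0 → t = a0 ∨ t = a1 := by
  obtain ⟨a0, h1, h2, h3⟩ := exists_rank h i hc hinj hlt j 0 (by omega)
  obtain ⟨a1, h4, h5, h6⟩ := exists_rank h i hc hinj hlt j 1 (by omega)
  refine ⟨⟨a0, h1⟩, ⟨a1, h4⟩, h2, h5, h6.trans h3.symm, ?_⟩
  rintro ⟨t, ht⟩ hct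
  simp only at hct
  have h7 := hlt t ht
  rw [hct, h3, hj] at h7
  have h8 : rk t = 0 ∨ rk t = 1 := by omega
  rcases h8 with h8 | h8
  · left
    exact Subtype.ext (hinj t a0 (ht.trans h1.symm) (h8.trans h2.symm) hct)
  · right
    exact Subtype.ext (hinj t a1 (ht.trans h4.symm) (h8.trans h5.symm)
      (hct.trans (h3.trans h6.symm)))

variable {U : Type*} [AddCommGroup U] [Module ℂ U]

theorem card_group {γ col : T → ℕ} (h : ℕ → ℕ) (i M : ℕ)
    (hc : ∀ j, (univ.filter fun t => γ t = i ∧ col t = j).card = h j)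
    (hM : ∀ j, M ≤ j → h j = 0) :
    Fintype.card {t // γ t = i} = ∑ j : Fin M, h j := by
  classical
  rw [Fintype.card_subtype, Finset.sum_range (fun j => h j) |>.symm,
    card_eq_sum_card_fiberwise (f := col) (t := range M)]
  · refine sum_congr rfl fun j _ => ?_
    rw [← hc j]
    congr 1
    ext t
    simp only [mem_filter, mem_univ, true_and]
  · intro t ht
    simp only [coe_filter, mem_univ, true_and, Set.mem_ofPred_eq] at ht
    simp only [coe_range, Set.mem_Iio]
    by_contra hcon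
    push Not at hcon
    have h1 := hM _ hcon
    rw [← hc, card_eq_zero] at h1
    have h2 : t ∈ (univ.filter fun s => γ s = i ∧ col s = col t) := by simp [ht]
    rw [h1] at h2
    exact absurd h2 (notMem_empty _)

/-- **Block data from a decomposition of the column heights** (any number `M` of columns). -/
theorem blocks_of_decomp' (ρ : Representation ℂ (Perm T) U)
    {μ : YoungDiagram} (e : T ≃ μ.cells) (w : U) (hw : SwapFixed ρ (fun t => (e t).1.1) w)
    (hA : colAsym ρ (fun t => (e t).1.2) w ≠ 0) (L : List Pc) (M : ℕ)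
    (hcol0 : ∀ j, M ≤ j → μ.colLen j = 0)
    (hL : Decomp L fun j : Fin M => μ.colLen j) :
    ∃ (γ rk col : T → ℕ) (x : U), (∀ t, γ t < L.length) ∧
      (∀ s t, γ s = γ t → rk s = rk t → col s = col t → s = t) ∧
      (∀ t a, a < rk t → ∃ s, γ s = γ t ∧ rk s = a ∧ col s = col t) ∧
      (∀ (i : ℕ) (hi : i < L.length), PcBlock γ rk col i L[i]) ∧
      SwapFixed ρ (fun t => (γ t, rk t)) x ∧
      colAsym ρ (fun t => Nat.pair (γ t) (col t)) x ≠ 0 := by
  classical
  obtain ⟨xs, hxs, hsum⟩ := hL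
  have hlen : L.length = xs.length := hxs.length_eq
  set h : Fin L.length → ℕ → ℕ := fun g j =>
    if hj : j < M then (xs[g.1]'(lt_of_lt_of_eq g.2 hlen)) ⟨j, hj⟩ else 0 with hh
  have hrow : ∀ (g : Fin L.length) (j : Fin M),
      h g j = (xs[g.1]'(lt_of_lt_of_eq g.2 hlen)) j := by
    intro g j
    simp only [hh, j.2, dif_pos]
  have hzero : ∀ g j, M ≤ j → h g j = 0 := by
    intro g j hj
    simp only [hh, dif_neg (not_lt.mpr hj)]
  obtain ⟨γ, rk, col, x, h1, h2, h3, h4, h5, h6, h7⟩ := split_matrix ρ e w hw hA L.length h (by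
    intro j
    by_cases hj : j < M
    · have h8 := hsum ⟨j, hj⟩
      simp only at h8
      rw [← h8, ← Fin.sum_univ_fun_getElem xs (fun x => x ⟨j, hj⟩)]
      rw [← (finCongr hlen).sum_comp]
      refine sum_congr rfl fun g _ => ?_
      simp only [hh, hj, dif_pos]
      rfl
    · rw [hcol0 j (not_lt.mp hj)]
      exact sum_eq_zero fun g _ => hzero g j (not_lt.mp hj))
  refine ⟨γ, rk, col, x, h1, h3, h4, ?_, h6, h7⟩
  intro i hi
  have hi' : i < xs.length := lt_of_lt_of_eq hi hlen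
  have hrk : ∀ t, γ t = i → rk t < h ⟨i, hi⟩ (col t) := fun t ht => h5 ⟨i, hi⟩ t ht
  have hcc : ∀ j, (univ.filter fun t => γ t = i ∧ col t = j).card = h ⟨i, hi⟩ j :=
    fun j => h2 ⟨i, hi⟩ j
  have hcard : Fintype.card {t // γ t = i} = ∑ j : Fin M, (xs[i]'hi') j := by
    rw [card_group (h ⟨i, hi⟩) i M hcc (hzero _)]
    exact sum_congr rfl fun j _ => hrow ⟨i, hi⟩ j
  have hok : RowOK L[i] (xs[i]'hi') := hxs.get hi hi'
  have hbound : ∀ m, (∀ j, (xs[i]'hi') j ≤ m) → ∀ t, γ t = i → rk t < m := by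
    intro m hm t ht
    have h8 := hrk t ht
    by_cases hj : col t < M
    · have h9 := hrow ⟨i, hi⟩ ⟨col t, hj⟩
      simp only at h9
      rw [h9] at h8
      exact lt_of_lt_of_le h8 (hm _)
    · rw [hzero _ _ (not_lt.mp hj)] at h8
      omega
  cases hp : L[i] with
  | pair c =>
    rw [hp] at hok
    exact ⟨hcard.trans hok.2, hbound 4 hok.1⟩
  | rect c k =>
    rw [hp] at hok
    exact ⟨hcard.trans hok.2, fun t ht => by have := hbound 1 hok.1 t ht; omega⟩
  | dup c =>
    rw [hp] at hok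
    obtain ⟨ha, hb, σ, hσ1, hσ2, hσ3⟩ := hok
    refine ⟨hcard.trans hb, hbound 4 ha, ?_⟩
    have hlt' : ∀ j, h ⟨i, hi⟩ j ≠ 0 → j < M := by
      intro j hj
      by_contra hcon
      exact hj (hzero _ _ (not_lt.mp hcon))
    refine exists_letter_matching (h ⟨i, hi⟩) i hcc h3 hrk
      (fun j => if hj : j < M then (σ ⟨j, hj⟩ : ℕ) else j) ?_ ?_ ?_
    · intro j hj
      have hj' := hlt' j hj
      have := hσ1 ⟨j, hj'⟩
      simp only [dif_pos hj', dif_pos (σ ⟨j, hj'⟩).2, Fin.eta, this]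
    · intro j hj h8
      have hj' := hlt' j hj
      simp only [dif_pos hj'] at h8
      have h9 := hrow ⟨i, hi⟩ ⟨j, hj'⟩
      simp only at h9
      rw [h9] at hj
      exact hσ2 _ hj (Fin.ext h8)
    · intro j hj
      have hj' := hlt' j hj
      simp only [dif_pos hj']
      rw [hrow ⟨i, hi⟩, hσ3]
      exact (hrow ⟨i, hi⟩ ⟨j, hj'⟩).symm
  | gap c =>
    rw [hp] at hok
    obtain ⟨ha, hb, ⟨σ, hσ1, hσ2, hσ3⟩, j0, hj0⟩ := hok
    refine ⟨hcard.trans hb, hbound 4 ha, ?_, exists_letters_two (h ⟨i, hi⟩) i hcc h3 hrk j0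
      ((hrow ⟨i, hi⟩ j0).trans hj0)⟩
    have hlt' : ∀ j, h ⟨i, hi⟩ j ≠ 0 → j < M := by
      intro j hj
      by_contra hcon
      exact hj (hzero _ _ (not_lt.mp hcon))
    refine exists_letter_matching (h ⟨i, hi⟩) i hcc h3 hrk
      (fun j => if hj : j < M then (σ ⟨j, hj⟩ : ℕ) else j) ?_ ?_ ?_
    · intro j hj
      have hj' := hlt' j hj
      have := hσ1 ⟨j, hj'⟩
      simp only [dif_pos hj', dif_pos (σ ⟨j, hj'⟩).2, Fin.eta, this]
    · intro j hj h8
      have hj' := hlt' j hj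
      simp only [dif_pos hj'] at h8
      have h9 := hrow ⟨i, hi⟩ ⟨j, hj'⟩
      simp only at h9
      rw [h9] at hj
      exact hσ2 _ hj (Fin.ext h8)
    · intro j hj
      have hj' := hlt' j hj
      simp only [dif_pos hj']
      rw [hrow ⟨i, hi⟩, hσ3]
      exact (hrow ⟨i, hi⟩ ⟨j, hj'⟩).symm

/-- **Block data from a decomposition of the column heights.** -/
theorem blocks_of_decomp (ρ : Representation ℂ (Perm T) U)
    {μ : YoungDiagram} (e : T ≃ μ.cells) (w : U) (hw : SwapFixed ρ (fun t => (e t).1.1) w)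
    (hA : colAsym ρ (fun t => (e t).1.2) w ≠ 0) (L : List Pc)
    (hL : Decomp L fun j : Fin (μ.rowLen 0) => μ.colLen j) :
    ∃ (γ rk col : T → ℕ) (x : U), (∀ t, γ t < L.length) ∧
      (∀ s t, γ s = γ t → rk s = rk t → col s = col t → s = t) ∧
      (∀ t a, a < rk t → ∃ s, γ s = γ t ∧ rk s = a ∧ col s = col t) ∧
      (∀ (i : ℕ) (hi : i < L.length), PcBlock γ rk col i L[i]) ∧
      SwapFixed ρ (fun t => (γ t, rk t)) x ∧
      colAsym ρ (fun t => Nat.pair (γ t) (col t)) x ≠ 0 := by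
  refine blocks_of_decomp' ρ e w hw hA L (μ.rowLen 0) ?_ hL
  intro j hj
  by_contra hne
  have h1 : (0, j) ∈ μ := by
    rw [YoungDiagram.mem_iff_lt_colLen]; omega
  rw [YoungDiagram.mem_iff_lt_rowLen] at h1
  omega

end blocks

end Crest.Agent.R195
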