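import Crest.Agent.R195.Zig4

/-! Row 195, L4.  Standard colourings for lists of groups; the staircase. -/

set_option autoImplicit false
set_option linter.unusedSectionVars false
set_option linter.unusedDecidableInType false

namespace Crest.Agent.R195

open Finset Function Crest.AlgebraR.Specht

/-- a colouring with prescribed fibre sizes -/
theorem exists_coloring_of_sizes {T K : Type*} [Fintype T] [DecidableEq T] [Fintype K]
    [DecidableEq K] (ν : K → ℕ) (h : Fintype.card T = ∑ a, ν a) :
    ∃ f : T → K, ∀ a, (univ.filter fun t => f t = a).card = ν a := by
  classical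
  have e : T ≃ Σ a : K, Fin (ν a) := Fintype.equivOfCardEq (by
    rw [h, Fintype.card_sigma]; simp)
  refine ⟨fun t => (e t).1, fun a => ?_⟩
  have : (univ.filter fun t => (e t).1 = a).card = Fintype.card (Fin (ν a)) := by
    rw [← Finset.card_univ]
    symm
    refine Finset.card_bij (fun i _ => e.symm ⟨a, i⟩) ?_ ?_ ?_
    · intro i _; simp
    · intro i _ j _ hij
      have := e.symm.injective hij
      simpa using this
    · intro t ht
      simp only [mem_filter, mem_univ, true_and] at ht
      subst ht
      refine ⟨(e t).2, mem_univ _, ?_⟩
      rw [show (⟨(e t).1, (e t).2⟩ : Σ a : K, Fin (ν a)) = e t from rfl, Equiv.symm_apply_apply]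
  rw [this, Fintype.card_fin]

namespace Grp

/-- part sizes of a group: near-equal quarters for a pair, one part for a rectangle -/
def part : Grp → Fin 4 → ℕ
  | pair c, a => (2 * c - 1 + a.1) / 4
  | rect c k, a => if a = 0 then c * k else 0

theorem sum_part (g : Grp) : ∑ a, g.part a = g.size := by
  cases g with
  | pair c => simp only [part, size, Fin.sum_univ_four, Fin.val_zero, Fin.val_one, Fin.val_two]
              have h3 : (3 : Fin 4).1 = 3 := rfl
              rw [h3]
              omega
  | rect c k => simp [part, size]

end Grp

/-- **(B), with the standard colouring.** -/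
theorem occ_of_parts (hpair : ∀ c, 1 ≤ c → PairGadget c) (L : List Grp) (hL : validL L)
    {T : Type} [Fintype T] [DecidableEq T] (hT : Fintype.card T = (L.map Grp.size).sum)
    {W : Type*} [AddCommGroup W] [Module ℂ W] (ρ : Representation ℂ (Equiv.Perm T) W)
    (H : ∀ f : T → ℕ × Fin 4, (∀ t, (f t).1 < L.length) →
      (∀ (j : ℕ) (hj : j < L.length) (a : Fin 4),
        (univ.filter fun t => f t = (j, a)).card = (L[j]).part a) →
      ∃ w : W, w ≠ 0 ∧ SwapFixed ρ f w) :
    Occ ρ (Kr T (shapeL L) (shapeL L)) := by
  classical
  obtain ⟨f', hf'⟩ := exists_coloring_of_sizes (T := T) (K := Fin L.length × Fin 4)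
    (fun q => (L[q.1.1]).part q.2) (by
      rw [hT, Fintype.sum_prod_type, ← List.sum_ofFn]
      congr 1
      apply List.ext_getElem
      · simp
      · intro i h1 h2
        simp only [List.getElem_map, List.getElem_ofFn]
        exact (Grp.sum_part _).symm)
  let f : T → ℕ × Fin 4 := fun t => ((f' t).1.1, (f' t).2)
  have hlt : ∀ t, (f t).1 < L.length := fun t => (f' t).1.2
  have hpart : ∀ (j : ℕ) (hj : j < L.length) (a : Fin 4),
      (univ.filter fun t => f t = (j, a)).card = (L[j]).part a := by
    intro j hj a
    rw [← hf' (⟨j, hj⟩, a)]
    congr 1
    ext t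
    simp only [mem_filter, mem_univ, true_and, f, Prod.mk.injEq, Prod.ext_iff, Fin.ext_iff]
  obtain ⟨w, hw, hfix⟩ := H f hlt hpart
  refine occ_of_groups hpair L hL ρ f hlt ?_ ?_ w hw hfix
  · intro j hj
    rw [← Grp.sum_part, ← Finset.sum_congr rfl (fun a _ => hpart j hj a), ← Finset.card_biUnion]
    · congr 1
      ext t
      simp only [mem_biUnion, mem_univ, true_and, mem_filter]
      constructor
      · intro h; exact ⟨(f t).2, Prod.ext h rfl⟩
      · rintro ⟨a, ha⟩; rw [ha]
    · intro a _ b _ hab
      rw [Function.onFun, Finset.disjoint_left]
      intro t ht1 ht2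
      simp only [mem_filter, mem_univ, true_and] at ht1 ht2
      rw [ht1] at ht2
      exact hab (Prod.ext_iff.1 ht2).2
  · intro t hr
    by_contra hne
    have h1 := hpart (f t).1 (hlt t) (f t).2
    have h2 : (univ.filter fun t' => f t' = ((f t).1, (f t).2)).card ≠ 0 :=
      Finset.card_ne_zero.2 ⟨t, by simp⟩
    rw [h1] at h2
    apply h2
    revert hr
    cases hg : L[(f t).1]'(hlt t) with
    | pair c => intro h; exact h.elim
    | rect c k => intro _; simp [Grp.part, hne]

/-- the groups of the staircase -/
def stairL : ℕ → List Grp
  | 0 => []
  | 1 => [Grp.pair 1]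
  | (m + 2) => Grp.pair (m + 2) :: stairL m

theorem stairL_top (m : ℕ) : ∀ g ∈ stairL m, g.top ≤ m := by
  induction m using Nat.strong_induction_on with
  | _ m ih =>
    match m with
    | 0 => intro g hg; simp [stairL] at hg
    | 1 => intro g hg; simp only [stairL, List.mem_singleton] at hg; subst hg; simp [Grp.top]
    | (m + 2) =>
      intro g hg
      simp only [stairL, List.mem_cons] at hg
      rcases hg with rfl | hg
      · simp [Grp.top]
      · exact (ih m (by omega) g hg).trans (by omega)

theorem validL_stairL (m : ℕ) : validL (stairL m) := by
  induction m using Nat.strong_induction_on with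
  | _ m ih =>
    match m with
    | 0 => trivial
    | 1 => exact ⟨by simp [Grp.top], by simp, trivial⟩
    | (m + 2) =>
      refine ⟨by simp [Grp.top], ?_, ih m (by omega)⟩
      intro g hg
      simpa [Grp.next] using stairL_top m g hg

theorem shapeL_stairL (m : ℕ) : shapeL (stairL m) = staircaseShape m := by
  induction m using Nat.strong_induction_on with
  | _ m ih =>
    match m with
    | 0 => simp [stairL, shapeL, staircaseShape]
    | 1 =>
      ext ⟨i, j⟩
      simp only [stairL, shapeL, addC, shiftC, Finset.image_empty, Finset.union_empty, Grp.shape,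
        pairShape, staircaseShape, mem_filter, mem_product, mem_range]
      omega
    | (m + 2) =>
      simp only [stairL, shapeL, addC, Grp.shape, Grp.width]
      rw [ih m (by omega)]
      ext ⟨i, j⟩
      simp only [pairShape, staircaseShape, shiftC, mem_union, mem_filter, mem_product, mem_range,
        mem_image, Prod.mk.injEq, Prod.exists]
      constructor
      · rintro (h | ⟨a, b, h, rfl, rfl⟩)
        · omega
        · omega
      · intro h
        by_cases hj : j < 2
        · left; omega
        · right
          exact ⟨i, j - 2, by omega, rfl, by omega⟩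

theorem stairL_sum (m : ℕ) : ((stairL m).map Grp.size).sum = (staircaseShape m).card := by
  induction m using Nat.strong_induction_on with
  | _ m ih =>
    match m with
    | 0 => simp [stairL, staircaseShape]
    | 1 => rfl
    | (m + 2) =>
      simp only [stairL, List.map_cons, List.sum_cons, Grp.size]
      rw [ih m (by omega), ← shapeL_stairL (m + 2), ← shapeL_stairL m]
      simp only [stairL, shapeL, addC, Grp.shape, Grp.width]
      rw [Finset.card_union_of_disjoint]
      · have h1 : (shiftC 2 (shapeL (stairL m))).card = (shapeL (stairL m)).card := by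
          refine Finset.card_image_of_injective _ ?_
          rintro ⟨a, b⟩ ⟨c, d⟩ h
          simpa using h
        have h2 : (pairShape (m + 2)).card = 2 * (m + 2) - 1 := by
          have : pairShape (m + 2) = (range (m + 2)).image (fun i => (i, 0)) ∪
              (range (m + 1)).image (fun i => (i, 1)) := by
            ext ⟨i, j⟩
            simp only [pairShape, mem_filter, mem_product, mem_range, mem_union, mem_image,
              Prod.mk.injEq]
            constructor
            · intro h
              have : j = 0 ∨ j = 1 := by omega
              rcases this with rfl | rfl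
              · left; exact ⟨i, by omega, rfl, rfl⟩
              · right; exact ⟨i, by omega, rfl, rfl⟩
            · rintro (⟨a, h1, h2, h3⟩ | ⟨a, h1, h2, h3⟩) <;> omega
          rw [this, Finset.card_union_of_disjoint, Finset.card_image_of_injective,
            Finset.card_image_of_injective, card_range, card_range]
          · omega
          · intro a b h; simpa using h
          · intro a b h; simpa using h
          · rw [Finset.disjoint_left]
            intro c hc hc'
            simp only [mem_image] at hc hc'
            obtain ⟨a, -, rfl⟩ := hc
            obtain ⟨b, -, hb⟩ := hc'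
            simp at hb
        rw [h1, h2]
      · rw [Finset.disjoint_left]
        rintro ⟨i, j⟩ h1 h2
        simp only [pairShape, shiftC, mem_filter, mem_product, mem_range, mem_image,
          Prod.mk.injEq] at h1 h2
        obtain ⟨⟨a, b⟩, -, h3, h4⟩ := h2
        simp only at h4
        omega

theorem stairL_part (m : ℕ) : ∀ g ∈ stairL m, ∀ a, g.part a ≤ (m + 1) / 2 := by
  induction m using Nat.strong_induction_on with
  | _ m ih =>
    match m with
    | 0 => intro g hg; simp [stairL] at hg
    | 1 =>
      intro g hg a
      simp only [stairL, List.mem_singleton] at hg; subst hg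
      simp only [Grp.part]
      have := a.2
      omega
    | (m + 2) =>
      intro g hg a
      simp only [stairL, List.mem_cons] at hg
      rcases hg with rfl | hg
      · simp only [Grp.part]
        have := a.2
        omega
      · exact (ih m (by omega) g hg a).trans (by omega)

/-- **(B) for the staircase.** -/
theorem occ_stair (hpair : ∀ c, 1 ≤ c → PairGadget c) (m : ℕ) {T : Type} [Fintype T]
    [DecidableEq T] (hT : Fintype.card T = (staircaseShape m).card) {W : Type*} [AddCommGroup W]
    [Module ℂ W] (ρ : Representation ℂ (Equiv.Perm T) W)
    (H : ∀ f : T → ℕ × Fin 4, (∀ a, (univ.filter fun t => f t = a).card ≤ (m + 1) / 2) →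
      ∃ w : W, w ≠ 0 ∧ SwapFixed ρ f w) :
    Occ ρ (Kr T (staircaseShape m) (staircaseShape m)) := by
  rw [← shapeL_stairL]
  refine occ_of_parts hpair (stairL m) (validL_stairL m) (by rw [hT, stairL_sum]) ρ ?_
  intro f hlt hpart
  refine H f fun a => ?_
  by_cases ha : a.1 < (stairL m).length
  · have := hpart a.1 ha a.2
    rw [this]
    exact stairL_part m _ (List.getElem_mem _) _
  · have : (univ.filter fun t => f t = a) = ∅ := by
      rw [Finset.filter_eq_empty_iff]
      intro t _ h
      apply ha
      rw [← h]
      exact hlt t
    rw [this]
    simp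

end Crest.Agent.R195
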