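import Crest.Agent.R195.Vander
import Crest.Agent.R195.Major2
import Crest.Agent.R195.Zig5

/-! Row 195 (T1): splitting a shape into group tableaux with prescribed column heights. -/

set_option autoImplicit false
set_option linter.unusedSectionVars false
set_option linter.unusedDecidableInType false

namespace Crest.Agent.R195

open Finset Function Equiv

section split

variable {T : Type*} [Fintype T] [DecidableEq T]
variable {U : Type*} [AddCommGroup U] [Module ℂ U]

/-- `e_n v ≠ 0` for `v` alternating under `c'` implies `f_{c'} e_n v ≠ 0`. -/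
theorem colAsym_labSum_ne_zero {ι : Type*} [DecidableEq ι] (ρ : Representation ℂ (Perm T) U)
    (n : T → ι) (c' : T → ℕ) (v : U) (hv : SwapAlt ρ c' v) (h : labSum ρ n v ≠ 0) :
    colAsym ρ c' (labSum ρ n v) ≠ 0 := by
  classical
  set S := univ.image n with hS
  have hmem : ∀ t, n t ∈ S := fun t => mem_image_of_mem n (mem_univ t)
  set f : T → ℕ := fun t => (S.equivFin ⟨n t, hmem t⟩ : ℕ) with hf
  have hfn : ∀ s t, f s = f t ↔ n s = n t := by
    intro s t
    simp only [hf]
    rw [Fin.val_inj, S.equivFin.injective.eq_iff, Subtype.mk.injEq]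
  -- labSum = colAsym of the twist
  have h1 : colAsym (signTwist ρ) f v = labSum ρ n v := by
    rw [colAsym_apply]
    unfold labSum
    have hset : (univ.filter fun σ : Perm T => ∀ t, f (σ t) = f t) =
        univ.filter fun g : Perm T => ∀ t, n (g t) = n t := by
      ext g
      simp only [mem_filter, mem_univ, true_and]
      exact forall_congr' fun t => hfn _ _
    rw [hset]
    refine sum_congr rfl fun σ _ => ?_
    rw [signTwist_apply, smul_smul]
    rcases Int.units_eq_one_or (Perm.sign σ) with h | h <;> simp [h]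
  have h2 := rowSum_colAsym_ne_zero (signTwist ρ) c' f v
    (fun g hg => hv.signTwist.perm g hg) (by rw [h1]; exact h)
  rw [h1] at h2
  rw [colAsym_apply]
  exact h2

/-- **Split lemma**, general form. -/
theorem split_general {ι : Type*} [DecidableEq ι] (ρ : Representation ℂ (Perm T) U)
    {μ : YoungDiagram} (e : T ≃ μ.cells) (w : U) (hw : SwapFixed ρ (fun t => (e t).1.1) w)
    (hA : colAsym ρ (fun t => (e t).1.2) w ≠ 0)
    (n : T → ι) (hn : ∀ s t, (e s).1.2 = (e t).1.2 → n s = n t → s = t)
    (c' : T → ℕ) (hc' : ∀ s t, c' s = c' t → (e s).1.2 = (e t).1.2) :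
    ∃ x : U, SwapFixed ρ n x ∧ colAsym ρ c' x ≠ 0 := by
  refine ⟨labSum ρ n (colAsym ρ (fun t => (e t).1.2) w), ?_, ?_⟩
  · intro a b hab
    refine labSum_mul_left ρ n _ _ ?_
    intro t
    by_cases h1 : t = a
    · rw [h1, swap_apply_left, hab]
    · by_cases h2 : t = b
      · rw [h2, swap_apply_right, hab]
      · rw [swap_apply_of_ne_of_ne h1 h2]
  · apply colAsym_labSum_ne_zero
    · intro a b hab h
      exact colAsym_alt ρ _ w a b hab (hc' a b h)
    · exact labSum_of_shape ρ e w hw hA n hn

end split

section comb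

variable {T : Type*} [Fintype T] [DecidableEq T]

/-- from a matrix of heights to a colouring by groups -/
theorem exists_groups {ι : Type*} [Fintype ι] [DecidableEq ι] (col : T → ℕ) (h : ι → ℕ → ℕ)
    (hh : ∀ j, ∑ g, h g j = (univ.filter fun t => col t = j).card) :
    ∃ γ : T → ι, ∀ g j, (univ.filter fun t => γ t = g ∧ col t = j).card = h g j := by
  classical
  have h1 : ∀ j, ∃ f : {t // col t = j} → ι, ∀ a, (univ.filter fun t => f t = a).card = h a j := by
    intro j
    apply exists_coloring_of_sizes
    rw [hh, Fintype.card_subtype]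
  choose f hf using h1
  refine ⟨fun t => f (col t) ⟨t, rfl⟩, fun g j => ?_⟩
  rw [← hf j g]
  refine card_bij' (fun t ht => ⟨t, ?_⟩) (fun t _ => t.1) ?_ ?_ ?_ ?_
  · simp only [mem_filter, mem_univ, true_and] at ht
    exact ht.2
  · intro t ht
    simp only [mem_filter, mem_univ, true_and] at ht ⊢
    obtain ⟨h1, h2⟩ := ht
    subst h2
    exact h1
  · rintro ⟨t, ht⟩ ht'
    simp only [mem_filter, mem_univ, true_and] at ht' ⊢
    refine ⟨?_, ht⟩
    subst ht
    exact ht'
  · intro t ht; rfl
  · intro t ht; rfl

/-- rank of a letter among the letters of its group in its column -/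
def grpRank {ι : Type*} [DecidableEq ι] (γ : T → ι) (row col : T → ℕ) (t : T) : ℕ :=
  (univ.filter fun s => γ s = γ t ∧ col s = col t ∧ row s < row t).card

variable {ι : Type*} [DecidableEq ι] {γ : T → ι} {row col : T → ℕ}

theorem grpRank_lt {s t : T} (hγ : γ s = γ t) (hc : col s = col t) (hr : row s < row t) :
    grpRank γ row col s < grpRank γ row col t := by
  unfold grpRank
  apply card_lt_card
  rw [Finset.ssubset_iff_of_subset]
  · exact ⟨s, by simp [hγ, hc, hr], by simp⟩
  · intro x hx
    simp only [mem_filter, mem_univ, true_and] at hx ⊢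
    exact ⟨hx.1.trans hγ, hx.2.1.trans hc, hx.2.2.trans hr⟩

theorem grpRank_inj (hinj : ∀ s t, row s = row t → col s = col t → s = t) {s t : T}
    (hγ : γ s = γ t) (hr : grpRank γ row col s = grpRank γ row col t) (hc : col s = col t) :
    s = t := by
  rcases lt_trichotomy (row s) (row t) with h | h | h
  · exact absurd hr (grpRank_lt hγ hc h).ne
  · exact hinj s t h hc
  · exact absurd hr (grpRank_lt hγ.symm hc.symm h).ne'

theorem grpRank_lt_card (t : T) :
    grpRank γ row col t < (univ.filter fun s => γ s = γ t ∧ col s = col t).card := by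
  unfold grpRank
  apply card_lt_card
  rw [Finset.ssubset_iff_of_subset]
  · exact ⟨t, by simp, by simp⟩
  · intro x hx
    simp only [mem_filter, mem_univ, true_and] at hx ⊢
    exact ⟨hx.1, hx.2.1⟩

theorem exists_grpRank (hinj : ∀ s t, row s = row t → col s = col t → s = t) (t : T)
    {a : ℕ} (ha : a < (univ.filter fun s => γ s = γ t ∧ col s = col t).card) :
    ∃ s, γ s = γ t ∧ grpRank γ row col s = a ∧ col s = col t := by
  classical
  have h1 : (univ.filter fun s => γ s = γ t ∧ col s = col t).image (grpRank γ row col) =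
      range (univ.filter fun s => γ s = γ t ∧ col s = col t).card := by
    apply eq_of_subset_of_card_le
    · intro x hx
      obtain ⟨s, hs, rfl⟩ := mem_image.mp hx
      simp only [mem_filter, mem_univ, true_and] at hs
      rw [mem_range]
      refine lt_of_lt_of_le (grpRank_lt_card s) (le_of_eq ?_)
      rw [hs.1, hs.2]
    · rw [card_range, card_image_of_injOn]
      intro x hx y hy hxy
      simp only [coe_filter, mem_univ, true_and, Set.mem_ofPred_eq] at hx hy
      exact grpRank_inj hinj (hx.1.trans hy.1.symm) hxy (hx.2.trans hy.2.symm)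
  have h2 : a ∈ (univ.filter fun s => γ s = γ t ∧ col s = col t).image (grpRank γ row col) := by
    rw [h1, mem_range]; exact ha
  obtain ⟨s, hs, hsa⟩ := mem_image.mp h2
  simp only [mem_filter, mem_univ, true_and] at hs
  exact ⟨s, hs.1, hsa, hs.2⟩

end comb

section final

variable {T : Type*} [Fintype T] [DecidableEq T]
variable {U : Type*} [AddCommGroup U] [Module ℂ U]

theorem card_col_eq {μ : YoungDiagram} (e : T ≃ μ.cells) (j : ℕ) :
    (univ.filter fun t => (e t).1.2 = j).card = μ.colLen j := by
  classical
  rw [← card_fiber_col e j]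

/-- **Split lemma** for a matrix of heights: the letters are split into groups `γ`; inside the
group `g` the letters form a tableau (`rk` = row, `col` = column) whose column heights are
`h g j`; there is a vector fixed by the rows of all the group tableaux and not killed by the
column antisymmetrizer of all the group tableaux. -/
theorem split_matrix (ρ : Representation ℂ (Perm T) U)
    {μ : YoungDiagram} (e : T ≃ μ.cells) (w : U) (hw : SwapFixed ρ (fun t => (e t).1.1) w)
    (hA : colAsym ρ (fun t => (e t).1.2) w ≠ 0)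
    (N : ℕ) (h : Fin N → ℕ → ℕ) (hh : ∀ j, ∑ g, h g j = μ.colLen j) :
    ∃ (γ rk col : T → ℕ) (x : U), (∀ t, γ t < N) ∧
      (∀ (g : Fin N) (j : ℕ), (univ.filter fun t => γ t = g ∧ col t = j).card = h g j) ∧
      (∀ s t, γ s = γ t → rk s = rk t → col s = col t → s = t) ∧
      (∀ t a, a < rk t → ∃ s, γ s = γ t ∧ rk s = a ∧ col s = col t) ∧
      (∀ (g : Fin N) t, γ t = g → rk t < h g (col t)) ∧
      SwapFixed ρ (fun t => (γ t, rk t)) x ∧
      colAsym ρ (fun t => Nat.pair (γ t) (col t)) x ≠ 0 := by
  classical
  set col : T → ℕ := fun t => (e t).1.2 with hcol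
  set row : T → ℕ := fun t => (e t).1.1 with hrow
  have hinj : ∀ s t, row s = row t → col s = col t → s = t := fun s t h1 h2 =>
    e.injective (Subtype.ext (Prod.ext h1 h2))
  obtain ⟨γ, hγ⟩ := exists_groups col h (fun j => by rw [hh, card_col_eq e j])
  have hγc : ∀ t, (univ.filter fun s => γ s = γ t ∧ col s = col t).card = h (γ t) (col t) :=
    fun t => hγ _ _
  obtain ⟨x, hx1, hx2⟩ := split_general ρ e w hw hA
    (fun t => ((γ t : ℕ), grpRank γ row col t))
    (fun s t h1 h2 => grpRank_inj hinj (Fin.ext (congrArg Prod.fst h2)) (congrArg Prod.snd h2) h1)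
    (fun t => Nat.pair (γ t) (col t))
    (fun s t h1 => (Nat.pair_eq_pair.mp h1).2)
  refine ⟨fun t => γ t, grpRank γ row col, col, x, fun t => (γ t).2, ?_, ?_, ?_, ?_, hx1, hx2⟩
  · intro g j
    rw [← hγ g j]
    congr 1
    ext t
    simp only [mem_filter, mem_univ, true_and, Fin.val_inj]
  · intro s t h1 h2 h3
    exact grpRank_inj hinj (Fin.ext h1) h2 h3
  · intro t a ha
    obtain ⟨s, h1, h2, h3⟩ := exists_grpRank (γ := γ) hinj t (a := a)
      (ha.trans (grpRank_lt_card t))
    exact ⟨s, congrArg Fin.val h1, h2, h3⟩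
  · intro g t hg
    have hg' : γ t = g := Fin.ext hg
    rw [← hg', ← hγc t]
    exact grpRank_lt_card t

end final

end Crest.Agent.R195
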