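import Crest.Agent.R195.Merge
import Crest.Agent.R195.Fam
import Crest.Agent.R195.RegionL

/-! Row 195, S0298 (T3, helper563).  Numeric checker (Boolean function, to be evaluated by the kernel)
for the coverage statement `CovH ps` of one hook list: merging of the pieces `dup`, `gap` with pairs
(`Merge.lean`), then the Gale-Ryser condition with explicit bounds for the sums of the first columns. -/

set_option autoImplicit false

namespace Crest.Agent.R195

open Finset Function

/-! ### Gale-Ryser in `Decomp` form -/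

theorem FL_mono (L : List Pc) {J J' : ℕ} (h : J ≤ J') : FL L J ≤ FL L J' := by
  induction L with
  | nil => exact le_rfl
  | cons p L ih =>
    rw [FL_cons, FL_cons]
    exact Nat.add_le_add (min_le_min_left _ (Nat.mul_le_mul_left _ h)) ih

theorem FL_le_sum (L : List Pc) (J : ℕ) : FL L J ≤ (L.map Pc.size).sum := by
  induction L with
  | nil => exact le_rfl
  | cons p L ih =>
    rw [FL_cons, List.map_cons, List.sum_cons]
    exact Nat.add_le_add (min_le_left _ _) ih

theorem decomp_GR (L : List Pc) (hL : ∀ p ∈ L, p.free) (w : ℕ) (H : ℕ → ℕ)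
    (htot : ∑ j ∈ range w, H j = (L.map Pc.size).sum)
    (hc : ∀ J ⊆ range w, ∑ j ∈ J, H j ≤ FL L J.card) : Decomp L fun j : Fin w => H j := by
  have hFL : ∀ J, ∑ g : Fin L.length, min (L[g].size) (L[g].cap * J) = FL L J := by
    intro J
    rw [FL, ← Fin.sum_univ_fun_getElem]
    rfl
  obtain ⟨h, hh1, hh2, hh3, hh4⟩ := exists_matrix (ι := Fin L.length)
    (fun g => L[g].size) (fun g => L[g].cap) (fun g => Pc.cap_pos _) w H
    (by rw [htot, ← Fin.sum_univ_fun_getElem]; rfl)
    (fun J hJ => by rw [hFL]; exact hc J hJ)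
  refine decomp_of_matrix L w H h (fun g => ?_) hh4
  have hfree := hL _ (List.getElem_mem g.2)
  have h5 := hh1 g
  have h6 := hh2 g
  rw [← Fin.sum_univ_eq_sum_range (fun j => h g j) w] at h6
  have key : ∀ p : Pc, p.free → (∀ j, h g j ≤ p.cap) → ∑ j : Fin w, h g j = p.size →
      RowOK p fun j : Fin w => h g j := by
    intro p hp h7 h8
    cases p with
    | pair c => exact ⟨fun j => h7 j, h8⟩
    | rect c k => exact ⟨fun j => h7 j, h8⟩
    | dup c => exact absurd hp (by simp [Pc.free])
    | gap c => exact absurd hp (by simp [Pc.free])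
  exact key _ hfree h5 h6

/-- the first columns are the largest ones -/
theorem sum_le_top {H : ℕ → ℕ} (hH : Antitone H) (J : Finset ℕ) :
    ∑ j ∈ J, H j ≤ ∑ j ∈ range J.card, H j := by
  classical
  induction J using Finset.strongInduction with
  | H J ih =>
    rcases J.eq_empty_or_nonempty with rfl | hne
    · simp
    · set m := J.max' hne with hm
      have hmJ : m ∈ J := J.max'_mem hne
      have h1 := ih (J.erase m) (erase_ssubset hmJ)
      have h2 : (J.erase m).card = J.card - 1 := card_erase_of_mem hmJ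
      have h3 : 0 < J.card := card_pos.2 hne
      have h4 : J.card - 1 ≤ m := by
        have h5 : J ⊆ range (m + 1) := fun x hx => mem_range.2 (by
          have := J.le_max' x hx
          omega)
        have := card_le_card h5
        rw [card_range] at this
        omega
      rw [← Finset.add_sum_erase J H hmJ]
      rw [h2] at h1
      have h6 : ∑ j ∈ range J.card, H j = ∑ j ∈ range (J.card - 1), H j + H (J.card - 1) := by
        rw [← sum_range_succ]
        congr 2
        omega
      rw [h6]
      have := hH h4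
      omega

/-! ### Blocks -/

/-- a free piece, or a list of special pieces merged with a pair -/
inductive MBlk
  | f (p : Pc)
  | m (s : List Pc) (c : ℕ)

/-- the merged pair -/
def mtot : List Pc → ℕ → ℕ
  | [], c => c
  | .dup d :: s, c => d + mtot s c
  | .gap d :: s, c => d + mtot s c - 1
  | .pair _ :: s, c => mtot s c
  | .rect _ _ :: s, c => mtot s c

/-- conditions for the merging -/
def mok (W : ℕ) : List Pc → ℕ → Bool
  | [], c => Nat.ble 2 c
  | .dup _ :: s, c => mok W s c
  | .gap d :: s, c => mok W s c && Nat.ble 3 d && Nat.ble 4 (mtot s c) &&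
      Nat.ble (W + 7) (2 * (d + mtot s c))
  | .pair _ :: _, _ => false
  | .rect _ _ :: _, _ => false

/-- the free piece replacing a block -/
def MBlk.row : MBlk → Pc
  | .f p => p
  | .m s c => .pair (mtot s c)

/-- the pieces of a block -/
def MBlk.pcs : MBlk → List Pc
  | .f p => [p]
  | .m s c => s ++ [.pair c]

/-- free, as a Boolean -/
def Pc.freeb : Pc → Bool
  | .pair _ => true
  | .rect _ _ => true
  | .dup _ => false
  | .gap _ => false

theorem Pc.free_of_freeb {p : Pc} (h : p.freeb = true) : p.free := by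
  cases p <;> simp_all [Pc.freeb, Pc.free]

def MBlk.okb (W : ℕ) : MBlk → Bool
  | .f p => p.freeb
  | .m s c => mok W s c

theorem two_le_mtot {W c : ℕ} : ∀ {s : List Pc}, mok W s c = true → 2 ≤ mtot s c := by
  intro s
  induction s with
  | nil => intro h; simpa [mok, mtot] using h
  | cons p s ih =>
    intro h
    cases p with
    | pair d => simp [mok] at h
    | rect d k => simp [mok] at h
    | dup d => simp only [mok, mtot] at h ⊢; have := ih h; omega
    | gap d =>
      simp only [mok, mtot, Bool.and_eq_true, Nat.ble_eq] at h ⊢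
      have := ih h.1.1.1; omega

theorem blk_merge {w W c : ℕ} (hw : w ≤ W) : ∀ {s : List Pc}, mok W s c = true →
    ∀ {L : List Pc} {H : Fin w → ℕ}, Decomp (.pair (mtot s c) :: L) H →
      Decomp (s ++ (.pair c :: L)) H := by
  intro s
  induction s with
  | nil => intro _ L H h; exact h
  | cons p s ih =>
    intro hs L H h
    cases p with
    | pair d => simp [mok] at hs
    | rect d k => simp [mok] at hs
    | dup d =>
      simp only [mok, mtot] at hs h
      have h1 : Decomp (.dup d :: .pair (mtot s c) :: L) H := h.merge_dup (two_le_mtot hs)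
      have h2 := ih hs (h1.perm (List.Perm.swap _ _ _))
      refine h2.perm ?_
      have h3 : (s ++ .pair c :: .dup d :: L).Perm (.dup d :: (s ++ .pair c :: L)) := by
        have := List.perm_middle (l₁ := s ++ [.pair c]) (a := Pc.dup d) (l₂ := L)
        simpa using this
      exact h3
    | gap d =>
      simp only [mok, mtot, Bool.and_eq_true, Nat.ble_eq] at hs h
      obtain ⟨⟨⟨hs1, hs2⟩, hs3⟩, hs4⟩ := hs
      have h1 : Decomp (.gap d :: .pair (mtot s c) :: L) H :=
        Decomp.merge_gap hs2 hs3 (by omega) h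
      have h2 := ih hs1 (h1.perm (List.Perm.swap _ _ _))
      refine h2.perm ?_
      have h3 : (s ++ .pair c :: .gap d :: L).Perm (.gap d :: (s ++ .pair c :: L)) := by
        have := List.perm_middle (l₁ := s ++ [.pair c]) (a := Pc.gap d) (l₂ := L)
        simpa using this
      exact h3

theorem blks_merge {w W : ℕ} (hw : w ≤ W) : ∀ {bs : List MBlk}, (bs.all (MBlk.okb W)) = true →
    ∀ {L : List Pc} {H : Fin w → ℕ}, Decomp (bs.map MBlk.row ++ L) H →
      Decomp (bs.flatMap MBlk.pcs ++ L) H := by
  intro bs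
  induction bs with
  | nil => intro _ L H h; exact h
  | cons b bs ih =>
    intro hs L H h
    rw [List.all_cons, Bool.and_eq_true] at hs
    have h1 : Decomp (b.pcs ++ (bs.map MBlk.row ++ L)) H := by
      cases b with
      | f p => exact h
      | m s c =>
        have h2 := blk_merge hw (s := s) (c := c) hs.1 h
        simpa [MBlk.pcs] using h2
    have h2 : Decomp (bs.map MBlk.row ++ (b.pcs ++ L)) H := by
      refine h1.perm ?_
      rw [← List.append_assoc, ← List.append_assoc]
      exact List.perm_append_comm.append_right L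
    have h3 := ih hs.2 h2
    refine h3.perm ?_
    rw [List.flatMap_cons, ← List.append_assoc]
    exact List.perm_append_comm.append_right L

/-! ### The numerical check -/

/-- bound for the sum of the first `m` columns, if `H 0 = h` -/
def tbd (n B h m : ℕ) : ℕ :=
  min (min (m * h) (h + (m - 1) * (2 * B - h))) (n - (max h ((n + h - 1) / h) - m))

/-- no diagram of the region has `H 0 = h` -/
def noH (n B h : ℕ) : Bool :=
  Nat.ble (h * B + 1) n || (Nat.ble (B + 1) h && Nat.ble ((2 * B - h) * (2 * B - h) + 4 * B + 1)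
    (n + 4 * (2 * B - h)))

/-- check of one value of `h` -/
def chkH (n B K : ℕ) (R : List Pc) (h : ℕ) : Bool :=
  (List.range K).all fun m => Nat.ble n (FL R (m + 1)) || Nat.ble (tbd n B h (m + 1)) (FL R (m + 1))

/-- a plan: range of `h` and the blocks -/
structure MPlan where
  lo : ℕ
  hi : ℕ
  bs : List MBlk

/-- admissible list, Boolean -/
def validPb : List Pc → Bool
  | [] => true
  | g :: L => Nat.ble g.low g.top && L.all (fun h => Nat.ble h.top g.next) && validPb L

theorem validP_of_validPb : ∀ {L : List Pc}, validPb L = true → validP L := by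
  intro L
  induction L with
  | nil => intro _; trivial
  | cons g L ih =>
    intro h
    simp only [validPb, Bool.and_eq_true, Nat.ble_eq, List.all_eq_true] at h
    exact ⟨h.1.1, h.1.2, ih h.2⟩

/-- the pieces of a plan in the order of columns -/
def MPlan.pieces (P : MPlan) : List Pc :=
  (P.bs.flatMap MBlk.pcs).insertionSort fun p q => q.top ≤ p.top

/-- structural part of the check -/
def MPlan.okS (ps : List ℕ) (B : ℕ) (P : MPlan) : Bool :=
  validPb P.pieces && (colsP P.pieces == (List.range (ps.headD 0)).map (cl ps)) &&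
    (P.bs.all (MBlk.okb (2 * B - 1)))

/-- full check for a hook list -/
def mcheck (ps : List ℕ) (K : ℕ) (Ps : List MPlan) : Bool :=
  let n := hsize ps
  let B := ps.headD 0 - 1
  Nat.ble (2 * B + 1) n && Ps.all (fun P => P.okS ps B && Nat.ble n (FL (P.bs.map MBlk.row) K) &&
    Nat.beq ((P.bs.map MBlk.row).map Pc.size).sum n &&
    (List.range (P.hi + 1 - P.lo)).all fun i => chkH n B K (P.bs.map MBlk.row) (P.lo + i)) &&
  (List.range (2 * B + 1)).all fun h => noH n B h ||
    Ps.any fun P => Nat.ble P.lo h && Nat.ble h P.hi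

/-! ### Soundness -/

namespace Region

variable {n B w w₂ : ℕ} {H : ℕ → ℕ}

theorem H0_ge_two (h : Region n B w w₂ H) (hn : 2 * B < n) : 2 ≤ H 0 := by
  by_contra hcon
  have h1 := h.n_le
  have h2 := h.row
  have h3 : w * H 0 ≤ w * 1 := Nat.mul_le_mul_left _ (by omega)
  omega

theorem w_lt (h : Region n B w w₂ H) (hn : 2 * B < n) : w ≤ 2 * B - 1 ∧ 1 ≤ w₂ := by
  have h1 := (h.two 0).2 (by have := h.H0_ge_two hn; omega)
  have h2 := h.row
  omega

/-- bound for `n` if `H 0 > B` -/
theorem n_le_wide (h : Region n B w w₂ H) (hn : 2 * B < n) :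
    n + 4 * (2 * B - H 0) ≤ (2 * B - H 0) * (2 * B - H 0) + 4 * B ∨ H 0 ≤ B := by
  by_cases hB : H 0 ≤ B
  · exact Or.inr hB
  left
  have h1 := h.n_le_hook (by omega)
  have h2 := h.col
  have h3 := h.row
  have h4 := h.wlog
  have h5 := (h.w_lt hn).2
  obtain ⟨x, hx⟩ : ∃ x, x = 2 * B - H 0 := ⟨_, rfl⟩
  rw [← hx]
  rcases Nat.eq_zero_or_pos x with h0 | h0
  · have h6 : H 1 = 0 := by omega
    rw [h6] at h1
    simp only [Nat.zero_sub, zero_mul] at h1
    subst h0
    omega
  obtain ⟨y, hy⟩ : ∃ y, y = w₂ - 1 := ⟨_, rfl⟩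
  obtain ⟨z, hz⟩ : ∃ z, z = H 1 - 1 := ⟨_, rfl⟩
  obtain ⟨x', rfl⟩ : ∃ x', x = x' + 1 := ⟨x - 1, by omega⟩
  rw [← hy, ← hz] at h1
  have h7 : z ≤ x' := by omega
  have h8 : y ≤ x' := by omega
  have h9 : z * y ≤ x' * y := Nat.mul_le_mul_right _ h7
  have h10 : x' * y + x' ≤ x' * x' + y ∨ x' = 0 := by
    rcases Nat.eq_zero_or_pos x' with h11 | h11
    · exact Or.inr h11
    · left
      obtain ⟨d, hd⟩ : ∃ d, x' = y + d := ⟨x' - y, by omega⟩
      have h12 := Nat.mul_le_mul_right d h11
      have h13 : x' * x' = x' * y + x' * d := by rw [← Nat.mul_add, ← hd]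
      omega
  have h12 : w ≤ 2 * B - y - 1 := by omega
  have h13 : H 0 = 2 * B - (x' + 1) := by omega
  have h14 : (x' + 1) * (x' + 1) = x' * x' + 2 * x' + 1 := by ring
  rw [h14]
  rcases h10 with h10 | h10
  · generalize x' * x' = q at *
    generalize x' * y = r at *
    generalize z * y = t at *
    omega
  · subst h10
    rw [Nat.zero_mul] at h9
    generalize z * y = t at *
    omega

theorem sum_top_le (h : Region n B w w₂ H) {m : ℕ} (hm : m ≤ w) (hm0 : 1 ≤ m) :
    ∑ j ∈ range m, H j ≤ tbd n B (H 0) m := by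
  rw [tbd, le_min_iff, le_min_iff]
  refine ⟨⟨?_, ?_⟩, ?_⟩
  · calc ∑ j ∈ range m, H j ≤ ∑ _j ∈ range m, H 0 := sum_le_sum fun j _ => h.H_le_zero j
      _ = m * H 0 := by rw [sum_const, card_range, smul_eq_mul]
  · obtain ⟨v, rfl⟩ : ∃ v, m = v + 1 := ⟨m - 1, by omega⟩
    rw [sum_range_succ', Nat.add_sub_cancel]
    have h1 : ∑ j ∈ range v, H (j + 1) ≤ v * (2 * B - H 0) := by
      calc ∑ j ∈ range v, H (j + 1) ≤ ∑ _j ∈ range v, (2 * B - H 0) := by
            refine sum_le_sum fun j _ => ?_
            have := h.le_H1 (j := j + 1) (by omega)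
            have := h.col
            omega
        _ = v * (2 * B - H 0) := by rw [sum_const, card_range, smul_eq_mul]
    omega
  · have h1 : ∑ j ∈ range m, H j + (w - m) ≤ n := by
      rw [← h.sum, ← sum_range_add_sum_Ico _ hm]
      refine Nat.add_le_add_left ?_ _
      calc w - m = ∑ _j ∈ Ico m w, 1 := by simp
        _ ≤ ∑ j ∈ Ico m w, H j := sum_le_sum fun j hj => by
            have := (h.pos j).1 (mem_Ico.1 hj).2
            omega
    have h2 : max (H 0) ((n + H 0 - 1) / H 0) ≤ w := by
      refine max_le h.wlog ?_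
      rcases Nat.eq_zero_or_pos (H 0) with h3 | h3
      · rw [h3, Nat.div_zero]; omega
      · have h4 := h.n_le
        have h5 : (n + H 0 - 1) / H 0 < w + 1 := by
          rw [Nat.div_lt_iff_lt_mul h3, add_mul, one_mul]
          omega
        omega
    omega

end Region

theorem getD_map_range {ps : List ℕ} (hv : ValidH ps) (s : ℕ) :
    ((List.range (ps.headD 0)).map (cl ps)).getD s 0 = cl ps s := by
  rw [List.getD_eq_getElem?_getD, List.getElem?_map]
  by_cases hs : s < ps.headD 0
  · rw [List.getElem?_range hs]; rfl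
  · rw [cl_eq_zero hv (by rw [cl_zero]; omega), List.getElem?_eq_none (by simpa using hs)]
    rfl

/-- **Soundness of the numeric check.** -/
theorem covH_of_mcheck {ps : List ℕ} (hv : ValidH ps) (K : ℕ) (Ps : List MPlan)
    (hc : mcheck ps K Ps = true) : CovH ps := by
  intro H w w₂ hr
  simp only [mcheck, Bool.and_eq_true, Nat.ble_eq, List.all_eq_true, List.mem_range,
    Bool.or_eq_true, List.any_eq_true, Nat.beq_eq] at hc
  obtain ⟨⟨hn, hP⟩, hcov⟩ := hc
  set n := hsize ps with hndef
  set B := ps.headD 0 - 1 with hBdef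
  have hn' : 2 * B < n := by omega
  have hh : H 0 < 2 * B + 1 := by have := hr.col; omega
  have h2 := hr.H0_ge_two hn'
  obtain ⟨hw1, hw2⟩ := hr.w_lt hn'
  rcases hcov (H 0) hh with h3 | ⟨P, hPm, hlo, hhi⟩
  · exfalso
    simp only [noH, Bool.or_eq_true, Nat.ble_eq, Bool.and_eq_true] at h3
    rcases h3 with h3 | ⟨h3, h4⟩
    · have h5 := hr.n_le_hook (by omega)
      have h6 := hr.w2_le_B
      have h7 : (H 1 - 1) * (w₂ - 1) ≤ (H 0 - 1) * (w₂ - 1) :=
        Nat.mul_le_mul_right _ (by have := hr.H_le_zero 1; omega)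
      have h8 := hr.row
      obtain ⟨y, hy⟩ : ∃ y, w₂ = y + 1 := ⟨w₂ - 1, by omega⟩
      obtain ⟨x, hx⟩ : ∃ x, H 0 = x + 2 := ⟨H 0 - 2, by omega⟩
      obtain ⟨b, hb⟩ : ∃ b, B = y + 1 + b := ⟨B - (y + 1), by omega⟩
      rw [hx, hy] at h7 h5
      simp only [Nat.add_sub_cancel, show x + 2 - 1 = x + 1 by omega] at h7 h5
      rw [hx] at h3
      have h9 : w ≤ 2 * B - (y + 1) := by omega
      have h10 : n + 1 ≤ x + 2 + (2 * B - (y + 1)) + (x + 1) * y := by omega
      have h11 : (x + 2) * B = x * y + x + 2 * y + 2 + x * b + 2 * b := by rw [hb]; ring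
      have h12 : (x + 1) * y = x * y + y := by ring
      rw [h11] at h3
      rw [h12] at h10
      generalize x * y = q at *
      generalize x * b = r at *
      omega
    · rcases hr.n_le_wide hn' with h5 | h5 <;> omega
  obtain ⟨⟨⟨hS, hK⟩, htot⟩, hchk⟩ := hP P hPm
  simp only [MPlan.okS, Bool.and_eq_true, beq_iff_eq, List.all_eq_true] at hS
  obtain ⟨⟨hval, hcols⟩, hok⟩ := hS
  refine ⟨P.pieces, validP_of_validPb hval, fun s => ?_, ?_⟩
  · rw [hcols, getD_map_range hv]
  have hperm : (P.bs.flatMap MBlk.pcs).Perm P.pieces :=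
    (List.perm_insertionSort _ _).symm
  refine Decomp.perm hperm ?_
  have hmain : Decomp (P.bs.map MBlk.row) fun j : Fin w => H j := by
    refine decomp_GR _ ?_ w H ?_ ?_
    · intro p hp
      obtain ⟨b, hb, rfl⟩ := List.mem_map.1 hp
      have h5 := hok b hb
      cases b with
      | f p => exact Pc.free_of_freeb h5
      | m s c => trivial
    · rw [hr.sum, htot]
    · intro J hJ
      have hJw : J.card ≤ w := by
        have := card_le_card hJ
        rwa [card_range] at this
      rcases Nat.eq_zero_or_pos J.card with h0 | h0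
      · rw [card_eq_zero] at h0
        subst h0
        simp
      have hn2 : ∑ j ∈ J, H j ≤ n := by
        rw [← hr.sum]
        exact sum_le_sum_of_subset hJ
      by_cases hJK : J.card ≤ K
      · have h6 := hchk (H 0 - P.lo) (by omega)
        rw [show P.lo + (H 0 - P.lo) = H 0 by omega] at h6
        simp only [chkH, List.all_eq_true, List.mem_range, Bool.or_eq_true, Nat.ble_eq] at h6
        have h7 := h6 (J.card - 1) (by omega)
        rw [show J.card - 1 + 1 = J.card by omega] at h7
        rcases h7 with h7 | h7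
        · exact hn2.trans h7
        · exact ((sum_le_top hr.anti J).trans (hr.sum_top_le hJw h0)).trans h7
      · exact hn2.trans (hK.trans (FL_mono _ (by omega)))
  have h8 := blks_merge (W := 2 * B - 1) (bs := P.bs) hw1 (List.all_eq_true.2 hok) (L := [])
    (H := fun j : Fin w => H j) (by rwa [List.append_nil])
  rwa [List.append_nil] at h8

end Crest.Agent.R195
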