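import Crest.Agent.R195.MergeCheck2

/-! Row 195, S0298 (helper563).  Table of plans for the numeric checker, family hA
(generated by a program, checked by the kernel). -/

set_option autoImplicit false
set_option Elab.async false

namespace Crest.Agent.R195

def mtA6_2 : List MEnt := [
  ⟨25, 6, 4, [⟨5, 7, [(7, 1)], [(1, 1)], [([], [2], 4)]⟩]⟩,
  ⟨27, 6, 5, [⟨5, 7, [(7, 1)], [(5, 1)], [([], [3], 2)]⟩]⟩]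

theorem mtA6_2_ok : mtabOK (hA 6) 2 mtA6_2 = true := by decide +kernel

theorem covA_6_2 (e : ℕ) (h1 : 2 ≤ e) (h2 : e < 4) : CovH (hA 6 e) :=
  mtab_cov' mtA6_2_ok (l := 2) rfl e h1 (by omega)

def mtA7_2 : List MEnt := [
  ⟨32, 7, 4, [⟨5, 9, [(8, 1)], [(3, 1), (1, 1)], [([], [2], 5)]⟩]⟩,
  ⟨34, 7, 5, [⟨5, 8, [(8, 1)], [], [([6], [3], 2)]⟩]⟩]

theorem mtA7_2_ok : mtabOK (hA 7) 2 mtA7_2 = true := by decide +kernel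

theorem covA_7_2 (e : ℕ) (h1 : 2 ≤ e) (h2 : e < 4) : CovH (hA 7 e) :=
  mtab_cov' mtA7_2_ok (l := 2) rfl e h1 (by omega)

def mtA8_2 : List MEnt := [
  ⟨40, 8, 5, [⟨5, 10, [(9, 1), (6, 1)], [(1, 1)], [([], [2], 4)]⟩]⟩,
  ⟨42, 8, 7, [⟨6, 10, [(9, 1), (5, 1)], [(7, 1)], [([], [3], 2)]⟩]⟩,
  ⟨44, 8, 5, [⟨6, 10, [(9, 2)], [(1, 1)], [([], [4], 3)]⟩]⟩]

theorem mtA8_2_ok : mtabOK (hA 8) 2 mtA8_2 = true := by decide +kernel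

theorem covA_8_2 (e : ℕ) (h1 : 2 ≤ e) (h2 : e < 5) : CovH (hA 8 e) :=
  mtab_cov' mtA8_2_ok (l := 3) rfl e h1 (by omega)

def mtA9_2 : List MEnt := [
  ⟨49, 9, 5, [⟨6, 11, [(10, 1), (7, 1)], [(3, 1), (1, 1)], [([], [2], 5)]⟩]⟩,
  ⟨51, 9, 6, [⟨6, 11, [(10, 1), (5, 1)], [], [([8], [3], 2)]⟩]⟩,
  ⟨53, 9, 5, [⟨6, 11, [(10, 2)], [(5, 1), (1, 1)], [([], [4], 3)]⟩]⟩]

theorem mtA9_2_ok : mtabOK (hA 9) 2 mtA9_2 = true := by decide +kernel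

theorem covA_9_2 (e : ℕ) (h1 : 2 ≤ e) (h2 : e < 5) : CovH (hA 9 e) :=
  mtab_cov' mtA9_2_ok (l := 3) rfl e h1 (by omega)

def mtA10_1 : List MEnt := [
  ⟨57, 10, 7, [⟨6, 13, [(8, 1)], [(2, 1)], [([11], [], 4), ([], [1], 6)]⟩]⟩,
  ⟨59, 10, 6, [⟨6, 13, [(11, 1), (8, 2)], [(1, 1)], [([], [2], 4)]⟩]⟩,
  ⟨61, 10, 7, [⟨7, 13, [(11, 1), (6, 1)], [(4, 1)], [([9], [3], 2)]⟩]⟩,
  ⟨63, 10, 6, [⟨7, 12, [(11, 2), (6, 1)], [(1, 1)], [([], [4], 3)]⟩]⟩,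
  ⟨65, 10, 8, [⟨7, 12, [(11, 1), (5, 2)], [(1, 1)], [([7], [], 9)]⟩]⟩]

theorem mtA10_1_ok : mtabOK (hA 10) 1 mtA10_1 = true := by decide +kernel

theorem covA_10_1 (e : ℕ) (h1 : 1 ≤ e) (h2 : e < 6) : CovH (hA 10 e) :=
  mtab_cov' mtA10_1_ok (l := 5) rfl e h1 (by omega)

def mtA11_1 : List MEnt := [
  ⟨68, 11, 8, [⟨7, 14, [(9, 3)], [], [([12], [1], 3)]⟩]⟩,
  ⟨70, 11, 6, [⟨7, 14, [(12, 1), (9, 2)], [(3, 1), (1, 1)], [([], [2], 5)]⟩]⟩,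
  ⟨72, 11, 7, [⟨7, 14, [(12, 1), (7, 2)], [], [([10], [3], 2)]⟩]⟩,
  ⟨74, 11, 6, [⟨7, 14, [(12, 2), (7, 1)], [(5, 1), (1, 1)], [([], [4], 3)]⟩]⟩,
  ⟨76, 11, 7, [⟨7, 14, [(12, 2), (4, 1)], [], [([8], [5], 2)]⟩]⟩]

theorem mtA11_1_ok : mtabOK (hA 11) 1 mtA11_1 = true := by decide +kernel

theorem covA_11_1 (e : ℕ) (h1 : 1 ≤ e) (h2 : e < 6) : CovH (hA 11 e) :=
  mtab_cov' mtA11_1_ok (l := 5) rfl e h1 (by omega)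

def mtA12_1 : List MEnt := [
  ⟨80, 12, 8, [⟨7, 16, [(10, 2)], [(2, 1)], [([13], [], 4), ([], [1], 6)]⟩]⟩,
  ⟨82, 12, 7, [⟨7, 15, [(13, 1), (10, 3)], [(1, 1)], [([], [2], 4)]⟩]⟩,
  ⟨84, 12, 8, [⟨7, 15, [(13, 1), (8, 2)], [(4, 1)], [([11], [3], 2)]⟩]⟩,
  ⟨86, 12, 7, [⟨8, 15, [(13, 2), (8, 2)], [(1, 1)], [([], [4], 3)]⟩]⟩,
  ⟨88, 12, 8, [⟨8, 15, [(13, 2), (4, 1)], [(6, 1)], [([9], [5], 2)]⟩]⟩,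
  ⟨90, 12, 7, [⟨8, 15, [(13, 3), (5, 1)], [(1, 1)], [([], [6], 3)]⟩]⟩]

theorem mtA12_1_ok : mtabOK (hA 12) 1 mtA12_1 = true := by decide +kernel

theorem covA_12_1 (e : ℕ) (h1 : 1 ≤ e) (h2 : e < 7) : CovH (hA 12 e) :=
  mtab_cov' mtA12_1_ok (l := 6) rfl e h1 (by omega)

def mtA13_1 : List MEnt := [
  ⟨93, 13, 9, [⟨8, 17, [(11, 4)], [], [([14], [1], 3)]⟩]⟩,
  ⟨95, 13, 7, [⟨8, 17, [(14, 1), (11, 3)], [(3, 1), (1, 1)], [([], [2], 5)]⟩]⟩,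
  ⟨97, 13, 8, [⟨8, 17, [(14, 1), (9, 3)], [], [([12], [3], 2)]⟩]⟩,
  ⟨99, 13, 7, [⟨8, 16, [(14, 2), (9, 2)], [(5, 1), (1, 1)], [([], [4], 3)]⟩]⟩,
  ⟨101, 13, 8, [⟨8, 16, [(14, 2), (7, 1), (4, 1)], [], [([10], [5], 2)]⟩]⟩,
  ⟨103, 13, 7, [⟨8, 16, [(14, 3), (5, 1)], [(7, 1), (1, 1)], [([], [6], 3)]⟩]⟩]

theorem mtA13_1_ok : mtabOK (hA 13) 1 mtA13_1 = true := by decide +kernel

theorem covA_13_1 (e : ℕ) (h1 : 1 ≤ e) (h2 : e < 7) : CovH (hA 13 e) :=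
  mtab_cov' mtA13_1_ok (l := 6) rfl e h1 (by omega)

def mtA14_1 : List MEnt := [
  ⟨107, 14, 10, [⟨8, 18, [(12, 4)], [(2, 1)], [([15], [1], 4)]⟩]⟩,
  ⟨109, 14, 8, [⟨8, 18, [(15, 1), (12, 4)], [(1, 1)], [([], [2], 4)]⟩]⟩,
  ⟨111, 14, 9, [⟨8, 18, [(15, 1), (10, 3)], [(4, 1)], [([13], [3], 2)]⟩]⟩,
  ⟨113, 14, 8, [⟨9, 18, [(15, 2), (10, 3)], [(1, 1)], [([], [4], 3)]⟩]⟩,
  ⟨115, 14, 9, [⟨9, 18, [(15, 2), (8, 1), (4, 1)], [(6, 1)], [([11], [5], 2)]⟩]⟩,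
  ⟨117, 14, 8, [⟨9, 17, [(15, 3), (8, 1), (5, 1)], [(1, 1)], [([], [6], 3)]⟩]⟩,
  ⟨119, 14, 10, [⟨9, 17, [(15, 2), (7, 3)], [(1, 1)], [([9], [], 11)]⟩]⟩]

theorem mtA14_1_ok : mtabOK (hA 14) 1 mtA14_1 = true := by decide +kernel

theorem covA_14_1 (e : ℕ) (h1 : 1 ≤ e) (h2 : e < 8) : CovH (hA 14 e) :=
  mtab_cov' mtA14_1_ok (l := 7) rfl e h1 (by omega)

def mtA15_1 : List MEnt := [
  ⟨122, 15, 10, [⟨9, 19, [(13, 5)], [], [([16], [1], 3)]⟩]⟩,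
  ⟨124, 15, 8, [⟨9, 19, [(16, 1), (13, 4)], [(3, 1), (1, 1)], [([], [2], 5)]⟩]⟩,
  ⟨126, 15, 9, [⟨9, 19, [(16, 1), (11, 4)], [], [([14], [3], 2)]⟩]⟩,
  ⟨128, 15, 8, [⟨9, 19, [(16, 2), (11, 3)], [(5, 1), (1, 1)], [([], [4], 3)]⟩]⟩,
  ⟨130, 15, 9, [⟨9, 19, [(16, 2), (9, 2), (4, 1)], [], [([12], [5], 2)]⟩]⟩,
  ⟨132, 15, 8, [⟨9, 19, [(16, 3), (9, 1), (5, 1)], [(7, 1), (1, 1)], [([], [6], 3)]⟩]⟩,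
  ⟨134, 15, 9, [⟨9, 19, [(16, 3), (6, 2)], [], [([10], [7], 2)]⟩]⟩]

theorem mtA15_1_ok : mtabOK (hA 15) 1 mtA15_1 = true := by decide +kernel

theorem covA_15_1 (e : ℕ) (h1 : 1 ≤ e) (h2 : e < 8) : CovH (hA 15 e) :=
  mtab_cov' mtA15_1_ok (l := 7) rfl e h1 (by omega)

def mtA16_1 : List MEnt := [
  ⟨138, 16, 11, [⟨9, 21, [(14, 5)], [(2, 1)], [([17], [1], 4)]⟩]⟩,
  ⟨140, 16, 9, [⟨9, 21, [(17, 1), (14, 5)], [(1, 1)], [([], [2], 4)]⟩]⟩,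
  ⟨142, 16, 10, [⟨9, 20, [(17, 1), (12, 4)], [(4, 1)], [([15], [3], 2)]⟩]⟩,
  ⟨144, 16, 9, [⟨9, 20, [(17, 2), (12, 4)], [(1, 1)], [([], [4], 3)]⟩]⟩,
  ⟨146, 16, 10, [⟨10, 20, [(17, 2), (10, 2), (4, 1)], [(6, 1)], [([13], [5], 2)]⟩]⟩,
  ⟨148, 16, 9, [⟨10, 20, [(17, 3), (10, 2), (5, 1)], [(1, 1)], [([], [6], 3)]⟩]⟩,
  ⟨150, 16, 10, [⟨10, 20, [(17, 3), (6, 2)], [(8, 1)], [([11], [7], 2)]⟩]⟩,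
  ⟨152, 16, 9, [⟨10, 20, [(17, 4), (7, 2)], [(1, 1)], [([], [8], 3)]⟩]⟩]

theorem mtA16_1_ok : mtabOK (hA 16) 1 mtA16_1 = true := by decide +kernel

theorem covA_16_1 (e : ℕ) (h1 : 1 ≤ e) (h2 : e < 9) : CovH (hA 16 e) :=
  mtab_cov' mtA16_1_ok (l := 8) rfl e h1 (by omega)

def mtA17_1 : List MEnt := [
  ⟨155, 17, 11, [⟨10, 22, [(15, 6)], [], [([18], [1], 3)]⟩]⟩,
  ⟨157, 17, 9, [⟨10, 22, [(18, 1), (15, 5)], [(3, 1), (1, 1)], [([], [2], 5)]⟩]⟩,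
  ⟨159, 17, 10, [⟨10, 22, [(18, 1), (13, 5)], [], [([16], [3], 2)]⟩]⟩,
  ⟨161, 17, 9, [⟨10, 22, [(18, 2), (13, 4)], [(5, 1), (1, 1)], [([], [4], 3)]⟩]⟩,
  ⟨163, 17, 10, [⟨10, 22, [(18, 2), (11, 3), (4, 1)], [], [([14], [5], 2)]⟩]⟩,
  ⟨165, 17, 9, [⟨10, 21, [(18, 3), (11, 2), (5, 1)], [(7, 1), (1, 1)], [([], [6], 3)]⟩]⟩,
  ⟨167, 17, 10, [⟨10, 21, [(18, 3), (9, 1), (6, 2)], [], [([12], [7], 2)]⟩]⟩,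
  ⟨169, 17, 9, [⟨10, 21, [(18, 4), (7, 2)], [(9, 1), (1, 1)], [([], [8], 3)]⟩]⟩]

theorem mtA17_1_ok : mtabOK (hA 17) 1 mtA17_1 = true := by decide +kernel

theorem covA_17_1 (e : ℕ) (h1 : 1 ≤ e) (h2 : e < 9) : CovH (hA 17 e) :=
  mtab_cov' mtA17_1_ok (l := 8) rfl e h1 (by omega)

def mtA18_1 : List MEnt := [
  ⟨173, 18, 12, [⟨10, 23, [(16, 6)], [(2, 1)], [([19], [1], 4)]⟩]⟩,
  ⟨175, 18, 10, [⟨10, 23, [(19, 1), (16, 6)], [(1, 1)], [([], [2], 4)]⟩]⟩,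
  ⟨177, 18, 11, [⟨10, 23, [(19, 1), (14, 5)], [(4, 1)], [([17], [3], 2)]⟩]⟩,
  ⟨179, 18, 10, [⟨10, 23, [(19, 2), (14, 5)], [(1, 1)], [([], [4], 3)]⟩]⟩,
  ⟨181, 18, 11, [⟨11, 23, [(19, 2), (12, 3), (4, 1)], [(6, 1)], [([15], [5], 2)]⟩]⟩,
  ⟨183, 18, 10, [⟨11, 23, [(19, 3), (12, 3), (5, 1)], [(1, 1)], [([], [6], 3)]⟩]⟩,
  ⟨185, 18, 11, [⟨11, 23, [(19, 3), (10, 1), (6, 2)], [(8, 1)], [([13], [7], 2)]⟩]⟩,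
  ⟨187, 18, 10, [⟨11, 23, [(19, 4), (10, 1), (7, 2)], [(1, 1)], [([], [8], 3)]⟩]⟩,
  ⟨189, 18, 12, [⟨11, 23, [(19, 3), (9, 4)], [(1, 1)], [([11], [], 13)]⟩]⟩]

theorem mtA18_1_ok : mtabOK (hA 18) 1 mtA18_1 = true := by decide +kernel

theorem covA_18_1 (e : ℕ) (h1 : 1 ≤ e) (h2 : e < 10) : CovH (hA 18 e) :=
  mtab_cov' mtA18_1_ok (l := 9) rfl e h1 (by omega)

def mtA19_1 : List MEnt := [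
  ⟨192, 19, 12, [⟨11, 25, [(17, 7)], [], [([20], [1], 3)]⟩]⟩,
  ⟨194, 19, 10, [⟨11, 24, [(20, 1), (17, 6)], [(3, 1), (1, 1)], [([], [2], 5)]⟩]⟩,
  ⟨196, 19, 11, [⟨11, 24, [(20, 1), (15, 6)], [], [([18], [3], 2)]⟩]⟩,
  ⟨198, 19, 10, [⟨11, 24, [(20, 2), (15, 5)], [(5, 1), (1, 1)], [([], [4], 3)]⟩]⟩,
  ⟨200, 19, 11, [⟨11, 24, [(20, 2), (13, 4), (4, 1)], [], [([16], [5], 2)]⟩]⟩,
  ⟨202, 19, 10, [⟨11, 24, [(20, 3), (13, 3), (5, 1)], [(7, 1), (1, 1)], [([], [6], 3)]⟩]⟩,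
  ⟨204, 19, 11, [⟨11, 24, [(20, 3), (11, 2), (6, 2)], [], [([14], [7], 2)]⟩]⟩,
  ⟨206, 19, 10, [⟨11, 24, [(20, 4), (11, 1), (7, 2)], [(9, 1), (1, 1)], [([], [8], 3)]⟩]⟩,
  ⟨208, 19, 11, [⟨11, 24, [(20, 4), (8, 3)], [], [([12], [9], 2)]⟩]⟩]

theorem mtA19_1_ok : mtabOK (hA 19) 1 mtA19_1 = true := by decide +kernel

theorem covA_19_1 (e : ℕ) (h1 : 1 ≤ e) (h2 : e < 10) : CovH (hA 19 e) :=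
  mtab_cov' mtA19_1_ok (l := 9) rfl e h1 (by omega)

def mtA20_1 : List MEnt := [
  ⟨212, 20, 13, [⟨11, 26, [(18, 7)], [(2, 1)], [([21], [1], 4)]⟩]⟩,
  ⟨214, 20, 11, [⟨11, 26, [(21, 1), (18, 7)], [(1, 1)], [([], [2], 4)]⟩]⟩,
  ⟨216, 20, 12, [⟨11, 26, [(21, 1), (16, 6)], [(4, 1)], [([19], [3], 2)]⟩]⟩,
  ⟨218, 20, 11, [⟨11, 26, [(21, 2), (16, 6)], [(1, 1)], [([], [4], 3)]⟩]⟩,
  ⟨220, 20, 12, [⟨11, 26, [(21, 2), (14, 4), (4, 1)], [(6, 1)], [([17], [5], 2)]⟩]⟩,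
  ⟨222, 20, 11, [⟨12, 25, [(21, 3), (14, 4), (5, 1)], [(1, 1)], [([], [6], 3)]⟩]⟩,
  ⟨224, 20, 12, [⟨12, 25, [(21, 3), (12, 2), (6, 2)], [(8, 1)], [([15], [7], 2)]⟩]⟩,
  ⟨226, 20, 11, [⟨12, 25, [(21, 4), (12, 2), (7, 2)], [(1, 1)], [([], [8], 3)]⟩]⟩,
  ⟨228, 20, 12, [⟨12, 25, [(21, 4), (8, 3)], [(10, 1)], [([13], [9], 2)]⟩]⟩,
  ⟨230, 20, 11, [⟨12, 25, [(21, 5), (9, 3)], [(1, 1)], [([], [10], 3)]⟩]⟩]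

theorem mtA20_1_ok : mtabOK (hA 20) 1 mtA20_1 = true := by decide +kernel

theorem covA_20_1 (e : ℕ) (h1 : 1 ≤ e) (h2 : e < 11) : CovH (hA 20 e) :=
  mtab_cov' mtA20_1_ok (l := 10) rfl e h1 (by omega)

def mtA21_1 : List MEnt := [
  ⟨233, 21, 13, [⟨12, 27, [(19, 8)], [], [([22], [1], 3)]⟩]⟩,
  ⟨235, 21, 11, [⟨12, 27, [(22, 1), (19, 7)], [(3, 1), (1, 1)], [([], [2], 5)]⟩]⟩,
  ⟨237, 21, 12, [⟨12, 27, [(22, 1), (17, 7)], [], [([20], [3], 2)]⟩]⟩,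
  ⟨239, 21, 11, [⟨12, 27, [(22, 2), (17, 6)], [(5, 1), (1, 1)], [([], [4], 3)]⟩]⟩,
  ⟨241, 21, 12, [⟨12, 27, [(22, 2), (15, 5), (4, 1)], [], [([18], [5], 2)]⟩]⟩,
  ⟨243, 21, 11, [⟨12, 27, [(22, 3), (15, 4), (5, 1)], [(7, 1), (1, 1)], [([], [6], 3)]⟩]⟩,
  ⟨245, 21, 12, [⟨12, 27, [(22, 3), (13, 3), (6, 2)], [], [([16], [7], 2)]⟩]⟩,
  ⟨247, 21, 11, [⟨12, 27, [(22, 4), (13, 2), (7, 2)], [(9, 1), (1, 1)], [([], [8], 3)]⟩]⟩,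
  ⟨249, 21, 12, [⟨12, 27, [(22, 4), (11, 1), (8, 3)], [], [([14], [9], 2)]⟩]⟩,
  ⟨251, 21, 11, [⟨12, 26, [(22, 5), (9, 3)], [(11, 1), (1, 1)], [([], [10], 3)]⟩]⟩]

theorem mtA21_1_ok : mtabOK (hA 21) 1 mtA21_1 = true := by decide +kernel

theorem covA_21_1 (e : ℕ) (h1 : 1 ≤ e) (h2 : e < 11) : CovH (hA 21 e) :=
  mtab_cov' mtA21_1_ok (l := 10) rfl e h1 (by omega)

def mtA22_1 : List MEnt := [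
  ⟨255, 22, 14, [⟨12, 28, [(20, 8)], [(2, 1)], [([23], [1], 4)]⟩]⟩,
  ⟨257, 22, 12, [⟨12, 28, [(23, 1), (20, 8)], [(1, 1)], [([], [2], 4)]⟩]⟩,
  ⟨259, 22, 13, [⟨12, 28, [(23, 1), (18, 7)], [(4, 1)], [([21], [3], 2)]⟩]⟩,
  ⟨261, 22, 12, [⟨12, 28, [(23, 2), (18, 7)], [(1, 1)], [([], [4], 3)]⟩]⟩,
  ⟨263, 22, 13, [⟨12, 28, [(23, 2), (16, 5), (4, 1)], [(6, 1)], [([19], [5], 2)]⟩]⟩,
  ⟨265, 22, 12, [⟨13, 28, [(23, 3), (16, 5), (5, 1)], [(1, 1)], [([], [6], 3)]⟩]⟩,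
  ⟨267, 22, 13, [⟨13, 28, [(23, 3), (14, 3), (6, 2)], [(8, 1)], [([17], [7], 2)]⟩]⟩,
  ⟨269, 22, 12, [⟨13, 28, [(23, 4), (14, 3), (7, 2)], [(1, 1)], [([], [8], 3)]⟩]⟩,
  ⟨271, 22, 13, [⟨13, 28, [(23, 4), (12, 1), (8, 3)], [(10, 1)], [([15], [9], 2)]⟩]⟩,
  ⟨273, 22, 12, [⟨13, 28, [(23, 5), (12, 1), (9, 3)], [(1, 1)], [([], [10], 3)]⟩]⟩,
  ⟨275, 22, 13, [⟨13, 28, [(23, 5), (10, 4)], [(13, 1)], [([], [11], 2)]⟩]⟩]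

theorem mtA22_1_ok : mtabOK (hA 22) 1 mtA22_1 = true := by decide +kernel

theorem covA_22_1 (e : ℕ) (h1 : 1 ≤ e) (h2 : e < 12) : CovH (hA 22 e) :=
  mtab_cov' mtA22_1_ok (l := 11) rfl e h1 (by omega)

def mtA23_1 : List MEnt := [
  ⟨278, 23, 14, [⟨13, 30, [(21, 9)], [], [([24], [1], 3)]⟩]⟩,
  ⟨280, 23, 12, [⟨13, 30, [(24, 1), (21, 8)], [(3, 1), (1, 1)], [([], [2], 5)]⟩]⟩,
  ⟨282, 23, 13, [⟨13, 30, [(24, 1), (19, 8)], [], [([22], [3], 2)]⟩]⟩,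
  ⟨284, 23, 12, [⟨13, 30, [(24, 2), (19, 7)], [(5, 1), (1, 1)], [([], [4], 3)]⟩]⟩,
  ⟨286, 23, 13, [⟨13, 29, [(24, 2), (17, 6), (4, 1)], [], [([20], [5], 2)]⟩]⟩,
  ⟨288, 23, 12, [⟨13, 29, [(24, 3), (17, 5), (5, 1)], [(7, 1), (1, 1)], [([], [6], 3)]⟩]⟩,
  ⟨290, 23, 13, [⟨13, 29, [(24, 3), (15, 4), (6, 2)], [], [([18], [7], 2)]⟩]⟩,
  ⟨292, 23, 12, [⟨13, 29, [(24, 4), (15, 3), (7, 2)], [(9, 1), (1, 1)], [([], [8], 3)]⟩]⟩,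
  ⟨294, 23, 13, [⟨13, 29, [(24, 4), (13, 2), (8, 3)], [], [([16], [9], 2)]⟩]⟩,
  ⟨296, 23, 12, [⟨13, 29, [(24, 5), (13, 1), (9, 3)], [(11, 1), (1, 1)], [([], [10], 3)]⟩]⟩,
  ⟨298, 23, 13, [⟨13, 29, [(24, 5), (10, 4)], [], [([14], [11], 2)]⟩]⟩]

theorem mtA23_1_ok : mtabOK (hA 23) 1 mtA23_1 = true := by decide +kernel

theorem covA_23_1 (e : ℕ) (h1 : 1 ≤ e) (h2 : e < 12) : CovH (hA 23 e) :=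
  mtab_cov' mtA23_1_ok (l := 11) rfl e h1 (by omega)

def mtA24_1 : List MEnt := [
  ⟨302, 24, 15, [⟨13, 31, [(22, 9)], [(2, 1)], [([25], [1], 4)]⟩]⟩,
  ⟨304, 24, 13, [⟨13, 31, [(25, 1), (22, 9)], [(1, 1)], [([], [2], 4)]⟩]⟩,
  ⟨306, 24, 14, [⟨13, 31, [(25, 1), (20, 8)], [(4, 1)], [([23], [3], 2)]⟩]⟩,
  ⟨308, 24, 13, [⟨13, 31, [(25, 2), (20, 8)], [(1, 1)], [([], [4], 3)]⟩]⟩,
  ⟨310, 24, 14, [⟨13, 31, [(25, 2), (18, 6), (4, 1)], [(6, 1)], [([21], [5], 2)]⟩]⟩,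
  ⟨312, 24, 13, [⟨13, 31, [(25, 3), (18, 6), (5, 1)], [(1, 1)], [([], [6], 3)]⟩]⟩,
  ⟨314, 24, 14, [⟨14, 31, [(25, 3), (16, 4), (6, 2)], [(8, 1)], [([19], [7], 2)]⟩]⟩,
  ⟨316, 24, 13, [⟨14, 31, [(25, 4), (16, 4), (7, 2)], [(1, 1)], [([], [8], 3)]⟩]⟩,
  ⟨318, 24, 14, [⟨14, 30, [(25, 4), (14, 2), (8, 3)], [(10, 1)], [([17], [9], 2)]⟩]⟩,
  ⟨320, 24, 13, [⟨14, 30, [(25, 5), (14, 2), (9, 3)], [(1, 1)], [([], [10], 3)]⟩]⟩,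
  ⟨322, 24, 14, [⟨14, 30, [(25, 5), (10, 4)], [(12, 1)], [([15], [11], 2)]⟩]⟩,
  ⟨324, 24, 13, [⟨14, 30, [(25, 6), (11, 4)], [(1, 1)], [([], [12], 3)]⟩]⟩]

theorem mtA24_1_ok : mtabOK (hA 24) 1 mtA24_1 = true := by decide +kernel

theorem covA_24_1 (e : ℕ) (h1 : 1 ≤ e) (h2 : e < 13) : CovH (hA 24 e) :=
  mtab_cov' mtA24_1_ok (l := 12) rfl e h1 (by omega)

def mtA25_1 : List MEnt := [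
  ⟨327, 25, 15, [⟨14, 32, [(23, 10)], [], [([26], [1], 3)]⟩]⟩,
  ⟨329, 25, 13, [⟨14, 32, [(26, 1), (23, 9)], [(3, 1), (1, 1)], [([], [2], 5)]⟩]⟩,
  ⟨331, 25, 14, [⟨14, 32, [(26, 1), (21, 9)], [], [([24], [3], 2)]⟩]⟩,
  ⟨333, 25, 13, [⟨14, 32, [(26, 2), (21, 8)], [(5, 1), (1, 1)], [([], [4], 3)]⟩]⟩,
  ⟨335, 25, 14, [⟨14, 32, [(26, 2), (19, 7), (4, 1)], [], [([22], [5], 2)]⟩]⟩,
  ⟨337, 25, 13, [⟨14, 32, [(26, 3), (19, 6), (5, 1)], [(7, 1), (1, 1)], [([], [6], 3)]⟩]⟩,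
  ⟨339, 25, 14, [⟨14, 32, [(26, 3), (17, 5), (6, 2)], [], [([20], [7], 2)]⟩]⟩,
  ⟨341, 25, 13, [⟨14, 32, [(26, 4), (17, 4), (7, 2)], [(9, 1), (1, 1)], [([], [8], 3)]⟩]⟩,
  ⟨343, 25, 14, [⟨14, 32, [(26, 4), (15, 3), (8, 3)], [], [([18], [9], 2)]⟩]⟩,
  ⟨345, 25, 13, [⟨14, 32, [(26, 5), (15, 2), (9, 3)], [(11, 1), (1, 1)], [([], [10], 3)]⟩]⟩,
  ⟨347, 25, 14, [⟨14, 32, [(26, 5), (13, 1), (10, 4)], [], [([16], [11], 2)]⟩]⟩,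
  ⟨349, 25, 13, [⟨14, 32, [(26, 6), (11, 4)], [(13, 1), (1, 1)], [([], [12], 3)]⟩]⟩]

theorem mtA25_1_ok : mtabOK (hA 25) 1 mtA25_1 = true := by decide +kernel

theorem covA_25_1 (e : ℕ) (h1 : 1 ≤ e) (h2 : e < 13) : CovH (hA 25 e) :=
  mtab_cov' mtA25_1_ok (l := 12) rfl e h1 (by omega)

def mtA26_1 : List MEnt := [
  ⟨353, 26, 16, [⟨14, 34, [(24, 10)], [(2, 1)], [([27], [1], 4)]⟩]⟩,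
  ⟨355, 26, 14, [⟨14, 34, [(27, 1), (24, 10)], [(1, 1)], [([], [2], 4)]⟩]⟩,
  ⟨357, 26, 15, [⟨14, 33, [(27, 1), (22, 9)], [(4, 1)], [([25], [3], 2)]⟩]⟩,
  ⟨359, 26, 14, [⟨14, 33, [(27, 2), (22, 9)], [(1, 1)], [([], [4], 3)]⟩]⟩,
  ⟨361, 26, 15, [⟨14, 33, [(27, 2), (20, 7), (4, 1)], [(6, 1)], [([23], [5], 2)]⟩]⟩,
  ⟨363, 26, 14, [⟨14, 33, [(27, 3), (20, 7), (5, 1)], [(1, 1)], [([], [6], 3)]⟩]⟩,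
  ⟨365, 26, 15, [⟨15, 33, [(27, 3), (18, 5), (6, 2)], [(8, 1)], [([21], [7], 2)]⟩]⟩,
  ⟨367, 26, 14, [⟨15, 33, [(27, 4), (18, 5), (7, 2)], [(1, 1)], [([], [8], 3)]⟩]⟩,
  ⟨369, 26, 15, [⟨15, 33, [(27, 4), (16, 3), (8, 3)], [(10, 1)], [([19], [9], 2)]⟩]⟩,
  ⟨371, 26, 14, [⟨15, 33, [(27, 5), (16, 3), (9, 3)], [(1, 1)], [([], [10], 3)]⟩]⟩,
  ⟨373, 26, 15, [⟨15, 33, [(27, 5), (14, 1), (10, 4)], [(12, 1)], [([17], [11], 2)]⟩]⟩,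
  ⟨375, 26, 14, [⟨15, 33, [(27, 6), (14, 1), (11, 4)], [(1, 1)], [([], [12], 3)]⟩]⟩,
  ⟨377, 26, 15, [⟨15, 33, [(27, 6), (12, 5)], [(15, 1)], [([], [13], 2)]⟩]⟩]

theorem mtA26_1_ok : mtabOK (hA 26) 1 mtA26_1 = true := by decide +kernel

theorem covA_26_1 (e : ℕ) (h1 : 1 ≤ e) (h2 : e < 14) : CovH (hA 26 e) :=
  mtab_cov' mtA26_1_ok (l := 13) rfl e h1 (by omega)

def mtA27_1 : List MEnt := [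
  ⟨380, 27, 16, [⟨15, 35, [(25, 11)], [], [([28], [1], 3)]⟩]⟩,
  ⟨382, 27, 14, [⟨15, 35, [(28, 1), (25, 10)], [(3, 1), (1, 1)], [([], [2], 5)]⟩]⟩,
  ⟨384, 27, 15, [⟨15, 35, [(28, 1), (23, 10)], [], [([26], [3], 2)]⟩]⟩,
  ⟨386, 27, 14, [⟨15, 35, [(28, 2), (23, 9)], [(5, 1), (1, 1)], [([], [4], 3)]⟩]⟩,
  ⟨388, 27, 15, [⟨15, 35, [(28, 2), (21, 8), (4, 1)], [], [([24], [5], 2)]⟩]⟩,
  ⟨390, 27, 14, [⟨15, 35, [(28, 3), (21, 7), (5, 1)], [(7, 1), (1, 1)], [([], [6], 3)]⟩]⟩,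
  ⟨392, 27, 15, [⟨15, 35, [(28, 3), (19, 6), (6, 2)], [], [([22], [7], 2)]⟩]⟩,
  ⟨394, 27, 14, [⟨15, 34, [(28, 4), (19, 5), (7, 2)], [(9, 1), (1, 1)], [([], [8], 3)]⟩]⟩,
  ⟨396, 27, 15, [⟨15, 34, [(28, 4), (17, 4), (8, 3)], [], [([20], [9], 2)]⟩]⟩,
  ⟨398, 27, 14, [⟨15, 34, [(28, 5), (17, 3), (9, 3)], [(11, 1), (1, 1)], [([], [10], 3)]⟩]⟩,
  ⟨400, 27, 15, [⟨15, 34, [(28, 5), (15, 2), (10, 4)], [], [([18], [11], 2)]⟩]⟩,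
  ⟨402, 27, 14, [⟨15, 34, [(28, 6), (15, 1), (11, 4)], [(13, 1), (1, 1)], [([], [12], 3)]⟩]⟩,
  ⟨404, 27, 15, [⟨15, 34, [(28, 6), (12, 5)], [], [([16], [13], 2)]⟩]⟩]

theorem mtA27_1_ok : mtabOK (hA 27) 1 mtA27_1 = true := by decide +kernel

theorem covA_27_1 (e : ℕ) (h1 : 1 ≤ e) (h2 : e < 14) : CovH (hA 27 e) :=
  mtab_cov' mtA27_1_ok (l := 13) rfl e h1 (by omega)

def mtA28_1 : List MEnt := [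
  ⟨408, 28, 17, [⟨15, 36, [(26, 11)], [(2, 1)], [([29], [1], 4)]⟩]⟩,
  ⟨410, 28, 15, [⟨15, 36, [(29, 1), (26, 11)], [(1, 1)], [([], [2], 4)]⟩]⟩,
  ⟨412, 28, 16, [⟨15, 36, [(29, 1), (24, 10)], [(4, 1)], [([27], [3], 2)]⟩]⟩,
  ⟨414, 28, 15, [⟨15, 36, [(29, 2), (24, 10)], [(1, 1)], [([], [4], 3)]⟩]⟩,
  ⟨416, 28, 16, [⟨15, 36, [(29, 2), (22, 8), (4, 1)], [(6, 1)], [([25], [5], 2)]⟩]⟩,
  ⟨418, 28, 15, [⟨15, 36, [(29, 3), (22, 8), (5, 1)], [(1, 1)], [([], [6], 3)]⟩]⟩,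
  ⟨420, 28, 16, [⟨15, 36, [(29, 3), (20, 6), (6, 2)], [(8, 1)], [([23], [7], 2)]⟩]⟩,
  ⟨422, 28, 15, [⟨16, 36, [(29, 4), (20, 6), (7, 2)], [(1, 1)], [([], [8], 3)]⟩]⟩,
  ⟨424, 28, 16, [⟨16, 36, [(29, 4), (18, 4), (8, 3)], [(10, 1)], [([21], [9], 2)]⟩]⟩,
  ⟨426, 28, 15, [⟨16, 36, [(29, 5), (18, 4), (9, 3)], [(1, 1)], [([], [10], 3)]⟩]⟩,
  ⟨428, 28, 16, [⟨16, 36, [(29, 5), (16, 2), (10, 4)], [(12, 1)], [([19], [11], 2)]⟩]⟩,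
  ⟨430, 28, 15, [⟨16, 36, [(29, 6), (16, 2), (11, 4)], [(1, 1)], [([], [12], 3)]⟩]⟩,
  ⟨432, 28, 16, [⟨16, 36, [(29, 6), (12, 5)], [(14, 1)], [([17], [13], 2)]⟩]⟩,
  ⟨434, 28, 15, [⟨16, 35, [(29, 7), (13, 5)], [(1, 1)], [([], [14], 3)]⟩]⟩]

theorem mtA28_1_ok : mtabOK (hA 28) 1 mtA28_1 = true := by decide +kernel

theorem covA_28_1 (e : ℕ) (h1 : 1 ≤ e) (h2 : e < 15) : CovH (hA 28 e) :=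
  mtab_cov' mtA28_1_ok (l := 14) rfl e h1 (by omega)

def mtA29_1 : List MEnt := [
  ⟨437, 29, 17, [⟨16, 37, [(27, 12)], [], [([30], [1], 3)]⟩]⟩,
  ⟨439, 29, 15, [⟨16, 37, [(30, 1), (27, 11)], [(3, 1), (1, 1)], [([], [2], 5)]⟩]⟩,
  ⟨441, 29, 16, [⟨16, 37, [(30, 1), (25, 11)], [], [([28], [3], 2)]⟩]⟩,
  ⟨443, 29, 15, [⟨16, 37, [(30, 2), (25, 10)], [(5, 1), (1, 1)], [([], [4], 3)]⟩]⟩,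
  ⟨445, 29, 16, [⟨16, 37, [(30, 2), (23, 9), (4, 1)], [], [([26], [5], 2)]⟩]⟩,
  ⟨447, 29, 15, [⟨16, 37, [(30, 3), (23, 8), (5, 1)], [(7, 1), (1, 1)], [([], [6], 3)]⟩]⟩,
  ⟨449, 29, 16, [⟨16, 37, [(30, 3), (21, 7), (6, 2)], [], [([24], [7], 2)]⟩]⟩,
  ⟨451, 29, 15, [⟨16, 37, [(30, 4), (21, 6), (7, 2)], [(9, 1), (1, 1)], [([], [8], 3)]⟩]⟩,
  ⟨453, 29, 16, [⟨16, 37, [(30, 4), (19, 5), (8, 3)], [], [([22], [9], 2)]⟩]⟩,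
  ⟨455, 29, 15, [⟨16, 37, [(30, 5), (19, 4), (9, 3)], [(11, 1), (1, 1)], [([], [10], 3)]⟩]⟩,
  ⟨457, 29, 16, [⟨16, 37, [(30, 5), (17, 3), (10, 4)], [], [([20], [11], 2)]⟩]⟩,
  ⟨459, 29, 15, [⟨16, 37, [(30, 6), (17, 2), (11, 4)], [(13, 1), (1, 1)], [([], [12], 3)]⟩]⟩,
  ⟨461, 29, 16, [⟨16, 37, [(30, 6), (15, 1), (12, 5)], [], [([18], [13], 2)]⟩]⟩,
  ⟨463, 29, 15, [⟨16, 37, [(30, 7), (13, 5)], [(15, 1), (1, 1)], [([], [14], 3)]⟩]⟩]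

theorem mtA29_1_ok : mtabOK (hA 29) 1 mtA29_1 = true := by decide +kernel

theorem covA_29_1 (e : ℕ) (h1 : 1 ≤ e) (h2 : e < 15) : CovH (hA 29 e) :=
  mtab_cov' mtA29_1_ok (l := 14) rfl e h1 (by omega)

def mtA30_1 : List MEnt := [
  ⟨467, 30, 18, [⟨16, 39, [(28, 12)], [(2, 1)], [([31], [1], 4)]⟩]⟩,
  ⟨469, 30, 16, [⟨16, 39, [(31, 1), (28, 12)], [(1, 1)], [([], [2], 4)]⟩]⟩,
  ⟨471, 30, 17, [⟨16, 39, [(31, 1), (26, 11)], [(4, 1)], [([29], [3], 2)]⟩]⟩,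
  ⟨473, 30, 16, [⟨16, 39, [(31, 2), (26, 11)], [(1, 1)], [([], [4], 3)]⟩]⟩,
  ⟨475, 30, 17, [⟨16, 39, [(31, 2), (24, 9), (4, 1)], [(6, 1)], [([27], [5], 2)]⟩]⟩,
  ⟨477, 30, 16, [⟨16, 39, [(31, 3), (24, 9), (5, 1)], [(1, 1)], [([], [6], 3)]⟩]⟩,
  ⟨479, 30, 17, [⟨16, 38, [(31, 3), (22, 7), (6, 2)], [(8, 1)], [([25], [7], 2)]⟩]⟩,
  ⟨481, 30, 16, [⟨17, 38, [(31, 4), (22, 7), (7, 2)], [(1, 1)], [([], [8], 3)]⟩]⟩,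
  ⟨483, 30, 17, [⟨17, 38, [(31, 4), (20, 5), (8, 3)], [(10, 1)], [([23], [9], 2)]⟩]⟩,
  ⟨485, 30, 16, [⟨17, 38, [(31, 5), (20, 5), (9, 3)], [(1, 1)], [([], [10], 3)]⟩]⟩,
  ⟨487, 30, 17, [⟨17, 38, [(31, 5), (18, 3), (10, 4)], [(12, 1)], [([21], [11], 2)]⟩]⟩,
  ⟨489, 30, 16, [⟨17, 38, [(31, 6), (18, 3), (11, 4)], [(1, 1)], [([], [12], 3)]⟩]⟩,
  ⟨491, 30, 17, [⟨17, 38, [(31, 6), (16, 1), (12, 5)], [(14, 1)], [([19], [13], 2)]⟩]⟩,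
  ⟨493, 30, 16, [⟨17, 38, [(31, 7), (16, 1), (13, 5)], [(1, 1)], [([], [14], 3)]⟩]⟩,
  ⟨495, 30, 17, [⟨17, 38, [(31, 7), (14, 6)], [(17, 1)], [([], [15], 2)]⟩]⟩]

theorem mtA30_1_ok : mtabOK (hA 30) 1 mtA30_1 = true := by decide +kernel

theorem covA_30_1 (e : ℕ) (h1 : 1 ≤ e) (h2 : e < 16) : CovH (hA 30 e) :=
  mtab_cov' mtA30_1_ok (l := 15) rfl e h1 (by omega)

def mtA31_1 : List MEnt := [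
  ⟨498, 31, 18, [⟨17, 40, [(29, 13)], [], [([32], [1], 3)]⟩]⟩,
  ⟨500, 31, 16, [⟨17, 40, [(32, 1), (29, 12)], [(3, 1), (1, 1)], [([], [2], 5)]⟩]⟩,
  ⟨502, 31, 17, [⟨17, 40, [(32, 1), (27, 12)], [], [([30], [3], 2)]⟩]⟩,
  ⟨504, 31, 16, [⟨17, 40, [(32, 2), (27, 11)], [(5, 1), (1, 1)], [([], [4], 3)]⟩]⟩,
  ⟨506, 31, 17, [⟨17, 40, [(32, 2), (25, 10), (4, 1)], [], [([28], [5], 2)]⟩]⟩,
  ⟨508, 31, 16, [⟨17, 40, [(32, 3), (25, 9), (5, 1)], [(7, 1), (1, 1)], [([], [6], 3)]⟩]⟩,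
  ⟨510, 31, 17, [⟨17, 40, [(32, 3), (23, 8), (6, 2)], [], [([26], [7], 2)]⟩]⟩,
  ⟨512, 31, 16, [⟨17, 40, [(32, 4), (23, 7), (7, 2)], [(9, 1), (1, 1)], [([], [8], 3)]⟩]⟩,
  ⟨514, 31, 17, [⟨17, 40, [(32, 4), (21, 6), (8, 3)], [], [([24], [9], 2)]⟩]⟩,
  ⟨516, 31, 16, [⟨17, 40, [(32, 5), (21, 5), (9, 3)], [(11, 1), (1, 1)], [([], [10], 3)]⟩]⟩,
  ⟨518, 31, 17, [⟨17, 40, [(32, 5), (19, 4), (10, 4)], [], [([22], [11], 2)]⟩]⟩,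
  ⟨520, 31, 16, [⟨17, 40, [(32, 6), (19, 3), (11, 4)], [(13, 1), (1, 1)], [([], [12], 3)]⟩]⟩,
  ⟨522, 31, 17, [⟨17, 39, [(32, 6), (17, 2), (12, 5)], [], [([20], [13], 2)]⟩]⟩,
  ⟨524, 31, 16, [⟨17, 39, [(32, 7), (17, 1), (13, 5)], [(15, 1), (1, 1)], [([], [14], 3)]⟩]⟩,
  ⟨526, 31, 17, [⟨17, 39, [(32, 7), (14, 6)], [], [([18], [15], 2)]⟩]⟩]

theorem mtA31_1_ok : mtabOK (hA 31) 1 mtA31_1 = true := by decide +kernel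

theorem covA_31_1 (e : ℕ) (h1 : 1 ≤ e) (h2 : e < 16) : CovH (hA 31 e) :=
  mtab_cov' mtA31_1_ok (l := 15) rfl e h1 (by omega)

def mtA32_1 : List MEnt := [
  ⟨530, 32, 19, [⟨17, 41, [(30, 13)], [(2, 1)], [([33], [1], 4)]⟩]⟩,
  ⟨532, 32, 17, [⟨17, 41, [(33, 1), (30, 13)], [(1, 1)], [([], [2], 4)]⟩]⟩,
  ⟨534, 32, 18, [⟨17, 41, [(33, 1), (28, 12)], [(4, 1)], [([31], [3], 2)]⟩]⟩,
  ⟨536, 32, 17, [⟨17, 41, [(33, 2), (28, 12)], [(1, 1)], [([], [4], 3)]⟩]⟩,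
  ⟨538, 32, 18, [⟨17, 41, [(33, 2), (26, 10), (4, 1)], [(6, 1)], [([29], [5], 2)]⟩]⟩,
  ⟨540, 32, 17, [⟨17, 41, [(33, 3), (26, 10), (5, 1)], [(1, 1)], [([], [6], 3)]⟩]⟩,
  ⟨542, 32, 18, [⟨17, 41, [(33, 3), (24, 8), (6, 2)], [(8, 1)], [([27], [7], 2)]⟩]⟩,
  ⟨544, 32, 17, [⟨17, 41, [(33, 4), (24, 8), (7, 2)], [(1, 1)], [([], [8], 3)]⟩]⟩,
  ⟨546, 32, 18, [⟨18, 41, [(33, 4), (22, 6), (8, 3)], [(10, 1)], [([25], [9], 2)]⟩]⟩,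
  ⟨548, 32, 17, [⟨18, 41, [(33, 5), (22, 6), (9, 3)], [(1, 1)], [([], [10], 3)]⟩]⟩,
  ⟨550, 32, 18, [⟨18, 41, [(33, 5), (20, 4), (10, 4)], [(12, 1)], [([23], [11], 2)]⟩]⟩,
  ⟨552, 32, 17, [⟨18, 41, [(33, 6), (20, 4), (11, 4)], [(1, 1)], [([], [12], 3)]⟩]⟩,
  ⟨554, 32, 18, [⟨18, 41, [(33, 6), (18, 2), (12, 5)], [(14, 1)], [([21], [13], 2)]⟩]⟩,
  ⟨556, 32, 17, [⟨18, 41, [(33, 7), (18, 2), (13, 5)], [(1, 1)], [([], [14], 3)]⟩]⟩,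
  ⟨558, 32, 18, [⟨18, 41, [(33, 7), (14, 6)], [(16, 1)], [([19], [15], 2)]⟩]⟩,
  ⟨560, 32, 17, [⟨18, 41, [(33, 8), (15, 6)], [(1, 1)], [([], [16], 3)]⟩]⟩]

theorem mtA32_1_ok : mtabOK (hA 32) 1 mtA32_1 = true := by decide +kernel

theorem covA_32_1 (e : ℕ) (h1 : 1 ≤ e) (h2 : e < 17) : CovH (hA 32 e) :=
  mtab_cov' mtA32_1_ok (l := 16) rfl e h1 (by omega)

def mtA33_1 : List MEnt := [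
  ⟨563, 33, 19, [⟨18, 43, [(31, 14)], [], [([34], [1], 3)]⟩]⟩,
  ⟨565, 33, 17, [⟨18, 43, [(34, 1), (31, 13)], [(3, 1), (1, 1)], [([], [2], 5)]⟩]⟩,
  ⟨567, 33, 18, [⟨18, 43, [(34, 1), (29, 13)], [], [([32], [3], 2)]⟩]⟩,
  ⟨569, 33, 17, [⟨18, 43, [(34, 2), (29, 12)], [(5, 1), (1, 1)], [([], [4], 3)]⟩]⟩,
  ⟨571, 33, 18, [⟨18, 42, [(34, 2), (27, 11), (4, 1)], [], [([30], [5], 2)]⟩]⟩,
  ⟨573, 33, 17, [⟨18, 42, [(34, 3), (27, 10), (5, 1)], [(7, 1), (1, 1)], [([], [6], 3)]⟩]⟩,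
  ⟨575, 33, 18, [⟨18, 42, [(34, 3), (25, 9), (6, 2)], [], [([28], [7], 2)]⟩]⟩,
  ⟨577, 33, 17, [⟨18, 42, [(34, 4), (25, 8), (7, 2)], [(9, 1), (1, 1)], [([], [8], 3)]⟩]⟩,
  ⟨579, 33, 18, [⟨18, 42, [(34, 4), (23, 7), (8, 3)], [], [([26], [9], 2)]⟩]⟩,
  ⟨581, 33, 17, [⟨18, 42, [(34, 5), (23, 6), (9, 3)], [(11, 1), (1, 1)], [([], [10], 3)]⟩]⟩,
  ⟨583, 33, 18, [⟨18, 42, [(34, 5), (21, 5), (10, 4)], [], [([24], [11], 2)]⟩]⟩,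
  ⟨585, 33, 17, [⟨18, 42, [(34, 6), (21, 4), (11, 4)], [(13, 1), (1, 1)], [([], [12], 3)]⟩]⟩,
  ⟨587, 33, 18, [⟨18, 42, [(34, 6), (19, 3), (12, 5)], [], [([22], [13], 2)]⟩]⟩,
  ⟨589, 33, 17, [⟨18, 42, [(34, 7), (19, 2), (13, 5)], [(15, 1), (1, 1)], [([], [14], 3)]⟩]⟩,
  ⟨591, 33, 18, [⟨18, 42, [(34, 7), (17, 1), (14, 6)], [], [([20], [15], 2)]⟩]⟩,
  ⟨593, 33, 17, [⟨18, 42, [(34, 8), (15, 6)], [(17, 1), (1, 1)], [([], [16], 3)]⟩]⟩]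

theorem mtA33_1_ok : mtabOK (hA 33) 1 mtA33_1 = true := by decide +kernel

theorem covA_33_1 (e : ℕ) (h1 : 1 ≤ e) (h2 : e < 17) : CovH (hA 33 e) :=
  mtab_cov' mtA33_1_ok (l := 16) rfl e h1 (by omega)

def mtA34_1 : List MEnt := [
  ⟨597, 34, 20, [⟨18, 44, [(32, 14)], [(2, 1)], [([35], [1], 4)]⟩]⟩,
  ⟨599, 34, 18, [⟨18, 44, [(35, 1), (32, 14)], [(1, 1)], [([], [2], 4)]⟩]⟩,
  ⟨601, 34, 19, [⟨18, 44, [(35, 1), (30, 13)], [(4, 1)], [([33], [3], 2)]⟩]⟩,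
  ⟨603, 34, 18, [⟨18, 44, [(35, 2), (30, 13)], [(1, 1)], [([], [4], 3)]⟩]⟩,
  ⟨605, 34, 19, [⟨18, 44, [(35, 2), (28, 11), (4, 1)], [(6, 1)], [([31], [5], 2)]⟩]⟩,
  ⟨607, 34, 18, [⟨18, 44, [(35, 3), (28, 11), (5, 1)], [(1, 1)], [([], [6], 3)]⟩]⟩,
  ⟨609, 34, 19, [⟨18, 44, [(35, 3), (26, 9), (6, 2)], [(8, 1)], [([29], [7], 2)]⟩]⟩,
  ⟨611, 34, 18, [⟨18, 44, [(35, 4), (26, 9), (7, 2)], [(1, 1)], [([], [8], 3)]⟩]⟩,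
  ⟨613, 34, 19, [⟨19, 44, [(35, 4), (24, 7), (8, 3)], [(10, 1)], [([27], [9], 2)]⟩]⟩,
  ⟨615, 34, 18, [⟨19, 44, [(35, 5), (24, 7), (9, 3)], [(1, 1)], [([], [10], 3)]⟩]⟩,
  ⟨617, 34, 19, [⟨19, 43, [(35, 5), (22, 5), (10, 4)], [(12, 1)], [([25], [11], 2)]⟩]⟩,
  ⟨619, 34, 18, [⟨19, 43, [(35, 6), (22, 5), (11, 4)], [(1, 1)], [([], [12], 3)]⟩]⟩,
  ⟨621, 34, 19, [⟨19, 43, [(35, 6), (20, 3), (12, 5)], [(14, 1)], [([23], [13], 2)]⟩]⟩,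
  ⟨623, 34, 18, [⟨19, 43, [(35, 7), (20, 3), (13, 5)], [(1, 1)], [([], [14], 3)]⟩]⟩,
  ⟨625, 34, 19, [⟨19, 43, [(35, 7), (18, 1), (14, 6)], [(16, 1)], [([21], [15], 2)]⟩]⟩,
  ⟨627, 34, 18, [⟨19, 43, [(35, 8), (18, 1), (15, 6)], [(1, 1)], [([], [16], 3)]⟩]⟩,
  ⟨629, 34, 19, [⟨19, 43, [(35, 8), (16, 7)], [(19, 1)], [([], [17], 2)]⟩]⟩]

theorem mtA34_1_ok : mtabOK (hA 34) 1 mtA34_1 = true := by decide +kernel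

theorem covA_34_1 (e : ℕ) (h1 : 1 ≤ e) (h2 : e < 18) : CovH (hA 34 e) :=
  mtab_cov' mtA34_1_ok (l := 17) rfl e h1 (by omega)

def mtA35_1 : List MEnt := [
  ⟨632, 35, 20, [⟨19, 45, [(33, 15)], [], [([36], [1], 3)]⟩]⟩,
  ⟨634, 35, 18, [⟨19, 45, [(36, 1), (33, 14)], [(3, 1), (1, 1)], [([], [2], 5)]⟩]⟩,
  ⟨636, 35, 19, [⟨19, 45, [(36, 1), (31, 14)], [], [([34], [3], 2)]⟩]⟩,
  ⟨638, 35, 18, [⟨19, 45, [(36, 2), (31, 13)], [(5, 1), (1, 1)], [([], [4], 3)]⟩]⟩,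
  ⟨640, 35, 19, [⟨19, 45, [(36, 2), (29, 12), (4, 1)], [], [([32], [5], 2)]⟩]⟩,
  ⟨642, 35, 18, [⟨19, 45, [(36, 3), (29, 11), (5, 1)], [(7, 1), (1, 1)], [([], [6], 3)]⟩]⟩,
  ⟨644, 35, 19, [⟨19, 45, [(36, 3), (27, 10), (6, 2)], [], [([30], [7], 2)]⟩]⟩,
  ⟨646, 35, 18, [⟨19, 45, [(36, 4), (27, 9), (7, 2)], [(9, 1), (1, 1)], [([], [8], 3)]⟩]⟩,
  ⟨648, 35, 19, [⟨19, 45, [(36, 4), (25, 8), (8, 3)], [], [([28], [9], 2)]⟩]⟩,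
  ⟨650, 35, 18, [⟨19, 45, [(36, 5), (25, 7), (9, 3)], [(11, 1), (1, 1)], [([], [10], 3)]⟩]⟩,
  ⟨652, 35, 19, [⟨19, 45, [(36, 5), (23, 6), (10, 4)], [], [([26], [11], 2)]⟩]⟩,
  ⟨654, 35, 18, [⟨19, 45, [(36, 6), (23, 5), (11, 4)], [(13, 1), (1, 1)], [([], [12], 3)]⟩]⟩,
  ⟨656, 35, 19, [⟨19, 45, [(36, 6), (21, 4), (12, 5)], [], [([24], [13], 2)]⟩]⟩,
  ⟨658, 35, 18, [⟨19, 45, [(36, 7), (21, 3), (13, 5)], [(15, 1), (1, 1)], [([], [14], 3)]⟩]⟩,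
  ⟨660, 35, 19, [⟨19, 45, [(36, 7), (19, 2), (14, 6)], [], [([22], [15], 2)]⟩]⟩,
  ⟨662, 35, 18, [⟨19, 45, [(36, 8), (19, 1), (15, 6)], [(17, 1), (1, 1)], [([], [16], 3)]⟩]⟩,
  ⟨664, 35, 19, [⟨19, 45, [(36, 8), (16, 7)], [], [([20], [17], 2)]⟩]⟩]

theorem mtA35_1_ok : mtabOK (hA 35) 1 mtA35_1 = true := by decide +kernel

theorem covA_35_1 (e : ℕ) (h1 : 1 ≤ e) (h2 : e < 18) : CovH (hA 35 e) :=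
  mtab_cov' mtA35_1_ok (l := 17) rfl e h1 (by omega)

def mtA36_1 : List MEnt := [
  ⟨668, 36, 21, [⟨19, 47, [(34, 15)], [(2, 1)], [([37], [1], 4)]⟩]⟩,
  ⟨670, 36, 19, [⟨19, 46, [(37, 1), (34, 15)], [(1, 1)], [([], [2], 4)]⟩]⟩,
  ⟨672, 36, 20, [⟨19, 46, [(37, 1), (32, 14)], [(4, 1)], [([35], [3], 2)]⟩]⟩,
  ⟨674, 36, 19, [⟨19, 46, [(37, 2), (32, 14)], [(1, 1)], [([], [4], 3)]⟩]⟩,
  ⟨676, 36, 20, [⟨19, 46, [(37, 2), (30, 12), (4, 1)], [(6, 1)], [([33], [5], 2)]⟩]⟩,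
  ⟨678, 36, 19, [⟨19, 46, [(37, 3), (30, 12), (5, 1)], [(1, 1)], [([], [6], 3)]⟩]⟩,
  ⟨680, 36, 20, [⟨19, 46, [(37, 3), (28, 10), (6, 2)], [(8, 1)], [([31], [7], 2)]⟩]⟩,
  ⟨682, 36, 19, [⟨19, 46, [(37, 4), (28, 10), (7, 2)], [(1, 1)], [([], [8], 3)]⟩]⟩,
  ⟨684, 36, 20, [⟨19, 46, [(37, 4), (26, 8), (8, 3)], [(10, 1)], [([29], [9], 2)]⟩]⟩,
  ⟨686, 36, 19, [⟨20, 46, [(37, 5), (26, 8), (9, 3)], [(1, 1)], [([], [10], 3)]⟩]⟩,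
  ⟨688, 36, 20, [⟨20, 46, [(37, 5), (24, 6), (10, 4)], [(12, 1)], [([27], [11], 2)]⟩]⟩,
  ⟨690, 36, 19, [⟨20, 46, [(37, 6), (24, 6), (11, 4)], [(1, 1)], [([], [12], 3)]⟩]⟩,
  ⟨692, 36, 20, [⟨20, 46, [(37, 6), (22, 4), (12, 5)], [(14, 1)], [([25], [13], 2)]⟩]⟩,
  ⟨694, 36, 19, [⟨20, 46, [(37, 7), (22, 4), (13, 5)], [(1, 1)], [([], [14], 3)]⟩]⟩,
  ⟨696, 36, 20, [⟨20, 46, [(37, 7), (20, 2), (14, 6)], [(16, 1)], [([23], [15], 2)]⟩]⟩,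
  ⟨698, 36, 19, [⟨20, 46, [(37, 8), (20, 2), (15, 6)], [(1, 1)], [([], [16], 3)]⟩]⟩,
  ⟨700, 36, 20, [⟨20, 46, [(37, 8), (16, 7)], [(18, 1)], [([21], [17], 2)]⟩]⟩,
  ⟨702, 36, 19, [⟨20, 46, [(37, 9), (17, 7)], [(1, 1)], [([], [18], 3)]⟩]⟩]

theorem mtA36_1_ok : mtabOK (hA 36) 1 mtA36_1 = true := by decide +kernel

theorem covA_36_1 (e : ℕ) (h1 : 1 ≤ e) (h2 : e < 19) : CovH (hA 36 e) :=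
  mtab_cov' mtA36_1_ok (l := 18) rfl e h1 (by omega)

def mtA37_1 : List MEnt := [
  ⟨705, 37, 21, [⟨20, 48, [(35, 16)], [], [([38], [1], 3)]⟩]⟩,
  ⟨707, 37, 19, [⟨20, 48, [(38, 1), (35, 15)], [(3, 1), (1, 1)], [([], [2], 5)]⟩]⟩,
  ⟨709, 37, 20, [⟨20, 48, [(38, 1), (33, 15)], [], [([36], [3], 2)]⟩]⟩,
  ⟨711, 37, 19, [⟨20, 48, [(38, 2), (33, 14)], [(5, 1), (1, 1)], [([], [4], 3)]⟩]⟩,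
  ⟨713, 37, 20, [⟨20, 48, [(38, 2), (31, 13), (4, 1)], [], [([34], [5], 2)]⟩]⟩,
  ⟨715, 37, 19, [⟨20, 48, [(38, 3), (31, 12), (5, 1)], [(7, 1), (1, 1)], [([], [6], 3)]⟩]⟩,
  ⟨717, 37, 20, [⟨20, 48, [(38, 3), (29, 11), (6, 2)], [], [([32], [7], 2)]⟩]⟩,
  ⟨719, 37, 19, [⟨20, 48, [(38, 4), (29, 10), (7, 2)], [(9, 1), (1, 1)], [([], [8], 3)]⟩]⟩,
  ⟨721, 37, 20, [⟨20, 47, [(38, 4), (27, 9), (8, 3)], [], [([30], [9], 2)]⟩]⟩,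
  ⟨723, 37, 19, [⟨20, 47, [(38, 5), (27, 8), (9, 3)], [(11, 1), (1, 1)], [([], [10], 3)]⟩]⟩,
  ⟨725, 37, 20, [⟨20, 47, [(38, 5), (25, 7), (10, 4)], [], [([28], [11], 2)]⟩]⟩,
  ⟨727, 37, 19, [⟨20, 47, [(38, 6), (25, 6), (11, 4)], [(13, 1), (1, 1)], [([], [12], 3)]⟩]⟩,
  ⟨729, 37, 20, [⟨20, 47, [(38, 6), (23, 5), (12, 5)], [], [([26], [13], 2)]⟩]⟩,
  ⟨731, 37, 19, [⟨20, 47, [(38, 7), (23, 4), (13, 5)], [(15, 1), (1, 1)], [([], [14], 3)]⟩]⟩,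
  ⟨733, 37, 20, [⟨20, 47, [(38, 7), (21, 3), (14, 6)], [], [([24], [15], 2)]⟩]⟩,
  ⟨735, 37, 19, [⟨20, 47, [(38, 8), (21, 2), (15, 6)], [(17, 1), (1, 1)], [([], [16], 3)]⟩]⟩,
  ⟨737, 37, 20, [⟨20, 47, [(38, 8), (19, 1), (16, 7)], [], [([22], [17], 2)]⟩]⟩,
  ⟨739, 37, 19, [⟨20, 47, [(38, 9), (17, 7)], [(19, 1), (1, 1)], [([], [18], 3)]⟩]⟩]

theorem mtA37_1_ok : mtabOK (hA 37) 1 mtA37_1 = true := by decide +kernel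

theorem covA_37_1 (e : ℕ) (h1 : 1 ≤ e) (h2 : e < 19) : CovH (hA 37 e) :=
  mtab_cov' mtA37_1_ok (l := 18) rfl e h1 (by omega)

def mtA38_1 : List MEnt := [
  ⟨743, 38, 22, [⟨20, 49, [(36, 16)], [(2, 1)], [([39], [1], 4)]⟩]⟩,
  ⟨745, 38, 20, [⟨20, 49, [(39, 1), (36, 16)], [(1, 1)], [([], [2], 4)]⟩]⟩,
  ⟨747, 38, 21, [⟨20, 49, [(39, 1), (34, 15)], [(4, 1)], [([37], [3], 2)]⟩]⟩,
  ⟨749, 38, 20, [⟨20, 49, [(39, 2), (34, 15)], [(1, 1)], [([], [4], 3)]⟩]⟩,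
  ⟨751, 38, 21, [⟨20, 49, [(39, 2), (32, 13), (4, 1)], [(6, 1)], [([35], [5], 2)]⟩]⟩,
  ⟨753, 38, 20, [⟨20, 49, [(39, 3), (32, 13), (5, 1)], [(1, 1)], [([], [6], 3)]⟩]⟩,
  ⟨755, 38, 21, [⟨20, 49, [(39, 3), (30, 11), (6, 2)], [(8, 1)], [([33], [7], 2)]⟩]⟩,
  ⟨757, 38, 20, [⟨20, 49, [(39, 4), (30, 11), (7, 2)], [(1, 1)], [([], [8], 3)]⟩]⟩,
  ⟨759, 38, 21, [⟨20, 49, [(39, 4), (28, 9), (8, 3)], [(10, 1)], [([31], [9], 2)]⟩]⟩,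
  ⟨761, 38, 20, [⟨21, 49, [(39, 5), (28, 9), (9, 3)], [(1, 1)], [([], [10], 3)]⟩]⟩,
  ⟨763, 38, 21, [⟨21, 49, [(39, 5), (26, 7), (10, 4)], [(12, 1)], [([29], [11], 2)]⟩]⟩,
  ⟨765, 38, 20, [⟨21, 49, [(39, 6), (26, 7), (11, 4)], [(1, 1)], [([], [12], 3)]⟩]⟩,
  ⟨767, 38, 21, [⟨21, 49, [(39, 6), (24, 5), (12, 5)], [(14, 1)], [([27], [13], 2)]⟩]⟩,
  ⟨769, 38, 20, [⟨21, 49, [(39, 7), (24, 5), (13, 5)], [(1, 1)], [([], [14], 3)]⟩]⟩,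
  ⟨771, 38, 21, [⟨21, 49, [(39, 7), (22, 3), (14, 6)], [(16, 1)], [([25], [15], 2)]⟩]⟩,
  ⟨773, 38, 20, [⟨21, 49, [(39, 8), (22, 3), (15, 6)], [(1, 1)], [([], [16], 3)]⟩]⟩,
  ⟨775, 38, 21, [⟨21, 48, [(39, 8), (20, 1), (16, 7)], [(18, 1)], [([23], [17], 2)]⟩]⟩,
  ⟨777, 38, 20, [⟨21, 48, [(39, 9), (20, 1), (17, 7)], [(1, 1)], [([], [18], 3)]⟩]⟩,
  ⟨779, 38, 21, [⟨21, 48, [(39, 9), (18, 8)], [(21, 1)], [([], [19], 2)]⟩]⟩]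

theorem mtA38_1_ok : mtabOK (hA 38) 1 mtA38_1 = true := by decide +kernel

theorem covA_38_1 (e : ℕ) (h1 : 1 ≤ e) (h2 : e < 20) : CovH (hA 38 e) :=
  mtab_cov' mtA38_1_ok (l := 19) rfl e h1 (by omega)

def mtA39_1 : List MEnt := [
  ⟨782, 39, 22, [⟨21, 50, [(37, 17)], [], [([40], [1], 3)]⟩]⟩,
  ⟨784, 39, 20, [⟨21, 50, [(40, 1), (37, 16)], [(3, 1), (1, 1)], [([], [2], 5)]⟩]⟩,
  ⟨786, 39, 21, [⟨21, 50, [(40, 1), (35, 16)], [], [([38], [3], 2)]⟩]⟩,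
  ⟨788, 39, 20, [⟨21, 50, [(40, 2), (35, 15)], [(5, 1), (1, 1)], [([], [4], 3)]⟩]⟩,
  ⟨790, 39, 21, [⟨21, 50, [(40, 2), (33, 14), (4, 1)], [], [([36], [5], 2)]⟩]⟩,
  ⟨792, 39, 20, [⟨21, 50, [(40, 3), (33, 13), (5, 1)], [(7, 1), (1, 1)], [([], [6], 3)]⟩]⟩,
  ⟨794, 39, 21, [⟨21, 50, [(40, 3), (31, 12), (6, 2)], [], [([34], [7], 2)]⟩]⟩,
  ⟨796, 39, 20, [⟨21, 50, [(40, 4), (31, 11), (7, 2)], [(9, 1), (1, 1)], [([], [8], 3)]⟩]⟩,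
  ⟨798, 39, 21, [⟨21, 50, [(40, 4), (29, 10), (8, 3)], [], [([32], [9], 2)]⟩]⟩,
  ⟨800, 39, 20, [⟨21, 50, [(40, 5), (29, 9), (9, 3)], [(11, 1), (1, 1)], [([], [10], 3)]⟩]⟩,
  ⟨802, 39, 21, [⟨21, 50, [(40, 5), (27, 8), (10, 4)], [], [([30], [11], 2)]⟩]⟩,
  ⟨804, 39, 20, [⟨21, 50, [(40, 6), (27, 7), (11, 4)], [(13, 1), (1, 1)], [([], [12], 3)]⟩]⟩,
  ⟨806, 39, 21, [⟨21, 50, [(40, 6), (25, 6), (12, 5)], [], [([28], [13], 2)]⟩]⟩,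
  ⟨808, 39, 20, [⟨21, 50, [(40, 7), (25, 5), (13, 5)], [(15, 1), (1, 1)], [([], [14], 3)]⟩]⟩,
  ⟨810, 39, 21, [⟨21, 50, [(40, 7), (23, 4), (14, 6)], [], [([26], [15], 2)]⟩]⟩,
  ⟨812, 39, 20, [⟨21, 50, [(40, 8), (23, 3), (15, 6)], [(17, 1), (1, 1)], [([], [16], 3)]⟩]⟩,
  ⟨814, 39, 21, [⟨21, 50, [(40, 8), (21, 2), (16, 7)], [], [([24], [17], 2)]⟩]⟩,
  ⟨816, 39, 20, [⟨21, 50, [(40, 9), (21, 1), (17, 7)], [(19, 1), (1, 1)], [([], [18], 3)]⟩]⟩,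
  ⟨818, 39, 21, [⟨21, 50, [(40, 9), (18, 8)], [], [([22], [19], 2)]⟩]⟩]

theorem mtA39_1_ok : mtabOK (hA 39) 1 mtA39_1 = true := by decide +kernel

theorem covA_39_1 (e : ℕ) (h1 : 1 ≤ e) (h2 : e < 20) : CovH (hA 39 e) :=
  mtab_cov' mtA39_1_ok (l := 19) rfl e h1 (by omega)

def mtA40_1 : List MEnt := [
  ⟨822, 40, 23, [⟨21, 52, [(38, 17)], [(2, 1)], [([41], [1], 4)]⟩]⟩,
  ⟨824, 40, 21, [⟨21, 52, [(41, 1), (38, 17)], [(1, 1)], [([], [2], 4)]⟩]⟩,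
  ⟨826, 40, 22, [⟨21, 52, [(41, 1), (36, 16)], [(4, 1)], [([39], [3], 2)]⟩]⟩,
  ⟨828, 40, 21, [⟨21, 52, [(41, 2), (36, 16)], [(1, 1)], [([], [4], 3)]⟩]⟩,
  ⟨830, 40, 22, [⟨21, 52, [(41, 2), (34, 14), (4, 1)], [(6, 1)], [([37], [5], 2)]⟩]⟩,
  ⟨832, 40, 21, [⟨21, 52, [(41, 3), (34, 14), (5, 1)], [(1, 1)], [([], [6], 3)]⟩]⟩,
  ⟨834, 40, 22, [⟨21, 51, [(41, 3), (32, 12), (6, 2)], [(8, 1)], [([35], [7], 2)]⟩]⟩,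
  ⟨836, 40, 21, [⟨21, 51, [(41, 4), (32, 12), (7, 2)], [(1, 1)], [([], [8], 3)]⟩]⟩,
  ⟨838, 40, 22, [⟨21, 51, [(41, 4), (30, 10), (8, 3)], [(10, 1)], [([33], [9], 2)]⟩]⟩,
  ⟨840, 40, 21, [⟨21, 51, [(41, 5), (30, 10), (9, 3)], [(1, 1)], [([], [10], 3)]⟩]⟩,
  ⟨842, 40, 22, [⟨22, 51, [(41, 5), (28, 8), (10, 4)], [(12, 1)], [([31], [11], 2)]⟩]⟩,
  ⟨844, 40, 21, [⟨22, 51, [(41, 6), (28, 8), (11, 4)], [(1, 1)], [([], [12], 3)]⟩]⟩,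
  ⟨846, 40, 22, [⟨22, 51, [(41, 6), (26, 6), (12, 5)], [(14, 1)], [([29], [13], 2)]⟩]⟩,
  ⟨848, 40, 21, [⟨22, 51, [(41, 7), (26, 6), (13, 5)], [(1, 1)], [([], [14], 3)]⟩]⟩,
  ⟨850, 40, 22, [⟨22, 51, [(41, 7), (24, 4), (14, 6)], [(16, 1)], [([27], [15], 2)]⟩]⟩,
  ⟨852, 40, 21, [⟨22, 51, [(41, 8), (24, 4), (15, 6)], [(1, 1)], [([], [16], 3)]⟩]⟩,
  ⟨854, 40, 22, [⟨22, 51, [(41, 8), (22, 2), (16, 7)], [(18, 1)], [([25], [17], 2)]⟩]⟩,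
  ⟨856, 40, 21, [⟨22, 51, [(41, 9), (22, 2), (17, 7)], [(1, 1)], [([], [18], 3)]⟩]⟩,
  ⟨858, 40, 22, [⟨22, 51, [(41, 9), (18, 8)], [(20, 1)], [([23], [19], 2)]⟩]⟩,
  ⟨860, 40, 21, [⟨22, 51, [(41, 10), (19, 8)], [(1, 1)], [([], [20], 3)]⟩]⟩]

theorem mtA40_1_ok : mtabOK (hA 40) 1 mtA40_1 = true := by decide +kernel

theorem covA_40_1 (e : ℕ) (h1 : 1 ≤ e) (h2 : e < 21) : CovH (hA 40 e) :=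
  mtab_cov' mtA40_1_ok (l := 20) rfl e h1 (by omega)

/-- family `hA`, `10 ≤ M ≤ 40` -/
theorem covA_tab (M e : ℕ) (hM : 10 ≤ M) (hM' : M ≤ 40) (h1 : 1 ≤ e) (h2 : 2 * e ≤ M) :
    CovH (hA M e) := by
  interval_cases M
  · exact covA_10_1 e (by omega) (by omega)
  · exact covA_11_1 e (by omega) (by omega)
  · exact covA_12_1 e (by omega) (by omega)
  · exact covA_13_1 e (by omega) (by omega)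
  · exact covA_14_1 e (by omega) (by omega)
  · exact covA_15_1 e (by omega) (by omega)
  · exact covA_16_1 e (by omega) (by omega)
  · exact covA_17_1 e (by omega) (by omega)
  · exact covA_18_1 e (by omega) (by omega)
  · exact covA_19_1 e (by omega) (by omega)
  · exact covA_20_1 e (by omega) (by omega)
  · exact covA_21_1 e (by omega) (by omega)
  · exact covA_22_1 e (by omega) (by omega)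
  · exact covA_23_1 e (by omega) (by omega)
  · exact covA_24_1 e (by omega) (by omega)
  · exact covA_25_1 e (by omega) (by omega)
  · exact covA_26_1 e (by omega) (by omega)
  · exact covA_27_1 e (by omega) (by omega)
  · exact covA_28_1 e (by omega) (by omega)
  · exact covA_29_1 e (by omega) (by omega)
  · exact covA_30_1 e (by omega) (by omega)
  · exact covA_31_1 e (by omega) (by omega)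
  · exact covA_32_1 e (by omega) (by omega)
  · exact covA_33_1 e (by omega) (by omega)
  · exact covA_34_1 e (by omega) (by omega)
  · exact covA_35_1 e (by omega) (by omega)
  · exact covA_36_1 e (by omega) (by omega)
  · exact covA_37_1 e (by omega) (by omega)
  · exact covA_38_1 e (by omega) (by omega)
  · exact covA_39_1 e (by omega) (by omega)
  · exact covA_40_1 e (by omega) (by omega)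

end Crest.Agent.R195
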