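import Crest.Agent.R195.MergeCheck2

/-! Row 195, S0298 (helper563).  Table of plans for the numeric checker, family hB
(generated by a program, checked by the kernel). -/

set_option autoImplicit false
set_option Elab.async false

namespace Crest.Agent.R195

def mtB6_0 : List MEnt := [
  ⟨22, 5, 3, [⟨5, 5, [(6, 1)], [], [([], [4], 2)]⟩]⟩]

theorem mtB6_0_ok : mtabOK (hB 6) 0 mtB6_0 = true := by decide +kernel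

theorem covB_6_0 (e : ℕ) (h1 : 0 ≤ e) (h2 : e < 1) : CovH (hB 6 e) :=
  mtab_cov' mtB6_0_ok (l := 1) rfl e h1 (by omega)

def mtB8_0 : List MEnt := [
  ⟨37, 7, 6, [⟨6, 8, [(8, 1)], [(6, 1), (1, 1)], [([], [5], 3)]⟩]⟩]

theorem mtB8_0_ok : mtabOK (hB 8) 0 mtB8_0 = true := by decide +kernel

theorem covB_8_0 (e : ℕ) (h1 : 0 ≤ e) (h2 : e < 1) : CovH (hB 8 e) :=
  mtab_cov' mtB8_0_ok (l := 1) rfl e h1 (by omega)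

def mtB8_3 : List MEnt := [
  ⟨43, 8, 7, [⟨6, 9, [(9, 1)], [(5, 1)], [([7], [3], 2)]⟩, ⟨10, 10, [(9, 1)], [(7, 1), (3, 2)], [([], [5], 2)]⟩]⟩]

theorem mtB8_3_ok : mtabOK (hB 8) 3 mtB8_3 = true := by decide +kernel

theorem covB_8_3 (e : ℕ) (h1 : 3 ≤ e) (h2 : e < 4) : CovH (hB 8 e) :=
  mtab_cov' mtB8_3_ok (l := 1) rfl e h1 (by omega)

def mtB10_0 : List MEnt := [
  ⟨56, 9, 5, [⟨7, 11, [(10, 2), (4, 1)], [], [([], [6], 2)]⟩]⟩]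

theorem mtB10_0_ok : mtabOK (hB 10) 0 mtB10_0 = true := by decide +kernel

theorem covB_10_0 (e : ℕ) (h1 : 0 ≤ e) (h2 : e < 1) : CovH (hB 10 e) :=
  mtab_cov' mtB10_0_ok (l := 1) rfl e h1 (by omega)

def mtB10_2 : List MEnt := [
  ⟨60, 10, 6, [⟨6, 13, [(11, 1), (8, 1)], [(1, 1)], [([], [6, 2], 4)]⟩]⟩,
  ⟨62, 10, 9, [⟨7, 8, [], [(4, 1)], [([9], [6], 2), ([], [3], 11)]⟩, ⟨9, 11, [(11, 1)], [(9, 1), (7, 1), (4, 1)], [([], [6, 3], 2)]⟩, ⟨12, 12, [(11, 1)], [(9, 1), (7, 1), (4, 1), (3, 2)], [([], [6], 2)]⟩]⟩,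
  ⟨64, 10, 7, [⟨7, 12, [(11, 2)], [(1, 1)], [([], [6, 4], 3)]⟩]⟩]

theorem mtB10_2_ok : mtabOK (hB 10) 2 mtB10_2 = true := by decide +kernel

theorem covB_10_2 (e : ℕ) (h1 : 2 ≤ e) (h2 : e < 5) : CovH (hB 10 e) :=
  mtab_cov' mtB10_2_ok (l := 3) rfl e h1 (by omega)

def mtB12_0 : List MEnt := [
  ⟨79, 11, 8, [⟨8, 13, [(12, 2), (5, 1)], [(8, 1), (1, 1)], [([], [7], 3)]⟩]⟩,
  ⟨81, 12, 13, [⟨7, 13, [(10, 1)], [(8, 1)], [([13], [1], 3), ([], [7], 5)]⟩, ⟨14, 15, [(11, 2), (5, 1)], [(13, 1)], [([], [7, 1], 3)]⟩]⟩,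
  ⟨83, 12, 8, [⟨7, 15, [(13, 1), (10, 1)], [(8, 1), (3, 1), (1, 1)], [([], [7, 2], 5)]⟩]⟩,
  ⟨85, 12, 11, [⟨8, 13, [(13, 1)], [(8, 1)], [([11], [3], 2), ([], [7], 5)]⟩, ⟨14, 15, [(13, 1), (9, 1), (5, 1)], [(11, 1)], [([], [7, 3], 2)]⟩]⟩,
  ⟨87, 12, 8, [⟨8, 15, [(13, 2)], [(8, 1), (5, 1), (1, 1)], [([], [7, 4], 3)]⟩]⟩,
  ⟨89, 12, 8, [⟨8, 15, [(13, 2), (4, 1)], [(7, 1)], [([9], [5], 2)]⟩]⟩]

theorem mtB12_0_ok : mtabOK (hB 12) 0 mtB12_0 = true := by decide +kernel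

theorem covB_12_0 (e : ℕ) (h1 : 0 ≤ e) (h2 : e < 6) : CovH (hB 12 e) :=
  mtab_cov' mtB12_0_ok (l := 6) rfl e h1 (by omega)

def mtB14_0 : List MEnt := [
  ⟨106, 13, 7, [⟨9, 16, [(14, 3), (6, 2)], [], [([], [8], 2)]⟩]⟩,
  ⟨108, 14, 10, [⟨8, 17, [(12, 2)], [(2, 1)], [([15], [1], 4), ([], [8], 6)]⟩, ⟨18, 18, [(12, 2)], [(2, 1), (1, 2)], [([15], [], 4), ([], [8], 6)]⟩]⟩,
  ⟨110, 14, 8, [⟨8, 18, [(15, 1), (12, 2), (6, 1)], [(1, 1)], [([], [8, 2], 4)]⟩]⟩,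
  ⟨112, 14, 11, [⟨8, 17, [(15, 1), (10, 1)], [(4, 1)], [([13], [3], 2), ([], [8], 6)]⟩, ⟨18, 18, [(15, 1), (10, 1), (6, 1)], [(4, 1), (3, 2)], [([13], [8], 2)]⟩]⟩,
  ⟨114, 14, 8, [⟨9, 18, [(15, 2), (10, 1), (6, 1)], [(1, 1)], [([], [8, 4], 3)]⟩]⟩,
  ⟨116, 14, 10, [⟨9, 17, [(15, 2)], [(6, 1)], [([11], [5], 2), ([], [8], 4)]⟩, ⟨18, 18, [(15, 2), (4, 1)], [(6, 1), (5, 2)], [([11], [8], 2)]⟩]⟩,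
  ⟨118, 14, 9, [⟨9, 17, [(15, 3), (5, 1)], [(1, 1)], [([], [8, 6], 3)]⟩]⟩]

theorem mtB14_0_ok : mtabOK (hB 14) 0 mtB14_0 = true := by decide +kernel

theorem covB_14_0 (e : ℕ) (h1 : 0 ≤ e) (h2 : e < 7) : CovH (hB 14 e) :=
  mtab_cov' mtB14_0_ok (l := 7) rfl e h1 (by omega)

def mtB16_0 : List MEnt := [
  ⟨137, 15, 10, [⟨10, 19, [(16, 3), (7, 2)], [(10, 1), (1, 1)], [([], [9], 3)]⟩]⟩,
  ⟨139, 16, 10, [⟨9, 21, [(14, 2), (7, 1)], [(10, 1)], [([17], [1], 3), ([], [9], 5)]⟩]⟩,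
  ⟨141, 16, 10, [⟨9, 21, [(17, 1), (14, 2), (7, 1)], [(10, 1), (3, 1), (1, 1)], [([], [9, 2], 5)]⟩]⟩,
  ⟨143, 16, 10, [⟨9, 20, [(17, 1), (12, 1), (7, 1)], [(10, 1)], [([15], [3], 2), ([], [9], 5)]⟩]⟩,
  ⟨145, 16, 10, [⟨10, 20, [(17, 2), (12, 1), (7, 1)], [(10, 1), (5, 1), (1, 1)], [([], [9, 4], 3)]⟩]⟩,
  ⟨147, 16, 10, [⟨10, 20, [(17, 2), (7, 1)], [(10, 1)], [([13], [5], 2), ([], [9], 4)]⟩]⟩,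
  ⟨149, 16, 10, [⟨10, 20, [(17, 3), (5, 1)], [(10, 1), (7, 1), (1, 1)], [([], [9, 6], 3)]⟩]⟩,
  ⟨151, 16, 10, [⟨10, 20, [(17, 3), (6, 2)], [(9, 1)], [([11], [7], 2)]⟩]⟩]

theorem mtB16_0_ok : mtabOK (hB 16) 0 mtB16_0 = true := by decide +kernel

theorem covB_16_0 (e : ℕ) (h1 : 0 ≤ e) (h2 : e < 8) : CovH (hB 16 e) :=
  mtab_cov' mtB16_0_ok (l := 8) rfl e h1 (by omega)

def mtB18_0 : List MEnt := [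
  ⟨172, 17, 9, [⟨11, 21, [(18, 4), (8, 3)], [], [([], [10], 2)]⟩]⟩,
  ⟨174, 18, 12, [⟨10, 23, [(16, 3), (8, 1)], [(2, 1)], [([19], [1], 4), ([], [10], 6)]⟩]⟩,
  ⟨176, 18, 10, [⟨10, 23, [(19, 1), (16, 3), (8, 2)], [(1, 1)], [([], [10, 2], 4)]⟩]⟩,
  ⟨178, 18, 11, [⟨10, 23, [(19, 1), (14, 2), (8, 1)], [(4, 1)], [([17], [3], 2), ([], [10], 6)]⟩]⟩,
  ⟨180, 18, 10, [⟨10, 23, [(19, 2), (14, 2), (8, 2)], [(1, 1)], [([], [10, 4], 3)]⟩]⟩,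
  ⟨182, 18, 11, [⟨11, 23, [(19, 2), (12, 1), (8, 1)], [(6, 1)], [([15], [5], 2), ([], [10], 4)]⟩]⟩,
  ⟨184, 18, 10, [⟨11, 23, [(19, 3), (12, 1), (8, 1), (5, 1)], [(1, 1)], [([], [10, 6], 3)]⟩]⟩,
  ⟨186, 18, 12, [⟨11, 23, [(19, 3), (6, 1)], [(8, 1)], [([13], [10], 2), ([], [7], 4)]⟩]⟩,
  ⟨188, 18, 11, [⟨11, 23, [(19, 4), (7, 2)], [(1, 1)], [([], [10, 8], 3)]⟩]⟩]

theorem mtB18_0_ok : mtabOK (hB 18) 0 mtB18_0 = true := by decide +kernel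

theorem covB_18_0 (e : ℕ) (h1 : 0 ≤ e) (h2 : e < 9) : CovH (hB 18 e) :=
  mtab_cov' mtB18_0_ok (l := 9) rfl e h1 (by omega)

def mtB20_0 : List MEnt := [
  ⟨211, 19, 12, [⟨12, 24, [(20, 4), (9, 3)], [(12, 1), (1, 1)], [([], [11], 3)]⟩]⟩,
  ⟨213, 20, 12, [⟨11, 26, [(18, 3), (9, 2)], [(12, 1)], [([21], [1], 3), ([], [11], 5)]⟩]⟩,
  ⟨215, 20, 12, [⟨11, 26, [(21, 1), (18, 3), (9, 2)], [(12, 1), (3, 1), (1, 1)], [([], [11, 2], 5)]⟩]⟩,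
  ⟨217, 20, 12, [⟨11, 26, [(21, 1), (16, 2), (9, 2)], [(12, 1)], [([19], [3], 2), ([], [11], 5)]⟩]⟩,
  ⟨219, 20, 12, [⟨11, 26, [(21, 2), (16, 2), (9, 2)], [(12, 1), (5, 1), (1, 1)], [([], [11, 4], 3)]⟩]⟩,
  ⟨221, 20, 12, [⟨12, 25, [(21, 2), (14, 1), (9, 2)], [(12, 1)], [([17], [5], 2), ([], [11], 4)]⟩]⟩,
  ⟨223, 20, 12, [⟨12, 25, [(21, 3), (14, 1), (9, 1), (5, 1)], [(12, 1), (7, 1), (1, 1)], [([], [11, 6], 3)]⟩]⟩,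
  ⟨225, 20, 12, [⟨12, 25, [(21, 3), (9, 1), (6, 1)], [(12, 1)], [([15], [7], 2), ([], [11], 4)]⟩]⟩,
  ⟨227, 20, 12, [⟨12, 25, [(21, 4), (7, 2)], [(12, 1), (9, 1), (1, 1)], [([], [11, 8], 3)]⟩]⟩,
  ⟨229, 20, 12, [⟨12, 25, [(21, 4), (8, 3)], [(11, 1)], [([13], [9], 2)]⟩]⟩]

theorem mtB20_0_ok : mtabOK (hB 20) 0 mtB20_0 = true := by decide +kernel

theorem covB_20_0 (e : ℕ) (h1 : 0 ≤ e) (h2 : e < 10) : CovH (hB 20 e) :=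
  mtab_cov' mtB20_0_ok (l := 10) rfl e h1 (by omega)

def mtB22_0 : List MEnt := [
  ⟨254, 21, 11, [⟨13, 26, [(22, 5), (10, 4)], [], [([], [12], 2)]⟩]⟩,
  ⟨256, 22, 14, [⟨12, 28, [(20, 4), (10, 2)], [(2, 1)], [([23], [1], 4), ([], [12], 6)]⟩]⟩,
  ⟨258, 22, 12, [⟨12, 28, [(23, 1), (20, 4), (10, 3)], [(1, 1)], [([], [12, 2], 4)]⟩]⟩,
  ⟨260, 22, 13, [⟨12, 28, [(23, 1), (18, 3), (10, 2)], [(4, 1)], [([21], [3], 2), ([], [12], 6)]⟩]⟩,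
  ⟨262, 22, 12, [⟨12, 28, [(23, 2), (18, 3), (10, 3)], [(1, 1)], [([], [12, 4], 3)]⟩]⟩,
  ⟨264, 22, 13, [⟨12, 28, [(23, 2), (16, 2), (10, 2)], [(6, 1)], [([19], [5], 2), ([], [12], 4)]⟩]⟩,
  ⟨266, 22, 12, [⟨13, 28, [(23, 3), (16, 2), (10, 2), (5, 1)], [(1, 1)], [([], [12, 6], 3)]⟩]⟩,
  ⟨268, 22, 13, [⟨13, 28, [(23, 3), (14, 1), (10, 1), (6, 1)], [(8, 1)], [([17], [7], 2), ([], [12], 4)]⟩]⟩,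
  ⟨270, 22, 12, [⟨13, 28, [(23, 4), (14, 1), (10, 1), (7, 2)], [(1, 1)], [([], [12, 8], 3)]⟩]⟩,
  ⟨272, 22, 14, [⟨13, 28, [(23, 4), (8, 2)], [(10, 1)], [([15], [12], 2), ([], [9], 4)]⟩]⟩,
  ⟨274, 22, 13, [⟨13, 28, [(23, 5), (9, 3)], [(1, 1)], [([], [12, 10], 3)]⟩]⟩]

theorem mtB22_0_ok : mtabOK (hB 22) 0 mtB22_0 = true := by decide +kernel

theorem covB_22_0 (e : ℕ) (h1 : 0 ≤ e) (h2 : e < 11) : CovH (hB 22 e) :=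
  mtab_cov' mtB22_0_ok (l := 11) rfl e h1 (by omega)

def mtB24_0 : List MEnt := [
  ⟨301, 23, 14, [⟨14, 29, [(24, 5), (11, 4)], [(14, 1), (1, 1)], [([], [13], 3)]⟩]⟩,
  ⟨303, 24, 14, [⟨13, 31, [(22, 4), (11, 3)], [(14, 1)], [([25], [1], 3), ([], [13], 5)]⟩]⟩,
  ⟨305, 24, 14, [⟨13, 31, [(25, 1), (22, 4), (11, 3)], [(14, 1), (3, 1), (1, 1)], [([], [13, 2], 5)]⟩]⟩,
  ⟨307, 24, 14, [⟨13, 31, [(25, 1), (20, 3), (11, 3)], [(14, 1)], [([23], [3], 2), ([], [13], 5)]⟩]⟩,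
  ⟨309, 24, 14, [⟨13, 31, [(25, 2), (20, 3), (11, 3)], [(14, 1), (5, 1), (1, 1)], [([], [13, 4], 3)]⟩]⟩,
  ⟨311, 24, 14, [⟨13, 31, [(25, 2), (18, 2), (11, 3)], [(14, 1)], [([21], [5], 2), ([], [13], 4)]⟩]⟩,
  ⟨313, 24, 14, [⟨14, 31, [(25, 3), (18, 2), (11, 2), (5, 1)], [(14, 1), (7, 1), (1, 1)], [([], [13, 6], 3)]⟩]⟩,
  ⟨315, 24, 14, [⟨14, 31, [(25, 3), (16, 1), (11, 2), (6, 1)], [(14, 1)], [([19], [7], 2), ([], [13], 4)]⟩]⟩,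
  ⟨317, 24, 14, [⟨14, 31, [(25, 4), (16, 1), (11, 1), (7, 2)], [(14, 1), (9, 1), (1, 1)], [([], [13, 8], 3)]⟩]⟩,
  ⟨319, 24, 16, [⟨14, 30, [(25, 4), (11, 1), (8, 2)], [(14, 1)], [([17], [13], 2), ([], [9], 4)]⟩]⟩,
  ⟨321, 24, 14, [⟨14, 30, [(25, 5), (9, 3)], [(14, 1), (11, 1), (1, 1)], [([], [13, 10], 3)]⟩]⟩,
  ⟨323, 24, 14, [⟨14, 30, [(25, 5), (10, 4)], [(13, 1)], [([15], [11], 2)]⟩]⟩]

theorem mtB24_0_ok : mtabOK (hB 24) 0 mtB24_0 = true := by decide +kernel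

theorem covB_24_0 (e : ℕ) (h1 : 0 ≤ e) (h2 : e < 12) : CovH (hB 24 e) :=
  mtab_cov' mtB24_0_ok (l := 12) rfl e h1 (by omega)

def mtB26_0 : List MEnt := [
  ⟨352, 25, 13, [⟨15, 32, [(26, 6), (12, 5)], [], [([], [14], 2)]⟩]⟩,
  ⟨354, 26, 16, [⟨14, 34, [(24, 5), (12, 3)], [(2, 1)], [([27], [1], 4), ([], [14], 6)]⟩]⟩,
  ⟨356, 26, 14, [⟨14, 34, [(27, 1), (24, 5), (12, 4)], [(1, 1)], [([], [14, 2], 4)]⟩]⟩,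
  ⟨358, 26, 15, [⟨14, 33, [(27, 1), (22, 4), (12, 3)], [(4, 1)], [([25], [3], 2), ([], [14], 6)]⟩]⟩,
  ⟨360, 26, 14, [⟨14, 33, [(27, 2), (22, 4), (12, 4)], [(1, 1)], [([], [14, 4], 3)]⟩]⟩,
  ⟨362, 26, 15, [⟨14, 33, [(27, 2), (20, 3), (12, 3)], [(6, 1)], [([23], [5], 2), ([], [14], 4)]⟩]⟩,
  ⟨364, 26, 14, [⟨14, 33, [(27, 3), (20, 3), (12, 3), (5, 1)], [(1, 1)], [([], [14, 6], 3)]⟩]⟩,
  ⟨366, 26, 15, [⟨15, 33, [(27, 3), (18, 2), (12, 2), (6, 1)], [(8, 1)], [([21], [7], 2), ([], [14], 4)]⟩]⟩,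
  ⟨368, 26, 14, [⟨15, 33, [(27, 4), (18, 2), (12, 2), (7, 2)], [(1, 1)], [([], [14, 8], 3)]⟩]⟩,
  ⟨370, 26, 17, [⟨15, 33, [(27, 4), (16, 1), (12, 1), (8, 2)], [(10, 1)], [([19], [14], 2), ([], [9], 4)]⟩]⟩,
  ⟨372, 26, 14, [⟨15, 33, [(27, 5), (16, 1), (12, 1), (9, 3)], [(1, 1)], [([], [14, 10], 3)]⟩]⟩,
  ⟨374, 26, 16, [⟨15, 33, [(27, 5), (10, 3)], [(12, 1)], [([17], [14], 2), ([], [11], 4)]⟩]⟩,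
  ⟨376, 26, 15, [⟨15, 33, [(27, 6), (11, 4)], [(1, 1)], [([], [14, 12], 3)]⟩]⟩]

theorem mtB26_0_ok : mtabOK (hB 26) 0 mtB26_0 = true := by decide +kernel

theorem covB_26_0 (e : ℕ) (h1 : 0 ≤ e) (h2 : e < 13) : CovH (hB 26 e) :=
  mtab_cov' mtB26_0_ok (l := 13) rfl e h1 (by omega)

def mtB28_0 : List MEnt := [
  ⟨407, 27, 16, [⟨16, 34, [(28, 6), (13, 5)], [(16, 1), (1, 1)], [([], [15], 3)]⟩]⟩,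
  ⟨409, 28, 16, [⟨15, 36, [(26, 5), (13, 4)], [(16, 1)], [([29], [1], 3), ([], [15], 5)]⟩]⟩,
  ⟨411, 28, 16, [⟨15, 36, [(29, 1), (26, 5), (13, 4)], [(16, 1), (3, 1), (1, 1)], [([], [15, 2], 5)]⟩]⟩,
  ⟨413, 28, 16, [⟨15, 36, [(29, 1), (24, 4), (13, 4)], [(16, 1)], [([27], [3], 2), ([], [15], 5)]⟩]⟩,
  ⟨415, 28, 16, [⟨15, 36, [(29, 2), (24, 4), (13, 4)], [(16, 1), (5, 1), (1, 1)], [([], [15, 4], 3)]⟩]⟩,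
  ⟨417, 28, 16, [⟨15, 36, [(29, 2), (22, 3), (13, 4)], [(16, 1)], [([25], [5], 2), ([], [15], 4)]⟩]⟩,
  ⟨419, 28, 16, [⟨15, 36, [(29, 3), (22, 3), (13, 3), (5, 1)], [(16, 1), (7, 1), (1, 1)], [([], [15, 6], 3)]⟩]⟩,
  ⟨421, 28, 16, [⟨16, 36, [(29, 3), (20, 2), (13, 3), (6, 1)], [(16, 1)], [([23], [7], 2), ([], [15], 4)]⟩]⟩,
  ⟨423, 28, 16, [⟨16, 36, [(29, 4), (20, 2), (13, 2), (7, 2)], [(16, 1), (9, 1), (1, 1)], [([], [15, 8], 3)]⟩]⟩,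
  ⟨425, 28, 16, [⟨16, 36, [(29, 4), (18, 1), (13, 2), (8, 2)], [(16, 1)], [([21], [9], 2), ([], [15], 4)]⟩]⟩,
  ⟨427, 28, 16, [⟨16, 36, [(29, 5), (18, 1), (13, 1), (9, 3)], [(16, 1), (11, 1), (1, 1)], [([], [15, 10], 3)]⟩]⟩,
  ⟨429, 28, 18, [⟨16, 36, [(29, 5), (13, 1), (10, 3)], [(16, 1)], [([19], [15], 2), ([], [11], 4)]⟩]⟩,
  ⟨431, 28, 16, [⟨16, 36, [(29, 6), (11, 4)], [(16, 1), (13, 1), (1, 1)], [([], [15, 12], 3)]⟩]⟩,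
  ⟨433, 28, 16, [⟨16, 35, [(29, 6), (12, 5)], [(15, 1)], [([17], [13], 2)]⟩]⟩]

theorem mtB28_0_ok : mtabOK (hB 28) 0 mtB28_0 = true := by decide +kernel

theorem covB_28_0 (e : ℕ) (h1 : 0 ≤ e) (h2 : e < 14) : CovH (hB 28 e) :=
  mtab_cov' mtB28_0_ok (l := 14) rfl e h1 (by omega)

def mtB30_0 : List MEnt := [
  ⟨466, 29, 15, [⟨17, 37, [(30, 7), (14, 6)], [], [([], [16], 2)]⟩]⟩,
  ⟨468, 30, 18, [⟨16, 39, [(28, 6), (14, 4)], [(2, 1)], [([31], [1], 4), ([], [16], 6)]⟩]⟩,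
  ⟨470, 30, 16, [⟨16, 39, [(31, 1), (28, 6), (14, 5)], [(1, 1)], [([], [16, 2], 4)]⟩]⟩,
  ⟨472, 30, 17, [⟨16, 39, [(31, 1), (26, 5), (14, 4)], [(4, 1)], [([29], [3], 2), ([], [16], 6)]⟩]⟩,
  ⟨474, 30, 16, [⟨16, 39, [(31, 2), (26, 5), (14, 5)], [(1, 1)], [([], [16, 4], 3)]⟩]⟩,
  ⟨476, 30, 17, [⟨16, 39, [(31, 2), (24, 4), (14, 4)], [(6, 1)], [([27], [5], 2), ([], [16], 4)]⟩]⟩,
  ⟨478, 30, 16, [⟨16, 38, [(31, 3), (24, 4), (14, 4), (5, 1)], [(1, 1)], [([], [16, 6], 3)]⟩]⟩,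
  ⟨480, 30, 17, [⟨16, 38, [(31, 3), (22, 3), (14, 3), (6, 1)], [(8, 1)], [([25], [7], 2), ([], [16], 4)]⟩]⟩,
  ⟨482, 30, 16, [⟨17, 38, [(31, 4), (22, 3), (14, 3), (7, 2)], [(1, 1)], [([], [16, 8], 3)]⟩]⟩,
  ⟨484, 30, 17, [⟨17, 38, [(31, 4), (20, 2), (14, 2), (8, 2)], [(10, 1)], [([23], [9], 2), ([], [16], 4)]⟩]⟩,
  ⟨486, 30, 16, [⟨17, 38, [(31, 5), (20, 2), (14, 2), (9, 3)], [(1, 1)], [([], [16, 10], 3)]⟩]⟩,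
  ⟨488, 30, 19, [⟨17, 38, [(31, 5), (18, 1), (14, 1), (10, 3)], [(12, 1)], [([21], [16], 2), ([], [11], 4)]⟩]⟩,
  ⟨490, 30, 16, [⟨17, 38, [(31, 6), (18, 1), (14, 1), (11, 4)], [(1, 1)], [([], [16, 12], 3)]⟩]⟩,
  ⟨492, 30, 18, [⟨17, 38, [(31, 6), (12, 4)], [(14, 1)], [([19], [16], 2), ([], [13], 4)]⟩]⟩,
  ⟨494, 30, 17, [⟨17, 38, [(31, 7), (13, 5)], [(1, 1)], [([], [16, 14], 3)]⟩]⟩]

theorem mtB30_0_ok : mtabOK (hB 30) 0 mtB30_0 = true := by decide +kernel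

theorem covB_30_0 (e : ℕ) (h1 : 0 ≤ e) (h2 : e < 15) : CovH (hB 30 e) :=
  mtab_cov' mtB30_0_ok (l := 15) rfl e h1 (by omega)

def mtB32_0 : List MEnt := [
  ⟨529, 31, 18, [⟨18, 39, [(32, 7), (15, 6)], [(18, 1), (1, 1)], [([], [17], 3)]⟩]⟩,
  ⟨531, 32, 18, [⟨17, 41, [(30, 6), (15, 5)], [(18, 1)], [([33], [1], 3), ([], [17], 5)]⟩]⟩,
  ⟨533, 32, 18, [⟨17, 41, [(33, 1), (30, 6), (15, 5)], [(18, 1), (3, 1), (1, 1)], [([], [17, 2], 5)]⟩]⟩,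
  ⟨535, 32, 18, [⟨17, 41, [(33, 1), (28, 5), (15, 5)], [(18, 1)], [([31], [3], 2), ([], [17], 5)]⟩]⟩,
  ⟨537, 32, 18, [⟨17, 41, [(33, 2), (28, 5), (15, 5)], [(18, 1), (5, 1), (1, 1)], [([], [17, 4], 3)]⟩]⟩,
  ⟨539, 32, 18, [⟨17, 41, [(33, 2), (26, 4), (15, 5)], [(18, 1)], [([29], [5], 2), ([], [17], 4)]⟩]⟩,
  ⟨541, 32, 18, [⟨17, 41, [(33, 3), (26, 4), (15, 4), (5, 1)], [(18, 1), (7, 1), (1, 1)], [([], [17, 6], 3)]⟩]⟩,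
  ⟨543, 32, 18, [⟨17, 41, [(33, 3), (24, 3), (15, 4), (6, 1)], [(18, 1)], [([27], [7], 2), ([], [17], 4)]⟩]⟩,
  ⟨545, 32, 18, [⟨18, 41, [(33, 4), (24, 3), (15, 3), (7, 2)], [(18, 1), (9, 1), (1, 1)], [([], [17, 8], 3)]⟩]⟩,
  ⟨547, 32, 18, [⟨18, 41, [(33, 4), (22, 2), (15, 3), (8, 2)], [(18, 1)], [([25], [9], 2), ([], [17], 4)]⟩]⟩,
  ⟨549, 32, 18, [⟨18, 41, [(33, 5), (22, 2), (15, 2), (9, 3)], [(18, 1), (11, 1), (1, 1)], [([], [17, 10], 3)]⟩]⟩,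
  ⟨551, 32, 21, [⟨18, 41, [(33, 5), (20, 1), (15, 2), (10, 3)], [(18, 1)], [([23], [17], 2), ([], [11], 4)]⟩]⟩,
  ⟨553, 32, 18, [⟨18, 41, [(33, 6), (20, 1), (15, 1), (11, 4)], [(18, 1), (13, 1), (1, 1)], [([], [17, 12], 3)]⟩]⟩,
  ⟨555, 32, 20, [⟨18, 41, [(33, 6), (15, 1), (12, 4)], [(18, 1)], [([21], [17], 2), ([], [13], 4)]⟩]⟩,
  ⟨557, 32, 18, [⟨18, 41, [(33, 7), (13, 5)], [(18, 1), (15, 1), (1, 1)], [([], [17, 14], 3)]⟩]⟩,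
  ⟨559, 32, 18, [⟨18, 41, [(33, 7), (14, 6)], [(17, 1)], [([19], [15], 2)]⟩]⟩]

theorem mtB32_0_ok : mtabOK (hB 32) 0 mtB32_0 = true := by decide +kernel

theorem covB_32_0 (e : ℕ) (h1 : 0 ≤ e) (h2 : e < 16) : CovH (hB 32 e) :=
  mtab_cov' mtB32_0_ok (l := 16) rfl e h1 (by omega)

def mtB34_0 : List MEnt := [
  ⟨596, 33, 17, [⟨19, 42, [(34, 8), (16, 7)], [], [([], [18], 2)]⟩]⟩,
  ⟨598, 34, 20, [⟨18, 44, [(32, 7), (16, 5)], [(2, 1)], [([35], [1], 4), ([], [18], 6)]⟩]⟩,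
  ⟨600, 34, 18, [⟨18, 44, [(35, 1), (32, 7), (16, 6)], [(1, 1)], [([], [18, 2], 4)]⟩]⟩,
  ⟨602, 34, 19, [⟨18, 44, [(35, 1), (30, 6), (16, 5)], [(4, 1)], [([33], [3], 2), ([], [18], 6)]⟩]⟩,
  ⟨604, 34, 18, [⟨18, 44, [(35, 2), (30, 6), (16, 6)], [(1, 1)], [([], [18, 4], 3)]⟩]⟩,
  ⟨606, 34, 19, [⟨18, 44, [(35, 2), (28, 5), (16, 5)], [(6, 1)], [([31], [5], 2), ([], [18], 4)]⟩]⟩,
  ⟨608, 34, 18, [⟨18, 44, [(35, 3), (28, 5), (16, 5), (5, 1)], [(1, 1)], [([], [18, 6], 3)]⟩]⟩,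
  ⟨610, 34, 19, [⟨18, 44, [(35, 3), (26, 4), (16, 4), (6, 1)], [(8, 1)], [([29], [7], 2), ([], [18], 4)]⟩]⟩,
  ⟨612, 34, 18, [⟨18, 44, [(35, 4), (26, 4), (16, 4), (7, 2)], [(1, 1)], [([], [18, 8], 3)]⟩]⟩,
  ⟨614, 34, 19, [⟨19, 44, [(35, 4), (24, 3), (16, 3), (8, 2)], [(10, 1)], [([27], [9], 2), ([], [18], 4)]⟩]⟩,
  ⟨616, 34, 18, [⟨19, 44, [(35, 5), (24, 3), (16, 3), (9, 3)], [(1, 1)], [([], [18, 10], 3)]⟩]⟩,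
  ⟨618, 34, 22, [⟨19, 43, [(35, 5), (22, 2), (16, 2), (10, 3)], [(12, 1)], [([25], [18], 2), ([], [11], 4)]⟩]⟩,
  ⟨620, 34, 18, [⟨19, 43, [(35, 6), (22, 2), (16, 2), (11, 4)], [(1, 1)], [([], [18, 12], 3)]⟩]⟩,
  ⟨622, 34, 21, [⟨19, 43, [(35, 6), (20, 1), (16, 1), (12, 4)], [(14, 1)], [([23], [18], 2), ([], [13], 4)]⟩]⟩,
  ⟨624, 34, 18, [⟨19, 43, [(35, 7), (20, 1), (16, 1), (13, 5)], [(1, 1)], [([], [18, 14], 3)]⟩]⟩,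
  ⟨626, 34, 20, [⟨19, 43, [(35, 7), (14, 5)], [(16, 1)], [([21], [18], 2), ([], [15], 4)]⟩]⟩,
  ⟨628, 34, 19, [⟨19, 43, [(35, 8), (15, 6)], [(1, 1)], [([], [18, 16], 3)]⟩]⟩]

theorem mtB34_0_ok : mtabOK (hB 34) 0 mtB34_0 = true := by decide +kernel

theorem covB_34_0 (e : ℕ) (h1 : 0 ≤ e) (h2 : e < 17) : CovH (hB 34 e) :=
  mtab_cov' mtB34_0_ok (l := 17) rfl e h1 (by omega)

def mtB36_0 : List MEnt := [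
  ⟨667, 35, 20, [⟨20, 44, [(36, 8), (17, 7)], [(20, 1), (1, 1)], [([], [19], 3)]⟩]⟩,
  ⟨669, 36, 20, [⟨19, 47, [(34, 7), (17, 6)], [(20, 1)], [([37], [1], 3), ([], [19], 5)]⟩]⟩,
  ⟨671, 36, 20, [⟨19, 46, [(37, 1), (34, 7), (17, 6)], [(20, 1), (3, 1), (1, 1)], [([], [19, 2], 5)]⟩]⟩,
  ⟨673, 36, 20, [⟨19, 46, [(37, 1), (32, 6), (17, 6)], [(20, 1)], [([35], [3], 2), ([], [19], 5)]⟩]⟩,
  ⟨675, 36, 20, [⟨19, 46, [(37, 2), (32, 6), (17, 6)], [(20, 1), (5, 1), (1, 1)], [([], [19, 4], 3)]⟩]⟩,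
  ⟨677, 36, 20, [⟨19, 46, [(37, 2), (30, 5), (17, 6)], [(20, 1)], [([33], [5], 2), ([], [19], 4)]⟩]⟩,
  ⟨679, 36, 20, [⟨19, 46, [(37, 3), (30, 5), (17, 5), (5, 1)], [(20, 1), (7, 1), (1, 1)], [([], [19, 6], 3)]⟩]⟩,
  ⟨681, 36, 20, [⟨19, 46, [(37, 3), (28, 4), (17, 5), (6, 1)], [(20, 1)], [([31], [7], 2), ([], [19], 4)]⟩]⟩,
  ⟨683, 36, 20, [⟨19, 46, [(37, 4), (28, 4), (17, 4), (7, 2)], [(20, 1), (9, 1), (1, 1)], [([], [19, 8], 3)]⟩]⟩,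
  ⟨685, 36, 20, [⟨20, 46, [(37, 4), (26, 3), (17, 4), (8, 2)], [(20, 1)], [([29], [9], 2), ([], [19], 4)]⟩]⟩,
  ⟨687, 36, 20, [⟨20, 46, [(37, 5), (26, 3), (17, 3), (9, 3)], [(20, 1), (11, 1), (1, 1)], [([], [19, 10], 3)]⟩]⟩,
  ⟨689, 36, 20, [⟨20, 46, [(37, 5), (24, 2), (17, 3), (10, 3)], [(20, 1)], [([27], [11], 2), ([], [19], 4)]⟩]⟩,
  ⟨691, 36, 20, [⟨20, 46, [(37, 6), (24, 2), (17, 2), (11, 4)], [(20, 1), (13, 1), (1, 1)], [([], [19, 12], 3)]⟩]⟩,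
  ⟨693, 36, 23, [⟨20, 46, [(37, 6), (22, 1), (17, 2), (12, 4)], [(20, 1)], [([25], [19], 2), ([], [13], 4)]⟩]⟩,
  ⟨695, 36, 20, [⟨20, 46, [(37, 7), (22, 1), (17, 1), (13, 5)], [(20, 1), (15, 1), (1, 1)], [([], [19, 14], 3)]⟩]⟩,
  ⟨697, 36, 22, [⟨20, 46, [(37, 7), (17, 1), (14, 5)], [(20, 1)], [([23], [19], 2), ([], [15], 4)]⟩]⟩,
  ⟨699, 36, 20, [⟨20, 46, [(37, 8), (15, 6)], [(20, 1), (17, 1), (1, 1)], [([], [19, 16], 3)]⟩]⟩,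
  ⟨701, 36, 20, [⟨20, 46, [(37, 8), (16, 7)], [(19, 1)], [([21], [17], 2)]⟩]⟩]

theorem mtB36_0_ok : mtabOK (hB 36) 0 mtB36_0 = true := by decide +kernel

theorem covB_36_0 (e : ℕ) (h1 : 0 ≤ e) (h2 : e < 18) : CovH (hB 36 e) :=
  mtab_cov' mtB36_0_ok (l := 18) rfl e h1 (by omega)

def mtB38_0 : List MEnt := [
  ⟨742, 37, 19, [⟨21, 47, [(38, 9), (18, 8)], [], [([], [20], 2)]⟩]⟩,
  ⟨744, 38, 22, [⟨20, 49, [(36, 8), (18, 6)], [(2, 1)], [([39], [1], 4), ([], [20], 6)]⟩]⟩,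
  ⟨746, 38, 20, [⟨20, 49, [(39, 1), (36, 8), (18, 7)], [(1, 1)], [([], [20, 2], 4)]⟩]⟩,
  ⟨748, 38, 21, [⟨20, 49, [(39, 1), (34, 7), (18, 6)], [(4, 1)], [([37], [3], 2), ([], [20], 6)]⟩]⟩,
  ⟨750, 38, 20, [⟨20, 49, [(39, 2), (34, 7), (18, 7)], [(1, 1)], [([], [20, 4], 3)]⟩]⟩,
  ⟨752, 38, 21, [⟨20, 49, [(39, 2), (32, 6), (18, 6)], [(6, 1)], [([35], [5], 2), ([], [20], 4)]⟩]⟩,
  ⟨754, 38, 20, [⟨20, 49, [(39, 3), (32, 6), (18, 6), (5, 1)], [(1, 1)], [([], [20, 6], 3)]⟩]⟩,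
  ⟨756, 38, 21, [⟨20, 49, [(39, 3), (30, 5), (18, 5), (6, 1)], [(8, 1)], [([33], [7], 2), ([], [20], 4)]⟩]⟩,
  ⟨758, 38, 20, [⟨20, 49, [(39, 4), (30, 5), (18, 5), (7, 2)], [(1, 1)], [([], [20, 8], 3)]⟩]⟩,
  ⟨760, 38, 21, [⟨20, 49, [(39, 4), (28, 4), (18, 4), (8, 2)], [(10, 1)], [([31], [9], 2), ([], [20], 4)]⟩]⟩,
  ⟨762, 38, 20, [⟨21, 49, [(39, 5), (28, 4), (18, 4), (9, 3)], [(1, 1)], [([], [20, 10], 3)]⟩]⟩,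
  ⟨764, 38, 21, [⟨21, 49, [(39, 5), (26, 3), (18, 3), (10, 3)], [(12, 1)], [([29], [11], 2), ([], [20], 4)]⟩]⟩,
  ⟨766, 38, 20, [⟨21, 49, [(39, 6), (26, 3), (18, 3), (11, 4)], [(1, 1)], [([], [20, 12], 3)]⟩]⟩,
  ⟨768, 38, 24, [⟨21, 49, [(39, 6), (24, 2), (18, 2), (12, 4)], [(14, 1)], [([27], [20], 2), ([], [13], 4)]⟩]⟩,
  ⟨770, 38, 20, [⟨21, 49, [(39, 7), (24, 2), (18, 2), (13, 5)], [(1, 1)], [([], [20, 14], 3)]⟩]⟩,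
  ⟨772, 38, 23, [⟨21, 49, [(39, 7), (22, 1), (18, 1), (14, 5)], [(16, 1)], [([25], [20], 2), ([], [15], 4)]⟩]⟩,
  ⟨774, 38, 20, [⟨21, 48, [(39, 8), (22, 1), (18, 1), (15, 6)], [(1, 1)], [([], [20, 16], 3)]⟩]⟩,
  ⟨776, 38, 22, [⟨21, 48, [(39, 8), (16, 6)], [(18, 1)], [([23], [20], 2), ([], [17], 4)]⟩]⟩,
  ⟨778, 38, 21, [⟨21, 48, [(39, 9), (17, 7)], [(1, 1)], [([], [20, 18], 3)]⟩]⟩]

theorem mtB38_0_ok : mtabOK (hB 38) 0 mtB38_0 = true := by decide +kernel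

theorem covB_38_0 (e : ℕ) (h1 : 0 ≤ e) (h2 : e < 19) : CovH (hB 38 e) :=
  mtab_cov' mtB38_0_ok (l := 19) rfl e h1 (by omega)

def mtB40_0 : List MEnt := [
  ⟨821, 39, 22, [⟨22, 50, [(40, 9), (19, 8)], [(22, 1), (1, 1)], [([], [21], 3)]⟩]⟩,
  ⟨823, 40, 22, [⟨21, 52, [(38, 8), (19, 7)], [(22, 1)], [([41], [1], 3), ([], [21], 5)]⟩]⟩,
  ⟨825, 40, 22, [⟨21, 52, [(41, 1), (38, 8), (19, 7)], [(22, 1), (3, 1), (1, 1)], [([], [21, 2], 5)]⟩]⟩,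
  ⟨827, 40, 22, [⟨21, 52, [(41, 1), (36, 7), (19, 7)], [(22, 1)], [([39], [3], 2), ([], [21], 5)]⟩]⟩,
  ⟨829, 40, 22, [⟨21, 52, [(41, 2), (36, 7), (19, 7)], [(22, 1), (5, 1), (1, 1)], [([], [21, 4], 3)]⟩]⟩,
  ⟨831, 40, 22, [⟨21, 52, [(41, 2), (34, 6), (19, 7)], [(22, 1)], [([37], [5], 2), ([], [21], 4)]⟩]⟩,
  ⟨833, 40, 22, [⟨21, 51, [(41, 3), (34, 6), (19, 6), (5, 1)], [(22, 1), (7, 1), (1, 1)], [([], [21, 6], 3)]⟩]⟩,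
  ⟨835, 40, 22, [⟨21, 51, [(41, 3), (32, 5), (19, 6), (6, 1)], [(22, 1)], [([35], [7], 2), ([], [21], 4)]⟩]⟩,
  ⟨837, 40, 22, [⟨21, 51, [(41, 4), (32, 5), (19, 5), (7, 2)], [(22, 1), (9, 1), (1, 1)], [([], [21, 8], 3)]⟩]⟩,
  ⟨839, 40, 22, [⟨21, 51, [(41, 4), (30, 4), (19, 5), (8, 2)], [(22, 1)], [([33], [9], 2), ([], [21], 4)]⟩]⟩,
  ⟨841, 40, 22, [⟨22, 51, [(41, 5), (30, 4), (19, 4), (9, 3)], [(22, 1), (11, 1), (1, 1)], [([], [21, 10], 3)]⟩]⟩,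
  ⟨843, 40, 22, [⟨22, 51, [(41, 5), (28, 3), (19, 4), (10, 3)], [(22, 1)], [([31], [11], 2), ([], [21], 4)]⟩]⟩,
  ⟨845, 40, 22, [⟨22, 51, [(41, 6), (28, 3), (19, 3), (11, 4)], [(22, 1), (13, 1), (1, 1)], [([], [21, 12], 3)]⟩]⟩,
  ⟨847, 40, 26, [⟨22, 51, [(41, 6), (26, 2), (19, 3), (12, 4)], [(22, 1)], [([29], [21], 2), ([], [13], 4)]⟩]⟩,
  ⟨849, 40, 22, [⟨22, 51, [(41, 7), (26, 2), (19, 2), (13, 5)], [(22, 1), (15, 1), (1, 1)], [([], [21, 14], 3)]⟩]⟩,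
  ⟨851, 40, 25, [⟨22, 51, [(41, 7), (24, 1), (19, 2), (14, 5)], [(22, 1)], [([27], [21], 2), ([], [15], 4)]⟩]⟩,
  ⟨853, 40, 22, [⟨22, 51, [(41, 8), (24, 1), (19, 1), (15, 6)], [(22, 1), (17, 1), (1, 1)], [([], [21, 16], 3)]⟩]⟩,
  ⟨855, 40, 24, [⟨22, 51, [(41, 8), (19, 1), (16, 6)], [(22, 1)], [([25], [21], 2), ([], [17], 4)]⟩]⟩,
  ⟨857, 40, 22, [⟨22, 51, [(41, 9), (17, 7)], [(22, 1), (19, 1), (1, 1)], [([], [21, 18], 3)]⟩]⟩,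
  ⟨859, 40, 22, [⟨22, 51, [(41, 9), (18, 8)], [(21, 1)], [([23], [19], 2)]⟩]⟩]

theorem mtB40_0_ok : mtabOK (hB 40) 0 mtB40_0 = true := by decide +kernel

theorem covB_40_0 (e : ℕ) (h1 : 0 ≤ e) (h2 : e < 20) : CovH (hB 40 e) :=
  mtab_cov' mtB40_0_ok (l := 20) rfl e h1 (by omega)

/-- family `hB`, `12 ≤ M ≤ 40` -/
theorem covB_tab (M e : ℕ) (hp : M % 2 = 0) (hM : 12 ≤ M) (hM' : M ≤ 40) (h2 : 2 * e + 2 ≤ M) :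
    CovH (hB M e) := by
  obtain ⟨m, rfl⟩ : ∃ m, M = 2 * m := ⟨M / 2, by omega⟩
  have hm : 6 ≤ m := by omega
  have hm' : m ≤ 20 := by omega
  interval_cases m
  · exact covB_12_0 e (by omega) (by omega)
  · exact covB_14_0 e (by omega) (by omega)
  · exact covB_16_0 e (by omega) (by omega)
  · exact covB_18_0 e (by omega) (by omega)
  · exact covB_20_0 e (by omega) (by omega)
  · exact covB_22_0 e (by omega) (by omega)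
  · exact covB_24_0 e (by omega) (by omega)
  · exact covB_26_0 e (by omega) (by omega)
  · exact covB_28_0 e (by omega) (by omega)
  · exact covB_30_0 e (by omega) (by omega)
  · exact covB_32_0 e (by omega) (by omega)
  · exact covB_34_0 e (by omega) (by omega)
  · exact covB_36_0 e (by omega) (by omega)
  · exact covB_38_0 e (by omega) (by omega)
  · exact covB_40_0 e (by omega) (by omega)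

end Crest.Agent.R195
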