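import Crest.Agent.R195.MergeCheck2

/-! Row 195, S0298 (helper563).  Table of plans for the numeric checker, family hC
(generated by a program, checked by the kernel). -/

set_option autoImplicit false
set_option Elab.async false

namespace Crest.Agent.R195

def mtC7_0 : List MEnt := [
  ⟨27, 6, 5, [⟨5, 7, [(7, 1)], [(5, 1)], [([], [3], 2)]⟩]⟩]

theorem mtC7_0_ok : mtabOK (hC 7) 0 mtC7_0 = true := by decide +kernel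

theorem covC_7_0 (e : ℕ) (h1 : 0 ≤ e) (h2 : e < 1) : CovH (hC 7 e) :=
  mtab_cov' mtC7_0_ok (l := 1) rfl e h1 (by omega)

def mtC9_0 : List MEnt := [
  ⟨44, 8, 5, [⟨6, 10, [(9, 2)], [(1, 1)], [([], [4], 3)]⟩]⟩]

theorem mtC9_0_ok : mtabOK (hC 9) 0 mtC9_0 = true := by decide +kernel

theorem covC_9_0 (e : ℕ) (h1 : 0 ≤ e) (h2 : e < 1) : CovH (hC 9 e) :=
  mtab_cov' mtC9_0_ok (l := 1) rfl e h1 (by omega)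

def mtC9_2 : List MEnt := [
  ⟨48, 9, 8, [⟨6, 10, [], [(3, 1), (1, 1)], [([], [4], 7), ([], [2], 10)]⟩, ⟨11, 11, [(10, 1)], [(3, 1), (2, 2), (1, 1)], [([], [4], 7)]⟩, ⟨12, 12, [(10, 1), (7, 1)], [(4, 2), (3, 1), (2, 2), (1, 1)], []⟩]⟩,
  ⟨50, 9, 8, [⟨6, 8, [], [], [([8], [4], 2), ([], [3], 10)]⟩, ⟨9, 10, [(10, 1)], [(8, 1), (6, 1)], [([], [4, 3], 2)]⟩, ⟨11, 11, [(10, 1)], [(8, 1), (6, 1), (3, 2)], [([], [4], 2)]⟩]⟩]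

theorem mtC9_2_ok : mtabOK (hC 9) 2 mtC9_2 = true := by decide +kernel

theorem covC_9_2 (e : ℕ) (h1 : 2 ≤ e) (h2 : e < 4) : CovH (hC 9 e) :=
  mtab_cov' mtC9_2_ok (l := 2) rfl e h1 (by omega)

def mtC11_0 : List MEnt := [
  ⟨65, 10, 8, [⟨7, 12, [(11, 1), (5, 2)], [(1, 1)], [([7], [], 9)]⟩]⟩]

theorem mtC11_0_ok : mtabOK (hC 11) 0 mtC11_0 = true := by decide +kernel

theorem covC_11_0 (e : ℕ) (h1 : 0 ≤ e) (h2 : e < 1) : CovH (hC 11 e) :=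
  mtab_cov' mtC11_0_ok (l := 1) rfl e h1 (by omega)

def mtC11_2 : List MEnt := [
  ⟨69, 11, 7, [⟨7, 14, [(12, 1), (9, 1)], [(3, 1), (1, 1)], [([7], [2], 5)]⟩]⟩,
  ⟨71, 11, 10, [⟨7, 8, [(5, 1)], [], [([10], [3], 2), ([7], [], 12)]⟩, ⟨10, 14, [(12, 1), (8, 1)], [(10, 1), (4, 1)], [([], [5, 3], 2)]⟩, ⟨9, 9, [], [(7, 1), (4, 1)], [([10], [5], 2), ([], [3], 12)]⟩]⟩,
  ⟨73, 11, 7, [⟨7, 14, [(12, 2)], [(5, 1), (1, 1)], [([7], [4], 3)]⟩]⟩]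

theorem mtC11_2_ok : mtabOK (hC 11) 2 mtC11_2 = true := by decide +kernel

theorem covC_11_2 (e : ℕ) (h1 : 2 ≤ e) (h2 : e < 5) : CovH (hC 11 e) :=
  mtab_cov' mtC11_2_ok (l := 3) rfl e h1 (by omega)

def mtC13_0 : List MEnt := [
  ⟨90, 12, 7, [⟨8, 15, [(13, 3), (5, 1)], [(1, 1)], [([], [6], 3)]⟩]⟩,
  ⟨92, 13, 11, [⟨8, 16, [(11, 2)], [], [([14], [1], 3), ([], [6], 5)]⟩, ⟨17, 17, [(11, 2), (5, 1)], [(1, 2)], [([14], [6], 3)]⟩]⟩,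
  ⟨94, 13, 7, [⟨8, 17, [(14, 1), (11, 2)], [(3, 1), (1, 1)], [([], [6, 2], 5)]⟩]⟩,
  ⟨96, 13, 10, [⟨8, 16, [(14, 1), (9, 1)], [], [([12], [3], 2), ([], [6], 5)]⟩, ⟨17, 17, [(14, 1), (9, 1), (5, 1)], [(3, 2)], [([12], [6], 2)]⟩]⟩,
  ⟨98, 13, 7, [⟨8, 16, [(14, 2), (9, 1)], [(5, 1), (1, 1)], [([], [6, 4], 3)]⟩]⟩,
  ⟨100, 13, 9, [⟨8, 16, [(14, 2)], [], [([10], [6], 2), ([], [5], 4)]⟩]⟩]

theorem mtC13_0_ok : mtabOK (hC 13) 0 mtC13_0 = true := by decide +kernel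

theorem covC_13_0 (e : ℕ) (h1 : 0 ≤ e) (h2 : e < 6) : CovH (hC 13 e) :=
  mtab_cov' mtC13_0_ok (l := 6) rfl e h1 (by omega)

def mtC15_0 : List MEnt := [
  ⟨119, 14, 10, [⟨9, 17, [(15, 2), (7, 3)], [(1, 1)], [([9], [], 11)]⟩]⟩,
  ⟨121, 15, 10, [⟨9, 13, [(13, 1), (7, 2)], [], [([16], [1], 3), ([9], [], 11)]⟩, ⟨17, 19, [(13, 1), (7, 2)], [], [([16], [1], 3), ([9], [], 11)]⟩, ⟨14, 16, [(13, 2)], [(9, 1), (2, 1)], [([16], [], 4), ([], [7, 1], 6)]⟩]⟩,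
  ⟨123, 15, 9, [⟨9, 19, [(16, 1), (13, 2), (5, 1)], [(3, 1), (1, 1)], [([9], [2], 7)]⟩]⟩,
  ⟨125, 15, 9, [⟨9, 19, [(16, 1), (11, 1), (2, 1)], [], [([14], [], 5), ([9], [3], 7)]⟩]⟩,
  ⟨127, 15, 10, [⟨9, 19, [(16, 2), (11, 1), (3, 1)], [(5, 1), (1, 1)], [([9], [4], 7)]⟩]⟩,
  ⟨129, 15, 9, [⟨9, 19, [(16, 2), (2, 1)], [], [([12], [], 7), ([9], [5], 4)]⟩]⟩,
  ⟨131, 15, 9, [⟨9, 19, [(16, 3), (5, 1)], [(7, 1), (1, 1)], [([9], [6], 3)]⟩]⟩]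

theorem mtC15_0_ok : mtabOK (hC 15) 0 mtC15_0 = true := by decide +kernel

theorem covC_15_0 (e : ℕ) (h1 : 0 ≤ e) (h2 : e < 7) : CovH (hC 15 e) :=
  mtab_cov' mtC15_0_ok (l := 7) rfl e h1 (by omega)

def mtC17_0 : List MEnt := [
  ⟨152, 16, 9, [⟨10, 20, [(17, 4), (7, 2)], [(1, 1)], [([], [8], 3)]⟩]⟩,
  ⟨154, 17, 11, [⟨10, 22, [(15, 3), (7, 1)], [], [([18], [1], 3), ([], [8], 5)]⟩]⟩,
  ⟨156, 17, 9, [⟨10, 22, [(18, 1), (15, 3), (7, 1)], [(3, 1), (1, 1)], [([], [8, 2], 5)]⟩]⟩,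
  ⟨158, 17, 10, [⟨10, 22, [(18, 1), (13, 2), (7, 1)], [], [([16], [3], 2), ([], [8], 5)]⟩]⟩,
  ⟨160, 17, 9, [⟨10, 22, [(18, 2), (13, 2), (7, 1)], [(5, 1), (1, 1)], [([], [8, 4], 3)]⟩]⟩,
  ⟨162, 17, 12, [⟨10, 22, [(18, 2), (11, 1), (7, 1)], [], [([14], [8], 2), ([], [5], 4)]⟩]⟩,
  ⟨164, 17, 9, [⟨10, 22, [(18, 3), (11, 1), (5, 1)], [(7, 1), (1, 1)], [([], [8, 6], 3)]⟩]⟩,
  ⟨166, 17, 11, [⟨10, 21, [(18, 3), (6, 1)], [], [([12], [8], 2), ([], [7], 4)]⟩]⟩]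

theorem mtC17_0_ok : mtabOK (hC 17) 0 mtC17_0 = true := by decide +kernel

theorem covC_17_0 (e : ℕ) (h1 : 0 ≤ e) (h2 : e < 8) : CovH (hC 17 e) :=
  mtab_cov' mtC17_0_ok (l := 8) rfl e h1 (by omega)

def mtC19_0 : List MEnt := [
  ⟨189, 18, 12, [⟨11, 23, [(19, 3), (9, 4)], [(1, 1)], [([11], [], 13)]⟩]⟩,
  ⟨191, 19, 12, [⟨11, 18, [(17, 2), (9, 3)], [], [([20], [1], 3), ([11], [], 13)]⟩, ⟨20, 25, [(17, 2), (9, 3)], [], [([20], [1], 3), ([11], [], 13)]⟩, ⟨19, 19, [(17, 3), (8, 1)], [(11, 1), (2, 1)], [([20], [1], 4), ([], [9], 6)]⟩]⟩,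
  ⟨193, 19, 11, [⟨11, 25, [(20, 1), (17, 3), (7, 2)], [(3, 1), (1, 1)], [([11], [2], 9)]⟩]⟩,
  ⟨195, 19, 12, [⟨11, 24, [(20, 1), (15, 1), (9, 3)], [], [([18], [3], 2), ([11], [], 13)]⟩]⟩,
  ⟨197, 19, 11, [⟨11, 24, [(20, 2), (15, 2), (9, 1), (3, 1)], [(5, 1), (1, 1)], [([11], [4], 7)]⟩]⟩,
  ⟨199, 19, 12, [⟨11, 24, [(20, 2), (9, 2), (4, 1)], [], [([16], [5], 2), ([11], [], 13)]⟩]⟩,
  ⟨201, 19, 11, [⟨11, 24, [(20, 3), (13, 1), (9, 1), (3, 1)], [(7, 1), (1, 1)], [([11], [6], 5)]⟩]⟩,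
  ⟨203, 19, 11, [⟨11, 24, [(20, 3), (6, 1), (2, 1)], [], [([14], [], 9), ([11], [7], 4)]⟩]⟩,
  ⟨205, 19, 11, [⟨11, 24, [(20, 4), (7, 2)], [(9, 1), (1, 1)], [([11], [8], 3)]⟩]⟩]

theorem mtC19_0_ok : mtabOK (hC 19) 0 mtC19_0 = true := by decide +kernel

theorem covC_19_0 (e : ℕ) (h1 : 0 ≤ e) (h2 : e < 9) : CovH (hC 19 e) :=
  mtab_cov' mtC19_0_ok (l := 9) rfl e h1 (by omega)

def mtC21_0 : List MEnt := [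
  ⟨230, 20, 11, [⟨12, 25, [(21, 5), (9, 3)], [(1, 1)], [([], [10], 3)]⟩]⟩,
  ⟨232, 21, 13, [⟨12, 27, [(19, 4), (9, 2)], [], [([22], [1], 3), ([], [10], 5)]⟩]⟩,
  ⟨234, 21, 11, [⟨12, 27, [(22, 1), (19, 4), (9, 2)], [(3, 1), (1, 1)], [([], [10, 2], 5)]⟩]⟩,
  ⟨236, 21, 12, [⟨12, 27, [(22, 1), (17, 3), (9, 2)], [], [([20], [3], 2), ([], [10], 5)]⟩]⟩,
  ⟨238, 21, 11, [⟨12, 27, [(22, 2), (17, 3), (9, 2)], [(5, 1), (1, 1)], [([], [10, 4], 3)]⟩]⟩,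
  ⟨240, 21, 12, [⟨12, 27, [(22, 2), (15, 2), (9, 2)], [], [([18], [5], 2), ([], [10], 4)]⟩]⟩,
  ⟨242, 21, 11, [⟨12, 27, [(22, 3), (15, 2), (9, 1), (5, 1)], [(7, 1), (1, 1)], [([], [10, 6], 3)]⟩]⟩,
  ⟨244, 21, 14, [⟨12, 27, [(22, 3), (13, 1), (9, 1), (6, 1)], [], [([16], [10], 2), ([], [7], 4)]⟩]⟩,
  ⟨246, 21, 11, [⟨12, 27, [(22, 4), (13, 1), (7, 2)], [(9, 1), (1, 1)], [([], [10, 8], 3)]⟩]⟩,
  ⟨248, 21, 13, [⟨12, 27, [(22, 4), (8, 2)], [], [([14], [10], 2), ([], [9], 4)]⟩]⟩]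

theorem mtC21_0_ok : mtabOK (hC 21) 0 mtC21_0 = true := by decide +kernel

theorem covC_21_0 (e : ℕ) (h1 : 0 ≤ e) (h2 : e < 10) : CovH (hC 21 e) :=
  mtab_cov' mtC21_0_ok (l := 10) rfl e h1 (by omega)

def mtC23_0 : List MEnt := [
  ⟨275, 22, 13, [⟨13, 28, [(23, 5), (10, 4)], [(13, 1)], [([], [11], 2)]⟩]⟩,
  ⟨277, 23, 14, [⟨13, 30, [(21, 3), (11, 4)], [], [([24], [1], 3), ([13], [], 15)]⟩]⟩,
  ⟨279, 23, 13, [⟨13, 30, [(24, 1), (21, 4), (9, 3)], [(3, 1), (1, 1)], [([13], [2], 11)]⟩]⟩,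
  ⟨281, 23, 14, [⟨13, 30, [(24, 1), (19, 2), (11, 4)], [], [([22], [3], 2), ([13], [], 15)]⟩]⟩,
  ⟨283, 23, 13, [⟨13, 30, [(24, 2), (19, 3), (11, 1), (7, 1), (3, 1)], [(5, 1), (1, 1)], [([13], [4], 9)]⟩]⟩,
  ⟨285, 23, 14, [⟨13, 29, [(24, 2), (17, 1), (11, 3), (4, 1)], [], [([20], [5], 2), ([13], [], 15)]⟩]⟩,
  ⟨287, 23, 14, [⟨13, 29, [(24, 3), (17, 2), (11, 1), (5, 2)], [(7, 1), (1, 1)], [([13], [6], 9)]⟩]⟩,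
  ⟨289, 23, 14, [⟨13, 29, [(24, 3), (11, 2), (6, 2)], [], [([18], [7], 2), ([13], [], 15)]⟩]⟩,
  ⟨291, 23, 13, [⟨13, 29, [(24, 4), (15, 1), (11, 1), (7, 1), (3, 1)], [(9, 1), (1, 1)], [([13], [8], 5)]⟩]⟩,
  ⟨293, 23, 15, [⟨13, 29, [(24, 3), (11, 1), (8, 3)], [], [([16], [9], 2), ([13], [], 18)]⟩]⟩,
  ⟨295, 23, 13, [⟨13, 29, [(24, 5), (9, 3)], [(11, 1), (1, 1)], [([13], [10], 3)]⟩]⟩]

theorem mtC23_0_ok : mtabOK (hC 23) 0 mtC23_0 = true := by decide +kernel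

theorem covC_23_0 (e : ℕ) (h1 : 0 ≤ e) (h2 : e < 11) : CovH (hC 23 e) :=
  mtab_cov' mtC23_0_ok (l := 11) rfl e h1 (by omega)

def mtC25_0 : List MEnt := [
  ⟨324, 24, 13, [⟨14, 30, [(25, 6), (11, 4)], [(1, 1)], [([], [12], 3)]⟩]⟩,
  ⟨326, 25, 15, [⟨14, 32, [(23, 5), (11, 3)], [], [([26], [1], 3), ([], [12], 5)]⟩]⟩,
  ⟨328, 25, 13, [⟨14, 32, [(26, 1), (23, 5), (11, 3)], [(3, 1), (1, 1)], [([], [12, 2], 5)]⟩]⟩,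
  ⟨330, 25, 14, [⟨14, 32, [(26, 1), (21, 4), (11, 3)], [], [([24], [3], 2), ([], [12], 5)]⟩]⟩,
  ⟨332, 25, 13, [⟨14, 32, [(26, 2), (21, 4), (11, 3)], [(5, 1), (1, 1)], [([], [12, 4], 3)]⟩]⟩,
  ⟨334, 25, 14, [⟨14, 32, [(26, 2), (19, 3), (11, 3)], [], [([22], [5], 2), ([], [12], 4)]⟩]⟩,
  ⟨336, 25, 13, [⟨14, 32, [(26, 3), (19, 3), (11, 2), (5, 1)], [(7, 1), (1, 1)], [([], [12, 6], 3)]⟩]⟩,
  ⟨338, 25, 17, [⟨14, 32, [(26, 3), (17, 2), (11, 2), (6, 1)], [], [([20], [12], 2), ([], [7], 4)]⟩]⟩,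
  ⟨340, 25, 13, [⟨14, 32, [(26, 4), (17, 2), (11, 1), (7, 2)], [(9, 1), (1, 1)], [([], [12, 8], 3)]⟩]⟩,
  ⟨342, 25, 16, [⟨14, 32, [(26, 4), (15, 1), (11, 1), (8, 2)], [], [([18], [12], 2), ([], [9], 4)]⟩]⟩,
  ⟨344, 25, 13, [⟨14, 32, [(26, 5), (15, 1), (9, 3)], [(11, 1), (1, 1)], [([], [12, 10], 3)]⟩]⟩,
  ⟨346, 25, 15, [⟨14, 32, [(26, 5), (10, 3)], [], [([16], [12], 2), ([], [11], 4)]⟩]⟩]

theorem mtC25_0_ok : mtabOK (hC 25) 0 mtC25_0 = true := by decide +kernel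

theorem covC_25_0 (e : ℕ) (h1 : 0 ≤ e) (h2 : e < 12) : CovH (hC 25 e) :=
  mtab_cov' mtC25_0_ok (l := 12) rfl e h1 (by omega)

def mtC27_0 : List MEnt := [
  ⟨377, 26, 15, [⟨15, 33, [(27, 6), (12, 5)], [(15, 1)], [([], [13], 2)]⟩]⟩,
  ⟨379, 27, 23, [⟨15, 17, [(25, 5), (13, 5)], [], [([15, 28], [1], 3)]⟩, ⟨35, 35, [(25, 5), (13, 5)], [], [([15, 28], [1], 3)]⟩, ⟨18, 34, [(25, 4), (13, 3)], [(3, 1), (2, 1)], [([28], [], 5), ([15], [], 17), ([], [1], 7)]⟩]⟩,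
  ⟨381, 27, 15, [⟨15, 35, [(28, 1), (25, 5), (11, 4)], [(3, 1), (1, 1)], [([15], [2], 13)]⟩]⟩,
  ⟨383, 27, 15, [⟨15, 35, [(28, 1), (23, 4), (11, 3), (2, 1)], [], [([26], [], 5), ([15], [3], 13)]⟩]⟩,
  ⟨385, 27, 15, [⟨15, 35, [(28, 2), (23, 4), (13, 1), (9, 2), (3, 1)], [(5, 1), (1, 1)], [([15], [4], 11)]⟩]⟩,
  ⟨387, 27, 15, [⟨15, 35, [(28, 2), (21, 3), (13, 1), (9, 1), (4, 2)], [], [([24], [], 7), ([15], [5], 11)]⟩]⟩,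
  ⟨389, 27, 15, [⟨15, 35, [(28, 3), (21, 3), (13, 2), (5, 2)], [(7, 1), (1, 1)], [([15], [6], 9)]⟩]⟩,
  ⟨391, 27, 16, [⟨15, 35, [(28, 3), (19, 2), (13, 1), (6, 3)], [], [([22], [], 9), ([15], [7], 11)]⟩]⟩,
  ⟨393, 27, 15, [⟨15, 35, [(28, 4), (19, 2), (13, 2), (5, 2)], [(9, 1), (1, 1)], [([15], [8], 7)]⟩]⟩,
  ⟨395, 27, 15, [⟨15, 34, [(28, 4), (17, 1), (13, 1), (8, 1), (4, 2)], [], [([20], [], 11), ([15], [9], 6)]⟩]⟩,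
  ⟨397, 27, 15, [⟨15, 34, [(28, 5), (17, 1), (13, 1), (9, 2), (3, 1)], [(11, 1), (1, 1)], [([15], [10], 5)]⟩]⟩,
  ⟨399, 27, 22, [⟨15, 18, [(28, 5), (13, 1), (10, 4)], [], [([15, 18], [11], 2)]⟩, ⟨33, 34, [(28, 5), (13, 1), (10, 4)], [], [([15, 18], [11], 2)]⟩, ⟨19, 32, [(28, 4), (13, 1), (10, 3)], [(2, 1), (1, 1)], [([18], [11], 4), ([15], [], 20)]⟩]⟩,
  ⟨401, 27, 15, [⟨15, 34, [(28, 6), (11, 4)], [(13, 1), (1, 1)], [([15], [12], 3)]⟩]⟩]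

theorem mtC27_0_ok : mtabOK (hC 27) 0 mtC27_0 = true := by decide +kernel

theorem covC_27_0 (e : ℕ) (h1 : 0 ≤ e) (h2 : e < 13) : CovH (hC 27 e) :=
  mtab_cov' mtC27_0_ok (l := 13) rfl e h1 (by omega)

def mtC29_0 : List MEnt := [
  ⟨434, 28, 15, [⟨16, 35, [(29, 7), (13, 5)], [(1, 1)], [([], [14], 3)]⟩]⟩,
  ⟨436, 29, 17, [⟨16, 38, [(27, 6), (13, 4)], [], [([30], [1], 3), ([], [14], 5)]⟩]⟩,
  ⟨438, 29, 15, [⟨16, 37, [(30, 1), (27, 6), (13, 4)], [(3, 1), (1, 1)], [([], [14, 2], 5)]⟩]⟩,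
  ⟨440, 29, 16, [⟨16, 37, [(30, 1), (25, 5), (13, 4)], [], [([28], [3], 2), ([], [14], 5)]⟩]⟩,
  ⟨442, 29, 15, [⟨16, 37, [(30, 2), (25, 5), (13, 4)], [(5, 1), (1, 1)], [([], [14, 4], 3)]⟩]⟩,
  ⟨444, 29, 16, [⟨16, 37, [(30, 2), (23, 4), (13, 4)], [], [([26], [5], 2), ([], [14], 4)]⟩]⟩,
  ⟨446, 29, 15, [⟨16, 37, [(30, 3), (23, 4), (13, 3), (5, 1)], [(7, 1), (1, 1)], [([], [14, 6], 3)]⟩]⟩,
  ⟨448, 29, 16, [⟨16, 37, [(30, 3), (21, 3), (13, 3), (6, 1)], [], [([24], [7], 2), ([], [14], 4)]⟩]⟩,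
  ⟨450, 29, 15, [⟨16, 37, [(30, 4), (21, 3), (13, 2), (7, 2)], [(9, 1), (1, 1)], [([], [14, 8], 3)]⟩]⟩,
  ⟨452, 29, 19, [⟨16, 37, [(30, 4), (19, 2), (13, 2), (8, 2)], [], [([22], [14], 2), ([], [9], 4)]⟩]⟩,
  ⟨454, 29, 15, [⟨16, 37, [(30, 5), (19, 2), (13, 1), (9, 3)], [(11, 1), (1, 1)], [([], [14, 10], 3)]⟩]⟩,
  ⟨456, 29, 18, [⟨16, 37, [(30, 5), (17, 1), (13, 1), (10, 3)], [], [([20], [14], 2), ([], [11], 4)]⟩]⟩,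
  ⟨458, 29, 15, [⟨16, 37, [(30, 6), (17, 1), (11, 4)], [(13, 1), (1, 1)], [([], [14, 12], 3)]⟩]⟩,
  ⟨460, 29, 17, [⟨16, 37, [(30, 6), (12, 4)], [], [([18], [14], 2), ([], [13], 4)]⟩]⟩]

theorem mtC29_0_ok : mtabOK (hC 29) 0 mtC29_0 = true := by decide +kernel

theorem covC_29_0 (e : ℕ) (h1 : 0 ≤ e) (h2 : e < 14) : CovH (hC 29 e) :=
  mtab_cov' mtC29_0_ok (l := 14) rfl e h1 (by omega)

def mtC31_0 : List MEnt := [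
  ⟨495, 30, 17, [⟨17, 38, [(31, 7), (14, 6)], [(17, 1)], [([], [15], 2)]⟩]⟩,
  ⟨497, 31, 26, [⟨17, 19, [(29, 6), (15, 6)], [], [([17, 32], [1], 3)]⟩, ⟨39, 40, [(29, 6), (15, 6)], [], [([17, 32], [1], 3)]⟩, ⟨20, 38, [(29, 6), (14, 4)], [(17, 1), (2, 1)], [([32], [1], 4), ([], [15], 6)]⟩]⟩,
  ⟨499, 31, 17, [⟨17, 40, [(32, 1), (29, 6), (14, 5)], [(17, 1), (1, 1)], [([], [15, 2], 4)]⟩]⟩,
  ⟨501, 31, 25, [⟨17, 20, [(32, 1), (27, 5), (15, 6)], [], [([17, 30], [3], 2)]⟩, ⟨39, 40, [(32, 1), (27, 5), (15, 6)], [], [([17, 30], [3], 2)]⟩, ⟨21, 38, [(32, 1), (27, 5), (13, 4)], [(2, 1), (1, 1)], [([30], [], 5), ([17], [3], 15)]⟩]⟩,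
  ⟨503, 31, 17, [⟨17, 40, [(32, 2), (27, 5), (15, 1), (11, 3), (3, 1)], [(5, 1), (1, 1)], [([17], [4], 13)]⟩]⟩,
  ⟨505, 31, 17, [⟨17, 40, [(32, 2), (25, 4), (15, 1), (11, 2), (4, 2)], [], [([28], [], 7), ([17], [5], 13)]⟩]⟩,
  ⟨507, 31, 17, [⟨17, 40, [(32, 3), (25, 4), (15, 2), (9, 1), (5, 2)], [(7, 1), (1, 1)], [([17], [6], 11)]⟩]⟩,
  ⟨509, 31, 17, [⟨17, 40, [(32, 3), (23, 3), (15, 2), (6, 3)], [], [([26], [], 9), ([17], [7], 11)]⟩]⟩,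
  ⟨511, 31, 18, [⟨17, 40, [(32, 4), (23, 3), (15, 2), (7, 3)], [(9, 1), (1, 1)], [([17], [8], 11)]⟩]⟩,
  ⟨513, 31, 17, [⟨17, 40, [(32, 4), (21, 2), (15, 2), (6, 3)], [], [([24], [], 11), ([17], [9], 8)]⟩]⟩,
  ⟨515, 31, 17, [⟨17, 40, [(32, 5), (21, 2), (15, 2), (9, 1), (5, 2)], [(11, 1), (1, 1)], [([17], [10], 7)]⟩]⟩,
  ⟨517, 31, 25, [⟨17, 21, [(32, 5), (19, 1), (15, 2), (10, 4)], [], [([17, 22], [11], 2)]⟩, ⟨38, 40, [(32, 5), (19, 1), (15, 2), (10, 4)], [], [([17, 22], [11], 2)]⟩, ⟨22, 37, [(32, 5), (19, 1), (15, 1), (10, 2), (4, 1)], [(2, 1), (1, 1)], [([22], [], 13), ([17], [11], 6)]⟩]⟩,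
  ⟨519, 31, 17, [⟨17, 40, [(32, 6), (19, 1), (15, 1), (11, 3), (3, 1)], [(13, 1), (1, 1)], [([17], [12], 5)]⟩]⟩,
  ⟨521, 31, 25, [⟨17, 21, [(32, 6), (15, 1), (12, 5)], [], [([17, 20], [13], 2)]⟩, ⟨38, 39, [(32, 6), (15, 1), (12, 5)], [], [([17, 20], [13], 2)]⟩, ⟨22, 37, [(32, 6), (12, 4)], [(17, 1), (14, 1)], [([20], [15], 2), ([], [13], 4)]⟩]⟩,
  ⟨523, 31, 17, [⟨17, 39, [(32, 7), (13, 5)], [(15, 1), (1, 1)], [([17], [14], 3)]⟩]⟩]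

theorem mtC31_0_ok : mtabOK (hC 31) 0 mtC31_0 = true := by decide +kernel

theorem covC_31_0 (e : ℕ) (h1 : 0 ≤ e) (h2 : e < 15) : CovH (hC 31 e) :=
  mtab_cov' mtC31_0_ok (l := 15) rfl e h1 (by omega)

def mtC33_0 : List MEnt := [
  ⟨560, 32, 17, [⟨18, 41, [(33, 8), (15, 6)], [(1, 1)], [([], [16], 3)]⟩]⟩,
  ⟨562, 33, 19, [⟨18, 43, [(31, 7), (15, 5)], [], [([34], [1], 3), ([], [16], 5)]⟩]⟩,
  ⟨564, 33, 17, [⟨18, 43, [(34, 1), (31, 7), (15, 5)], [(3, 1), (1, 1)], [([], [16, 2], 5)]⟩]⟩,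
  ⟨566, 33, 18, [⟨18, 43, [(34, 1), (29, 6), (15, 5)], [], [([32], [3], 2), ([], [16], 5)]⟩]⟩,
  ⟨568, 33, 17, [⟨18, 43, [(34, 2), (29, 6), (15, 5)], [(5, 1), (1, 1)], [([], [16, 4], 3)]⟩]⟩,
  ⟨570, 33, 18, [⟨18, 42, [(34, 2), (27, 5), (15, 5)], [], [([30], [5], 2), ([], [16], 4)]⟩]⟩,
  ⟨572, 33, 17, [⟨18, 42, [(34, 3), (27, 5), (15, 4), (5, 1)], [(7, 1), (1, 1)], [([], [16, 6], 3)]⟩]⟩,
  ⟨574, 33, 18, [⟨18, 42, [(34, 3), (25, 4), (15, 4), (6, 1)], [], [([28], [7], 2), ([], [16], 4)]⟩]⟩,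
  ⟨576, 33, 17, [⟨18, 42, [(34, 4), (25, 4), (15, 3), (7, 2)], [(9, 1), (1, 1)], [([], [16, 8], 3)]⟩]⟩,
  ⟨578, 33, 22, [⟨18, 42, [(34, 4), (23, 3), (15, 3), (8, 2)], [], [([26], [16], 2), ([], [9], 4)]⟩]⟩,
  ⟨580, 33, 17, [⟨18, 42, [(34, 5), (23, 3), (15, 2), (9, 3)], [(11, 1), (1, 1)], [([], [16, 10], 3)]⟩]⟩,
  ⟨582, 33, 21, [⟨18, 42, [(34, 5), (21, 2), (15, 2), (10, 3)], [], [([24], [16], 2), ([], [11], 4)]⟩]⟩,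
  ⟨584, 33, 17, [⟨18, 42, [(34, 6), (21, 2), (15, 1), (11, 4)], [(13, 1), (1, 1)], [([], [16, 12], 3)]⟩]⟩,
  ⟨586, 33, 20, [⟨18, 42, [(34, 6), (19, 1), (15, 1), (12, 4)], [], [([22], [16], 2), ([], [13], 4)]⟩]⟩,
  ⟨588, 33, 17, [⟨18, 42, [(34, 7), (19, 1), (13, 5)], [(15, 1), (1, 1)], [([], [16, 14], 3)]⟩]⟩,
  ⟨590, 33, 19, [⟨18, 42, [(34, 7), (14, 5)], [], [([20], [16], 2), ([], [15], 4)]⟩]⟩]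

theorem mtC33_0_ok : mtabOK (hC 33) 0 mtC33_0 = true := by decide +kernel

theorem covC_33_0 (e : ℕ) (h1 : 0 ≤ e) (h2 : e < 16) : CovH (hC 33 e) :=
  mtab_cov' mtC33_0_ok (l := 16) rfl e h1 (by omega)

def mtC35_0 : List MEnt := [
  ⟨629, 34, 19, [⟨19, 43, [(35, 8), (16, 7)], [(19, 1)], [([], [17], 2)]⟩]⟩,
  ⟨631, 35, 29, [⟨19, 22, [(33, 7), (17, 7)], [], [([19, 36], [1], 3)]⟩, ⟨44, 45, [(33, 7), (17, 7)], [], [([19, 36], [1], 3)]⟩, ⟨23, 43, [(33, 7), (16, 5)], [(19, 1), (2, 1)], [([36], [1], 4), ([], [17], 6)]⟩]⟩,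
  ⟨633, 35, 19, [⟨19, 45, [(36, 1), (33, 7), (16, 6)], [(19, 1), (1, 1)], [([], [17, 2], 4)]⟩]⟩,
  ⟨635, 35, 28, [⟨19, 23, [(36, 1), (31, 6), (17, 7)], [], [([19, 34], [3], 2)]⟩, ⟨43, 45, [(36, 1), (31, 6), (17, 7)], [], [([19, 34], [3], 2)]⟩, ⟨24, 42, [(36, 1), (31, 6), (16, 5)], [(19, 1), (4, 1)], [([34], [3], 2), ([], [17], 6)]⟩]⟩,
  ⟨637, 35, 19, [⟨19, 45, [(36, 2), (31, 6), (16, 6)], [(19, 1), (1, 1)], [([], [17, 4], 3)]⟩]⟩,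
  ⟨639, 35, 28, [⟨19, 23, [(36, 2), (29, 5), (17, 6), (4, 1)], [], [([19, 32], [5], 2)]⟩, ⟨43, 45, [(36, 2), (29, 5), (17, 6), (4, 1)], [], [([19, 32], [5], 2)]⟩, ⟨24, 42, [(36, 2), (29, 5), (17, 1), (13, 3), (4, 1)], [(2, 1), (1, 1)], [([32], [], 7), ([19], [5], 15)]⟩]⟩,
  ⟨641, 35, 19, [⟨19, 45, [(36, 3), (29, 5), (17, 2), (11, 2), (5, 2)], [(7, 1), (1, 1)], [([19], [6], 13)]⟩]⟩,
  ⟨643, 35, 19, [⟨19, 45, [(36, 3), (27, 4), (17, 2), (11, 1), (6, 3)], [], [([30], [], 9), ([19], [7], 13)]⟩]⟩,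
  ⟨645, 35, 19, [⟨19, 45, [(36, 4), (27, 4), (17, 3), (7, 3)], [(9, 1), (1, 1)], [([19], [8], 11)]⟩]⟩,
  ⟨647, 35, 20, [⟨19, 45, [(36, 4), (25, 3), (17, 2), (8, 4)], [], [([28], [], 11), ([19], [9], 13)]⟩]⟩,
  ⟨649, 35, 19, [⟨19, 45, [(36, 5), (25, 3), (17, 3), (7, 3)], [(11, 1), (1, 1)], [([19], [10], 9)]⟩]⟩,
  ⟨651, 35, 28, [⟨19, 24, [(36, 5), (23, 2), (17, 3), (10, 4)], [], [([19, 26], [11], 2)]⟩, ⟨43, 45, [(36, 5), (23, 2), (17, 3), (10, 4)], [], [([19, 26], [11], 2)]⟩, ⟨25, 42, [(36, 5), (23, 2), (17, 2), (10, 1), (6, 2)], [(2, 1), (1, 1)], [([26], [], 13), ([19], [11], 8)]⟩]⟩,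
  ⟨653, 35, 19, [⟨19, 45, [(36, 6), (23, 2), (17, 2), (11, 2), (5, 2)], [(13, 1), (1, 1)], [([19], [12], 7)]⟩]⟩,
  ⟨655, 35, 28, [⟨19, 24, [(36, 6), (21, 1), (17, 2), (12, 5)], [], [([19, 24], [13], 2)]⟩, ⟨42, 45, [(36, 6), (21, 1), (17, 2), (12, 5)], [], [([19, 24], [13], 2)]⟩, ⟨25, 41, [(36, 6), (21, 1), (16, 1), (12, 4)], [(19, 1), (14, 1)], [([24], [17], 2), ([], [13], 4)]⟩]⟩,
  ⟨657, 35, 19, [⟨19, 45, [(36, 7), (21, 1), (17, 1), (13, 4), (3, 1)], [(15, 1), (1, 1)], [([19], [14], 5)]⟩]⟩,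
  ⟨659, 35, 28, [⟨19, 24, [(36, 7), (17, 1), (14, 6)], [], [([19, 22], [15], 2)]⟩, ⟨42, 45, [(36, 7), (17, 1), (14, 6)], [], [([19, 22], [15], 2)]⟩, ⟨25, 41, [(36, 7), (14, 5)], [(19, 1), (16, 1)], [([22], [17], 2), ([], [15], 4)]⟩]⟩,
  ⟨661, 35, 19, [⟨19, 45, [(36, 8), (15, 6)], [(17, 1), (1, 1)], [([19], [16], 3)]⟩]⟩]

theorem mtC35_0_ok : mtabOK (hC 35) 0 mtC35_0 = true := by decide +kernel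

theorem covC_35_0 (e : ℕ) (h1 : 0 ≤ e) (h2 : e < 17) : CovH (hC 35 e) :=
  mtab_cov' mtC35_0_ok (l := 17) rfl e h1 (by omega)

def mtC37_0 : List MEnt := [
  ⟨702, 36, 19, [⟨20, 46, [(37, 9), (17, 7)], [(1, 1)], [([], [18], 3)]⟩]⟩,
  ⟨704, 37, 21, [⟨20, 48, [(35, 8), (17, 6)], [], [([38], [1], 3), ([], [18], 5)]⟩]⟩,
  ⟨706, 37, 19, [⟨20, 48, [(38, 1), (35, 8), (17, 6)], [(3, 1), (1, 1)], [([], [18, 2], 5)]⟩]⟩,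
  ⟨708, 37, 20, [⟨20, 48, [(38, 1), (33, 7), (17, 6)], [], [([36], [3], 2), ([], [18], 5)]⟩]⟩,
  ⟨710, 37, 19, [⟨20, 48, [(38, 2), (33, 7), (17, 6)], [(5, 1), (1, 1)], [([], [18, 4], 3)]⟩]⟩,
  ⟨712, 37, 20, [⟨20, 48, [(38, 2), (31, 6), (17, 6)], [], [([34], [5], 2), ([], [18], 4)]⟩]⟩,
  ⟨714, 37, 19, [⟨20, 48, [(38, 3), (31, 6), (17, 5), (5, 1)], [(7, 1), (1, 1)], [([], [18, 6], 3)]⟩]⟩,
  ⟨716, 37, 20, [⟨20, 48, [(38, 3), (29, 5), (17, 5), (6, 1)], [], [([32], [7], 2), ([], [18], 4)]⟩]⟩,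
  ⟨718, 37, 19, [⟨20, 48, [(38, 4), (29, 5), (17, 4), (7, 2)], [(9, 1), (1, 1)], [([], [18, 8], 3)]⟩]⟩,
  ⟨720, 37, 20, [⟨20, 48, [(38, 4), (27, 4), (17, 4), (8, 2)], [], [([30], [9], 2), ([], [18], 4)]⟩]⟩,
  ⟨722, 37, 19, [⟨20, 47, [(38, 5), (27, 4), (17, 3), (9, 3)], [(11, 1), (1, 1)], [([], [18, 10], 3)]⟩]⟩,
  ⟨724, 37, 24, [⟨20, 47, [(38, 5), (25, 3), (17, 3), (10, 3)], [], [([28], [18], 2), ([], [11], 4)]⟩]⟩,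
  ⟨726, 37, 19, [⟨20, 47, [(38, 6), (25, 3), (17, 2), (11, 4)], [(13, 1), (1, 1)], [([], [18, 12], 3)]⟩]⟩,
  ⟨728, 37, 23, [⟨20, 47, [(38, 6), (23, 2), (17, 2), (12, 4)], [], [([26], [18], 2), ([], [13], 4)]⟩]⟩,
  ⟨730, 37, 19, [⟨20, 47, [(38, 7), (23, 2), (17, 1), (13, 5)], [(15, 1), (1, 1)], [([], [18, 14], 3)]⟩]⟩,
  ⟨732, 37, 22, [⟨20, 47, [(38, 7), (21, 1), (17, 1), (14, 5)], [], [([24], [18], 2), ([], [15], 4)]⟩]⟩,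
  ⟨734, 37, 19, [⟨20, 47, [(38, 8), (21, 1), (15, 6)], [(17, 1), (1, 1)], [([], [18, 16], 3)]⟩]⟩,
  ⟨736, 37, 21, [⟨20, 47, [(38, 8), (16, 6)], [], [([22], [18], 2), ([], [17], 4)]⟩]⟩]

theorem mtC37_0_ok : mtabOK (hC 37) 0 mtC37_0 = true := by decide +kernel

theorem covC_37_0 (e : ℕ) (h1 : 0 ≤ e) (h2 : e < 18) : CovH (hC 37 e) :=
  mtab_cov' mtC37_0_ok (l := 18) rfl e h1 (by omega)

def mtC39_0 : List MEnt := [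
  ⟨779, 38, 21, [⟨21, 48, [(39, 9), (18, 8)], [(21, 1)], [([], [19], 2)]⟩]⟩,
  ⟨781, 39, 32, [⟨21, 25, [(37, 8), (19, 8)], [], [([21, 40], [1], 3)]⟩, ⟨49, 50, [(37, 8), (19, 8)], [], [([21, 40], [1], 3)]⟩, ⟨26, 48, [(37, 8), (18, 6)], [(21, 1), (2, 1)], [([40], [1], 4), ([], [19], 6)]⟩]⟩,
  ⟨783, 39, 21, [⟨21, 50, [(40, 1), (37, 8), (18, 7)], [(21, 1), (1, 1)], [([], [19, 2], 4)]⟩]⟩,
  ⟨785, 39, 31, [⟨21, 26, [(40, 1), (35, 7), (19, 8)], [], [([21, 38], [3], 2)]⟩, ⟨48, 50, [(40, 1), (35, 7), (19, 8)], [], [([21, 38], [3], 2)]⟩, ⟨27, 47, [(40, 1), (35, 7), (18, 6)], [(21, 1), (4, 1)], [([38], [3], 2), ([], [19], 6)]⟩]⟩,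
  ⟨787, 39, 21, [⟨21, 50, [(40, 2), (35, 7), (18, 7)], [(21, 1), (1, 1)], [([], [19, 4], 3)]⟩]⟩,
  ⟨789, 39, 31, [⟨21, 26, [(40, 2), (33, 6), (19, 7), (4, 1)], [], [([21, 36], [5], 2)]⟩, ⟨48, 50, [(40, 2), (33, 6), (19, 7), (4, 1)], [], [([21, 36], [5], 2)]⟩, ⟨27, 47, [(40, 2), (33, 6), (18, 6)], [(21, 1), (6, 1)], [([36], [5], 2), ([], [19], 4)]⟩]⟩,
  ⟨791, 39, 21, [⟨21, 50, [(40, 3), (33, 6), (18, 6), (5, 1)], [(21, 1), (1, 1)], [([], [19, 6], 3)]⟩]⟩,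
  ⟨793, 39, 31, [⟨21, 26, [(40, 3), (31, 5), (19, 6), (6, 2)], [], [([21, 34], [7], 2)]⟩, ⟨48, 50, [(40, 3), (31, 5), (19, 6), (6, 2)], [], [([21, 34], [7], 2)]⟩, ⟨27, 47, [(40, 3), (31, 5), (19, 2), (13, 2), (6, 2)], [(2, 1), (1, 1)], [([34], [], 9), ([21], [7], 15)]⟩]⟩,
  ⟨795, 39, 21, [⟨21, 50, [(40, 4), (31, 5), (19, 3), (11, 1), (7, 3)], [(9, 1), (1, 1)], [([21], [8], 13)]⟩]⟩,
  ⟨797, 39, 21, [⟨21, 50, [(40, 4), (29, 4), (19, 3), (8, 4)], [], [([32], [], 11), ([21], [9], 13)]⟩]⟩,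
  ⟨799, 39, 22, [⟨21, 50, [(40, 5), (29, 4), (19, 3), (9, 4)], [(11, 1), (1, 1)], [([21], [10], 13)]⟩]⟩,
  ⟨801, 39, 31, [⟨21, 26, [(40, 5), (27, 3), (19, 4), (10, 4)], [], [([21, 30], [11], 2)]⟩, ⟨48, 50, [(40, 5), (27, 3), (19, 4), (10, 4)], [], [([21, 30], [11], 2)]⟩, ⟨27, 47, [(40, 5), (27, 3), (19, 3), (8, 3)], [(2, 1), (1, 1)], [([30], [], 13), ([21], [11], 10)]⟩]⟩,
  ⟨803, 39, 21, [⟨21, 50, [(40, 6), (27, 3), (19, 3), (11, 1), (7, 3)], [(13, 1), (1, 1)], [([21], [12], 9)]⟩]⟩,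
  ⟨805, 39, 31, [⟨21, 26, [(40, 6), (25, 2), (19, 3), (12, 5)], [], [([21, 28], [13], 2)]⟩, ⟨48, 50, [(40, 6), (25, 2), (19, 3), (12, 5)], [], [([21, 28], [13], 2)]⟩, ⟨27, 47, [(40, 6), (25, 2), (18, 2), (12, 4)], [(21, 1), (14, 1)], [([28], [19], 2), ([], [13], 4)]⟩]⟩,
  ⟨807, 39, 21, [⟨21, 50, [(40, 7), (25, 2), (19, 2), (13, 3), (5, 2)], [(15, 1), (1, 1)], [([21], [14], 7)]⟩]⟩,
  ⟨809, 39, 31, [⟨21, 26, [(40, 7), (23, 1), (19, 2), (14, 6)], [], [([21, 26], [15], 2)]⟩, ⟨48, 50, [(40, 7), (23, 1), (19, 2), (14, 6)], [], [([21, 26], [15], 2)]⟩, ⟨27, 47, [(40, 7), (23, 1), (18, 1), (14, 5)], [(21, 1), (16, 1)], [([26], [19], 2), ([], [15], 4)]⟩]⟩,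
  ⟨811, 39, 21, [⟨21, 50, [(40, 8), (23, 1), (19, 1), (15, 5), (3, 1)], [(17, 1), (1, 1)], [([21], [16], 5)]⟩]⟩,
  ⟨813, 39, 31, [⟨21, 27, [(40, 8), (19, 1), (16, 7)], [], [([21, 24], [17], 2)]⟩, ⟨48, 50, [(40, 8), (19, 1), (16, 7)], [], [([21, 24], [17], 2)]⟩, ⟨28, 47, [(40, 8), (16, 6)], [(21, 1), (18, 1)], [([24], [19], 2), ([], [17], 4)]⟩]⟩,
  ⟨815, 39, 21, [⟨21, 50, [(40, 9), (17, 7)], [(19, 1), (1, 1)], [([21], [18], 3)]⟩]⟩]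

theorem mtC39_0_ok : mtabOK (hC 39) 0 mtC39_0 = true := by decide +kernel

theorem covC_39_0 (e : ℕ) (h1 : 0 ≤ e) (h2 : e < 19) : CovH (hC 39 e) :=
  mtab_cov' mtC39_0_ok (l := 19) rfl e h1 (by omega)

/-- family `hC`, `13 ≤ M ≤ 39` -/
theorem covC_tab (M e : ℕ) (hp : M % 2 = 1) (hM : 13 ≤ M) (hM' : M ≤ 39) (h2 : 2 * e + 3 ≤ M) :
    CovH (hC M e) := by
  obtain ⟨m, rfl⟩ : ∃ m, M = 2 * m + 1 := ⟨M / 2, by omega⟩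
  have hm : 6 ≤ m := by omega
  have hm' : m ≤ 19 := by omega
  interval_cases m
  · exact covC_13_0 e (by omega) (by omega)
  · exact covC_15_0 e (by omega) (by omega)
  · exact covC_17_0 e (by omega) (by omega)
  · exact covC_19_0 e (by omega) (by omega)
  · exact covC_21_0 e (by omega) (by omega)
  · exact covC_23_0 e (by omega) (by omega)
  · exact covC_25_0 e (by omega) (by omega)
  · exact covC_27_0 e (by omega) (by omega)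
  · exact covC_29_0 e (by omega) (by omega)
  · exact covC_31_0 e (by omega) (by omega)
  · exact covC_33_0 e (by omega) (by omega)
  · exact covC_35_0 e (by omega) (by omega)
  · exact covC_37_0 e (by omega) (by omega)
  · exact covC_39_0 e (by omega) (by omega)

end Crest.Agent.R195
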