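import Crest.Agent.R195.MergeCheck2

/-! Row 195, S0298 (helper563).  Table of plans for the numeric checker, family hV
(generated by a program, checked by the kernel). -/

set_option autoImplicit false
set_option Elab.async false

namespace Crest.Agent.R195

def mtV10_2 : List MEnt := [
  ⟨104, 14, 12, [⟨8, 12, [], [(1, 1)], [([10], [6], 4), ([], [5], 12), ([], [2], 15)]⟩, ⟨13, 15, [(15, 1)], [(10, 1), (6, 1), (1, 1)], [([8], [5], 4), ([], [2], 12)]⟩, ⟨16, 16, [(15, 1), (12, 1)], [(10, 1), (6, 1), (2, 2), (1, 1)], [([8], [5], 4)]⟩, ⟨17, 17, [(15, 1), (4, 1)], [(10, 1), (6, 1), (5, 2), (2, 2), (1, 1)], [([8], [], 12)]⟩, ⟨18, 18, [(15, 1), (12, 1), (4, 1)], [(10, 1), (8, 1), (6, 2), (5, 2), (2, 2), (1, 1)], []⟩]⟩]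

theorem mtV10_2_ok : mtabOK (hV 10) 2 mtV10_2 = true := by decide +kernel

theorem covV_10_2 (e : ℕ) (h1 : 2 ≤ e) (h2 : e < 3) : CovH (hV 10 e) :=
  mtab_cov' mtV10_2_ok (l := 1) rfl e h1 (by omega)

def mtV12_2 : List MEnt := [
  ⟨135, 16, 12, [⟨9, 19, [(17, 1), (14, 1)], [(7, 1), (3, 1), (1, 1)], [([9], [6], 5), ([], [2], 12)]⟩, ⟨20, 20, [(17, 1), (14, 2)], [(7, 1), (3, 1), (2, 2), (1, 1)], [([9], [6], 5)]⟩, ⟨21, 21, [(17, 1), (14, 1), (5, 1)], [(7, 1), (6, 2), (3, 1), (2, 2), (1, 1)], [([9], [], 12)]⟩]⟩]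

theorem mtV12_2_ok : mtabOK (hV 12) 2 mtV12_2 = true := by decide +kernel

theorem covV_12_2 (e : ℕ) (h1 : 2 ≤ e) (h2 : e < 3) : CovH (hV 12 e) :=
  mtab_cov' mtV12_2_ok (l := 1) rfl e h1 (by omega)

def mtV14_2 : List MEnt := [
  ⟨170, 18, 14, [⟨10, 21, [(19, 1), (16, 2)], [(1, 1)], [([12], [7], 4), ([], [8, 2], 6)]⟩, ⟨22, 22, [(19, 1), (16, 2)], [(2, 2), (1, 1)], [([12], [8], 4), ([], [7], 6)]⟩, ⟨23, 23, [(19, 1), (16, 2), (6, 1)], [(7, 2), (2, 2), (1, 1)], [([12], [8], 4)]⟩]⟩]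

theorem mtV14_2_ok : mtabOK (hV 14) 2 mtV14_2 = true := by decide +kernel

theorem covV_14_2 (e : ℕ) (h1 : 2 ≤ e) (h2 : e < 3) : CovH (hV 14 e) :=
  mtab_cov' mtV14_2_ok (l := 1) rfl e h1 (by omega)

def mtV16_2 : List MEnt := [
  ⟨209, 20, 13, [⟨11, 26, [(21, 1), (18, 3), (7, 1)], [(9, 1), (3, 1), (1, 1)], [([11], [8, 2], 5)]⟩]⟩]

theorem mtV16_2_ok : mtabOK (hV 16) 2 mtV16_2 = true := by decide +kernel

theorem covV_16_2 (e : ℕ) (h1 : 2 ≤ e) (h2 : e < 3) : CovH (hV 16 e) :=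
  mtab_cov' mtV16_2_ok (l := 1) rfl e h1 (by omega)

def mtV18_1 : List MEnt := [
  ⟨207, 20, 16, [⟨11, 25, [(18, 3)], [(11, 1)], [([21], [], 5), ([], [9, 8], 3), ([], [1], 7)]⟩, ⟨26, 26, [(18, 2), (7, 2)], [(9, 1), (1, 2)], [([21], [8], 3), ([11], [], 14)]⟩]⟩,
  ⟨252, 22, 14, [⟨12, 29, [(23, 1), (20, 3), (8, 1)], [(1, 1)], [([14], [10], 4), ([], [9, 2], 6)]⟩]⟩]

theorem mtV18_1_ok : mtabOK (hV 18) 1 mtV18_1 = true := by decide +kernel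

theorem covV_18_1 (e : ℕ) (h1 : 1 ≤ e) (h2 : e < 3) : CovH (hV 18 e) :=
  mtab_cov' mtV18_1_ok (l := 2) rfl e h1 (by omega)

def mtV20_1 : List MEnt := [
  ⟨250, 22, 23, [⟨12, 21, [(20, 3)], [(4, 1), (1, 2)], [([23], [], 6), ([14], [9], 3), ([], [10], 8)]⟩, ⟨23, 26, [(20, 3)], [(4, 1), (1, 2)], [([23], [], 6), ([14], [9], 3), ([], [10], 8)]⟩, ⟨27, 29, [(21, 4), (8, 2)], [(23, 1), (10, 1), (2, 1)], [([12], [9, 1], 4)]⟩, ⟨22, 22, [(20, 3)], [(14, 1), (12, 1), (2, 1)], [([23], [], 4), ([], [10, 1], 6), ([], [9], 8)]⟩]⟩,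
  ⟨299, 24, 15, [⟨13, 31, [(25, 1), (22, 4), (9, 2)], [(11, 1), (3, 1), (1, 1)], [([13], [10, 2], 5)]⟩]⟩]

theorem mtV20_1_ok : mtabOK (hV 20) 1 mtV20_1 = true := by decide +kernel

theorem covV_20_1 (e : ℕ) (h1 : 1 ≤ e) (h2 : e < 3) : CovH (hV 20 e) :=
  mtab_cov' mtV20_1_ok (l := 2) rfl e h1 (by omega)

def mtV22_1 : List MEnt := [
  ⟨297, 24, 14, [⟨13, 31, [(22, 4), (9, 2)], [(11, 1)], [([25], [1], 3), ([13], [10], 5)]⟩]⟩,
  ⟨350, 26, 16, [⟨14, 34, [(27, 1), (24, 4), (10, 2)], [(1, 1)], [([16], [12], 4), ([], [11, 2], 6)]⟩]⟩]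

theorem mtV22_1_ok : mtabOK (hV 22) 1 mtV22_1 = true := by decide +kernel

theorem covV_22_1 (e : ℕ) (h1 : 1 ≤ e) (h2 : e < 3) : CovH (hV 22 e) :=
  mtab_cov' mtV22_1_ok (l := 2) rfl e h1 (by omega)

def mtV24_1 : List MEnt := [
  ⟨348, 26, 17, [⟨14, 25, [(24, 4), (10, 1)], [(2, 1), (1, 2)], [([27], [], 4), ([16], [11], 6), ([], [12], 8)]⟩, ⟨27, 34, [(24, 4), (10, 1)], [(2, 1), (1, 2)], [([27], [], 4), ([16], [12], 6), ([], [11], 8)]⟩, ⟨26, 26, [(24, 4), (10, 1)], [(16, 1), (14, 1), (2, 1)], [([27], [1], 4), ([], [12], 6), ([], [11], 8)]⟩]⟩,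
  ⟨405, 28, 17, [⟨15, 36, [(29, 1), (26, 5), (11, 3)], [(13, 1), (3, 1), (1, 1)], [([15], [12, 2], 5)]⟩]⟩]

theorem mtV24_1_ok : mtabOK (hV 24) 1 mtV24_1 = true := by decide +kernel

theorem covV_24_1 (e : ℕ) (h1 : 1 ≤ e) (h2 : e < 3) : CovH (hV 24 e) :=
  mtab_cov' mtV24_1_ok (l := 2) rfl e h1 (by omega)

def mtV26_1 : List MEnt := [
  ⟨403, 28, 16, [⟨15, 36, [(26, 5), (11, 3)], [(13, 1)], [([29], [1], 3), ([15], [12], 5)]⟩]⟩,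
  ⟨464, 30, 19, [⟨16, 39, [(31, 1), (28, 5), (12, 3)], [(1, 1)], [([18], [14, 2], 4), ([], [13], 6)]⟩]⟩]

theorem mtV26_1_ok : mtabOK (hV 26) 1 mtV26_1 = true := by decide +kernel

theorem covV_26_1 (e : ℕ) (h1 : 1 ≤ e) (h2 : e < 3) : CovH (hV 26 e) :=
  mtab_cov' mtV26_1_ok (l := 2) rfl e h1 (by omega)

def mtV28_1 : List MEnt := [
  ⟨462, 30, 18, [⟨16, 39, [(28, 5), (12, 2)], [(6, 1), (1, 2)], [([31], [], 5), ([18], [13], 3), ([], [14], 8)]⟩]⟩,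
  ⟨527, 32, 19, [⟨17, 41, [(33, 1), (30, 6), (13, 4)], [(15, 1), (3, 1), (1, 1)], [([17], [14, 2], 5)]⟩]⟩]

theorem mtV28_1_ok : mtabOK (hV 28) 1 mtV28_1 = true := by decide +kernel

theorem covV_28_1 (e : ℕ) (h1 : 1 ≤ e) (h2 : e < 3) : CovH (hV 28 e) :=
  mtab_cov' mtV28_1_ok (l := 2) rfl e h1 (by omega)

def mtV30_1 : List MEnt := [
  ⟨525, 32, 18, [⟨17, 41, [(30, 6), (13, 4)], [(15, 1)], [([33], [1], 3), ([17], [14], 5)]⟩]⟩,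
  ⟨594, 34, 21, [⟨18, 44, [(35, 1), (32, 6), (14, 4)], [(1, 1)], [([20], [16, 2], 4), ([], [15], 6)]⟩]⟩]

theorem mtV30_1_ok : mtabOK (hV 30) 1 mtV30_1 = true := by decide +kernel

theorem covV_30_1 (e : ℕ) (h1 : 1 ≤ e) (h2 : e < 3) : CovH (hV 30 e) :=
  mtab_cov' mtV30_1_ok (l := 2) rfl e h1 (by omega)

def mtV32_1 : List MEnt := [
  ⟨592, 34, 20, [⟨18, 44, [(32, 6), (14, 3)], [(4, 1), (1, 2)], [([35], [], 6), ([20], [15], 3), ([], [16], 8)]⟩]⟩,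
  ⟨665, 36, 21, [⟨19, 47, [(37, 1), (34, 7), (15, 5)], [(17, 1), (3, 1), (1, 1)], [([19], [16, 2], 5)]⟩]⟩]

theorem mtV32_1_ok : mtabOK (hV 32) 1 mtV32_1 = true := by decide +kernel

theorem covV_32_1 (e : ℕ) (h1 : 1 ≤ e) (h2 : e < 3) : CovH (hV 32 e) :=
  mtab_cov' mtV32_1_ok (l := 2) rfl e h1 (by omega)

def mtV34_1 : List MEnt := [
  ⟨663, 36, 20, [⟨19, 47, [(34, 7), (15, 5)], [(17, 1)], [([37], [1], 3), ([19], [16], 5)]⟩]⟩,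
  ⟨740, 38, 23, [⟨20, 49, [(39, 1), (36, 7), (16, 5)], [(1, 1)], [([22], [18, 2], 4), ([], [17], 6)]⟩]⟩]

theorem mtV34_1_ok : mtabOK (hV 34) 1 mtV34_1 = true := by decide +kernel

theorem covV_34_1 (e : ℕ) (h1 : 1 ≤ e) (h2 : e < 3) : CovH (hV 34 e) :=
  mtab_cov' mtV34_1_ok (l := 2) rfl e h1 (by omega)

def mtV36_1 : List MEnt := [
  ⟨738, 38, 22, [⟨20, 49, [(36, 7), (16, 4)], [(2, 1), (1, 2)], [([39], [], 4), ([22], [17], 6), ([], [18], 8)]⟩]⟩,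
  ⟨819, 40, 23, [⟨21, 52, [(41, 1), (38, 8), (17, 6)], [(19, 1), (3, 1), (1, 1)], [([21], [18, 2], 5)]⟩]⟩]

theorem mtV36_1_ok : mtabOK (hV 36) 1 mtV36_1 = true := by decide +kernel

theorem covV_36_1 (e : ℕ) (h1 : 1 ≤ e) (h2 : e < 3) : CovH (hV 36 e) :=
  mtab_cov' mtV36_1_ok (l := 2) rfl e h1 (by omega)

def mtV38_1 : List MEnt := [
  ⟨817, 40, 22, [⟨21, 52, [(38, 8), (17, 6)], [(19, 1)], [([41], [1], 3), ([21], [18], 5)]⟩]⟩,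
  ⟨902, 42, 25, [⟨22, 54, [(43, 1), (40, 8), (18, 6)], [(1, 1)], [([24], [20, 2], 4), ([], [19], 6)]⟩]⟩]

theorem mtV38_1_ok : mtabOK (hV 38) 1 mtV38_1 = true := by decide +kernel

theorem covV_38_1 (e : ℕ) (h1 : 1 ≤ e) (h2 : e < 3) : CovH (hV 38 e) :=
  mtab_cov' mtV38_1_ok (l := 2) rfl e h1 (by omega)

def mtV40_1 : List MEnt := [
  ⟨900, 42, 25, [⟨22, 54, [(40, 8), (18, 5)], [(2, 1), (1, 2)], [([43], [], 4), ([24], [20], 6), ([], [19], 8)]⟩]⟩,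
  ⟨989, 44, 25, [⟨23, 57, [(45, 1), (42, 9), (19, 7)], [(21, 1), (3, 1), (1, 1)], [([23], [20, 2], 5)]⟩]⟩]

theorem mtV40_1_ok : mtabOK (hV 40) 1 mtV40_1 = true := by decide +kernel

theorem covV_40_1 (e : ℕ) (h1 : 1 ≤ e) (h2 : e < 3) : CovH (hV 40 e) :=
  mtab_cov' mtV40_1_ok (l := 2) rfl e h1 (by omega)

/-- family `hV _ 1`, `18 ≤ P ≤ 40` -/
theorem covV1_tab (P : ℕ) (hp : P % 2 = 0) (hP : 18 ≤ P) (hP' : P ≤ 40) : CovH (hV P 1) := by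
  obtain ⟨m, rfl⟩ : ∃ m, P = 2 * m := ⟨P / 2, by omega⟩
  have hm : 9 ≤ m := by omega
  have hm' : m ≤ 20 := by omega
  interval_cases m
  · exact covV_18_1 1 (by omega) (by omega)
  · exact covV_20_1 1 (by omega) (by omega)
  · exact covV_22_1 1 (by omega) (by omega)
  · exact covV_24_1 1 (by omega) (by omega)
  · exact covV_26_1 1 (by omega) (by omega)
  · exact covV_28_1 1 (by omega) (by omega)
  · exact covV_30_1 1 (by omega) (by omega)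
  · exact covV_32_1 1 (by omega) (by omega)
  · exact covV_34_1 1 (by omega) (by omega)
  · exact covV_36_1 1 (by omega) (by omega)
  · exact covV_38_1 1 (by omega) (by omega)
  · exact covV_40_1 1 (by omega) (by omega)

/-- family `hV _ 2`, `10 ≤ P ≤ 40` -/
theorem covV2_tab (P : ℕ) (hp : P % 2 = 0) (hP : 10 ≤ P) (hP' : P ≤ 40) : CovH (hV P 2) := by
  obtain ⟨m, rfl⟩ : ∃ m, P = 2 * m := ⟨P / 2, by omega⟩
  have hm : 5 ≤ m := by omega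
  have hm' : m ≤ 20 := by omega
  interval_cases m
  · exact covV_10_2 2 (by omega) (by omega)
  · exact covV_12_2 2 (by omega) (by omega)
  · exact covV_14_2 2 (by omega) (by omega)
  · exact covV_16_2 2 (by omega) (by omega)
  · exact covV_18_1 2 (by omega) (by omega)
  · exact covV_20_1 2 (by omega) (by omega)
  · exact covV_22_1 2 (by omega) (by omega)
  · exact covV_24_1 2 (by omega) (by omega)
  · exact covV_26_1 2 (by omega) (by omega)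
  · exact covV_28_1 2 (by omega) (by omega)
  · exact covV_30_1 2 (by omega) (by omega)
  · exact covV_32_1 2 (by omega) (by omega)
  · exact covV_34_1 2 (by omega) (by omega)
  · exact covV_36_1 2 (by omega) (by omega)
  · exact covV_38_1 2 (by omega) (by omega)
  · exact covV_40_1 2 (by omega) (by omega)

end Crest.Agent.R195
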