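import Crest.Agent.R195.TwoHook
import Crest.Agent.R195.Major2

/-! Row 195: the mixed vector.  From the shape data of shape `μ` with
`μ.rowLen 0 + μ.rowLen 1 ≥ 2 q + 1` and `μ.colLen 0 + μ.colLen 1 ≥ 2 q₂ + 5` we get one non-zero
vector fixed by disjoint blocks with `q + 1`, `q` letters and alternating for disjoint blocks with
`q₂ + 1`, `q₂` letters. -/

set_option autoImplicit false
set_option linter.unusedSectionVars false
set_option linter.unusedDecidableInType false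

namespace Crest.Agent.R195

open Equiv Finset

section mix

variable {T : Type*} [Fintype T] [DecidableEq T]
variable {U : Type*} [AddCommGroup U] [Module ℂ U]

lemma addLetter_eps (ρ : Representation ℂ (Perm T) U) (B : Finset T) (b : T) (w : U)
    {x y : T} (hx : x ∉ B) (hy : y ∉ B) (hxb : x ≠ b) (hyb : y ≠ b) (ε : ℂ)
    (h : ρ (swap x y) w = ε • w) :
    ρ (swap x y) (addLetter ρ B b w) = ε • addLetter ρ B b w := by
  unfold addLetter
  rw [map_add, map_sum, h, smul_add, Finset.smul_sum]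
  congr 1
  apply Finset.sum_congr rfl
  intro a ha
  have hax : a ≠ x := fun e => hx (e ▸ ha)
  have hay : a ≠ y := fun e => hy (e ▸ ha)
  rw [rho_mul, swap_conj, swap_apply_of_ne_of_ne hax hay,
    swap_apply_of_ne_of_ne (Ne.symm hxb) (Ne.symm hyb), ← rho_mul, h, map_smul]

/-- moving letters from the block `A` to the block `B` -/
theorem two_blocks_aux (ρ : Representation ℂ (Perm T) U) (q : ℕ) :
    ∀ (k : ℕ) (A B : Finset T) (w : U), Disjoint A B → w ≠ 0 →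
      (∀ x ∈ A, ∀ y ∈ A, ρ (swap x y) w = w) → (∀ x ∈ B, ∀ y ∈ B, ρ (swap x y) w = w) →
      B.card + k = q → q + 1 + k ≤ A.card →
      ∃ (A' B' : Finset T) (v : U), A' ⊆ A ∪ B ∧ B' ⊆ A ∪ B ∧ Disjoint A' B' ∧ v ≠ 0 ∧
        (∀ x ∈ A', ∀ y ∈ A', ρ (swap x y) v = v) ∧ (∀ x ∈ B', ∀ y ∈ B', ρ (swap x y) v = v) ∧
        B'.card = q ∧ q + 1 ≤ A'.card ∧
        (∀ x, x ∉ A ∪ B → ∀ y, y ∉ A ∪ B → ∀ ε : ℂ, ρ (swap x y) w = ε • w →
          ρ (swap x y) v = ε • v) := by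
  intro k
  induction k with
  | zero =>
    intro A B w hAB hw hA hB hc hcA
    exact ⟨A, B, w, subset_union_left, subset_union_right, hAB, hw, hA, hB, by omega, by omega,
      fun x _ y _ ε h => h⟩
  | succ k ih =>
    intro A B w hAB hw hA hB hc hcA
    obtain ⟨x, hxA, hx0⟩ := exists_addLetter_ne_zero ρ w hw A B hAB (by omega) hA
    have hxB : x ∉ B := Finset.disjoint_left.1 hAB hxA
    obtain ⟨A', B', v, h1, h2, h3, h4, h5, h6, h7, h8, h9⟩ := ih (A.erase x) (insert x B)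
      (addLetter ρ B x w) (by
        rw [Finset.disjoint_left]
        intro a ha ha'
        rw [mem_erase] at ha
        rcases mem_insert.1 ha' with h | h
        · exact ha.1 h
        · exact Finset.disjoint_left.1 hAB ha.2 h) hx0 (by
        intro a ha b hb
        rw [mem_erase] at ha hb
        exact addLetter_fixed_out ρ B x w (Finset.disjoint_left.1 hAB ha.2)
          (Finset.disjoint_left.1 hAB hb.2) ha.1 hb.1 (hA a ha.2 b hb.2))
      (fun a ha b hb => addLetter_fixed_in ρ B x w hxB hB ha hb)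
      (by rw [card_insert_of_notMem hxB]; omega)
      (by rw [card_erase_of_mem hxA]; omega)
    have hU : A.erase x ∪ insert x B = A ∪ B := by
      ext t
      simp only [mem_union, mem_erase, mem_insert]
      by_cases ht : t = x
      · subst ht; simp [hxA]
      · simp [ht]
    rw [hU] at h1 h2 h9
    refine ⟨A', B', v, h1, h2, h3, h4, h5, h6, h7, h8, ?_⟩
    intro a ha b hb ε h
    have hxU : x ∈ A ∪ B := mem_union_left _ hxA
    refine h9 a ha b hb ε (addLetter_eps ρ B x w ?_ ?_ ?_ ?_ ε h)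
    · exact fun hh => ha (mem_union_right _ hh)
    · exact fun hh => hb (mem_union_right _ hh)
    · exact fun hh => ha (hh ▸ hxU)
    · exact fun hh => hb (hh ▸ hxU)

theorem two_blocks (ρ : Representation ℂ (Perm T) U) (q : ℕ) (A B : Finset T) (w : U)
    (hAB : Disjoint A B) (hw : w ≠ 0) (hA : ∀ x ∈ A, ∀ y ∈ A, ρ (swap x y) w = w)
    (hB : ∀ x ∈ B, ∀ y ∈ B, ρ (swap x y) w = w) (hle : B.card ≤ A.card)
    (hc : 2 * q + 1 ≤ A.card + B.card) :
    ∃ (K₁ K₂ : Finset T) (v : U), K₁ ⊆ A ∪ B ∧ K₂ ⊆ A ∪ B ∧ Disjoint K₁ K₂ ∧ v ≠ 0 ∧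
      (∀ x ∈ K₁, ∀ y ∈ K₁, ρ (swap x y) v = v) ∧ (∀ x ∈ K₂, ∀ y ∈ K₂, ρ (swap x y) v = v) ∧
      K₁.card = q + 1 ∧ K₂.card = q ∧
      (∀ x, x ∉ A ∪ B → ∀ y, y ∉ A ∪ B → ∀ ε : ℂ, ρ (swap x y) w = ε • w →
        ρ (swap x y) v = ε • v) := by
  by_cases h : B.card ≤ q
  · obtain ⟨A', B', v, h1, h2, h3, h4, h5, h6, h7, h8, h9⟩ :=
      two_blocks_aux ρ q (q - B.card) A B w hAB hw hA hB (by omega) (by omega)
    obtain ⟨K, hK, hKc⟩ := Finset.exists_subset_card_eq h8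
    exact ⟨K, B', v, hK.trans h1, h2, h3.mono_left hK, h4,
      fun x hx y hy => h5 x (hK hx) y (hK hy), h6, hKc, h7, h9⟩
  · obtain ⟨K, hK, hKc⟩ := Finset.exists_subset_card_eq (s := A) (n := q + 1) (by omega)
    obtain ⟨K', hK', hKc'⟩ := Finset.exists_subset_card_eq (s := B) (n := q) (by omega)
    exact ⟨K, K', w, hK.trans subset_union_left, hK'.trans subset_union_right,
      (hAB.mono_left hK).mono_right hK', hw, fun x hx y hy => hA x (hK hx) y (hK hy),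
      fun x hx y hy => hB x (hK' hx) y (hK' hy), hKc, hKc', fun x _ y _ ε h => h⟩

lemma alt_asym_ne {V : Type*} [AddCommGroup V] [Module ℂ V] (ρ : Representation ℂ (Perm T) U)
    (L : U →ₗ[ℂ] V) (A : Finset T)
    (hL : ∀ x ∈ A, ∀ y ∈ A, x ≠ y → ∀ u, L (ρ (swap x y) u) = - L u) (u : U) (hu : L u ≠ 0) :
    L (asym ρ A u) ≠ 0 := by
  have h1 : L (asym ρ A u)
      = ((Finset.univ.filter (fun σ : Perm T => ∀ t, t ∉ A → σ t = t)).card : ℂ) • L u := by
    rw [asym_apply, map_sum, Nat.cast_smul_eq_nsmul, ← Finset.sum_const]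
    apply Finset.sum_congr rfl
    intro σ hσ
    simp only [Finset.mem_filter, Finset.mem_univ, true_and] at hσ
    rw [map_smul, alt_perm ρ L A hL σ hσ u, smul_smul]
    have : ((((Perm.sign σ : ℤˣ) : ℤ) : ℂ)) * ((((Perm.sign σ : ℤˣ) : ℤ) : ℂ)) = 1 := by
      rcases Int.units_eq_one_or (Perm.sign σ) with h | h <;> simp [h]
    rw [this, one_smul]
  rw [h1]
  refine smul_ne_zero ?_ hu
  rw [Nat.cast_ne_zero, Finset.card_ne_zero]
  exact ⟨1, by simp⟩

/-- **MIX**, with the vector of the shape lemma. -/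
theorem mix_vector (ρ : Representation ℂ (Perm T) U) {μ : YoungDiagram} (e : T ≃ μ.cells)
    {w : U} (hw : SwapFixed ρ (fun t => (e t).1.1) w)
    (hne : colAsym ρ (fun t => (e t).1.2) w ≠ 0) (q q₂ : ℕ)
    (hr : 2 * q + 1 ≤ μ.rowLen 0 + μ.rowLen 1) (hc : 2 * q₂ + 5 ≤ μ.colLen 0 + μ.colLen 1) :
    ∃ (K₁ K₂ K₃ K₄ : Finset T) (v : U), v ≠ 0 ∧ Disjoint K₁ K₂ ∧ Disjoint K₃ K₄ ∧
      Disjoint (K₁ ∪ K₂) (K₃ ∪ K₄) ∧ K₁.card = q + 1 ∧ K₂.card = q ∧ K₃.card = q₂ + 1 ∧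
      K₄.card = q₂ ∧
      (∀ x ∈ K₁, ∀ y ∈ K₁, ρ (swap x y) v = v) ∧ (∀ x ∈ K₂, ∀ y ∈ K₂, ρ (swap x y) v = v) ∧
      (∀ x ∈ K₃, ∀ y ∈ K₃, x ≠ y → ρ (swap x y) v = -v) ∧
      (∀ x ∈ K₄, ∀ y ∈ K₄, x ≠ y → ρ (swap x y) v = -v) := by
  classical
  set row : T → ℕ := fun t => (e t).1.1 with hrow
  set col : T → ℕ := fun t => (e t).1.2 with hcol
  have hinj : ∀ s t, row s = row t → col s = col t → s = t := by
    intro s t h1 h2
    exact e.injective (Subtype.ext (Prod.ext h1 h2))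
  set Z : ℕ → Finset T := fun j => univ.filter (fun t => col t = j ∧ 2 ≤ row t) with hZ
  set R : ℕ → Finset T := fun i => univ.filter (fun t => row t = i) with hR
  have memZ : ∀ j t, t ∈ Z j ↔ col t = j ∧ 2 ≤ row t := by intro j t; simp [hZ]
  have memR : ∀ i t, t ∈ R i ↔ row t = i := by intro i t; simp [hR]
  have hZcard : ∀ j, (Z j).card = μ.colLen j - 2 := by
    intro j
    have h1 : (Z j).image row = Ico 2 (μ.colLen j) := by
      ext i
      rw [mem_image, mem_Ico]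
      constructor
      · rintro ⟨t, ht, rfl⟩
        rw [memZ] at ht
        refine ⟨ht.2, ?_⟩
        rw [← YoungDiagram.mem_iff_lt_colLen, ← ht.1]
        exact (YoungDiagram.mem_cells _).1 (e t).2
      · rintro ⟨h2, h3⟩
        have h4 : (i, j) ∈ μ.cells := YoungDiagram.mem_iff_lt_colLen.2 h3
        refine ⟨e.symm ⟨(i, j), h4⟩, ?_, ?_⟩
        · rw [memZ]
          simp only [hcol, hrow, Equiv.apply_symm_apply]
          exact ⟨trivial, h2⟩
        · simp only [hrow, Equiv.apply_symm_apply]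
    have h2 : ((Z j).image row).card = (Z j).card := by
      refine Finset.card_image_of_injOn ?_
      intro a ha b hb hab
      have ha' := (memZ j a).1 ha
      have hb' := (memZ j b).1 hb
      exact hinj a b hab (ha'.1.trans hb'.1.symm)
    rw [← h2, h1, Nat.card_Ico]
  have hRcard : ∀ i, (R i).card = μ.rowLen i := fun i => card_fiber_row e i
  have hRR : Disjoint (R 0) (R 1) := by
    rw [Finset.disjoint_left]
    intro t h1 h2
    rw [memR] at h1 h2
    omega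
  have hZZ : Disjoint (Z 0) (Z 1) := by
    rw [Finset.disjoint_left]
    intro t h1 h2
    rw [memZ] at h1 h2
    omega
  have hRZ : Disjoint (R 0 ∪ R 1) (Z 0 ∪ Z 1) := by
    rw [Finset.disjoint_left]
    intro t h1 h2
    simp only [mem_union, memR, memZ] at h1 h2
    omega
  -- antisymmetrise
  set w1 := asym ρ (Z 0) w with hw1
  set w2 := asym ρ (Z 1) w1 with hw2
  have hLalt : ∀ j, ∀ x ∈ Z j, ∀ y ∈ Z j, x ≠ y → ∀ u,
      colAsym ρ col (ρ (swap x y) u) = - colAsym ρ col u := by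
    intro j x hx y hy hxy u
    exact colAsym_swap_right ρ col u hxy (((memZ j x).1 hx).1.trans ((memZ j y).1 hy).1.symm)
  have hne1 : colAsym ρ col w1 ≠ 0 := alt_asym_ne ρ _ (Z 0) (hLalt 0) w hne
  have hne2 : colAsym ρ col w2 ≠ 0 := alt_asym_ne ρ _ (Z 1) (hLalt 1) w1 hne1
  have hw20 : w2 ≠ 0 := by
    intro h
    apply hne2
    rw [h, map_zero]
  have hZ0out : ∀ x ∈ Z 0, x ∉ Z 1 := fun x hx => Finset.disjoint_left.1 hZZ hx
  have hRout : ∀ i, i < 2 → ∀ j, ∀ x ∈ R i, x ∉ Z j := by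
    intro i hi j x hx hx'
    rw [memR] at hx
    rw [memZ] at hx'
    omega
  have halt0 : ∀ x ∈ Z 0, ∀ y ∈ Z 0, x ≠ y → ρ (swap x y) w2 = - w2 := by
    intro x hx y hy hxy
    rw [hw2, asym_swap_comm ρ (Z 1) w1 (hZ0out x hx) (hZ0out y hy), hw1,
      asym_swap_left ρ (Z 0) w hx hy hxy, map_neg]
  have halt1 : ∀ x ∈ Z 1, ∀ y ∈ Z 1, x ≠ y → ρ (swap x y) w2 = - w2 := by
    intro x hx y hy hxy
    exact asym_swap_left ρ (Z 1) w1 hx hy hxy
  have hfixR : ∀ i, i < 2 → ∀ x ∈ R i, ∀ y ∈ R i, ρ (swap x y) w2 = w2 := by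
    intro i hi x hx y hy
    rw [hw2, asym_swap_comm ρ (Z 1) w1 (hRout i hi 1 x hx) (hRout i hi 1 y hy), hw1,
      asym_swap_comm ρ (Z 0) w (hRout i hi 0 x hx) (hRout i hi 0 y hy),
      hw x y (((memR i x).1 hx).trans ((memR i y).1 hy).symm)]
  obtain ⟨K₁, K₂, v1, hK1, hK2, hK12, hv1, hf1, hf2, hc1, hc2, heps⟩ :=
    two_blocks ρ q (R 0) (R 1) w2 hRR hw20 (hfixR 0 (by omega)) (hfixR 1 (by omega))
      (by rw [hRcard, hRcard]; exact μ.rowLen_anti 0 1 (by omega))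
      (by rw [hRcard, hRcard]; exact hr)
  have hZR : ∀ j, j < 2 → ∀ x ∈ Z j, x ∉ R 0 ∪ R 1 := by
    intro j hj x hx hx'
    simp only [mem_union, memR] at hx'
    rw [memZ] at hx
    omega
  have hsg : ∀ j, j < 2 → (∀ x ∈ Z j, ∀ y ∈ Z j, x ≠ y → ρ (swap x y) w2 = - w2) →
      ∀ x ∈ Z j, ∀ y ∈ Z j, signTwist ρ (swap x y) v1 = v1 := by
    intro j hj h x hx y hy
    by_cases hxy : x = y
    · rw [hxy, swap_self, ← Perm.one_def, map_one, Module.End.one_apply]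
    · rw [signTwist_apply, Perm.sign_swap hxy, heps x (hZR j hj x hx) y (hZR j hj y hy) (-1)
        (by rw [h x hx y hy hxy, neg_one_smul])]
      simp
  have hcl : μ.colLen 1 ≤ μ.colLen 0 := μ.colLen_anti 0 1 (by omega)
  obtain ⟨K₃, K₄, v, hK3, hK4, hK34, hv, hf3, hf4, hc3, hc4, heps2⟩ :=
    two_blocks (signTwist ρ) q₂ (Z 0) (Z 1) v1 hZZ hv1 (hsg 0 (by omega) halt0)
      (hsg 1 (by omega) halt1)
      (by rw [hZcard, hZcard]; omega)
      (by rw [hZcard, hZcard]; omega)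
  have hfix : ∀ K : Finset T, K ⊆ R 0 ∪ R 1 → (∀ x ∈ K, ∀ y ∈ K, ρ (swap x y) v1 = v1) →
      ∀ x ∈ K, ∀ y ∈ K, ρ (swap x y) v = v := by
    intro K hK h x hx y hy
    by_cases hxy : x = y
    · rw [hxy, swap_self, ← Perm.one_def, map_one, Module.End.one_apply]
    · have hx' : x ∉ Z 0 ∪ Z 1 := Finset.disjoint_left.1 hRZ (hK hx)
      have hy' : y ∉ Z 0 ∪ Z 1 := Finset.disjoint_left.1 hRZ (hK hy)
      have h1 := heps2 x hx' y hy' (-1) (by
        rw [signTwist_apply, Perm.sign_swap hxy, h x hx y hy]; simp)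
      rw [signTwist_apply, Perm.sign_swap hxy] at h1
      simpa using h1
  have halt : ∀ K : Finset T, (∀ x ∈ K, ∀ y ∈ K, signTwist ρ (swap x y) v = v) →
      ∀ x ∈ K, ∀ y ∈ K, x ≠ y → ρ (swap x y) v = -v := by
    intro K h x hx y hy hxy
    have h1 := h x hx y hy
    rw [signTwist_apply, Perm.sign_swap hxy] at h1
    have h2 : -(ρ (swap x y) v) = v := by simpa using h1
    rw [← h2, neg_neg, h2]
  exact ⟨K₁, K₂, K₃, K₄, v, hv, hK12, hK34,
    (hRZ.mono_left (union_subset hK1 hK2)).mono_right (union_subset hK3 hK4),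
    hc1, hc2, hc3, hc4, hfix K₁ hK1 hf1, hfix K₂ hK2 hf2, halt K₃ hf3, halt K₄ hf4⟩

end mix

section rule

variable {T : Type} [Fintype T] [DecidableEq T] {U : Type} [AddCommGroup U] [Module ℂ U]

/-- **[hh][ee]**: two long rows and two long columns. -/
theorem occ_of_mix {p p₂ : ℕ} {κ₂ κ : YoungDiagram} (hκ : κ.cells = hookS p₂ κ₂.cells)
    (ok : HookOK p κ) (ok₂ : HookOK p₂ κ₂) (hs : κ.cells.image Prod.swap = κ.cells)
    (hfull : Full κ₂.cells κ₂.cells)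
    (hT : Fintype.card T = p + (p - 1) + (p₂ + (p₂ - 1) + κ₂.card)) (hp2 : p₂ + 2 ≤ p)
    (ρ : Representation ℂ (Perm T) U) {μ : YoungDiagram} (e : T ≃ μ.cells)
    {w : U} (hw : SwapFixed ρ (fun t => (e t).1.1) w)
    (hne : colAsym ρ (fun t => (e t).1.2) w ≠ 0)
    (hr : 2 * p - 1 ≤ μ.rowLen 0 + μ.rowLen 1) (hc : 2 * p - 1 ≤ μ.colLen 0 + μ.colLen 1) :
    Occ ρ (Kr T (hookS p κ.cells) (hookS p κ.cells)) := by
  have hp := ok.hp
  have hp₂ := ok₂.hp
  obtain ⟨K₁, K₂, K₃, K₄, v, hv, h12, h34, h13, c1, c2, c3, c4, f1, f2, f3, f4⟩ :=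
    mix_vector ρ e hw hne (p - 1) (p₂ - 1) (by omega) (by omega)
  exact hh_ee hκ ok ok₂ hs hfull hT K₁ K₂ K₃ K₄ h12 h34 h13 (by omega) (by omega) (by omega)
    (by omega) ρ v hv f1 f2 f3 f4

end rule

end Crest.Agent.R195
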