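import Crest.Agent.R195.Pick

/-! Row 195, S0298 (T3, helper346): numerical criteria for lists of pairs and rectangles.
`decomp_critW` is `decomp_crit` with an extra use of the number of nonzero columns; `FL_pairs_defect`
computes what is lost for a list of pairs. -/

set_option autoImplicit false

namespace Crest.Agent.R195

open Finset Function

/-- any two columns have sum at most `2 B`: a set of at least two columns has sum at most `card * B` -/
theorem sum_le_card_mul {N B : ℕ} {H : ℕ → ℕ}
    (hB : ∀ i j, i < N → j < N → i ≠ j → H i + H j ≤ 2 * B) {J : Finset ℕ} (hJN : J ⊆ range N)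
    (hc : 1 < J.card) : ∑ j ∈ J, H j ≤ J.card * B := by
  classical
  obtain ⟨m, hm⟩ : ∃ m ∈ J, ∀ j ∈ J, H j ≤ H m :=
    Finset.exists_max_image J H (Finset.card_pos.1 (by omega))
  obtain ⟨hmJ, hmax⟩ := hm
  by_cases hmB : H m ≤ B
  · calc ∑ j ∈ J, H j ≤ ∑ _j ∈ J, B := Finset.sum_le_sum fun j hj => (hmax j hj).trans hmB
      _ = J.card * B := by rw [Finset.sum_const, smul_eq_mul]
  · obtain ⟨b, hb, hbm⟩ : ∃ b ∈ J, b ≠ m := by
      by_contra hcon
      push Not at hcon
      have : J ⊆ {m} := fun x hx => Finset.mem_singleton.2 (hcon x hx)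
      have := Finset.card_le_card this
      simp at this
      omega
    have h4 : ∀ j ∈ (J.erase m).erase b, H j ≤ B := by
      intro j hj
      rw [mem_erase, mem_erase] at hj
      have := hB j m (mem_range.1 (hJN hj.2.2)) (mem_range.1 (hJN hmJ)) hj.2.1
      omega
    have h5 := hB b m (mem_range.1 (hJN hb)) (mem_range.1 (hJN hmJ)) hbm
    have h6 : ∑ j ∈ (J.erase m).erase b, H j ≤ ((J.erase m).erase b).card * B := by
      calc ∑ j ∈ (J.erase m).erase b, H j ≤ ∑ _j ∈ (J.erase m).erase b, B :=
            Finset.sum_le_sum h4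
        _ = _ := by rw [Finset.sum_const, smul_eq_mul]
    have h7 : ((J.erase m).erase b).card = J.card - 2 := by
      rw [card_erase_of_mem (mem_erase.2 ⟨hbm, hb⟩), card_erase_of_mem hmJ]
      omega
    have h8 := Finset.add_sum_erase J H hmJ
    have h9 := Finset.add_sum_erase (J.erase m) H (mem_erase.2 ⟨hbm, hb⟩)
    rw [h7] at h6
    have h10 : (J.card - 2) * B + 2 * B = J.card * B := by
      rw [← add_mul]; congr 1; omega
    omega

/-- **Numerical criterion** with the number `w'` of nonzero columns. -/
theorem exists_matrix_critW {ι : Type*} [Fintype ι] [DecidableEq ι] (S k : ι → ℕ)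
    (hk : ∀ g, 0 < k g) (N : ℕ) (H : ℕ → ℕ) (htot : ∑ j ∈ range N, H j = ∑ g, S g)
    (B J₁ w' : ℕ) (hB : ∀ i j, i < N → j < N → i ≠ j → H i + H j ≤ 2 * B)
    (h1 : ∀ j, j < N → H j ≤ ∑ g, min (S g) (k g))
    (hJ : J₁ * B ≤ ∑ g, min (S g) (k g * J₁))
    (hw' : w' ≤ ((range N).filter fun j => 0 < H j).card)
    (hW : ∀ i, J₁ < i → i ≤ N → ∑ g, S g ≤ ∑ g, min (S g) (k g * i) ∨
      ∑ g, S g + i ≤ ∑ g, min (S g) (k g * i) + w') :
    ∃ h : ι → ℕ → ℕ, (∀ g j, h g j ≤ k g) ∧ (∀ g, ∑ j ∈ range N, h g j = S g) ∧
      (∀ g j, N ≤ j → h g j = 0) ∧ ∀ j, j < N → ∑ g, h g j = H j := by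
  classical
  refine exists_matrix S k hk N H htot fun J hJN => ?_
  rcases Nat.lt_or_ge 1 J.card with hc | hc
  · rcases Nat.lt_or_ge J₁ J.card with hJ1 | hJ1
    · have hcN : J.card ≤ N := by
        have := Finset.card_le_card hJN
        rwa [card_range] at this
      have hsub : ∑ j ∈ J, H j ≤ ∑ j ∈ range N, H j := Finset.sum_le_sum_of_subset hJN
      rcases hW J.card hJ1 hcN with h2 | h2
      · rw [htot] at hsub
        exact hsub.trans h2
      · -- nonzero columns outside `J`
        have h3 : ∑ j ∈ J, H j + ((range N \ J).filter fun j => 0 < H j).card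
            ≤ ∑ j ∈ range N, H j := by
          rw [← Finset.sum_sdiff hJN, add_comm]
          refine Nat.add_le_add_right ?_ _
          rw [Finset.card_filter]
          refine Finset.sum_le_sum fun j _ => ?_
          split_ifs <;> omega
        have h4 : ((range N).filter fun j => 0 < H j).card
            ≤ ((range N \ J).filter fun j => 0 < H j).card + J.card := by
          have h5 : ((range N).filter fun j => 0 < H j)
              ⊆ ((range N \ J).filter fun j => 0 < H j) ∪ J := by
            intro j hj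
            rw [mem_filter] at hj
            rw [mem_union, mem_filter, mem_sdiff]
            by_cases hjJ : j ∈ J
            · exact Or.inr hjJ
            · exact Or.inl ⟨⟨hj.1, hjJ⟩, hj.2⟩
          exact (Finset.card_le_card h5).trans (Finset.card_union_le _ _)
        omega
    · refine (sum_le_card_mul hB hJN hc).trans ?_
      have h4 : ∀ g, J.card * min (S g) (k g * J₁) ≤ J₁ * min (S g) (k g * J.card) := by
        intro g
        rcases le_total (S g) (k g * J.card) with ha | ha
        · rw [min_eq_left ha]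
          exact Nat.mul_le_mul hJ1 (min_le_left _ _)
        · rw [min_eq_right ha]
          calc J.card * min (S g) (k g * J₁) ≤ J.card * (k g * J₁) :=
                Nat.mul_le_mul_left _ (min_le_right _ _)
            _ = J₁ * (k g * J.card) := by ring
      have h5 : J.card * ∑ g, min (S g) (k g * J₁) ≤ J₁ * ∑ g, min (S g) (k g * J.card) := by
        rw [Finset.mul_sum, Finset.mul_sum]
        exact Finset.sum_le_sum fun g _ => h4 g
      have h6 : J₁ * (J.card * B) ≤ J₁ * ∑ g, min (S g) (k g * J.card) := by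
        calc J₁ * (J.card * B) = J.card * (J₁ * B) := by ring
          _ ≤ J.card * ∑ g, min (S g) (k g * J₁) := Nat.mul_le_mul_left _ hJ
          _ ≤ _ := h5
      exact Nat.le_of_mul_le_mul_left h6 (by omega)
  · rcases Nat.eq_zero_or_pos J.card with h0 | h0
    · rw [Finset.card_eq_zero] at h0
      subst h0
      simp
    · have hc1 : J.card = 1 := by omega
      obtain ⟨a, rfl⟩ := Finset.card_eq_one.1 hc1
      rw [Finset.sum_singleton]
      simpa using h1 a (mem_range.1 (hJN (mem_singleton_self a)))

/-- **Numerical criterion** for lists of pairs and rectangles, with the number `w'` of nonzero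
columns. -/
theorem decomp_critW (L : List Pc) (hL : ∀ p ∈ L, p.free) (w : ℕ) (H : ℕ → ℕ)
    (htot : ∑ j ∈ range w, H j = (L.map Pc.size).sum) (B J₁ w' : ℕ)
    (hB : ∀ i j, i < w → j < w → i ≠ j → H i + H j ≤ 2 * B) (h1 : ∀ j, j < w → H j ≤ FL L 1)
    (hJ : J₁ * B ≤ FL L J₁) (hw' : w' ≤ ((range w).filter fun j => 0 < H j).card)
    (hW : ∀ i, J₁ < i → i ≤ w → (L.map Pc.size).sum ≤ FL L i ∨
      (L.map Pc.size).sum + i ≤ FL L i + w') :
    Decomp L fun j : Fin w => H j := by
  have hFL : ∀ J, ∑ g : Fin L.length, min (L[g].size) (L[g].cap * J) = FL L J := by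
    intro J
    rw [FL, ← Fin.sum_univ_fun_getElem]
    rfl
  have hS : ∑ g : Fin L.length, L[g].size = (L.map Pc.size).sum := by
    rw [← Fin.sum_univ_fun_getElem]; rfl
  obtain ⟨h, hh1, hh2, hh3, hh4⟩ := exists_matrix_critW (ι := Fin L.length)
    (fun g => L[g].size) (fun g => L[g].cap) (fun g => Pc.cap_pos _) w H
    (by rw [htot, hS]) B J₁ w' hB
    (by
      intro j hj
      refine (h1 j hj).trans (le_of_eq ?_)
      rw [← hFL]
      simp only [mul_one])
    (by rw [hFL]; exact hJ) hw'
    (by
      intro i hi hi2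
      rw [hFL, hS]
      exact hW i hi hi2)
  refine decomp_of_matrix L w H h (fun g => ?_) hh4
  have hfree := hL _ (List.getElem_mem g.2)
  have h5 := hh1 g
  have h6 := hh2 g
  rw [← Fin.sum_univ_eq_sum_range (fun j => h g j) w] at h6
  have key : ∀ p : Pc, p.free → (∀ j, h g j ≤ p.cap) → ∑ j : Fin w, h g j = p.size →
      RowOK p fun j : Fin w => h g j := by
    intro p hp h7 h8
    cases p with
    | pair c => exact ⟨fun j => h7 j, h8⟩
    | rect c k => exact ⟨fun j => h7 j, h8⟩
    | dup c => exact absurd hp (by simp [Pc.free])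
    | gap c => exact absurd hp (by simp [Pc.free])
  exact key _ hfree h5 h6

theorem FL_mono (L : List Pc) {i j : ℕ} (h : i ≤ j) : FL L i ≤ FL L j := by
  unfold FL
  apply List.sum_le_sum
  intro p _
  exact min_le_min_left _ (Nat.mul_le_mul_left _ h)

/-- tops of pairs decreasing with gaps at least two -/
def Gaps : List ℕ → Prop
  | [] => True
  | c :: cs => 1 ≤ c ∧ (∀ d ∈ cs, d + 2 ≤ c) ∧ Gaps cs

/-- number of cells not covered by `J` columns: at most `k (k+1) / 2` for pairs with tops
at most `2 J + k`. -/
theorem FL_pairs_defect (cs : List ℕ) (hcs : Gaps cs) (J k : ℕ) (hk : ∀ c ∈ cs, c ≤ 2 * J + k) :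
    ((cs.map Pc.pair).map Pc.size).sum ≤ FL (cs.map Pc.pair) J + k * (k + 1) / 2 := by
  induction cs generalizing k with
  | nil => simp
  | cons c cs ih =>
    obtain ⟨h1, h2, h3⟩ := hcs
    have hc := hk c (by simp)
    simp only [List.map_cons, List.sum_cons, FL_cons]
    rcases Nat.lt_or_ge (2 * J) c with h | h
    · -- this pair has defect `2 k' - 1`, `k' = c - 2 J`
      obtain ⟨m, rfl⟩ : ∃ m, c = 2 * J + (m + 1) := ⟨c - 2 * J - 1, by omega⟩
      have hmk : m + 1 ≤ k := by omega
      have ih' := ih h3 (m + 1 - 2) (by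
        intro d hd
        have := h2 d hd
        omega)
      have hmin : min (Pc.pair (2 * J + (m + 1))).size ((Pc.pair (2 * J + (m + 1))).cap * J)
          = 4 * J := by
        simp only [Pc.size, Pc.cap]
        omega
      have hsz : (Pc.pair (2 * J + (m + 1))).size = 4 * J + (2 * m + 1) := by
        simp only [Pc.size]
        omega
      rw [hmin, hsz]
      have e1 : (m + 1) * (m + 1 + 1) / 2 ≤ k * (k + 1) / 2 :=
        Nat.div_le_div_right (Nat.mul_le_mul hmk (by omega))
      have e2 : (2 * m + 1) + (m + 1 - 2) * (m + 1 - 2 + 1) / 2 = (m + 1) * (m + 1 + 1) / 2 := by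
        rcases m with _ | m
        · norm_num
        · have : m + 1 + 1 - 2 = m := by omega
          rw [this]
          have e3 : (m + 1 + 1) * (m + 1 + 1 + 1) = m * (m + 1) + 2 * (2 * (m + 1) + 1) := by ring
          rw [e3, Nat.add_mul_div_left _ _ (by norm_num)]
          ring
      omega
    · have ih' := ih h3 k (by
        intro d hd
        exact hk d (by simp [hd]))
      have hmin : min (Pc.pair c).size ((Pc.pair c).cap * J) = (Pc.pair c).size := by
        simp only [Pc.size, Pc.cap]
        omega
      rw [hmin]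
      omega

end Crest.Agent.R195
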