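import Crest.Agent.R195.CertShape
import Crest.Agent.R195.Mix

/-! Row 195 (helper563).  Packaged rules for `S0298`, on top of `HasShape`/`OccSh` (CertShape.lean):

* `FixSizes.blocks_fixed`: vectors fixed by several disjoint blocks, from dominance;
* `occSh_hh`, `full_hook` (RULE 1: the inner shape `κ` is full);
* `occSh_hh_ee`, `occSh_hh_hh`, `full_hook_hook` (RULE 2: only `κ₂`, two layers down, is full). -/

set_option autoImplicit false
set_option linter.unusedSectionVars false
set_option linter.unusedDecidableInType false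

namespace Crest.Agent.R195

open Finset Function

section shape

variable {T : Type*} [Fintype T] [DecidableEq T] {U : Type*} [AddCommGroup U] [Module ℂ U]

/-! ### Fixed vectors for prescribed disjoint blocks -/

theorem sum_le_sum_range_of_antitone {q : ℕ → ℕ} (hq : Antitone q) (s : Finset ℕ) :
    ∑ i ∈ s, q i ≤ ∑ i ∈ range s.card, q i := by
  induction s using Finset.induction_on_max with
  | empty => simp
  | insert m s hm ih =>
    have hms : m ∉ s := fun h => lt_irrefl _ (hm m h)
    rw [Finset.sum_insert hms, Finset.card_insert_of_notMem hms, Finset.sum_range_succ]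
    have hle : s.card ≤ m := by
      have h1 : s ⊆ range m := fun x hx => Finset.mem_range.2 (hm x hx)
      simpa using Finset.card_le_card h1
    have := hq hle
    omega

theorem sum_rowLen_le_card (μ : YoungDiagram) (k : ℕ) : ∑ l ∈ range k, μ.rowLen l ≤ μ.card := by
  classical
  have h1 : ∑ l ∈ range k, μ.rowLen l = (μ.cells.filter fun c => c.1 < k).card := by
    rw [Finset.card_eq_sum_card_fiberwise (f := Prod.fst) (t := range k)]
    · refine Finset.sum_congr rfl fun l hl => ?_
      rw [YoungDiagram.rowLen_eq_card]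
      congr 1
      ext c
      rw [YoungDiagram.mem_row_iff, Finset.mem_filter, Finset.mem_filter, YoungDiagram.mem_cells]
      constructor
      · rintro ⟨h1, h2⟩
        exact ⟨⟨h1, by rw [h2]; exact Finset.mem_range.1 hl⟩, h2⟩
      · rintro ⟨⟨h1, -⟩, h2⟩
        exact ⟨h1, h2⟩
    · intro c hc
      simpa using (Finset.mem_filter.1 hc).2
  rw [h1]
  exact Finset.card_filter_le _ _

theorem sum_rowLen_eq_card {μ : YoungDiagram} {k : ℕ} (hk : μ.rowLen k = 0) :
    ∑ l ∈ range k, μ.rowLen l = μ.card := by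
  classical
  have h1 : ∑ l ∈ range k, μ.rowLen l = (μ.cells.filter fun c => c.1 < k).card := by
    rw [Finset.card_eq_sum_card_fiberwise (f := Prod.fst) (t := range k)]
    · refine Finset.sum_congr rfl fun l hl => ?_
      rw [YoungDiagram.rowLen_eq_card]
      congr 1
      ext c
      rw [YoungDiagram.mem_row_iff, Finset.mem_filter, Finset.mem_filter, YoungDiagram.mem_cells]
      constructor
      · rintro ⟨h1, h2⟩
        exact ⟨⟨h1, by rw [h2]; exact Finset.mem_range.1 hl⟩, h2⟩
      · rintro ⟨⟨h1, -⟩, h2⟩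
        exact ⟨h1, h2⟩
    · intro c hc
      simpa using (Finset.mem_filter.1 hc).2
  rw [h1, Finset.filter_true_of_mem]
  intro c hc
  by_contra hcon
  have h2 : (k, c.2) ∈ μ := μ.isLowerSet (a := c) (b := (k, c.2)) ⟨not_lt.1 hcon, le_rfl⟩ hc
  have h3 := YoungDiagram.mem_iff_lt_rowLen.1 h2
  omega

theorem min_le_sum_rowLen (μ : YoungDiagram) (k b : ℕ) :
    min μ.card ((∑ l ∈ range k, μ.rowLen l) + b) ≤ ∑ l ∈ range (k + b), μ.rowLen l := by
  induction b with
  | zero => simp
  | succ b ih =>
    rw [← add_assoc k b 1, Finset.sum_range_succ]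
    rcases Nat.eq_zero_or_pos (μ.rowLen (k + b)) with h0 | h0
    · rw [sum_rowLen_eq_card h0]; omega
    · omega

/-- Vectors fixed by the permutations of several disjoint blocks, from dominance. -/
theorem FixSizes.blocks_fixed {ρ : Representation ℂ (Equiv.Perm T) U} {μ : YoungDiagram}
    (h : FixSizes ρ μ.rowLen) (hcard : μ.card = Fintype.card T) {r : ℕ} (K : Fin r → Finset T)
    (hK : ∀ i j, i ≠ j → Disjoint (K i) (K j)) {q : ℕ → ℕ} (hq : Antitone q)
    (hKq : ∀ i, (K i).card ≤ q i) (hdom : ∀ j, j ≤ r → ∑ i ∈ range j, q i ≤ ∑ i ∈ range j, μ.rowLen i) :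
    ∃ w : U, w ≠ 0 ∧ ∀ i, ∀ x ∈ K i, ∀ y ∈ K i, ρ (Equiv.swap x y) w = w := by
  classical
  let c' : T → Fin r ⊕ T := fun t => if h : ∃ i, t ∈ K i then Sum.inl h.choose else Sum.inr t
  have hc1 : ∀ i, ∀ t ∈ K i, c' t = Sum.inl i := by
    intro i t ht
    have hex : ∃ i, t ∈ K i := ⟨i, ht⟩
    have h1 : c' t = Sum.inl hex.choose := dif_pos hex
    rw [h1]
    congr 1
    by_contra hne
    exact (Finset.disjoint_left.1 (hK _ _ hne) hex.choose_spec) ht
  have hc2 : ∀ t i, c' t = Sum.inl i → t ∈ K i := by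
    intro t i hti
    by_cases hex : ∃ i, t ∈ K i
    · have h1 : c' t = Sum.inl hex.choose := dif_pos hex
      rw [h1] at hti
      rw [← Sum.inl.inj hti]
      exact hex.choose_spec
    · have h1 : c' t = Sum.inr t := dif_neg hex
      rw [h1] at hti
      exact absurd hti (by simp)
  have hc3 : ∀ t s, c' t = Sum.inr s → t = s := by
    intro t s hts
    by_cases hex : ∃ i, t ∈ K i
    · have h1 : c' t = Sum.inl hex.choose := dif_pos hex
      rw [h1] at hts
      exact absurd hts (by simp)
    · have h1 : c' t = Sum.inr t := dif_neg hex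
      rw [h1] at hts
      exact Sum.inr.inj hts
  obtain ⟨w, hw, hfix⟩ := h.fixed_of_dominates c' (fun J => by
    set A : Finset (Fin r) := univ.filter fun i => Sum.inl i ∈ J with hA
    set B : Finset T := univ.filter fun t => Sum.inr t ∈ J with hB
    have hJ : J.card = A.card + B.card := by
      have h1 : J = A.image Sum.inl ∪ B.image Sum.inr := by
        ext x
        simp only [hA, hB, mem_union, mem_image, mem_filter, mem_univ, true_and]
        constructor
        · intro hx
          rcases x with i | t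
          · left; exact ⟨i, hx, rfl⟩
          · right; exact ⟨t, hx, rfl⟩
        · rintro (⟨i, hi, rfl⟩ | ⟨t, ht, rfl⟩)
          · exact hi
          · exact ht
      rw [h1, Finset.card_union_of_disjoint, Finset.card_image_of_injective _ Sum.inl_injective,
        Finset.card_image_of_injective _ Sum.inr_injective]
      rw [Finset.disjoint_left]
      intro x hx hx'
      obtain ⟨i, -, rfl⟩ := mem_image.1 hx
      obtain ⟨t, -, ht⟩ := mem_image.1 hx'
      exact absurd ht (by simp)
    have hle1 : (univ.filter fun t => c' t ∈ J).card ≤ μ.card := by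
      rw [hcard, ← Finset.card_univ]
      exact Finset.card_le_card (Finset.filter_subset _ _)
    have hle2 : (univ.filter fun t => c' t ∈ J).card ≤ (∑ l ∈ range A.card, μ.rowLen l) + B.card := by
      have h1 : (univ.filter fun t => c' t ∈ J) ⊆ (A.biUnion K) ∪ B := by
        intro t ht
        rw [mem_filter] at ht
        rcases hct : c' t with i | s
        · rw [hct] at ht
          exact mem_union_left _ (mem_biUnion.2 ⟨i, by simp [hA, ht.2], hc2 t i hct⟩)
        · rw [hct] at ht
          rw [hc3 t s hct]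
          exact mem_union_right _ (by simp [hB, ht.2])
      have h2 : (A.biUnion K).card ≤ ∑ i ∈ A, q i :=
        le_trans Finset.card_biUnion_le (Finset.sum_le_sum fun i _ => hKq i)
      have h3 : ∑ i ∈ A, q i ≤ ∑ i ∈ range A.card, q i := by
        have h4 := sum_le_sum_range_of_antitone hq (A.image (fun i : Fin r => (i : ℕ)))
        rw [Finset.card_image_of_injective _ Fin.val_injective,
          Finset.sum_image (fun x _ y _ hxy => Fin.val_injective hxy)] at h4
        exact h4
      have h5 := hdom A.card (by simpa using Finset.card_le_univ A)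
      have h6 := Finset.card_le_card h1
      have h7 := Finset.card_union_le (A.biUnion K) B
      omega
    rw [hJ]
    have h8 := min_le_sum_rowLen μ A.card B.card
    omega)
  refine ⟨w, hw, fun i x hx y hy => hfix x y ?_⟩
  rw [hc1 i x hx, hc1 i y hy]

end shape

/-! ### Rules -/

theorem card_transpose' (μ : YoungDiagram) : μ.transpose.card = μ.card := by
  show μ.transpose.cells.card = μ.cells.card
  rw [transpose_cells, card_image_swap]

/-- Hook step: long first two rows (`κ` full). -/
theorem occSh_hh {p : ℕ} {κ : YoungDiagram} (ok : HookOK p κ) (hfull : Full κ.cells κ.cells)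
    {μ : YoungDiagram} (hμ : μ.card = p + (p - 1) + κ.card)
    (h1 : 2 * p - 1 ≤ μ.rowLen 0 + μ.rowLen 1) :
    OccSh (hookS p κ.cells) (hookS p κ.cells) μ := by
  classical
  intro T _ _ W _ _ ρ hs
  have hp := ok.hp
  have hanti : μ.rowLen 1 ≤ μ.rowLen 0 := μ.rowLen_anti 0 1 (by norm_num)
  have hT : Fintype.card T = p + (p - 1) + κ.card := by rw [← hs.card, hμ]
  obtain ⟨K₁, -, hK₁⟩ := Finset.exists_subset_card_eq (s := (univ : Finset T)) (n := p)
    (by rw [card_univ, hT]; omega)
  obtain ⟨K₂, hK₂s, hK₂⟩ := Finset.exists_subset_card_eq (s := (univ \ K₁ : Finset T)) (n := p - 1)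
    (by rw [card_sdiff_of_subset (subset_univ _), card_univ, hT, hK₁]; omega)
  have hdis : Disjoint K₁ K₂ := by
    rw [Finset.disjoint_left]
    intro x hx hx2
    exact (mem_sdiff.1 (hK₂s hx2)).2 hx
  obtain ⟨w, hw, hfix⟩ := hs.fixSizes.blocks_fixed hs.card (r := 2) ![K₁, K₂] (by
      intro i j hij
      fin_cases i <;> fin_cases j <;> first | exact absurd rfl hij | exact hdis | exact hdis.symm)
    (q := fun i => if i = 0 then p else if i = 1 then p - 1 else 0) (by
      intro a b hab
      simp only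
      split_ifs <;> omega)
    (by
      intro i
      fin_cases i
      · simp [hK₁]
      · simp [hK₂])
    (by
      intro j hj
      interval_cases j
      · simp
      · rw [Finset.sum_range_one, Finset.sum_range_one]
        simp only [if_true]
        omega
      · rw [Finset.sum_range_succ, Finset.sum_range_one, Finset.sum_range_succ, Finset.sum_range_one]
        simp only [if_true, if_false, one_ne_zero]
        omega)
  exact hook_full' ok hfull hT K₁ K₂ hdis hK₁ hK₂ ρ w hw (hfix 0) (hfix 1)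

/-- **RULE 1.**  If `κ` is self-conjugate and full and every `μ` which is short in both directions
is covered (up to transposition), then `κ` surrounded by the hook is full. -/
theorem full_hook {p : ℕ} {κ : YoungDiagram} (ok : HookOK p κ)
    (hsym : κ.cells.image Prod.swap = κ.cells) (hfull : Full κ.cells κ.cells)
    (hcov : ∀ μ : YoungDiagram, μ.card = p + (p - 1) + κ.card →
      μ.rowLen 0 + μ.rowLen 1 ≤ 2 * p - 2 → μ.colLen 0 + μ.colLen 1 ≤ 2 * p - 2 →
      OccSh (hookS p κ.cells) (hookS p κ.cells) μ ∨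
        OccSh (hookS p κ.cells) (hookS p κ.cells) μ.transpose) :
    Full (hookS p κ.cells) (hookS p κ.cells) := by
  have hp := ok.hp
  have hself := hookS_swap (p := p) hsym
  refine full_of_occSh fun μ hμ => ?_
  rw [card_hookS] at hμ
  have hμ' : μ.card = p + (p - 1) + κ.card := hμ
  by_cases h1 : 2 * p - 1 ≤ μ.rowLen 0 + μ.rowLen 1
  · exact occSh_hh ok hfull hμ' h1
  by_cases h2 : 2 * p - 1 ≤ μ.colLen 0 + μ.colLen 1
  · refine OccSh.of_transpose hself (occSh_hh ok hfull ?_ ?_)
    · rw [card_transpose', hμ']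
    · rw [YoungDiagram.rowLen_transpose, YoungDiagram.rowLen_transpose]; exact h2
  rcases hcov μ hμ' (by omega) (by omega) with h | h
  · exact h
  · exact OccSh.of_transpose hself h

/-- the numbers of boxes in the two layers -/
theorem card_of_layer {p₂ : ℕ} {κ₂ κ : YoungDiagram} (hκ : κ.cells = hookS p₂ κ₂.cells) :
    κ.card = p₂ + (p₂ - 1) + κ₂.card := by
  show κ.cells.card = _
  rw [hκ, card_hookS]

/-- two layers, two long rows and two long columns -/
theorem occSh_hh_ee {p p₂ : ℕ} {κ₂ κ : YoungDiagram} (hκ : κ.cells = hookS p₂ κ₂.cells)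
    (ok : HookOK p κ) (ok₂ : HookOK p₂ κ₂) (hs : κ.cells.image Prod.swap = κ.cells)
    (hfull : Full κ₂.cells κ₂.cells) (hp2 : p₂ + 2 ≤ p)
    {μ : YoungDiagram} (hμ : μ.card = p + (p - 1) + κ.card)
    (hr : 2 * p - 1 ≤ μ.rowLen 0 + μ.rowLen 1) (hc : 2 * p - 1 ≤ μ.colLen 0 + μ.colLen 1) :
    OccSh (hookS p κ.cells) (hookS p κ.cells) μ := by
  intro T _ _ W _ _ ρ hsh
  have hT : Fintype.card T = p + (p - 1) + (p₂ + (p₂ - 1) + κ₂.card) := by
    rw [← hsh.card, hμ, card_of_layer hκ]
  obtain ⟨e, w, hw, hne⟩ := hsh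
  exact occ_of_mix hκ ok ok₂ hs hfull hT hp2 ρ e hw hne hr hc

/-- two layers, four long rows -/
theorem occSh_hh_hh {p p₂ : ℕ} {κ₂ κ : YoungDiagram} (hκ : κ.cells = hookS p₂ κ₂.cells)
    (ok : HookOK p κ) (ok₂ : HookOK p₂ κ₂) (hfull : Full κ₂.cells κ₂.cells)
    (hp2 : p₂ + 1 ≤ p)
    {μ : YoungDiagram} (hμ : μ.card = p + (p - 1) + κ.card)
    (h1 : 2 * p - 1 ≤ μ.rowLen 0 + μ.rowLen 1)
    (h2 : 2 * p - 1 + p₂ ≤ μ.rowLen 0 + μ.rowLen 1 + μ.rowLen 2)
    (h3 : 2 * p - 1 + (2 * p₂ - 1) ≤ μ.rowLen 0 + μ.rowLen 1 + μ.rowLen 2 + μ.rowLen 3) :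
    OccSh (hookS p κ.cells) (hookS p κ.cells) μ := by
  classical
  intro T _ _ W _ _ ρ hs
  have hp := ok.hp
  have hp₂ := ok₂.hp
  have hanti : μ.rowLen 1 ≤ μ.rowLen 0 := μ.rowLen_anti 0 1 (by norm_num)
  have hT : Fintype.card T = p + (p - 1) + (p₂ + (p₂ - 1) + κ₂.card) := by
    rw [← hs.card, hμ, card_of_layer hκ]
  obtain ⟨K₁, -, hK₁⟩ := Finset.exists_subset_card_eq (s := (univ : Finset T)) (n := p)
    (by rw [card_univ, hT]; omega)
  obtain ⟨K₂, hK₂s, hK₂⟩ := Finset.exists_subset_card_eq (s := (univ \ K₁ : Finset T)) (n := p - 1)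
    (by rw [card_sdiff_of_subset (subset_univ _), card_univ, hT, hK₁]; omega)
  have h12 : Disjoint K₁ K₂ := by
    rw [Finset.disjoint_left]
    intro x hx hx2
    exact (mem_sdiff.1 (hK₂s hx2)).2 hx
  have hc12 : (K₁ ∪ K₂).card = p + (p - 1) := by
    rw [card_union_of_disjoint h12, hK₁, hK₂]
  obtain ⟨K₃, hK₃s, hK₃⟩ := Finset.exists_subset_card_eq (s := (univ \ (K₁ ∪ K₂) : Finset T))
    (n := p₂) (by rw [card_sdiff_of_subset (subset_univ _), card_univ, hT, hc12]; omega)
  have h123 : Disjoint (K₁ ∪ K₂) K₃ := by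
    rw [Finset.disjoint_left]
    intro x hx hx2
    exact (mem_sdiff.1 (hK₃s hx2)).2 hx
  have hc123 : ((K₁ ∪ K₂) ∪ K₃).card = p + (p - 1) + p₂ := by
    rw [card_union_of_disjoint h123, hc12, hK₃]
  obtain ⟨K₄, hK₄s, hK₄⟩ := Finset.exists_subset_card_eq
    (s := (univ \ ((K₁ ∪ K₂) ∪ K₃) : Finset T)) (n := p₂ - 1)
    (by rw [card_sdiff_of_subset (subset_univ _), card_univ, hT, hc123]; omega)
  have h1234 : Disjoint ((K₁ ∪ K₂) ∪ K₃) K₄ := by
    rw [Finset.disjoint_left]
    intro x hx hx2
    exact (mem_sdiff.1 (hK₄s hx2)).2 hx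
  rw [disjoint_union_left] at h123 h1234
  have h1234' := h1234.1
  rw [disjoint_union_left] at h1234'
  have d13 := h123.1
  have d23 := h123.2
  have d14 := h1234'.1
  have d24 := h1234'.2
  have d34 := h1234.2
  obtain ⟨w, hw, hfix⟩ := hs.fixSizes.blocks_fixed hs.card (r := 4) ![K₁, K₂, K₃, K₄] (by
      intro i j hij
      fin_cases i <;> fin_cases j <;>
        first
          | exact absurd rfl hij
          | exact h12
          | exact h12.symm
          | exact d13
          | exact d13.symm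
          | exact d23
          | exact d23.symm
          | exact d14
          | exact d14.symm
          | exact d24
          | exact d24.symm
          | exact d34
          | exact d34.symm)
    (q := fun i => if i = 0 then p else if i = 1 then p - 1 else if i = 2 then p₂ else
      if i = 3 then p₂ - 1 else 0) (by
      intro a b hab
      simp only
      split_ifs <;> omega)
    (by
      intro i
      fin_cases i
      · simp [hK₁]
      · simp [hK₂]
      · simp [hK₃]
      · simp [hK₄])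
    (by
      intro j hj
      interval_cases j
      · simp
      · simp only [Finset.sum_range_succ, Finset.sum_range_zero, if_true]
        omega
      · simp only [Finset.sum_range_succ, Finset.sum_range_zero, if_true, if_false, one_ne_zero]
        omega
      · simp only [Finset.sum_range_succ, Finset.sum_range_zero, if_true, if_false, one_ne_zero,
          OfNat.ofNat_ne_zero, OfNat.ofNat_ne_one]
        omega
      · simp only [Finset.sum_range_succ, Finset.sum_range_zero, if_true, if_false, one_ne_zero,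
          OfNat.ofNat_ne_zero, OfNat.ofNat_ne_one, Nat.reduceEqDiff]
        omega)
  have f1 : ∀ x ∈ K₁, ∀ y ∈ K₁, ρ (Equiv.swap x y) w = w := hfix 0
  have f2 : ∀ x ∈ K₂, ∀ y ∈ K₂, ρ (Equiv.swap x y) w = w := hfix 1
  have f3 : ∀ x ∈ K₃, ∀ y ∈ K₃, ρ (Equiv.swap x y) w = w := hfix 2
  have f4 : ∀ x ∈ K₄, ∀ y ∈ K₄, ρ (Equiv.swap x y) w = w := hfix 3
  exact hh_hh hκ ok ok₂ hfull hT K₁ K₂ K₃ K₄ h12 d34
    (by
      rw [disjoint_union_left, disjoint_union_right, disjoint_union_right]
      exact ⟨⟨d13, d14⟩, ⟨d23, d24⟩⟩)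
    hK₁ hK₂ hK₃ hK₄ ρ w hw f1 f2 (fun x hx y hy _ => f3 x hx y hy) (fun x hx y hy _ => f4 x hx y hy)

/-- **RULE 2.**  Two layers `p`, `p₂` around a full `κ₂`; every `μ` with short columns
(`colLen 0 + colLen 1 ≤ 2 p - 2`) whose first four rows are not long has to be covered. -/
theorem full_hook_hook {p p₂ : ℕ} {κ₂ κ : YoungDiagram} (hκ : κ.cells = hookS p₂ κ₂.cells)
    (ok : HookOK p κ) (ok₂ : HookOK p₂ κ₂) (hs : κ.cells.image Prod.swap = κ.cells)
    (hfull : Full κ₂.cells κ₂.cells) (hp2 : p₂ + 2 ≤ p)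
    (hcov : ∀ μ : YoungDiagram, μ.card = p + (p - 1) + κ.card →
      μ.colLen 0 + μ.colLen 1 ≤ 2 * p - 2 →
      ¬ (2 * p - 1 ≤ μ.rowLen 0 + μ.rowLen 1 ∧
        2 * p - 1 + p₂ ≤ μ.rowLen 0 + μ.rowLen 1 + μ.rowLen 2 ∧
        2 * p - 1 + (2 * p₂ - 1) ≤ μ.rowLen 0 + μ.rowLen 1 + μ.rowLen 2 + μ.rowLen 3) →
      OccSh (hookS p κ.cells) (hookS p κ.cells) μ ∨
        OccSh (hookS p κ.cells) (hookS p κ.cells) μ.transpose) :
    Full (hookS p κ.cells) (hookS p κ.cells) := by
  have hp := ok.hp
  have hself := hookS_swap (p := p) hs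
  have key : ∀ μ : YoungDiagram, μ.card = p + (p - 1) + κ.card →
      μ.colLen 0 + μ.colLen 1 ≤ 2 * p - 2 → OccSh (hookS p κ.cells) (hookS p κ.cells) μ := by
    intro μ hμ h1
    by_cases h4 : (2 * p - 1 ≤ μ.rowLen 0 + μ.rowLen 1 ∧
        2 * p - 1 + p₂ ≤ μ.rowLen 0 + μ.rowLen 1 + μ.rowLen 2 ∧
        2 * p - 1 + (2 * p₂ - 1) ≤ μ.rowLen 0 + μ.rowLen 1 + μ.rowLen 2 + μ.rowLen 3)
    · exact occSh_hh_hh hκ ok ok₂ hfull (by omega) hμ h4.1 h4.2.1 h4.2.2
    · rcases hcov μ hμ h1 h4 with h | h
      · exact h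
      · exact OccSh.of_transpose hself h
  refine full_of_occSh fun μ hμ => ?_
  rw [card_hookS] at hμ
  have hμ' : μ.card = p + (p - 1) + κ.card := hμ
  by_cases h1 : μ.colLen 0 + μ.colLen 1 ≤ 2 * p - 2
  · exact key μ hμ' h1
  by_cases h2 : μ.rowLen 0 + μ.rowLen 1 ≤ 2 * p - 2
  · refine OccSh.of_transpose hself (key μ.transpose ?_ ?_)
    · rw [card_transpose', hμ']
    · rw [YoungDiagram.colLen_transpose, YoungDiagram.colLen_transpose]; exact h2
  exact occSh_hh_ee hκ ok ok₂ hs hfull hp2 hμ' (by omega) (by omega)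

end Crest.Agent.R195
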