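import Crest.Agent.R195.TreeFin

set_option autoImplicit false
set_option maxHeartbeats 2000000

namespace Crest.Agent.R195

/-! hook list [5, 3], n = 14: 10 nodes, 0 commitments -/

def ls_5_3 : List (List Pc) :=
  [[.pair 5, .dup 2, .rect 1 1]]

def sp_5_3 : List (ℕ × List ℕ) :=
  [(0, [0, 2, 1])]

def spC_5_3 : List (List (ℕ × ℕ)) :=
  [[(9, 4), (5, 2), (0, 1)]]

def cm_5_3_0 : List CM :=
  []

def cmC_5_3_0 : List (List ℕ × List (ℕ × ℕ)) :=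
  []

def cm_5_3 : List CM :=
  cm_5_3_0

def cmC_5_3 : List (List ℕ × List (ℕ × ℕ)) :=
  cmC_5_3_0

set_option Elab.async false in
theorem covH_5_3 : CovH [5, 3] :=
  covH_of_tree (by decide) ls_5_3 sp_5_3 cm_5_3 spC_5_3 cmC_5_3 99 (by decide +kernel) (by decide +kernel)
    (by decide +kernel) (by decide +kernel) (by decide +kernel) (by decide +kernel)


/-! hook list [6, 4, 1], n = 19: 14 nodes, 0 commitments -/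

def ls_6_4_1 : List (List Pc) :=
  [[.pair 6, .rect 3 1, .dup 2, .rect 1 1]]

def sp_6_4_1 : List (ℕ × List ℕ) :=
  [(0, [0, 0, 2, 1])]

def spC_6_4_1 : List (List (ℕ × ℕ)) :=
  [[(11, 4), (3, 1), (5, 2), (0, 1)]]

def cm_6_4_1_0 : List CM :=
  []

def cmC_6_4_1_0 : List (List ℕ × List (ℕ × ℕ)) :=
  []

def cm_6_4_1 : List CM :=
  cm_6_4_1_0

def cmC_6_4_1 : List (List ℕ × List (ℕ × ℕ)) :=
  cmC_6_4_1_0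

set_option Elab.async false in
theorem covH_6_4_1 : CovH [6, 4, 1] :=
  covH_of_tree (by decide) ls_6_4_1 sp_6_4_1 cm_6_4_1 spC_6_4_1 cmC_6_4_1 99 (by decide +kernel) (by decide +kernel)
    (by decide +kernel) (by decide +kernel) (by decide +kernel) (by decide +kernel)


/-! hook list [6, 4, 2, 1], n = 22: 12 nodes, 0 commitments -/

def ls_6_4_2_1 : List (List Pc) :=
  [[.pair 6, .dup 4, .pair 2]]

def sp_6_4_2_1 : List (ℕ × List ℕ) :=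
  [(0, [0, 4, 3])]

def spC_6_4_2_1 : List (List (ℕ × ℕ)) :=
  [[(11, 4), (11, 4), (0, 1)]]

def cm_6_4_2_1_0 : List CM :=
  []

def cmC_6_4_2_1_0 : List (List ℕ × List (ℕ × ℕ)) :=
  []

def cm_6_4_2_1 : List CM :=
  cm_6_4_2_1_0

def cmC_6_4_2_1 : List (List ℕ × List (ℕ × ℕ)) :=
  cmC_6_4_2_1_0

set_option Elab.async false in
theorem covH_6_4_2_1 : CovH [6, 4, 2, 1] :=
  covH_of_tree (by decide) ls_6_4_2_1 sp_6_4_2_1 cm_6_4_2_1 spC_6_4_2_1 cmC_6_4_2_1 99 (by decide +kernel) (by decide +kernel)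
    (by decide +kernel) (by decide +kernel) (by decide +kernel) (by decide +kernel)


/-! hook list [7, 4, 2], n = 23: 69 nodes, 18 commitments -/

def ls_7_4_2 : List (List Pc) :=
  [[.rect 7 1, .pair 5, .pair 3, .dup 1],
   [.gap 7, .pair 4, .rect 2 1, .dup 1]]

def sp_7_4_2 : List (ℕ × List ℕ) :=
  [(0, [0, 0, 0, 1])]

def spC_7_4_2 : List (List (ℕ × ℕ)) :=
  [[(7, 1), (9, 4), (5, 4), (2, 1)]]

def cm_7_4_2_0 : List CM :=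
  [⟨[6, 6, 6, 3], 1, [([4, 4, 2, 2], (.ev, 0)), ([0, 2, 2, 1], (.pl 4, 2)), ([1, 0, 1, 0], (.pl 1, 0)), ([1, 0, 1, 0], (.ev, 0))], [1, 0, 0, 1]⟩,
   ⟨[6, 6, 6, 2], 1, [([4, 4, 2, 2], (.ev, 0)), ([0, 2, 2, 0], (.pl 4, 3)), ([1, 0, 1, 0], (.pl 1, 0)), ([1, 0, 1, 0], (.ev, 0))], [1, 0, 0, 1]⟩,
   ⟨[6, 6, 5, 4], 1, [([4, 4, 2, 2], (.ev, 0)), ([0, 2, 2, 1], (.pl 4, 2)), ([1, 0, 0, 1], (.pl 1, 0)), ([1, 0, 1, 0], (.ev, 0))], [1, 0, 0, 1]⟩,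
   ⟨[6, 6, 5, 3], 1, [([4, 4, 2, 2], (.ev, 0)), ([0, 2, 2, 0], (.pl 4, 3)), ([1, 0, 0, 1], (.pl 1, 0)), ([1, 0, 1, 0], (.ev, 0))], [1, 0, 0, 1]⟩,
   ⟨[6, 6, 5, 2], 1, [([4, 4, 2, 2], (.ev, 0)), ([0, 2, 2, 0], (.pl 4, 3)), ([1, 0, 0, 0], (.pl 1, 1)), ([1, 0, 1, 0], (.ev, 0))], [1, 0, 0, 1]⟩,
   ⟨[6, 6, 4, 4], 1, [([4, 4, 2, 2], (.ev, 0)), ([0, 1, 2, 1], (.pl 4, 3)), ([1, 0, 0, 1], (.pl 1, 0)), ([1, 1, 0, 0], (.ev, 0))], [1, 0, 0, 1]⟩,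
   ⟨[6, 6, 4, 3], 1, [([4, 4, 2, 2], (.ev, 0)), ([0, 1, 2, 1], (.pl 4, 3)), ([1, 0, 0, 0], (.pl 1, 1)), ([1, 1, 0, 0], (.ev, 0))], [1, 0, 0, 1]⟩,
   ⟨[6, 6, 3, 3], 1, [([4, 4, 2, 2], (.ev, 0)), ([0, 1, 1, 1], (.pl 4, 4)), ([1, 0, 0, 0], (.pl 1, 1)), ([1, 1, 0, 0], (.ev, 0))], [1, 0, 0, 1]⟩,
   ⟨[6, 5, 5, 5], 1, [([4, 4, 2, 2], (.ev, 0)), ([1, 1, 2, 1], (.pl 4, 2)), ([1, 0, 0, 1], (.pl 1, 0)), ([0, 0, 1, 1], (.ev, 0))], [1, 0, 0, 1]⟩,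
   ⟨[6, 5, 5, 4], 1, [([4, 4, 2, 2], (.ev, 0)), ([0, 1, 2, 1], (.pl 4, 3)), ([1, 0, 0, 1], (.pl 1, 0)), ([1, 0, 1, 0], (.ev, 0))], [1, 0, 0, 1]⟩,
   ⟨[6, 5, 5, 3], 1, [([4, 4, 2, 2], (.ev, 0)), ([0, 1, 2, 1], (.pl 4, 3)), ([1, 0, 0, 0], (.pl 1, 1)), ([1, 0, 1, 0], (.ev, 0))], [1, 0, 0, 1]⟩,
   ⟨[6, 5, 4, 4], 1, [([4, 4, 2, 2], (.ev, 0)), ([0, 1, 1, 2], (.pl 4, 3)), ([1, 0, 0, 0], (.pl 1, 1)), ([1, 0, 1, 0], (.ev, 0))], [1, 0, 0, 1]⟩,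
   ⟨[6, 5, 4, 3], 1, [([4, 4, 2, 2], (.ev, 0)), ([0, 1, 1, 1], (.pl 4, 4)), ([1, 0, 0, 0], (.pl 1, 1)), ([1, 0, 1, 0], (.ev, 0))], [1, 0, 0, 1]⟩,
   ⟨[6, 5, 3, 3], 1, [([4, 4, 2, 2], (.ev, 0)), ([0, 0, 1, 1], (.pl 4, 5)), ([1, 0, 0, 0], (.pl 1, 1)), ([1, 1, 0, 0], (.ev, 0))], [1, 0, 0, 1]⟩,
   ⟨[6, 4], 1, [([2, 2], (.ev, 8)), ([2, 1], (.pl 4, 4)), ([1, 0], (.pl 1, 1)), ([1, 1], (.ev, 0))], [3, 1, 1, 1]⟩,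
   ⟨[5, 5], 1, [([2, 2], (.ev, 8)), ([1, 2], (.pl 4, 4)), ([1, 0], (.pl 1, 1)), ([1, 1], (.ev, 0))], [4, 2, 1, 1]⟩,
   ⟨[5, 4], 1, [([2, 2], (.ev, 8)), ([1, 1], (.pl 4, 5)), ([1, 0], (.pl 1, 1)), ([1, 1], (.ev, 0))], [3, 1, 1, 1]⟩,
   ⟨[4, 4], 1, [([2, 2], (.ev, 8)), ([0, 1], (.pl 4, 6)), ([1, 0], (.pl 1, 1)), ([1, 1], (.ev, 0))], [3, 1, 1, 1]⟩]

def cmC_7_4_2_0 : List (List ℕ × List (ℕ × ℕ)) :=
  [([6, 6, 6, 3], [(0, 1), (2, 4), (0, 1), (0, 1)]),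
   ([6, 6, 6, 2], [(0, 1), (3, 4), (0, 1), (0, 1)]),
   ([6, 6, 5, 4], [(0, 1), (2, 4), (0, 1), (0, 1)]),
   ([6, 6, 5, 3], [(0, 1), (3, 4), (0, 1), (0, 1)]),
   ([6, 6, 5, 2], [(0, 1), (3, 4), (1, 1), (0, 1)]),
   ([6, 6, 4, 4], [(0, 1), (3, 4), (0, 1), (0, 1)]),
   ([6, 6, 4, 3], [(0, 1), (3, 4), (1, 1), (0, 1)]),
   ([6, 6, 3, 3], [(0, 1), (4, 4), (1, 1), (0, 1)]),
   ([6, 5, 5, 5], [(0, 1), (2, 4), (0, 1), (0, 1)]),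
   ([6, 5, 5, 4], [(0, 1), (3, 4), (0, 1), (0, 1)]),
   ([6, 5, 5, 3], [(0, 1), (3, 4), (1, 1), (0, 1)]),
   ([6, 5, 4, 4], [(0, 1), (3, 4), (1, 1), (0, 1)]),
   ([6, 5, 4, 3], [(0, 1), (4, 4), (1, 1), (0, 1)]),
   ([6, 5, 3, 3], [(0, 1), (5, 4), (1, 1), (0, 1)]),
   ([6, 4], [(10, 3), (3, 3), (0, 1), (0, 1)]),
   ([5, 5], [(11, 4), (2, 2), (0, 1), (0, 1)]),
   ([5, 4], [(10, 3), (4, 3), (0, 1), (0, 1)]),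
   ([4, 4], [(10, 3), (5, 3), (0, 1), (0, 1)])]

def cm_7_4_2 : List CM :=
  cm_7_4_2_0

def cmC_7_4_2 : List (List ℕ × List (ℕ × ℕ)) :=
  cmC_7_4_2_0

set_option Elab.async false in
theorem covH_7_4_2 : CovH [7, 4, 2] :=
  covH_of_tree (by decide) ls_7_4_2 sp_7_4_2 cm_7_4_2 spC_7_4_2 cmC_7_4_2 99 (by decide +kernel) (by decide +kernel)
    (by decide +kernel) (by decide +kernel) (by decide +kernel) (by decide +kernel)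


/-! hook list [7, 5, 2], n = 25: 14 nodes, 0 commitments -/

def ls_7_5_2 : List (List Pc) :=
  [[.pair 7, .pair 4, .dup 2, .rect 1 1]]

def sp_7_5_2 : List (ℕ × List ℕ) :=
  [(0, [0, 1, 3, 1])]

def spC_7_5_2 : List (List (ℕ × ℕ)) :=
  [[(13, 4), (6, 3), (6, 3), (0, 1)]]

def cm_7_5_2_0 : List CM :=
  []

def cmC_7_5_2_0 : List (List ℕ × List (ℕ × ℕ)) :=
  []

def cm_7_5_2 : List CM :=
  cm_7_5_2_0

def cmC_7_5_2 : List (List ℕ × List (ℕ × ℕ)) :=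
  cmC_7_5_2_0

set_option Elab.async false in
theorem covH_7_5_2 : CovH [7, 5, 2] :=
  covH_of_tree (by decide) ls_7_5_2 sp_7_5_2 cm_7_5_2 spC_7_5_2 cmC_7_5_2 99 (by decide +kernel) (by decide +kernel)
    (by decide +kernel) (by decide +kernel) (by decide +kernel) (by decide +kernel)


/-! hook list [7, 5, 2, 1], n = 26: 23 nodes, 1 commitments -/

def ls_7_5_2_1 : List (List Pc) :=
  [[.pair 7, .dup 4, .dup 2, .rect 1 1]]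

def sp_7_5_2_1 : List (ℕ × List ℕ) :=
  [(0, [1, 3, 1, 1])]

def spC_7_5_2_1 : List (List (ℕ × ℕ)) :=
  [[(12, 3), (10, 3), (4, 1), (0, 1)]]

def cm_7_5_2_1_0 : List CM :=
  [⟨[8, 4], 0, [([4, 0], (.pl 4, 9)), ([4, 4], (.ev, 0)), ([0, 0], (.ev, 4)), ([0, 0], (.pl 1, 1))], [0, 1, 1, 0]⟩]

def cmC_7_5_2_1_0 : List (List ℕ × List (ℕ × ℕ)) :=
  [([8, 4], [(9, 4), (0, 1), (4, 1), (1, 1)])]

def cm_7_5_2_1 : List CM :=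
  cm_7_5_2_1_0

def cmC_7_5_2_1 : List (List ℕ × List (ℕ × ℕ)) :=
  cmC_7_5_2_1_0

set_option Elab.async false in
theorem covH_7_5_2_1 : CovH [7, 5, 2, 1] :=
  covH_of_tree (by decide) ls_7_5_2_1 sp_7_5_2_1 cm_7_5_2_1 spC_7_5_2_1 cmC_7_5_2_1 99 (by decide +kernel) (by decide +kernel)
    (by decide +kernel) (by decide +kernel) (by decide +kernel) (by decide +kernel)


/-! hook list [7, 5, 3], n = 27: 16 nodes, 0 commitments -/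

def ls_7_5_3 : List (List Pc) :=
  [[.pair 7, .rect 5 1, .dup 3, .pair 2]]

def sp_7_5_3 : List (ℕ × List ℕ) :=
  [(0, [0, 0, 4, 3])]

def spC_7_5_3 : List (List (ℕ × ℕ)) :=
  [[(13, 4), (5, 1), (9, 4), (0, 1)]]

def cm_7_5_3_0 : List CM :=
  []

def cmC_7_5_3_0 : List (List ℕ × List (ℕ × ℕ)) :=
  []

def cm_7_5_3 : List CM :=
  cm_7_5_3_0

def cmC_7_5_3 : List (List ℕ × List (ℕ × ℕ)) :=
  cmC_7_5_3_0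

set_option Elab.async false in
theorem covH_7_5_3 : CovH [7, 5, 3] :=
  covH_of_tree (by decide) ls_7_5_3 sp_7_5_3 cm_7_5_3 spC_7_5_3 cmC_7_5_3 99 (by decide +kernel) (by decide +kernel)
    (by decide +kernel) (by decide +kernel) (by decide +kernel) (by decide +kernel)


/-! hook list [8, 5, 3, 1], n = 30: 56 nodes, 9 commitments -/

def ls_8_5_3_1 : List (List Pc) :=
  [[.gap 8, .pair 5, .pair 3, .dup 1],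
   [.rect 8 1, .pair 6, .pair 4, .rect 2 1, .dup 1]]

def sp_8_5_3_1 : List (ℕ × List ℕ) :=
  [(0, [3, 1, 3, 1]),
   (1, [0, 0, 0, 0, 1])]

def spC_8_5_3_1 : List (List (ℕ × ℕ)) :=
  [[(18, 3), (8, 3), (2, 1), (2, 1)],
   [(8, 1), (11, 4), (7, 4), (2, 1), (2, 1)]]

def cm_8_5_3_1_0 : List CM :=
  [⟨[7, 7, 7, 6], 0, [([4, 4, 2, 2], (.ev, 2)), ([3, 2, 2, 2], (.pl 4, 0)), ([0, 1, 2, 1], (.pl 4, 1)), ([0, 0, 1, 1], (.ev, 0))], [1, 0, 0, 1]⟩,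
   ⟨[7, 7, 7, 5], 0, [([4, 4, 2, 2], (.ev, 2)), ([2, 3, 2, 1], (.pl 4, 1)), ([0, 0, 2, 2], (.pl 4, 1)), ([1, 0, 1, 0], (.ev, 0))], [1, 0, 0, 1]⟩,
   ⟨[7, 7, 7, 4], 0, [([4, 4, 2, 2], (.ev, 2)), ([2, 3, 2, 1], (.pl 4, 1)), ([0, 0, 2, 1], (.pl 4, 2)), ([1, 0, 1, 0], (.ev, 0))], [1, 0, 0, 1]⟩,
   ⟨[7, 7, 6, 6], 0, [([4, 4, 2, 2], (.ev, 2)), ([3, 2, 2, 1], (.pl 4, 1)), ([0, 1, 1, 2], (.pl 4, 1)), ([0, 0, 1, 1], (.ev, 0))], [1, 0, 0, 1]⟩,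
   ⟨[7, 7, 6, 5], 0, [([4, 4, 2, 2], (.ev, 2)), ([2, 3, 1, 2], (.pl 4, 1)), ([0, 0, 2, 1], (.pl 4, 2)), ([1, 0, 1, 0], (.ev, 0))], [1, 0, 0, 1]⟩,
   ⟨[7, 7, 6, 4], 0, [([4, 4, 2, 2], (.ev, 2)), ([2, 3, 1, 1], (.pl 4, 2)), ([0, 0, 2, 1], (.pl 4, 2)), ([1, 0, 1, 0], (.ev, 0))], [1, 0, 0, 1]⟩,
   ⟨[7, 7, 5, 5], 0, [([4, 4, 2, 2], (.ev, 2)), ([2, 2, 2, 1], (.pl 4, 2)), ([0, 0, 1, 2], (.pl 4, 2)), ([1, 1, 0, 0], (.ev, 0))], [1, 0, 0, 1]⟩,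
   ⟨[7, 6], 0, [([2, 2], (.ev, 10)), ([4, 2], (.pl 4, 3)), ([0, 1], (.pl 4, 4)), ([1, 1], (.ev, 0))], [4, 3, 0, 1]⟩,
   ⟨[6, 6], 0, [([2, 2], (.ev, 10)), ([3, 2], (.pl 4, 4)), ([0, 1], (.pl 4, 4)), ([1, 1], (.ev, 0))], [4, 2, 1, 1]⟩]

def cmC_8_5_3_1_0 : List (List ℕ × List (ℕ × ℕ)) :=
  [([7, 7, 7, 6], [(2, 1), (0, 4), (1, 4), (0, 1)]),
   ([7, 7, 7, 5], [(2, 1), (1, 4), (1, 4), (0, 1)]),
   ([7, 7, 7, 4], [(2, 1), (1, 4), (2, 4), (0, 1)]),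
   ([7, 7, 6, 6], [(2, 1), (1, 4), (1, 4), (0, 1)]),
   ([7, 7, 6, 5], [(2, 1), (1, 4), (2, 4), (0, 1)]),
   ([7, 7, 6, 4], [(2, 1), (2, 4), (2, 4), (0, 1)]),
   ([7, 7, 5, 5], [(2, 1), (2, 4), (2, 4), (0, 1)]),
   ([7, 6], [(13, 4), (0, 1), (4, 4), (0, 1)]),
   ([6, 6], [(13, 4), (2, 2), (3, 3), (0, 1)])]

def cm_8_5_3_1 : List CM :=
  cm_8_5_3_1_0

def cmC_8_5_3_1 : List (List ℕ × List (ℕ × ℕ)) :=
  cmC_8_5_3_1_0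

set_option Elab.async false in
theorem covH_8_5_3_1 : CovH [8, 5, 3, 1] :=
  covH_of_tree (by decide) ls_8_5_3_1 sp_8_5_3_1 cm_8_5_3_1 spC_8_5_3_1 cmC_8_5_3_1 99 (by decide +kernel) (by decide +kernel)
    (by decide +kernel) (by decide +kernel) (by decide +kernel) (by decide +kernel)


/-! hook list [8, 6, 3], n = 31: 30 nodes, 3 commitments -/

def ls_8_6_3 : List (List Pc) :=
  [[.pair 8, .rect 5 1, .dup 3, .dup 2, .rect 1 1]]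

def sp_8_6_3 : List (ℕ × List ℕ) :=
  [(0, [0, 0, 2, 1, 1])]

def spC_8_6_3 : List (List (ℕ × ℕ)) :=
  [[(15, 4), (5, 1), (7, 2), (4, 1), (0, 1)]]

def cm_8_6_3_0 : List CM :=
  [⟨[10, 4], 0, [([4, 0], (.pl 4, 11)), ([1, 0], (.pl 1, 4)), ([3, 3], (.ev, 0)), ([1, 1], (.ev, 2)), ([1, 0], (.pl 1, 0))], [0, 0, 1, 1, 0]⟩,
   ⟨[9, 5], 0, [([3, 0], (.pl 4, 12)), ([1, 0], (.pl 1, 4)), ([3, 3], (.ev, 0)), ([2, 2], (.ev, 0)), ([0, 0], (.pl 1, 1))], [0, 0, 1, 1, 0]⟩,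
   ⟨[9, 4], 0, [([4, 0], (.pl 4, 11)), ([1, 0], (.pl 1, 4)), ([3, 3], (.ev, 0)), ([1, 1], (.ev, 2)), ([0, 0], (.pl 1, 1))], [0, 0, 1, 1, 0]⟩]

def cmC_8_6_3_0 : List (List ℕ × List (ℕ × ℕ)) :=
  [([10, 4], [(11, 4), (4, 1), (0, 1), (2, 1), (0, 1)]),
   ([9, 5], [(12, 4), (4, 1), (0, 1), (0, 1), (1, 1)]),
   ([9, 4], [(11, 4), (4, 1), (0, 1), (2, 1), (1, 1)])]

def cm_8_6_3 : List CM :=
  cm_8_6_3_0

def cmC_8_6_3 : List (List ℕ × List (ℕ × ℕ)) :=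
  cmC_8_6_3_0

set_option Elab.async false in
theorem covH_8_6_3 : CovH [8, 6, 3] :=
  covH_of_tree (by decide) ls_8_6_3 sp_8_6_3 cm_8_6_3 spC_8_6_3 cmC_8_6_3 99 (by decide +kernel) (by decide +kernel)
    (by decide +kernel) (by decide +kernel) (by decide +kernel) (by decide +kernel)


/-! hook list [8, 6, 3, 1], n = 32: 18 nodes, 0 commitments -/

def ls_8_6_3_1 : List (List Pc) :=
  [[.pair 8, .pair 5, .rect 3 1, .dup 2, .rect 1 1]]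

def sp_8_6_3_1 : List (ℕ × List ℕ) :=
  [(0, [0, 0, 0, 2, 1])]

def spC_8_6_3_1 : List (List (ℕ × ℕ)) :=
  [[(15, 4), (9, 4), (3, 1), (5, 2), (0, 1)]]

def cm_8_6_3_1_0 : List CM :=
  []

def cmC_8_6_3_1_0 : List (List ℕ × List (ℕ × ℕ)) :=
  []

def cm_8_6_3_1 : List CM :=
  cm_8_6_3_1_0

def cmC_8_6_3_1 : List (List ℕ × List (ℕ × ℕ)) :=
  cmC_8_6_3_1_0

set_option Elab.async false in
theorem covH_8_6_3_1 : CovH [8, 6, 3, 1] :=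
  covH_of_tree (by decide) ls_8_6_3_1 sp_8_6_3_1 cm_8_6_3_1 spC_8_6_3_1 cmC_8_6_3_1 99 (by decide +kernel) (by decide +kernel)
    (by decide +kernel) (by decide +kernel) (by decide +kernel) (by decide +kernel)


/-! hook list [8, 6, 4, 1], n = 34: 21 nodes, 0 commitments -/

def ls_8_6_4_1 : List (List Pc) :=
  [[.pair 8, .rect 6 1, .rect 4 1, .dup 3, .pair 2]]

def sp_8_6_4_1 : List (ℕ × List ℕ) :=
  [(0, [0, 0, 0, 4, 3])]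

def spC_8_6_4_1 : List (List (ℕ × ℕ)) :=
  [[(15, 4), (6, 1), (4, 1), (9, 4), (0, 1)]]

def cm_8_6_4_1_0 : List CM :=
  []

def cmC_8_6_4_1_0 : List (List ℕ × List (ℕ × ℕ)) :=
  []

def cm_8_6_4_1 : List CM :=
  cm_8_6_4_1_0

def cmC_8_6_4_1 : List (List ℕ × List (ℕ × ℕ)) :=
  cmC_8_6_4_1_0

set_option Elab.async false in
theorem covH_8_6_4_1 : CovH [8, 6, 4, 1] :=
  covH_of_tree (by decide) ls_8_6_4_1 sp_8_6_4_1 cm_8_6_4_1 spC_8_6_4_1 cmC_8_6_4_1 99 (by decide +kernel) (by decide +kernel)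
    (by decide +kernel) (by decide +kernel) (by decide +kernel) (by decide +kernel)


/-! hook list [8, 6, 4, 2, 1], n = 37: 21 nodes, 0 commitments -/

def ls_8_6_4_2_1 : List (List Pc) :=
  [[.pair 8, .rect 6 1, .dup 5, .pair 3, .rect 1 1]]

def sp_8_6_4_2_1 : List (ℕ × List ℕ) :=
  [(0, [0, 0, 4, 2, 1])]

def spC_8_6_4_2_1 : List (List (ℕ × ℕ)) :=
  [[(15, 4), (6, 1), (13, 4), (3, 2), (0, 1)]]

def cm_8_6_4_2_1_0 : List CM :=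
  []

def cmC_8_6_4_2_1_0 : List (List ℕ × List (ℕ × ℕ)) :=
  []

def cm_8_6_4_2_1 : List CM :=
  cm_8_6_4_2_1_0

def cmC_8_6_4_2_1 : List (List ℕ × List (ℕ × ℕ)) :=
  cmC_8_6_4_2_1_0

set_option Elab.async false in
theorem covH_8_6_4_2_1 : CovH [8, 6, 4, 2, 1] :=
  covH_of_tree (by decide) ls_8_6_4_2_1 sp_8_6_4_2_1 cm_8_6_4_2_1 spC_8_6_4_2_1 cmC_8_6_4_2_1 99 (by decide +kernel) (by decide +kernel)
    (by decide +kernel) (by decide +kernel) (by decide +kernel) (by decide +kernel)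

end Crest.Agent.R195
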