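import Crest.Agent.R195.TreeFin

set_option autoImplicit false
set_option maxHeartbeats 2000000

namespace Crest.Agent.R195

/-! hook list [8, 5, 3], n = 29: 234 nodes, 61 commitments -/

def ls_8_5_3 : List (List Pc) :=
  [[.rect 8 1, .pair 6, .dup 3, .rect 2 1, .dup 1],
   [.gap 8, .rect 5 1, .dup 3, .rect 2 1, .dup 1]]

def sp_8_5_3 : List (ℕ × List ℕ) :=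
  [(0, [0, 1, 2, 0, 1])]

def spC_8_5_3 : List (List (ℕ × ℕ)) :=
  [[(8, 1), (10, 3), (7, 2), (2, 1), (2, 1)]]

def cm_8_5_3_0 : List CM :=
  [⟨[10, 4], 0, [([1, 0], (.pl 1, 7)), ([4, 0], (.pl 4, 7)), ([3, 3], (.ev, 0)), ([1, 0], (.pl 1, 1)), ([1, 1], (.ev, 0))], [0, 0, 1, 0, 1]⟩,
   ⟨[9, 5], 0, [([1, 1], (.pl 1, 6)), ([4, 0], (.pl 4, 7)), ([3, 3], (.ev, 0)), ([0, 0], (.pl 1, 2)), ([1, 1], (.ev, 0))], [0, 0, 1, 0, 1]⟩,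
   ⟨[9, 4], 0, [([1, 0], (.pl 1, 7)), ([4, 0], (.pl 4, 7)), ([3, 3], (.ev, 0)), ([0, 0], (.pl 1, 2)), ([1, 1], (.ev, 0))], [0, 0, 1, 0, 1]⟩,
   ⟨[7, 7, 7, 5], 1, [([4, 4, 2, 2], (.ev, 2)), ([1, 1, 1, 1], (.pl 1, 1)), ([2, 1, 2, 1], (.ev, 0)), ([0, 0, 1, 1], (.pl 1, 0)), ([0, 1, 1, 0], (.ev, 0))], [1, 0, 1, 0, 1]⟩,
   ⟨[7, 7, 7, 4], 1, [([4, 4, 2, 2], (.ev, 2)), ([0, 1, 1, 1], (.pl 1, 2)), ([3, 0, 3, 0], (.ev, 0)), ([0, 1, 0, 1], (.pl 1, 0)), ([0, 1, 1, 0], (.ev, 0))], [1, 0, 1, 0, 1]⟩,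
   ⟨[7, 7, 7, 3], 1, [([4, 4, 2, 2], (.ev, 2)), ([0, 1, 1, 1], (.pl 1, 2)), ([3, 0, 3, 0], (.ev, 0)), ([0, 1, 0, 0], (.pl 1, 1)), ([0, 1, 1, 0], (.ev, 0))], [1, 0, 1, 0, 1]⟩,
   ⟨[7, 7, 7, 2], 1, [([4, 4, 2, 2], (.ev, 2)), ([0, 1, 1, 0], (.pl 1, 3)), ([3, 0, 3, 0], (.ev, 0)), ([0, 1, 0, 0], (.pl 1, 1)), ([0, 1, 1, 0], (.ev, 0))], [1, 0, 1, 0, 1]⟩,
   ⟨[7, 7, 6, 6], 1, [([4, 4, 2, 2], (.ev, 2)), ([1, 1, 1, 1], (.pl 1, 1)), ([0, 0, 3, 3], (.ev, 0)), ([1, 1, 0, 0], (.pl 1, 0)), ([1, 1, 0, 0], (.ev, 0))], [1, 0, 1, 0, 1]⟩,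
   ⟨[7, 7, 6, 5], 1, [([4, 4, 2, 2], (.ev, 2)), ([0, 1, 1, 1], (.pl 1, 2)), ([3, 0, 3, 0], (.ev, 0)), ([0, 1, 0, 1], (.pl 1, 0)), ([0, 1, 0, 1], (.ev, 0))], [1, 0, 1, 0, 1]⟩,
   ⟨[7, 7, 6, 4], 1, [([4, 4, 2, 2], (.ev, 2)), ([0, 1, 1, 1], (.pl 1, 2)), ([3, 0, 3, 0], (.ev, 0)), ([0, 1, 0, 0], (.pl 1, 1)), ([0, 1, 0, 1], (.ev, 0))], [1, 0, 1, 0, 1]⟩,
   ⟨[7, 7, 6, 3], 1, [([4, 4, 2, 2], (.ev, 2)), ([0, 1, 0, 1], (.pl 1, 3)), ([3, 0, 3, 0], (.ev, 0)), ([0, 1, 0, 0], (.pl 1, 1)), ([0, 1, 1, 0], (.ev, 0))], [1, 0, 1, 0, 1]⟩,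
   ⟨[7, 7, 5, 5], 1, [([4, 4, 2, 2], (.ev, 2)), ([1, 1, 1, 1], (.pl 1, 1)), ([2, 2, 1, 1], (.ev, 0)), ([0, 0, 0, 0], (.pl 1, 2)), ([0, 0, 1, 1], (.ev, 0))], [1, 0, 1, 0, 1]⟩,
   ⟨[7, 7, 5, 4], 1, [([4, 4, 2, 2], (.ev, 2)), ([1, 1, 1, 1], (.pl 1, 1)), ([2, 2, 1, 1], (.ev, 0)), ([0, 0, 1, 0], (.pl 1, 1)), ([0, 0, 0, 0], (.ev, 2))], [1, 0, 1, 0, 1]⟩,
   ⟨[7, 7, 5, 3], 1, [([4, 4, 2, 2], (.ev, 2)), ([0, 1, 1, 0], (.pl 1, 3)), ([2, 2, 1, 1], (.ev, 0)), ([0, 0, 0, 0], (.pl 1, 2)), ([1, 0, 1, 0], (.ev, 0))], [1, 0, 1, 0, 1]⟩,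
   ⟨[7, 7, 4, 4], 1, [([4, 4, 2, 2], (.ev, 2)), ([1, 1, 1, 1], (.pl 1, 1)), ([2, 2, 1, 1], (.ev, 0)), ([0, 0, 0, 0], (.pl 1, 2)), ([0, 0, 0, 0], (.ev, 2))], [1, 0, 1, 0, 1]⟩,
   ⟨[7, 7, 4, 3], 1, [([4, 4, 2, 2], (.ev, 2)), ([0, 0, 1, 1], (.pl 1, 3)), ([3, 3, 0, 0], (.ev, 0)), ([0, 0, 1, 0], (.pl 1, 1)), ([0, 0, 0, 0], (.ev, 2))], [1, 0, 1, 0, 1]⟩,
   ⟨[7, 7, 3, 3], 1, [([4, 4, 2, 2], (.ev, 2)), ([0, 0, 1, 1], (.pl 1, 3)), ([3, 3, 0, 0], (.ev, 0)), ([0, 0, 0, 0], (.pl 1, 2)), ([0, 0, 0, 0], (.ev, 2))], [1, 0, 1, 0, 1]⟩,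
   ⟨[7, 6, 6, 6], 1, [([4, 4, 2, 2], (.ev, 2)), ([1, 1, 1, 1], (.pl 1, 1)), ([0, 0, 3, 3], (.ev, 0)), ([1, 0, 0, 0], (.pl 1, 1)), ([1, 1, 0, 0], (.ev, 0))], [1, 0, 1, 0, 1]⟩,
   ⟨[7, 6, 6, 5], 1, [([4, 4, 2, 2], (.ev, 2)), ([0, 1, 1, 1], (.pl 1, 2)), ([3, 0, 3, 0], (.ev, 0)), ([0, 0, 0, 1], (.pl 1, 1)), ([0, 1, 0, 1], (.ev, 0))], [1, 0, 1, 0, 1]⟩,
   ⟨[7, 6, 6, 4], 1, [([4, 4, 2, 2], (.ev, 2)), ([1, 1, 1, 1], (.pl 1, 1)), ([2, 1, 2, 1], (.ev, 0)), ([0, 0, 1, 0], (.pl 1, 1)), ([0, 0, 0, 0], (.ev, 2))], [1, 0, 1, 0, 1]⟩,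
   ⟨[7, 6, 6, 3], 1, [([4, 4, 2, 2], (.ev, 2)), ([0, 1, 0, 1], (.pl 1, 3)), ([3, 0, 3, 0], (.ev, 0)), ([0, 0, 0, 0], (.pl 1, 2)), ([0, 1, 1, 0], (.ev, 0))], [1, 0, 1, 0, 1]⟩,
   ⟨[7, 6, 5, 5], 1, [([4, 4, 2, 2], (.ev, 2)), ([1, 1, 1, 1], (.pl 1, 1)), ([2, 1, 2, 1], (.ev, 0)), ([0, 0, 0, 1], (.pl 1, 1)), ([0, 0, 0, 0], (.ev, 2))], [1, 0, 1, 0, 1]⟩,
   ⟨[7, 6, 5, 4], 1, [([4, 4, 2, 2], (.ev, 2)), ([1, 1, 1, 1], (.pl 1, 1)), ([2, 1, 2, 1], (.ev, 0)), ([0, 0, 0, 0], (.pl 1, 2)), ([0, 0, 0, 0], (.ev, 2))], [1, 0, 1, 0, 1]⟩,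
   ⟨[7, 6, 5, 3], 1, [([4, 4, 2, 2], (.ev, 2)), ([0, 1, 0, 1], (.pl 1, 3)), ([3, 0, 3, 0], (.ev, 0)), ([0, 1, 0, 0], (.pl 1, 1)), ([0, 0, 0, 0], (.ev, 2))], [1, 0, 1, 0, 1]⟩,
   ⟨[7, 6, 4, 4], 1, [([4, 4, 2, 2], (.ev, 2)), ([1, 0, 1, 1], (.pl 1, 2)), ([2, 2, 1, 1], (.ev, 0)), ([0, 0, 0, 0], (.pl 1, 2)), ([0, 0, 0, 0], (.ev, 2))], [1, 0, 1, 0, 1]⟩,
   ⟨[7, 6, 4, 3], 1, [([4, 4, 2, 2], (.ev, 2)), ([1, 0, 1, 0], (.pl 1, 3)), ([2, 2, 1, 1], (.ev, 0)), ([0, 0, 0, 0], (.pl 1, 2)), ([0, 0, 0, 0], (.ev, 2))], [1, 0, 1, 0, 1]⟩,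
   ⟨[7, 5, 5, 5, 5], 1, [([4, 4, 2, 2, 0], (.ev, 2)), ([1, 1, 1, 1, 1], (.pl 1, 0)), ([2, 0, 1, 1, 2], (.ev, 0)), ([0, 0, 0, 1, 1], (.pl 1, 0)), ([0, 0, 1, 0, 1], (.ev, 0))], [1, 0, 1, 0, 1]⟩,
   ⟨[7, 5, 5, 5, 4], 1, [([4, 4, 2, 2, 0], (.ev, 2)), ([0, 1, 1, 1, 1], (.pl 1, 1)), ([3, 0, 0, 0, 3], (.ev, 0)), ([0, 0, 1, 1, 0], (.pl 1, 0)), ([0, 0, 1, 1, 0], (.ev, 0))], [1, 0, 1, 0, 1]⟩,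
   ⟨[7, 5, 5, 5, 3], 1, [([4, 4, 2, 2, 0], (.ev, 2)), ([1, 1, 1, 1, 0], (.pl 1, 1)), ([2, 0, 2, 1, 1], (.ev, 0)), ([0, 0, 0, 0, 1], (.pl 1, 1)), ([0, 0, 0, 1, 1], (.ev, 0))], [1, 0, 1, 0, 1]⟩,
   ⟨[7, 5, 5, 4], 1, [([4, 4, 2, 2], (.ev, 2)), ([0, 1, 0, 1], (.pl 1, 3)), ([3, 0, 3, 0], (.ev, 0)), ([0, 0, 0, 1], (.pl 1, 1)), ([0, 0, 0, 0], (.ev, 2))], [1, 0, 1, 0, 1]⟩,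
   ⟨[7, 5, 5, 3], 1, [([4, 4, 2, 2], (.ev, 2)), ([0, 1, 0, 1], (.pl 1, 3)), ([3, 0, 3, 0], (.ev, 0)), ([0, 0, 0, 0], (.pl 1, 2)), ([0, 0, 0, 0], (.ev, 2))], [1, 0, 1, 0, 1]⟩,
   ⟨[7, 5, 4, 4], 1, [([4, 4, 2, 2], (.ev, 2)), ([1, 0, 0, 1], (.pl 1, 3)), ([2, 1, 2, 1], (.ev, 0)), ([0, 0, 0, 0], (.pl 1, 2)), ([0, 0, 0, 0], (.ev, 2))], [1, 0, 1, 0, 1]⟩,
   ⟨[7, 4, 4, 4], 1, [([4, 4, 2, 2], (.ev, 2)), ([1, 0, 0, 1], (.pl 1, 3)), ([2, 0, 2, 0], (.ev, 2)), ([0, 0, 0, 1], (.pl 1, 1)), ([0, 0, 0, 0], (.ev, 2))], [1, 0, 1, 0, 1]⟩,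
   ⟨[6, 6, 6, 6, 4, 1], 1, [([4, 4, 2, 2, 1, 1], (.ev, 0)), ([1, 1, 1, 1, 1, 0], (.pl 1, 0)), ([0, 0, 3, 3, 0, 0], (.ev, 0)), ([0, 1, 0, 0, 1, 0], (.pl 1, 0)), ([1, 0, 0, 0, 1, 0], (.ev, 0))], [1, 0, 1, 0, 1]⟩,
   ⟨[6, 6, 6, 6, 3, 2], 1, [([4, 4, 2, 2, 1, 1], (.ev, 0)), ([1, 1, 1, 1, 1, 0], (.pl 1, 0)), ([0, 0, 3, 3, 0, 0], (.ev, 0)), ([0, 0, 0, 0, 1, 1], (.pl 1, 0)), ([1, 1, 0, 0, 0, 0], (.ev, 0))], [1, 0, 1, 0, 1]⟩,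
   ⟨[6, 6, 6, 6, 3, 1], 1, [([4, 4, 2, 2, 1, 1], (.ev, 0)), ([1, 1, 1, 1, 1, 0], (.pl 1, 0)), ([0, 0, 3, 3, 0, 0], (.ev, 0)), ([0, 0, 0, 0, 1, 0], (.pl 1, 1)), ([1, 1, 0, 0, 0, 0], (.ev, 0))], [1, 0, 1, 0, 1]⟩,
   ⟨[6, 6, 6, 6, 2], 1, [([4, 4, 2, 2, 0], (.ev, 2)), ([1, 1, 1, 1, 1], (.pl 1, 0)), ([0, 0, 3, 3, 0], (.ev, 0)), ([0, 0, 0, 0, 1], (.pl 1, 1)), ([1, 1, 0, 0, 0], (.ev, 0))], [1, 0, 1, 0, 1]⟩,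
   ⟨[6, 6, 6, 5, 5, 1], 1, [([4, 4, 2, 2, 1, 1], (.ev, 0)), ([1, 1, 1, 1, 1, 0], (.pl 1, 0)), ([0, 0, 3, 0, 3, 0], (.ev, 0)), ([0, 1, 0, 1, 0, 0], (.pl 1, 0)), ([1, 0, 0, 1, 0, 0], (.ev, 0))], [1, 0, 1, 0, 1]⟩,
   ⟨[6, 6, 6, 5, 4, 2], 1, [([4, 4, 2, 2, 1, 1], (.ev, 0)), ([1, 1, 1, 0, 1, 1], (.pl 1, 0)), ([0, 0, 3, 3, 0, 0], (.ev, 0)), ([0, 1, 0, 0, 1, 0], (.pl 1, 0)), ([1, 0, 0, 0, 1, 0], (.ev, 0))], [1, 0, 1, 0, 1]⟩,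
   ⟨[6, 6, 6, 5, 4, 1], 1, [([4, 4, 2, 2, 1, 1], (.ev, 0)), ([1, 1, 1, 0, 1, 0], (.pl 1, 1)), ([0, 0, 3, 3, 0, 0], (.ev, 0)), ([0, 1, 0, 0, 1, 0], (.pl 1, 0)), ([1, 0, 0, 0, 1, 0], (.ev, 0))], [1, 0, 1, 0, 1]⟩,
   ⟨[6, 6, 6, 5, 3, 3], 1, [([4, 4, 2, 2, 1, 1], (.ev, 0)), ([1, 1, 1, 0, 1, 1], (.pl 1, 0)), ([0, 0, 3, 3, 0, 0], (.ev, 0)), ([0, 0, 0, 0, 1, 1], (.pl 1, 0)), ([1, 1, 0, 0, 0, 0], (.ev, 0))], [1, 0, 1, 0, 1]⟩,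
   ⟨[6, 6, 6, 5, 3, 2], 1, [([4, 4, 2, 2, 1, 1], (.ev, 0)), ([1, 1, 1, 0, 1, 1], (.pl 1, 0)), ([0, 0, 3, 3, 0, 0], (.ev, 0)), ([0, 0, 0, 0, 1, 0], (.pl 1, 1)), ([1, 1, 0, 0, 0, 0], (.ev, 0))], [1, 0, 1, 0, 1]⟩,
   ⟨[6, 6, 6, 5, 2], 1, [([4, 4, 2, 2, 0], (.ev, 2)), ([1, 1, 1, 0, 1], (.pl 1, 1)), ([0, 0, 3, 3, 0], (.ev, 0)), ([0, 0, 0, 0, 1], (.pl 1, 1)), ([1, 1, 0, 0, 0], (.ev, 0))], [1, 0, 1, 0, 1]⟩,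
   ⟨[6, 6, 6, 4], 1, [([4, 4, 2, 2], (.ev, 2)), ([0, 1, 1, 1], (.pl 1, 2)), ([2, 1, 2, 1], (.ev, 0)), ([0, 0, 1, 0], (.pl 1, 1)), ([0, 0, 0, 0], (.ev, 2))], [1, 0, 1, 0, 1]⟩,
   ⟨[6, 6, 6, 3], 1, [([4, 4, 2, 2], (.ev, 2)), ([0, 1, 1, 0], (.pl 1, 3)), ([2, 1, 2, 1], (.ev, 0)), ([0, 0, 1, 0], (.pl 1, 1)), ([0, 0, 0, 0], (.ev, 2))], [1, 0, 1, 0, 1]⟩,
   ⟨[6, 6, 5, 5, 5, 2], 1, [([4, 4, 2, 2, 1, 1], (.ev, 0)), ([1, 1, 0, 1, 1, 1], (.pl 1, 0)), ([0, 0, 3, 0, 3, 0], (.ev, 0)), ([0, 1, 0, 1, 0, 0], (.pl 1, 0)), ([1, 0, 0, 1, 0, 0], (.ev, 0))], [1, 0, 1, 0, 1]⟩,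
   ⟨[6, 6, 5, 5, 5, 1], 1, [([4, 4, 2, 2, 1, 1], (.ev, 0)), ([1, 1, 0, 1, 1, 0], (.pl 1, 1)), ([0, 0, 3, 0, 3, 0], (.ev, 0)), ([0, 1, 0, 1, 0, 0], (.pl 1, 0)), ([1, 0, 0, 1, 0, 0], (.ev, 0))], [1, 0, 1, 0, 1]⟩,
   ⟨[6, 6, 5, 5, 4, 3], 1, [([4, 4, 2, 2, 1, 1], (.ev, 0)), ([1, 1, 1, 1, 0, 1], (.pl 1, 0)), ([1, 0, 2, 2, 1, 0], (.ev, 0)), ([0, 0, 0, 0, 1, 1], (.pl 1, 0)), ([0, 1, 0, 0, 1, 0], (.ev, 0))], [1, 0, 1, 0, 1]⟩,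
   ⟨[6, 6, 5, 5, 4, 2], 1, [([4, 4, 2, 2, 1, 1], (.ev, 0)), ([1, 1, 0, 0, 1, 1], (.pl 1, 1)), ([0, 0, 3, 3, 0, 0], (.ev, 0)), ([0, 1, 0, 0, 1, 0], (.pl 1, 0)), ([1, 0, 0, 0, 1, 0], (.ev, 0))], [1, 0, 1, 0, 1]⟩,
   ⟨[6, 6, 5, 5, 3], 1, [([4, 4, 2, 2, 0], (.ev, 2)), ([1, 1, 1, 1, 0], (.pl 1, 1)), ([1, 0, 2, 2, 1], (.ev, 0)), ([0, 0, 0, 0, 1], (.pl 1, 1)), ([0, 1, 0, 0, 1], (.ev, 0))], [1, 0, 1, 0, 1]⟩,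
   ⟨[6, 6, 5, 4], 1, [([4, 4, 2, 2], (.ev, 2)), ([0, 1, 1, 1], (.pl 1, 2)), ([2, 1, 2, 1], (.ev, 0)), ([0, 0, 0, 0], (.pl 1, 2)), ([0, 0, 0, 0], (.ev, 2))], [1, 0, 1, 0, 1]⟩,
   ⟨[6, 6, 5, 3], 1, [([4, 4, 2, 2], (.ev, 2)), ([0, 1, 1, 0], (.pl 1, 3)), ([2, 1, 2, 1], (.ev, 0)), ([0, 0, 0, 0], (.pl 1, 2)), ([0, 0, 0, 0], (.ev, 2))], [1, 0, 1, 0, 1]⟩,
   ⟨[6, 6, 4, 4], 1, [([4, 4, 2, 2], (.ev, 2)), ([0, 0, 1, 1], (.pl 1, 3)), ([2, 2, 1, 1], (.ev, 0)), ([0, 0, 0, 0], (.pl 1, 2)), ([0, 0, 0, 0], (.ev, 2))], [1, 0, 1, 0, 1]⟩,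
   ⟨[6, 5, 5, 5], 1, [([4, 4, 2, 2], (.ev, 2)), ([1, 1, 1, 1], (.pl 1, 1)), ([0, 0, 2, 2], (.ev, 2)), ([1, 0, 0, 0], (.pl 1, 1)), ([0, 0, 0, 0], (.ev, 2))], [1, 0, 1, 0, 1]⟩,
   ⟨[6, 5, 5, 4], 1, [([4, 4, 2, 2], (.ev, 2)), ([0, 0, 1, 1], (.pl 1, 3)), ([2, 1, 2, 1], (.ev, 0)), ([0, 0, 0, 0], (.pl 1, 2)), ([0, 0, 0, 0], (.ev, 2))], [1, 0, 1, 0, 1]⟩,
   ⟨[6, 5, 4, 4], 1, [([4, 4, 2, 2], (.ev, 2)), ([0, 1, 0, 1], (.pl 1, 3)), ([2, 0, 2, 0], (.ev, 2)), ([0, 0, 0, 1], (.pl 1, 1)), ([0, 0, 0, 0], (.ev, 2))], [1, 0, 1, 0, 1]⟩,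
   ⟨[6, 4, 4, 4], 1, [([4, 4, 2, 2], (.ev, 2)), ([1, 0, 1, 1], (.pl 1, 2)), ([1, 0, 1, 0], (.ev, 4)), ([0, 0, 0, 1], (.pl 1, 1)), ([0, 0, 0, 0], (.ev, 2))], [1, 0, 2, 1, 1]⟩,
   ⟨[5, 5, 5, 5], 1, [([4, 4, 2, 2], (.ev, 2)), ([1, 1, 1, 1], (.pl 1, 1)), ([0, 0, 2, 2], (.ev, 2)), ([0, 0, 0, 0], (.pl 1, 2)), ([0, 0, 0, 0], (.ev, 2))], [1, 0, 1, 0, 1]⟩,
   ⟨[5, 5, 5, 4], 1, [([4, 4, 2, 2], (.ev, 2)), ([1, 1, 1, 0], (.pl 1, 2)), ([0, 0, 2, 2], (.ev, 2)), ([0, 0, 0, 0], (.pl 1, 2)), ([0, 0, 0, 0], (.ev, 2))], [1, 0, 1, 0, 1]⟩,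
   ⟨[5, 5, 4, 4], 1, [([4, 4, 2, 2], (.ev, 2)), ([1, 1, 0, 0], (.pl 1, 3)), ([0, 0, 2, 2], (.ev, 2)), ([0, 0, 0, 0], (.pl 1, 2)), ([0, 0, 0, 0], (.ev, 2))], [1, 0, 1, 0, 1]⟩,
   ⟨[5, 4, 4, 4], 1, [([3, 3, 2, 2], (.ev, 4)), ([0, 1, 0, 1], (.pl 1, 3)), ([2, 0, 2, 0], (.ev, 2)), ([0, 0, 0, 1], (.pl 1, 1)), ([0, 0, 0, 0], (.ev, 2))], [2, 0, 1, 1, 1]⟩]

def cmC_8_5_3_0 : List (List ℕ × List (ℕ × ℕ)) :=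
  [([10, 4], [(7, 1), (7, 4), (0, 1), (1, 1), (0, 1)]),
   ([9, 5], [(6, 1), (7, 4), (0, 1), (2, 1), (0, 1)]),
   ([9, 4], [(7, 1), (7, 4), (0, 1), (2, 1), (0, 1)]),
   ([7, 7, 7, 5], [(2, 1), (1, 1), (0, 1), (0, 1), (0, 1)]),
   ([7, 7, 7, 4], [(2, 1), (2, 1), (0, 1), (0, 1), (0, 1)]),
   ([7, 7, 7, 3], [(2, 1), (2, 1), (0, 1), (1, 1), (0, 1)]),
   ([7, 7, 7, 2], [(2, 1), (3, 1), (0, 1), (1, 1), (0, 1)]),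
   ([7, 7, 6, 6], [(2, 1), (1, 1), (0, 1), (0, 1), (0, 1)]),
   ([7, 7, 6, 5], [(2, 1), (2, 1), (0, 1), (0, 1), (0, 1)]),
   ([7, 7, 6, 4], [(2, 1), (2, 1), (0, 1), (1, 1), (0, 1)]),
   ([7, 7, 6, 3], [(2, 1), (3, 1), (0, 1), (1, 1), (0, 1)]),
   ([7, 7, 5, 5], [(2, 1), (1, 1), (0, 1), (2, 1), (0, 1)]),
   ([7, 7, 5, 4], [(2, 1), (1, 1), (0, 1), (1, 1), (2, 1)]),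
   ([7, 7, 5, 3], [(2, 1), (3, 1), (0, 1), (2, 1), (0, 1)]),
   ([7, 7, 4, 4], [(2, 1), (1, 1), (0, 1), (2, 1), (2, 1)]),
   ([7, 7, 4, 3], [(2, 1), (3, 1), (0, 1), (1, 1), (2, 1)]),
   ([7, 7, 3, 3], [(2, 1), (3, 1), (0, 1), (2, 1), (2, 1)]),
   ([7, 6, 6, 6], [(2, 1), (1, 1), (0, 1), (1, 1), (0, 1)]),
   ([7, 6, 6, 5], [(2, 1), (2, 1), (0, 1), (1, 1), (0, 1)]),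
   ([7, 6, 6, 4], [(2, 1), (1, 1), (0, 1), (1, 1), (2, 1)]),
   ([7, 6, 6, 3], [(2, 1), (3, 1), (0, 1), (2, 1), (0, 1)]),
   ([7, 6, 5, 5], [(2, 1), (1, 1), (0, 1), (1, 1), (2, 1)]),
   ([7, 6, 5, 4], [(2, 1), (1, 1), (0, 1), (2, 1), (2, 1)]),
   ([7, 6, 5, 3], [(2, 1), (3, 1), (0, 1), (1, 1), (2, 1)]),
   ([7, 6, 4, 4], [(2, 1), (2, 1), (0, 1), (2, 1), (2, 1)]),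
   ([7, 6, 4, 3], [(2, 1), (3, 1), (0, 1), (2, 1), (2, 1)]),
   ([7, 5, 5, 5, 5], [(2, 1), (0, 1), (0, 1), (0, 1), (0, 1)]),
   ([7, 5, 5, 5, 4], [(2, 1), (1, 1), (0, 1), (0, 1), (0, 1)]),
   ([7, 5, 5, 5, 3], [(2, 1), (1, 1), (0, 1), (1, 1), (0, 1)]),
   ([7, 5, 5, 4], [(2, 1), (3, 1), (0, 1), (1, 1), (2, 1)]),
   ([7, 5, 5, 3], [(2, 1), (3, 1), (0, 1), (2, 1), (2, 1)]),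
   ([7, 5, 4, 4], [(2, 1), (3, 1), (0, 1), (2, 1), (2, 1)]),
   ([7, 4, 4, 4], [(2, 1), (3, 1), (2, 1), (1, 1), (2, 1)]),
   ([6, 6, 6, 6, 4, 1], [(0, 1), (0, 1), (0, 1), (0, 1), (0, 1)]),
   ([6, 6, 6, 6, 3, 2], [(0, 1), (0, 1), (0, 1), (0, 1), (0, 1)]),
   ([6, 6, 6, 6, 3, 1], [(0, 1), (0, 1), (0, 1), (1, 1), (0, 1)]),
   ([6, 6, 6, 6, 2], [(2, 1), (0, 1), (0, 1), (1, 1), (0, 1)]),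
   ([6, 6, 6, 5, 5, 1], [(0, 1), (0, 1), (0, 1), (0, 1), (0, 1)]),
   ([6, 6, 6, 5, 4, 2], [(0, 1), (0, 1), (0, 1), (0, 1), (0, 1)]),
   ([6, 6, 6, 5, 4, 1], [(0, 1), (1, 1), (0, 1), (0, 1), (0, 1)]),
   ([6, 6, 6, 5, 3, 3], [(0, 1), (0, 1), (0, 1), (0, 1), (0, 1)]),
   ([6, 6, 6, 5, 3, 2], [(0, 1), (0, 1), (0, 1), (1, 1), (0, 1)]),
   ([6, 6, 6, 5, 2], [(2, 1), (1, 1), (0, 1), (1, 1), (0, 1)]),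
   ([6, 6, 6, 4], [(2, 1), (2, 1), (0, 1), (1, 1), (2, 1)]),
   ([6, 6, 6, 3], [(2, 1), (3, 1), (0, 1), (1, 1), (2, 1)]),
   ([6, 6, 5, 5, 5, 2], [(0, 1), (0, 1), (0, 1), (0, 1), (0, 1)]),
   ([6, 6, 5, 5, 5, 1], [(0, 1), (1, 1), (0, 1), (0, 1), (0, 1)]),
   ([6, 6, 5, 5, 4, 3], [(0, 1), (0, 1), (0, 1), (0, 1), (0, 1)]),
   ([6, 6, 5, 5, 4, 2], [(0, 1), (1, 1), (0, 1), (0, 1), (0, 1)]),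
   ([6, 6, 5, 5, 3], [(2, 1), (1, 1), (0, 1), (1, 1), (0, 1)]),
   ([6, 6, 5, 4], [(2, 1), (2, 1), (0, 1), (2, 1), (2, 1)]),
   ([6, 6, 5, 3], [(2, 1), (3, 1), (0, 1), (2, 1), (2, 1)]),
   ([6, 6, 4, 4], [(2, 1), (3, 1), (0, 1), (2, 1), (2, 1)]),
   ([6, 5, 5, 5], [(2, 1), (1, 1), (2, 1), (1, 1), (2, 1)]),
   ([6, 5, 5, 4], [(2, 1), (3, 1), (0, 1), (2, 1), (2, 1)]),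
   ([6, 5, 4, 4], [(2, 1), (3, 1), (2, 1), (1, 1), (2, 1)]),
   ([6, 4, 4, 4], [(2, 1), (2, 1), (5, 2), (0, 1), (2, 1)]),
   ([5, 5, 5, 5], [(2, 1), (1, 1), (2, 1), (2, 1), (2, 1)]),
   ([5, 5, 5, 4], [(2, 1), (2, 1), (2, 1), (2, 1), (2, 1)]),
   ([5, 5, 4, 4], [(2, 1), (3, 1), (2, 1), (2, 1), (2, 1)]),
   ([5, 4, 4, 4], [(5, 2), (3, 1), (2, 1), (0, 1), (2, 1)])]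

def cm_8_5_3 : List CM :=
  cm_8_5_3_0

def cmC_8_5_3 : List (List ℕ × List (ℕ × ℕ)) :=
  cmC_8_5_3_0

set_option Elab.async false in
theorem covH_8_5_3 : CovH [8, 5, 3] :=
  covH_of_tree (by decide) ls_8_5_3 sp_8_5_3 cm_8_5_3 spC_8_5_3 cmC_8_5_3 99 (by decide +kernel) (by decide +kernel)
    (by decide +kernel) (by decide +kernel) (by decide +kernel) (by decide +kernel)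


/-! hook list [7, 4, 2, 1], n = 24: 223 nodes, 53 commitments -/

def ls_7_4_2_1 : List (List Pc) :=
  [[.gap 7, .dup 4, .rect 2 1, .dup 1],
   [.rect 7 1, .rect 5 1, .dup 4, .rect 2 1, .dup 1]]

def sp_7_4_2_1 : List (ℕ × List ℕ) :=
  []

def spC_7_4_2_1 : List (List (ℕ × ℕ)) :=
  []

def cm_7_4_2_1_0 : List CM :=
  [⟨[8, 4, 4, 4], 0, [([4, 4, 2, 2], (.ev, 0)), ([2, 0, 2, 0], (.ev, 4)), ([1, 0, 0, 1], (.pl 1, 0)), ([1, 0, 0, 1], (.ev, 0))], [1, 1, 0, 1]⟩,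
   ⟨[8, 4, 4, 3], 0, [([4, 4, 2, 2], (.ev, 0)), ([2, 0, 2, 0], (.ev, 4)), ([1, 0, 0, 0], (.pl 1, 1)), ([1, 0, 0, 1], (.ev, 0))], [1, 1, 0, 1]⟩,
   ⟨[7, 5, 5, 4], 0, [([4, 4, 2, 2], (.ev, 0)), ([3, 1, 3, 1], (.ev, 0)), ([0, 0, 0, 1], (.pl 1, 1)), ([0, 0, 0, 0], (.ev, 2))], [1, 1, 0, 1]⟩,
   ⟨[7, 5, 5, 3], 0, [([4, 4, 2, 2], (.ev, 0)), ([3, 1, 3, 1], (.ev, 0)), ([0, 0, 0, 0], (.pl 1, 2)), ([0, 0, 0, 0], (.ev, 2))], [1, 1, 0, 1]⟩,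
   ⟨[7, 5, 4, 4], 0, [([4, 4, 2, 2], (.ev, 0)), ([2, 1, 2, 1], (.ev, 2)), ([0, 0, 0, 0], (.pl 1, 2)), ([1, 0, 0, 1], (.ev, 0))], [1, 1, 0, 1]⟩,
   ⟨[7, 5, 4, 3], 0, [([4, 4, 2, 2], (.ev, 0)), ([2, 1, 2, 1], (.ev, 2)), ([1, 0, 0, 0], (.pl 1, 1)), ([0, 0, 0, 0], (.ev, 2))], [1, 1, 0, 1]⟩,
   ⟨[7, 5, 3], 1, [([1, 1, 1], (.pl 1, 4)), ([1, 0, 1], (.pl 1, 3)), ([4, 4, 0], (.ev, 0)), ([0, 0, 0], (.pl 1, 2)), ([1, 0, 1], (.ev, 0))], [0, 0, 1, 0, 1]⟩,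
   ⟨[7, 4, 4, 4], 0, [([3, 3, 2, 2], (.ev, 2)), ([2, 1, 2, 1], (.ev, 2)), ([1, 0, 0, 0], (.pl 1, 1)), ([1, 0, 0, 1], (.ev, 0))], [1, 1, 0, 1]⟩,
   ⟨[7, 4, 4, 3], 1, [([1, 1, 1, 1], (.pl 1, 3)), ([1, 0, 1, 1], (.pl 1, 2)), ([3, 3, 1, 1], (.ev, 0)), ([1, 0, 0, 0], (.pl 1, 1)), ([1, 0, 1, 0], (.ev, 0))], [0, 0, 1, 0, 1]⟩,
   ⟨[6, 6, 6, 4], 0, [([4, 4, 2, 2], (.ev, 0)), ([2, 1, 2, 1], (.ev, 2)), ([0, 0, 1, 1], (.pl 1, 0)), ([0, 1, 1, 0], (.ev, 0))], [1, 1, 0, 1]⟩,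
   ⟨[6, 6, 6, 3], 0, [([4, 4, 2, 2], (.ev, 0)), ([2, 1, 2, 1], (.ev, 2)), ([0, 0, 1, 0], (.pl 1, 1)), ([0, 1, 1, 0], (.ev, 0))], [1, 1, 0, 1]⟩,
   ⟨[6, 6, 6, 2, 2, 2], 0, [([4, 4, 2, 2, 0, 0], (.ev, 0)), ([2, 2, 2, 0, 2, 0], (.ev, 0)), ([0, 0, 1, 0, 0, 1], (.pl 1, 0)), ([0, 0, 1, 0, 0, 1], (.ev, 0))], [1, 1, 0, 1]⟩,
   ⟨[6, 6, 6, 2, 2, 1], 0, [([4, 4, 2, 2, 0, 0], (.ev, 0)), ([2, 2, 2, 0, 2, 0], (.ev, 0)), ([0, 0, 1, 0, 0, 0], (.pl 1, 1)), ([0, 0, 1, 0, 0, 1], (.ev, 0))], [1, 1, 0, 1]⟩,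
   ⟨[6, 6, 6, 2, 1], 0, [([4, 4, 2, 2, 0], (.ev, 0)), ([2, 1, 2, 0, 1], (.ev, 2)), ([0, 0, 1, 0, 0], (.pl 1, 1)), ([0, 1, 1, 0, 0], (.ev, 0))], [1, 1, 0, 1]⟩,
   ⟨[6, 6, 5, 5], 0, [([4, 4, 2, 2], (.ev, 0)), ([1, 1, 3, 3], (.ev, 0)), ([0, 0, 0, 0], (.pl 1, 2)), ([1, 1, 0, 0], (.ev, 0))], [1, 1, 0, 1]⟩,
   ⟨[6, 6, 5, 4], 0, [([4, 4, 2, 2], (.ev, 0)), ([2, 2, 2, 2], (.ev, 0)), ([0, 0, 1, 0], (.pl 1, 1)), ([0, 0, 0, 0], (.ev, 2))], [1, 1, 0, 1]⟩,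
   ⟨[6, 6, 5, 3, 3], 0, [([4, 4, 2, 2, 0], (.ev, 0)), ([1, 1, 3, 0, 3], (.ev, 0)), ([0, 0, 0, 1, 0], (.pl 1, 1)), ([1, 1, 0, 0, 0], (.ev, 0))], [1, 1, 0, 1]⟩,
   ⟨[6, 6, 5, 3, 2, 2], 0, [([4, 4, 2, 2, 0, 0], (.ev, 0)), ([2, 2, 2, 0, 2, 0], (.ev, 0)), ([0, 0, 0, 1, 0, 1], (.pl 1, 0)), ([0, 0, 1, 0, 0, 1], (.ev, 0))], [1, 1, 0, 1]⟩,
   ⟨[6, 6, 5, 3, 2, 1], 0, [([4, 4, 2, 2, 0, 0], (.ev, 0)), ([2, 2, 2, 0, 2, 0], (.ev, 0)), ([0, 0, 0, 0, 0, 1], (.pl 1, 1)), ([0, 0, 1, 1, 0, 0], (.ev, 0))], [1, 1, 0, 1]⟩,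
   ⟨[6, 6, 5, 3, 1], 0, [([4, 4, 2, 2, 0], (.ev, 0)), ([2, 1, 2, 1, 0], (.ev, 2)), ([0, 0, 0, 0, 1], (.pl 1, 1)), ([0, 1, 1, 0, 0], (.ev, 0))], [1, 1, 0, 1]⟩,
   ⟨[6, 6, 4, 4, 3], 0, [([4, 4, 2, 2, 0], (.ev, 0)), ([2, 2, 2, 0, 2], (.ev, 0)), ([0, 0, 0, 1, 0], (.pl 1, 1)), ([0, 0, 0, 1, 1], (.ev, 0))], [1, 1, 0, 1]⟩,
   ⟨[6, 6, 4, 4, 2, 2], 0, [([4, 4, 2, 2, 0, 0], (.ev, 0)), ([2, 2, 2, 2, 0, 0], (.ev, 0)), ([0, 0, 0, 0, 1, 1], (.pl 1, 0)), ([0, 0, 0, 0, 1, 1], (.ev, 0))], [1, 1, 0, 1]⟩,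
   ⟨[6, 6, 4, 4, 2, 1], 0, [([4, 4, 2, 2, 0, 0], (.ev, 0)), ([2, 2, 2, 2, 0, 0], (.ev, 0)), ([0, 0, 0, 0, 1, 0], (.pl 1, 1)), ([0, 0, 0, 0, 1, 1], (.ev, 0))], [1, 1, 0, 1]⟩,
   ⟨[6, 6, 4, 4, 1], 0, [([4, 4, 2, 2, 0], (.ev, 0)), ([2, 2, 2, 2, 0], (.ev, 0)), ([0, 0, 0, 0, 1], (.pl 1, 1)), ([0, 0, 0, 0, 0], (.ev, 2))], [1, 1, 0, 1]⟩,
   ⟨[6, 6, 4, 3], 0, [([4, 4, 2, 2], (.ev, 0)), ([2, 2, 1, 1], (.ev, 2)), ([0, 0, 1, 0], (.pl 1, 1)), ([0, 0, 0, 0], (.ev, 2))], [1, 1, 0, 1]⟩,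
   ⟨[6, 6, 3, 3], 0, [([4, 4, 2, 2], (.ev, 0)), ([2, 2, 1, 1], (.ev, 2)), ([0, 0, 0, 0], (.pl 1, 2)), ([0, 0, 0, 0], (.ev, 2))], [1, 1, 0, 1]⟩,
   ⟨[6, 5, 5, 5], 0, [([4, 4, 2, 2], (.ev, 0)), ([1, 1, 3, 3], (.ev, 0)), ([1, 0, 0, 0], (.pl 1, 1)), ([0, 0, 0, 0], (.ev, 2))], [1, 1, 0, 1]⟩,
   ⟨[6, 5, 5, 4, 3], 0, [([4, 4, 2, 2, 0], (.ev, 0)), ([1, 0, 3, 1, 3], (.ev, 0)), ([0, 0, 0, 1, 0], (.pl 1, 1)), ([1, 1, 0, 0, 0], (.ev, 0))], [1, 1, 0, 1]⟩,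
   ⟨[6, 5, 5, 4, 2, 2], 0, [([4, 4, 2, 2, 0, 0], (.ev, 0)), ([2, 0, 2, 2, 2, 0], (.ev, 0)), ([0, 0, 1, 0, 0, 1], (.pl 1, 0)), ([0, 1, 0, 0, 0, 1], (.ev, 0))], [1, 1, 0, 1]⟩,
   ⟨[6, 5, 5, 4, 2, 1], 0, [([4, 4, 2, 2, 0, 0], (.ev, 0)), ([2, 0, 2, 2, 2, 0], (.ev, 0)), ([0, 0, 0, 0, 0, 1], (.pl 1, 1)), ([0, 1, 1, 0, 0, 0], (.ev, 0))], [1, 1, 0, 1]⟩,
   ⟨[6, 5, 5, 4, 1], 0, [([4, 4, 2, 2, 0], (.ev, 0)), ([2, 1, 2, 1, 0], (.ev, 2)), ([0, 0, 0, 0, 1], (.pl 1, 1)), ([0, 0, 1, 1, 0], (.ev, 0))], [1, 1, 0, 1]⟩,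
   ⟨[6, 5, 5, 3], 0, [([4, 4, 2, 2], (.ev, 0)), ([2, 1, 2, 1], (.ev, 2)), ([0, 0, 1, 0], (.pl 1, 1)), ([0, 0, 0, 0], (.ev, 2))], [1, 1, 0, 1]⟩,
   ⟨[6, 5, 4, 4, 4], 0, [([4, 4, 2, 2, 0], (.ev, 0)), ([2, 0, 2, 2, 2], (.ev, 0)), ([0, 0, 0, 0, 1], (.pl 1, 1)), ([0, 1, 0, 0, 1], (.ev, 0))], [1, 1, 0, 1]⟩,
   ⟨[6, 5, 4, 4, 3, 2], 0, [([4, 4, 2, 2, 0, 0], (.ev, 0)), ([2, 0, 2, 2, 2, 0], (.ev, 0)), ([0, 0, 0, 0, 1, 1], (.pl 1, 0)), ([0, 1, 0, 0, 0, 1], (.ev, 0))], [1, 1, 0, 1]⟩,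
   ⟨[6, 5, 4, 4, 3, 1], 0, [([4, 4, 2, 2, 0, 0], (.ev, 0)), ([2, 0, 2, 2, 2, 0], (.ev, 0)), ([0, 0, 0, 0, 0, 1], (.pl 1, 1)), ([0, 1, 0, 0, 1, 0], (.ev, 0))], [1, 1, 0, 1]⟩,
   ⟨[6, 5, 4, 3], 0, [([4, 4, 2, 2], (.ev, 0)), ([2, 1, 2, 1], (.ev, 2)), ([0, 0, 0, 0], (.pl 1, 2)), ([0, 0, 0, 0], (.ev, 2))], [1, 1, 0, 1]⟩,
   ⟨[6, 4, 4, 4, 4, 2], 0, [([4, 4, 2, 2, 0, 0], (.ev, 0)), ([2, 0, 2, 2, 2, 0], (.ev, 0)), ([0, 0, 0, 0, 1, 1], (.pl 1, 0)), ([0, 0, 0, 0, 1, 1], (.ev, 0))], [1, 1, 0, 1]⟩,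
   ⟨[6, 4, 4, 4, 4, 1], 0, [([4, 4, 2, 2, 0, 0], (.ev, 0)), ([2, 0, 2, 2, 2, 0], (.ev, 0)), ([0, 0, 0, 0, 1, 0], (.pl 1, 1)), ([0, 0, 0, 0, 1, 1], (.ev, 0))], [1, 1, 0, 1]⟩,
   ⟨[6, 4, 4, 4, 3, 3], 0, [([4, 4, 2, 2, 0, 0], (.ev, 0)), ([1, 0, 1, 0, 3, 3], (.ev, 0)), ([0, 0, 1, 1, 0, 0], (.pl 1, 0)), ([1, 0, 0, 1, 0, 0], (.ev, 0))], [1, 1, 0, 1]⟩,
   ⟨[5, 5, 5, 5, 4], 0, [([4, 4, 2, 2, 0], (.ev, 0)), ([1, 0, 3, 1, 3], (.ev, 0)), ([0, 0, 0, 1, 1], (.pl 1, 0)), ([0, 1, 0, 1, 0], (.ev, 0))], [1, 1, 0, 1]⟩,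
   ⟨[5, 5, 5, 5, 3], 0, [([4, 4, 2, 2, 0], (.ev, 0)), ([1, 0, 3, 3, 1], (.ev, 0)), ([0, 0, 0, 0, 1], (.pl 1, 1)), ([0, 1, 0, 0, 1], (.ev, 0))], [1, 1, 0, 1]⟩,
   ⟨[5, 5, 5, 5, 2, 2], 0, [([4, 4, 2, 2, 0, 0], (.ev, 0)), ([0, 0, 3, 3, 1, 1], (.ev, 0)), ([0, 0, 0, 0, 1, 1], (.pl 1, 0)), ([1, 1, 0, 0, 0, 0], (.ev, 0))], [1, 1, 0, 1]⟩,
   ⟨[5, 5, 5, 5, 2, 1], 0, [([4, 4, 2, 2, 0, 0], (.ev, 0)), ([1, 0, 3, 3, 1, 0], (.ev, 0)), ([0, 0, 0, 0, 0, 1], (.pl 1, 1)), ([0, 1, 0, 0, 1, 0], (.ev, 0))], [1, 1, 0, 1]⟩,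
   ⟨[5, 5, 5, 5, 1], 0, [([4, 4, 2, 2, 0], (.ev, 0)), ([1, 1, 3, 3, 0], (.ev, 0)), ([0, 0, 0, 0, 1], (.pl 1, 1)), ([0, 0, 0, 0, 0], (.ev, 2))], [1, 1, 0, 1]⟩,
   ⟨[5, 5, 5, 4, 4], 0, [([4, 4, 2, 2, 0], (.ev, 0)), ([1, 0, 3, 1, 3], (.ev, 0)), ([0, 0, 0, 0, 1], (.pl 1, 1)), ([0, 1, 0, 1, 0], (.ev, 0))], [1, 1, 0, 1]⟩,
   ⟨[5, 5, 5, 4, 3, 2], 0, [([4, 4, 2, 2, 0, 0], (.ev, 0)), ([0, 0, 3, 1, 3, 1], (.ev, 0)), ([0, 0, 0, 1, 0, 1], (.pl 1, 0)), ([1, 1, 0, 0, 0, 0], (.ev, 0))], [1, 1, 0, 1]⟩,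
   ⟨[5, 5, 5, 4, 3, 1], 0, [([4, 4, 2, 2, 0, 0], (.ev, 0)), ([1, 0, 3, 1, 3, 0], (.ev, 0)), ([0, 0, 0, 0, 0, 1], (.pl 1, 1)), ([0, 1, 0, 1, 0, 0], (.ev, 0))], [1, 1, 0, 1]⟩,
   ⟨[5, 5, 5, 3], 0, [([3, 3, 2, 2], (.ev, 2)), ([2, 1, 2, 1], (.ev, 2)), ([0, 0, 0, 0], (.pl 1, 2)), ([0, 1, 1, 0], (.ev, 0))], [1, 1, 0, 1]⟩,
   ⟨[5, 5, 4, 4, 4, 2], 0, [([4, 4, 2, 2, 0, 0], (.ev, 0)), ([0, 0, 2, 2, 2, 2], (.ev, 0)), ([0, 1, 0, 0, 1, 0], (.pl 1, 0)), ([1, 0, 0, 0, 1, 0], (.ev, 0))], [1, 1, 0, 1]⟩,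
   ⟨[5, 5, 4, 4, 4, 1], 0, [([4, 4, 2, 2, 0, 0], (.ev, 0)), ([1, 1, 2, 1, 2, 1], (.ev, 0)), ([0, 0, 0, 0, 1, 0], (.pl 1, 1)), ([0, 0, 0, 1, 1, 0], (.ev, 0))], [1, 1, 0, 1]⟩,
   ⟨[5, 5, 4, 4, 3, 3], 0, [([4, 4, 2, 2, 0, 0], (.ev, 0)), ([0, 0, 1, 1, 3, 3], (.ev, 0)), ([0, 0, 1, 1, 0, 0], (.pl 1, 0)), ([1, 1, 0, 0, 0, 0], (.ev, 0))], [1, 1, 0, 1]⟩,
   ⟨[5, 4, 4, 4], 0, [([3, 3, 2, 2], (.ev, 2)), ([2, 1, 2, 1], (.ev, 2)), ([0, 0, 0, 1], (.pl 1, 1)), ([0, 0, 0, 0], (.ev, 2))], [1, 1, 0, 1]⟩,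
   ⟨[4, 4, 4, 4], 0, [([3, 3, 2, 2], (.ev, 2)), ([1, 1, 2, 2], (.ev, 2)), ([0, 0, 0, 0], (.pl 1, 2)), ([0, 0, 0, 0], (.ev, 2))], [1, 1, 0, 1]⟩]

def cmC_7_4_2_1_0 : List (List ℕ × List (ℕ × ℕ)) :=
  [([8, 4, 4, 4], [(0, 1), (4, 1), (0, 1), (0, 1)]),
   ([8, 4, 4, 3], [(0, 1), (4, 1), (1, 1), (0, 1)]),
   ([7, 5, 5, 4], [(0, 1), (0, 1), (1, 1), (2, 1)]),
   ([7, 5, 5, 3], [(0, 1), (0, 1), (2, 1), (2, 1)]),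
   ([7, 5, 4, 4], [(0, 1), (2, 1), (2, 1), (0, 1)]),
   ([7, 5, 4, 3], [(0, 1), (2, 1), (1, 1), (2, 1)]),
   ([7, 5, 3], [(4, 1), (3, 1), (0, 1), (2, 1), (0, 1)]),
   ([7, 4, 4, 4], [(2, 1), (2, 1), (1, 1), (0, 1)]),
   ([7, 4, 4, 3], [(3, 1), (2, 1), (0, 1), (1, 1), (0, 1)]),
   ([6, 6, 6, 4], [(0, 1), (2, 1), (0, 1), (0, 1)]),
   ([6, 6, 6, 3], [(0, 1), (2, 1), (1, 1), (0, 1)]),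
   ([6, 6, 6, 2, 2, 2], [(0, 1), (0, 1), (0, 1), (0, 1)]),
   ([6, 6, 6, 2, 2, 1], [(0, 1), (0, 1), (1, 1), (0, 1)]),
   ([6, 6, 6, 2, 1], [(0, 1), (2, 1), (1, 1), (0, 1)]),
   ([6, 6, 5, 5], [(0, 1), (0, 1), (2, 1), (0, 1)]),
   ([6, 6, 5, 4], [(0, 1), (0, 1), (1, 1), (2, 1)]),
   ([6, 6, 5, 3, 3], [(0, 1), (0, 1), (1, 1), (0, 1)]),
   ([6, 6, 5, 3, 2, 2], [(0, 1), (0, 1), (0, 1), (0, 1)]),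
   ([6, 6, 5, 3, 2, 1], [(0, 1), (0, 1), (1, 1), (0, 1)]),
   ([6, 6, 5, 3, 1], [(0, 1), (2, 1), (1, 1), (0, 1)]),
   ([6, 6, 4, 4, 3], [(0, 1), (0, 1), (1, 1), (0, 1)]),
   ([6, 6, 4, 4, 2, 2], [(0, 1), (0, 1), (0, 1), (0, 1)]),
   ([6, 6, 4, 4, 2, 1], [(0, 1), (0, 1), (1, 1), (0, 1)]),
   ([6, 6, 4, 4, 1], [(0, 1), (0, 1), (1, 1), (2, 1)]),
   ([6, 6, 4, 3], [(0, 1), (2, 1), (1, 1), (2, 1)]),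
   ([6, 6, 3, 3], [(0, 1), (2, 1), (2, 1), (2, 1)]),
   ([6, 5, 5, 5], [(0, 1), (0, 1), (1, 1), (2, 1)]),
   ([6, 5, 5, 4, 3], [(0, 1), (0, 1), (1, 1), (0, 1)]),
   ([6, 5, 5, 4, 2, 2], [(0, 1), (0, 1), (0, 1), (0, 1)]),
   ([6, 5, 5, 4, 2, 1], [(0, 1), (0, 1), (1, 1), (0, 1)]),
   ([6, 5, 5, 4, 1], [(0, 1), (2, 1), (1, 1), (0, 1)]),
   ([6, 5, 5, 3], [(0, 1), (2, 1), (1, 1), (2, 1)]),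
   ([6, 5, 4, 4, 4], [(0, 1), (0, 1), (1, 1), (0, 1)]),
   ([6, 5, 4, 4, 3, 2], [(0, 1), (0, 1), (0, 1), (0, 1)]),
   ([6, 5, 4, 4, 3, 1], [(0, 1), (0, 1), (1, 1), (0, 1)]),
   ([6, 5, 4, 3], [(0, 1), (2, 1), (2, 1), (2, 1)]),
   ([6, 4, 4, 4, 4, 2], [(0, 1), (0, 1), (0, 1), (0, 1)]),
   ([6, 4, 4, 4, 4, 1], [(0, 1), (0, 1), (1, 1), (0, 1)]),
   ([6, 4, 4, 4, 3, 3], [(0, 1), (0, 1), (0, 1), (0, 1)]),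
   ([5, 5, 5, 5, 4], [(0, 1), (0, 1), (0, 1), (0, 1)]),
   ([5, 5, 5, 5, 3], [(0, 1), (0, 1), (1, 1), (0, 1)]),
   ([5, 5, 5, 5, 2, 2], [(0, 1), (0, 1), (0, 1), (0, 1)]),
   ([5, 5, 5, 5, 2, 1], [(0, 1), (0, 1), (1, 1), (0, 1)]),
   ([5, 5, 5, 5, 1], [(0, 1), (0, 1), (1, 1), (2, 1)]),
   ([5, 5, 5, 4, 4], [(0, 1), (0, 1), (1, 1), (0, 1)]),
   ([5, 5, 5, 4, 3, 2], [(0, 1), (0, 1), (0, 1), (0, 1)]),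
   ([5, 5, 5, 4, 3, 1], [(0, 1), (0, 1), (1, 1), (0, 1)]),
   ([5, 5, 5, 3], [(2, 1), (2, 1), (2, 1), (0, 1)]),
   ([5, 5, 4, 4, 4, 2], [(0, 1), (0, 1), (0, 1), (0, 1)]),
   ([5, 5, 4, 4, 4, 1], [(0, 1), (0, 1), (1, 1), (0, 1)]),
   ([5, 5, 4, 4, 3, 3], [(0, 1), (0, 1), (0, 1), (0, 1)]),
   ([5, 4, 4, 4], [(2, 1), (2, 1), (1, 1), (2, 1)]),
   ([4, 4, 4, 4], [(2, 1), (2, 1), (2, 1), (2, 1)])]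

def cm_7_4_2_1 : List CM :=
  cm_7_4_2_1_0

def cmC_7_4_2_1 : List (List ℕ × List (ℕ × ℕ)) :=
  cmC_7_4_2_1_0

def ex_7_4_2_1 : List (List ℕ) :=
  [[6, 6, 6, 1, 1, 1, 1, 1, 1]]

set_option Elab.async false in
theorem fullT_7_4_2_1 (hf : FullH [4, 2, 1])
    (hexc : ∀ q ∈ ex_7_4_2_1, ∀ μ : YoungDiagram, μ.card = 24 →
      (List.range (μ.rowLen 0)).map μ.colLen = q → OccSh (hk [7, 4, 2, 1]) (hk [7, 4, 2, 1]) μ) :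
    FullH [7, 4, 2, 1] :=
  fullH_of_tree (by decide) (HC_of (by decide) (by decide)) hf ls_7_4_2_1 sp_7_4_2_1 cm_7_4_2_1 ex_7_4_2_1 spC_7_4_2_1 cmC_7_4_2_1 99 hexc
    (by decide +kernel) (by decide +kernel) (by decide +kernel) (by decide +kernel) (by decide +kernel)
    (by decide +kernel)


/-! hook list [6, 3, 1], n = 17: 55 nodes, 8 commitments -/

def ls_6_3_1 : List (List Pc) :=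
  [[.rect 6 1, .pair 4, .rect 2 1, .dup 1],
   [.gap 6, .pair 3, .dup 1]]

def sp_6_3_1 : List (ℕ × List ℕ) :=
  [(0, [0, 0, 0, 1])]

def spC_6_3_1 : List (List (ℕ × ℕ)) :=
  [[(6, 1), (7, 4), (2, 1), (2, 1)]]

def cm_6_3_1_0 : List CM :=
  [⟨[5, 5, 4, 2], 1, [([3, 3, 2, 2], (.ev, 0)), ([1, 1, 2, 0], (.pl 4, 1)), ([1, 1, 0, 0], (.ev, 0))], [1, 0, 1]⟩,
   ⟨[5, 5, 3, 3], 1, [([3, 3, 2, 2], (.ev, 0)), ([1, 1, 1, 1], (.pl 4, 1)), ([1, 1, 0, 0], (.ev, 0))], [1, 0, 1]⟩,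
   ⟨[5, 5, 3, 2], 1, [([3, 3, 2, 2], (.ev, 0)), ([1, 1, 1, 0], (.pl 4, 2)), ([1, 1, 0, 0], (.ev, 0))], [1, 0, 1]⟩,
   ⟨[5, 4, 4, 3], 1, [([3, 3, 2, 2], (.ev, 0)), ([1, 1, 1, 1], (.pl 4, 1)), ([1, 0, 1, 0], (.ev, 0))], [1, 0, 1]⟩,
   ⟨[5, 4, 4, 2], 1, [([3, 3, 2, 2], (.ev, 0)), ([1, 1, 1, 0], (.pl 4, 2)), ([1, 0, 1, 0], (.ev, 0))], [1, 0, 1]⟩,
   ⟨[5, 4, 3, 3], 1, [([3, 3, 2, 2], (.ev, 0)), ([1, 0, 1, 1], (.pl 4, 2)), ([1, 1, 0, 0], (.ev, 0))], [1, 0, 1]⟩,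
   ⟨[5, 3], 1, [([2, 2], (.ev, 6)), ([2, 0], (.pl 4, 3)), ([1, 1], (.ev, 0))], [3, 2, 1]⟩,
   ⟨[4, 4], 1, [([2, 2], (.ev, 6)), ([1, 1], (.pl 4, 3)), ([1, 1], (.ev, 0))], [4, 3, 1]⟩]

def cmC_6_3_1_0 : List (List ℕ × List (ℕ × ℕ)) :=
  [([5, 5, 4, 2], [(0, 1), (1, 4), (0, 1)]),
   ([5, 5, 3, 3], [(0, 1), (1, 4), (0, 1)]),
   ([5, 5, 3, 2], [(0, 1), (2, 4), (0, 1)]),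
   ([5, 4, 4, 3], [(0, 1), (1, 4), (0, 1)]),
   ([5, 4, 4, 2], [(0, 1), (2, 4), (0, 1)]),
   ([5, 4, 3, 3], [(0, 1), (2, 4), (0, 1)]),
   ([5, 3], [(8, 3), (1, 2), (0, 1)]),
   ([4, 4], [(9, 4), (0, 1), (0, 1)])]

def cm_6_3_1 : List CM :=
  cm_6_3_1_0

def cmC_6_3_1 : List (List ℕ × List (ℕ × ℕ)) :=
  cmC_6_3_1_0

def ex_6_3_1 : List (List ℕ) :=
  [[9, 1, 1, 1, 1, 1, 1, 1, 1],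
   [5, 5, 5, 1, 1]]

set_option Elab.async false in
theorem fullT_6_3_1 (hf : FullH [3, 1])
    (hexc : ∀ q ∈ ex_6_3_1, ∀ μ : YoungDiagram, μ.card = 17 →
      (List.range (μ.rowLen 0)).map μ.colLen = q → OccSh (hk [6, 3, 1]) (hk [6, 3, 1]) μ) :
    FullH [6, 3, 1] :=
  fullH_of_tree (by decide) (HC_of (by decide) (by decide)) hf ls_6_3_1 sp_6_3_1 cm_6_3_1 ex_6_3_1 spC_6_3_1 cmC_6_3_1 99 hexc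
    (by decide +kernel) (by decide +kernel) (by decide +kernel) (by decide +kernel) (by decide +kernel)
    (by decide +kernel)


/-! hook list [6, 4], n = 18: 87 nodes, 0 commitments -/

def ls_6_4 : List (List Pc) :=
  [[.pair 6, .rect 2 3, .rect 1 1]]

def sp_6_4 : List (ℕ × List ℕ) :=
  [(0, [0, 0, 0])]

def spC_6_4 : List (List (ℕ × ℕ)) :=
  [[(11, 4), (6, 1), (1, 1)]]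

def cm_6_4_0 : List CM :=
  []

def cmC_6_4_0 : List (List ℕ × List (ℕ × ℕ)) :=
  []

def cm_6_4 : List CM :=
  cm_6_4_0

def cmC_6_4 : List (List ℕ × List (ℕ × ℕ)) :=
  cmC_6_4_0

def ex_6_4 : List (List ℕ) :=
  [[5, 5, 5, 2, 1],
   [5, 5, 4, 3, 1],
   [5, 5, 4, 2, 2],
   [5, 5, 3, 3, 2],
   [5, 4, 4, 4, 1],
   [5, 4, 4, 3, 2],
   [5, 4, 3, 3, 3],
   [4, 4, 4, 4, 2],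
   [4, 4, 4, 3, 3]]

set_option Elab.async false in
theorem fullT_6_4 (hf : FullH [4])
    (hexc : ∀ q ∈ ex_6_4, ∀ μ : YoungDiagram, μ.card = 18 →
      (List.range (μ.rowLen 0)).map μ.colLen = q → OccSh (hk [6, 4]) (hk [6, 4]) μ) :
    FullH [6, 4] :=
  fullH_of_tree (by decide) (HC_of (by decide) (by decide)) hf ls_6_4 sp_6_4 cm_6_4 ex_6_4 spC_6_4 cmC_6_4 99 hexc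
    (by decide +kernel) (by decide +kernel) (by decide +kernel) (by decide +kernel) (by decide +kernel)
    (by decide +kernel)

end Crest.Agent.R195
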