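import Crest.Agent.R195.TreeFin

set_option autoImplicit false

namespace Crest.Agent.R195

/-! hook list [11, 8, 6, 4, 2, 1], n = 58: 93 nodes, 9 commitments -/

def ls_11_8_6_4_2_1 : List (List Pc) :=
  [[.rect 11 1, .pair 9, .rect 7 1, .dup 6, .pair 4, .rect 2 1, .dup 1],
   [.gap 11, .pair 8, .dup 6, .pair 4, .rect 2 1, .dup 1]]

def sp_11_8_6_4_2_1 : List (ℕ × List ℕ) :=
  [(0, [0, 0, 0, 4, 3, 0, 1]),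
   (1, [3, 2, 2, 3, 0, 1])]

def spC_11_8_6_4_2_1 : List (List (ℕ × ℕ)) :=
  [[(11, 1), (17, 4), (7, 1), (15, 4), (4, 1), (2, 1), (2, 1)],
   [(24, 3), (13, 2), (13, 2), (4, 1), (2, 1), (2, 1)]]

def cm_11_8_6_4_2_1 : List CM :=
  [⟨[15, 5], 0, [([1, 0], (.pl 1, 10)), ([4, 0], (.pl 4, 13)), ([1, 0], (.pl 1, 6)), ([4, 4], (.ev, 4)), ([3, 0], (.pl 4, 4)), ([1, 0], (.pl 1, 1)), ([1, 1], (.ev, 0))], [0, 0, 0, 1, 0, 0, 1]⟩,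
   ⟨[14, 6], 1, [([2, 2], (.ev, 16)), ([4, 0], (.pl 4, 11)), ([4, 4], (.ev, 4)), ([3, 0], (.pl 4, 4)), ([1, 0], (.pl 1, 1)), ([0, 0], (.ev, 2))], [2, 0, 1, 0, 1, 1]⟩,
   ⟨[14, 5], 1, [([2, 2], (.ev, 16)), ([4, 0], (.pl 4, 11)), ([3, 3], (.ev, 6)), ([4, 0], (.pl 4, 3)), ([1, 0], (.pl 1, 1)), ([0, 0], (.ev, 2))], [2, 0, 1, 0, 1, 1]⟩,
   ⟨[11, 9], 1, [([2, 2], (.ev, 16)), ([4, 2], (.pl 4, 9)), ([4, 4], (.ev, 4)), ([0, 0], (.pl 4, 7)), ([0, 0], (.pl 1, 2)), ([1, 1], (.ev, 0))], [4, 1, 1, 2, 0, 1]⟩,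
   ⟨[10, 10], 1, [([2, 2], (.ev, 16)), ([3, 3], (.pl 4, 9)), ([4, 4], (.ev, 4)), ([0, 0], (.pl 4, 7)), ([0, 0], (.pl 1, 2)), ([1, 1], (.ev, 0))], [4, 1, 1, 2, 0, 1]⟩,
   ⟨[10, 9], 1, [([2, 2], (.ev, 16)), ([3, 2], (.pl 4, 10)), ([4, 4], (.ev, 4)), ([0, 0], (.pl 4, 7)), ([0, 0], (.pl 1, 2)), ([1, 1], (.ev, 0))], [4, 1, 1, 2, 0, 1]⟩,
   ⟨[9, 9], 1, [([2, 2], (.ev, 16)), ([2, 2], (.pl 4, 11)), ([4, 4], (.ev, 4)), ([0, 0], (.pl 4, 7)), ([0, 0], (.pl 1, 2)), ([1, 1], (.ev, 0))], [4, 1, 1, 2, 0, 1]⟩,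
   ⟨[9, 8], 1, [([2, 2], (.ev, 16)), ([2, 1], (.pl 4, 12)), ([4, 4], (.ev, 4)), ([0, 0], (.pl 4, 7)), ([0, 0], (.pl 1, 2)), ([1, 1], (.ev, 0))], [4, 1, 1, 2, 0, 1]⟩,
   ⟨[8, 8], 1, [([2, 2], (.ev, 16)), ([1, 1], (.pl 4, 13)), ([4, 4], (.ev, 4)), ([0, 0], (.pl 4, 7)), ([0, 0], (.pl 1, 2)), ([1, 1], (.ev, 0))], [4, 1, 1, 2, 0, 1]⟩]

def cmC_11_8_6_4_2_1 : List (List ℕ × List (ℕ × ℕ)) :=
  [([15, 5], [(10, 1), (13, 4), (6, 1), (4, 1), (4, 4), (1, 1), (0, 1)]),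
   ([14, 6], [(17, 2), (11, 4), (4, 1), (4, 4), (0, 1), (2, 1)]),
   ([14, 5], [(17, 2), (11, 4), (6, 1), (3, 4), (0, 1), (2, 1)]),
   ([11, 9], [(19, 4), (8, 3), (4, 1), (5, 2), (2, 1), (0, 1)]),
   ([10, 10], [(19, 4), (8, 3), (4, 1), (5, 2), (2, 1), (0, 1)]),
   ([10, 9], [(19, 4), (9, 3), (4, 1), (5, 2), (2, 1), (0, 1)]),
   ([9, 9], [(19, 4), (10, 3), (4, 1), (5, 2), (2, 1), (0, 1)]),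
   ([9, 8], [(19, 4), (11, 3), (4, 1), (5, 2), (2, 1), (0, 1)]),
   ([8, 8], [(19, 4), (12, 3), (4, 1), (5, 2), (2, 1), (0, 1)])]

set_option Elab.async false in
theorem covH_11_8_6_4_2_1 : CovH [11, 8, 6, 4, 2, 1] :=
  covH_of_tree (by decide) ls_11_8_6_4_2_1 sp_11_8_6_4_2_1 cm_11_8_6_4_2_1 spC_11_8_6_4_2_1 cmC_11_8_6_4_2_1 99 (by decide +kernel) (by decide +kernel)
    (by decide +kernel) (by decide +kernel) (by decide +kernel) (by decide +kernel)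

theorem covT_hB_10_1 : CovH (hB 10 1) := covH_11_8_6_4_2_1


/-! hook list [9, 6, 4, 2], n = 38: 67 nodes, 10 commitments -/

def ls_9_6_4_2 : List (List Pc) :=
  [[.gap 9, .pair 6, .pair 4, .rect 2 1, .dup 1],
   [.rect 9 1, .pair 7, .pair 5, .pair 3, .dup 1]]

def sp_9_6_4_2 : List (ℕ × List ℕ) :=
  [(0, [3, 1, 3, 0, 1]),
   (1, [0, 0, 0, 0, 1])]

def spC_9_6_4_2 : List (List (ℕ × ℕ)) :=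
  [[(20, 3), (10, 3), (4, 1), (2, 1), (2, 1)],
   [(9, 1), (13, 4), (9, 4), (5, 4), (2, 1)]]

def cm_9_6_4_2 : List CM :=
  [⟨[8, 8, 8, 8], 0, [([4, 4, 2, 2], (.ev, 4)), ([4, 2, 2, 2], (.pl 4, 1)), ([0, 1, 3, 2], (.pl 4, 1)), ([0, 1, 0, 1], (.pl 1, 0)), ([0, 0, 1, 1], (.ev, 0))], [1, 0, 0, 0, 1]⟩,
   ⟨[8, 8, 8, 7], 0, [([4, 4, 2, 2], (.ev, 4)), ([4, 2, 2, 2], (.pl 4, 1)), ([0, 1, 3, 1], (.pl 4, 2)), ([0, 1, 0, 1], (.pl 1, 0)), ([0, 0, 1, 1], (.ev, 0))], [1, 0, 0, 0, 1]⟩,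
   ⟨[8, 8, 8, 6], 0, [([4, 4, 2, 2], (.ev, 4)), ([3, 2, 3, 1], (.pl 4, 2)), ([0, 1, 2, 2], (.pl 4, 2)), ([0, 1, 0, 1], (.pl 1, 0)), ([1, 0, 1, 0], (.ev, 0))], [1, 0, 0, 0, 1]⟩,
   ⟨[8, 8, 8, 5], 0, [([4, 4, 2, 2], (.ev, 4)), ([3, 2, 3, 1], (.pl 4, 2)), ([0, 1, 2, 1], (.pl 4, 3)), ([0, 1, 0, 1], (.pl 1, 0)), ([1, 0, 1, 0], (.ev, 0))], [1, 0, 0, 0, 1]⟩,
   ⟨[8, 8, 7, 7], 0, [([4, 4, 2, 2], (.ev, 4)), ([4, 2, 2, 1], (.pl 4, 2)), ([0, 1, 2, 2], (.pl 4, 2)), ([0, 1, 0, 1], (.pl 1, 0)), ([0, 0, 1, 1], (.ev, 0))], [1, 0, 0, 0, 1]⟩,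
   ⟨[8, 8, 7, 6], 0, [([4, 4, 2, 2], (.ev, 4)), ([3, 2, 2, 2], (.pl 4, 2)), ([0, 1, 2, 1], (.pl 4, 3)), ([0, 1, 0, 1], (.pl 1, 0)), ([1, 0, 1, 0], (.ev, 0))], [1, 0, 0, 0, 1]⟩,
   ⟨[8, 8, 6, 6], 0, [([4, 4, 2, 2], (.ev, 4)), ([3, 2, 2, 1], (.pl 4, 3)), ([0, 0, 2, 2], (.pl 4, 3)), ([0, 1, 0, 1], (.pl 1, 0)), ([1, 1, 0, 0], (.ev, 0))], [1, 0, 0, 0, 1]⟩,
   ⟨[8, 7], 0, [([2, 2], (.ev, 12)), ([4, 2], (.pl 4, 5)), ([0, 2], (.pl 4, 5)), ([1, 0], (.pl 1, 1)), ([1, 1], (.ev, 0))], [4, 1, 1, 1, 1]⟩,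
   ⟨[7, 7], 0, [([2, 2], (.ev, 12)), ([4, 2], (.pl 4, 5)), ([0, 1], (.pl 4, 6)), ([0, 1], (.pl 1, 1)), ([1, 1], (.ev, 0))], [4, 1, 1, 1, 1]⟩,
   ⟨[7, 6], 0, [([2, 2], (.ev, 12)), ([4, 1], (.pl 4, 6)), ([0, 1], (.pl 4, 6)), ([0, 1], (.pl 1, 1)), ([1, 1], (.ev, 0))], [4, 1, 1, 1, 1]⟩]

def cmC_9_6_4_2 : List (List ℕ × List (ℕ × ℕ)) :=
  [([8, 8, 8, 8], [(4, 1), (1, 4), (1, 4), (0, 1), (0, 1)]),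
   ([8, 8, 8, 7], [(4, 1), (1, 4), (2, 4), (0, 1), (0, 1)]),
   ([8, 8, 8, 6], [(4, 1), (2, 4), (2, 4), (0, 1), (0, 1)]),
   ([8, 8, 8, 5], [(4, 1), (2, 4), (3, 4), (0, 1), (0, 1)]),
   ([8, 8, 7, 7], [(4, 1), (2, 4), (2, 4), (0, 1), (0, 1)]),
   ([8, 8, 7, 6], [(4, 1), (2, 4), (3, 4), (0, 1), (0, 1)]),
   ([8, 8, 6, 6], [(4, 1), (3, 4), (3, 4), (0, 1), (0, 1)]),
   ([8, 7], [(15, 4), (4, 3), (4, 3), (0, 1), (0, 1)]),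
   ([7, 7], [(15, 4), (4, 3), (5, 3), (0, 1), (0, 1)]),
   ([7, 6], [(15, 4), (5, 3), (5, 3), (0, 1), (0, 1)])]

set_option Elab.async false in
theorem covH_9_6_4_2 : CovH [9, 6, 4, 2] :=
  covH_of_tree (by decide) ls_9_6_4_2 sp_9_6_4_2 cm_9_6_4_2 spC_9_6_4_2 cmC_9_6_4_2 99 (by decide +kernel) (by decide +kernel)
    (by decide +kernel) (by decide +kernel) (by decide +kernel) (by decide +kernel)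

theorem covT_hA_8_1 : CovH (hA 8 1) := covH_9_6_4_2


/-! hook list [9, 7, 4, 2, 1], n = 41: 45 nodes, 3 commitments -/

def ls_9_7_4_2_1 : List (List Pc) :=
  [[.pair 9, .rect 6 1, .dup 5, .rect 3 1, .dup 2, .rect 1 1]]

def sp_9_7_4_2_1 : List (ℕ × List ℕ) :=
  [(0, [0, 0, 2, 0, 1, 1])]

def spC_9_7_4_2_1 : List (List (ℕ × ℕ)) :=
  [[(17, 4), (6, 1), (11, 2), (3, 1), (4, 1), (0, 1)]]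

def cm_9_7_4_2_1 : List CM :=
  [⟨[11, 5], 0, [([4, 0], (.pl 4, 13)), ([1, 0], (.pl 1, 5)), ([4, 4], (.ev, 2)), ([1, 0], (.pl 1, 2)), ([1, 1], (.ev, 2)), ([0, 0], (.pl 1, 1))], [0, 0, 1, 0, 1, 0]⟩,
   ⟨[10, 6], 0, [([3, 0], (.pl 4, 14)), ([1, 0], (.pl 1, 5)), ([4, 4], (.ev, 2)), ([0, 0], (.pl 1, 3)), ([2, 2], (.ev, 0)), ([0, 0], (.pl 1, 1))], [0, 0, 1, 0, 1, 0]⟩,
   ⟨[10, 5], 0, [([4, 0], (.pl 4, 13)), ([1, 0], (.pl 1, 5)), ([4, 4], (.ev, 2)), ([0, 0], (.pl 1, 3)), ([1, 1], (.ev, 2)), ([0, 0], (.pl 1, 1))], [0, 0, 1, 0, 1, 0]⟩]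

def cmC_9_7_4_2_1 : List (List ℕ × List (ℕ × ℕ)) :=
  [([11, 5], [(13, 4), (5, 1), (2, 1), (2, 1), (2, 1), (1, 1)]),
   ([10, 6], [(14, 4), (5, 1), (2, 1), (3, 1), (0, 1), (1, 1)]),
   ([10, 5], [(13, 4), (5, 1), (2, 1), (3, 1), (2, 1), (1, 1)])]

set_option Elab.async false in
theorem covH_9_7_4_2_1 : CovH [9, 7, 4, 2, 1] :=
  covH_of_tree (by decide) ls_9_7_4_2_1 sp_9_7_4_2_1 cm_9_7_4_2_1 spC_9_7_4_2_1 cmC_9_7_4_2_1 99 (by decide +kernel) (by decide +kernel)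
    (by decide +kernel) (by decide +kernel) (by decide +kernel) (by decide +kernel)

theorem covT_hB_8_2 : CovH (hB 8 2) := covH_9_7_4_2_1


/-! hook list [13, 11, 8, 6, 3], n = 77: 86 nodes, 10 commitments -/

def ls_13_11_8_6_3 : List (List Pc) :=
  [[.pair 13, .pair 10, .rect 7 1, .dup 5, .dup 4, .rect 3 1, .dup 2, .rect 1 1]]

def sp_13_11_8_6_3 : List (ℕ × List ℕ) :=
  [(0, [0, 1, 0, 2, 2, 0, 1, 1])]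

def spC_13_11_8_6_3 : List (List (ℕ × ℕ)) :=
  [[(25, 4), (18, 3), (7, 1), (11, 2), (9, 2), (3, 1), (4, 1), (0, 1)]]

def cm_13_11_8_6_3 : List CM :=
  [⟨[18, 6, 6], 0, [([4, 0, 1], (.pl 4, 20)), ([3, 0, 0], (.pl 4, 16)), ([1, 0, 1], (.pl 1, 5)), ([4, 4, 0], (.ev, 2)), ([4, 0, 4], (.ev, 0)), ([0, 0, 0], (.pl 1, 3)), ([2, 2, 0], (.ev, 0)), ([0, 0, 0], (.pl 1, 1))], [0, 0, 0, 1, 1, 0, 1, 0]⟩,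
   ⟨[17, 7], 0, [([4, 0], (.pl 4, 21)), ([4, 0], (.pl 4, 15)), ([1, 0], (.pl 1, 6)), ([4, 4], (.ev, 2)), ([3, 3], (.ev, 2)), ([1, 0], (.pl 1, 2)), ([0, 0], (.ev, 4)), ([0, 0], (.pl 1, 1))], [0, 0, 0, 1, 1, 0, 1, 0]⟩,
   ⟨[17, 6], 0, [([4, 0], (.pl 4, 21)), ([4, 0], (.pl 4, 15)), ([1, 0], (.pl 1, 6)), ([4, 4], (.ev, 2)), ([2, 2], (.ev, 4)), ([1, 0], (.pl 1, 2)), ([0, 0], (.ev, 4)), ([1, 0], (.pl 1, 0))], [0, 0, 0, 1, 1, 0, 1, 0]⟩,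
   ⟨[16, 8], 0, [([4, 0], (.pl 4, 21)), ([3, 0], (.pl 4, 16)), ([1, 0], (.pl 1, 6)), ([4, 4], (.ev, 2)), ([4, 4], (.ev, 0)), ([0, 0], (.pl 1, 3)), ([0, 0], (.ev, 4)), ([0, 0], (.pl 1, 1))], [0, 0, 0, 1, 1, 0, 1, 0]⟩,
   ⟨[16, 7], 0, [([4, 0], (.pl 4, 21)), ([4, 0], (.pl 4, 15)), ([1, 0], (.pl 1, 6)), ([4, 4], (.ev, 2)), ([3, 3], (.ev, 2)), ([0, 0], (.pl 1, 3)), ([0, 0], (.ev, 4)), ([0, 0], (.pl 1, 1))], [0, 0, 0, 1, 1, 0, 1, 0]⟩,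
   ⟨[16, 6], 0, [([4, 0], (.pl 4, 21)), ([4, 0], (.pl 4, 15)), ([1, 0], (.pl 1, 6)), ([4, 4], (.ev, 2)), ([2, 2], (.ev, 4)), ([1, 0], (.pl 1, 2)), ([0, 0], (.ev, 4)), ([0, 0], (.pl 1, 1))], [0, 0, 0, 1, 1, 0, 1, 0]⟩,
   ⟨[15, 9], 0, [([4, 0], (.pl 4, 21)), ([1, 0], (.pl 4, 18)), ([1, 0], (.pl 1, 6)), ([4, 4], (.ev, 2)), ([4, 4], (.ev, 0)), ([0, 0], (.pl 1, 3)), ([1, 1], (.ev, 2)), ([0, 0], (.pl 1, 1))], [0, 0, 0, 1, 1, 0, 1, 0]⟩,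
   ⟨[15, 8], 0, [([4, 0], (.pl 4, 21)), ([2, 0], (.pl 4, 17)), ([1, 0], (.pl 1, 6)), ([4, 4], (.ev, 2)), ([4, 4], (.ev, 0)), ([0, 0], (.pl 1, 3)), ([0, 0], (.ev, 4)), ([0, 0], (.pl 1, 1))], [0, 0, 0, 1, 1, 0, 1, 0]⟩,
   ⟨[15, 7], 0, [([4, 0], (.pl 4, 21)), ([3, 0], (.pl 4, 16)), ([1, 0], (.pl 1, 6)), ([4, 4], (.ev, 2)), ([3, 3], (.ev, 2)), ([0, 0], (.pl 1, 3)), ([0, 0], (.ev, 4)), ([0, 0], (.pl 1, 1))], [0, 0, 0, 1, 1, 0, 1, 0]⟩,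
   ⟨[15, 6], 0, [([4, 0], (.pl 4, 21)), ([4, 0], (.pl 4, 15)), ([1, 0], (.pl 1, 6)), ([4, 4], (.ev, 2)), ([2, 2], (.ev, 4)), ([0, 0], (.pl 1, 3)), ([0, 0], (.ev, 4)), ([0, 0], (.pl 1, 1))], [0, 0, 0, 1, 1, 0, 1, 0]⟩]

def cmC_13_11_8_6_3 : List (List ℕ × List (ℕ × ℕ)) :=
  [([18, 6, 6], [(20, 4), (16, 4), (5, 1), (2, 1), (0, 1), (3, 1), (0, 1), (1, 1)]),
   ([17, 7], [(21, 4), (15, 4), (6, 1), (2, 1), (2, 1), (2, 1), (4, 1), (1, 1)]),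
   ([17, 6], [(21, 4), (15, 4), (6, 1), (2, 1), (4, 1), (2, 1), (4, 1), (0, 1)]),
   ([16, 8], [(21, 4), (16, 4), (6, 1), (2, 1), (0, 1), (3, 1), (4, 1), (1, 1)]),
   ([16, 7], [(21, 4), (15, 4), (6, 1), (2, 1), (2, 1), (3, 1), (4, 1), (1, 1)]),
   ([16, 6], [(21, 4), (15, 4), (6, 1), (2, 1), (4, 1), (2, 1), (4, 1), (1, 1)]),
   ([15, 9], [(21, 4), (18, 4), (6, 1), (2, 1), (0, 1), (3, 1), (2, 1), (1, 1)]),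
   ([15, 8], [(21, 4), (17, 4), (6, 1), (2, 1), (0, 1), (3, 1), (4, 1), (1, 1)]),
   ([15, 7], [(21, 4), (16, 4), (6, 1), (2, 1), (2, 1), (3, 1), (4, 1), (1, 1)]),
   ([15, 6], [(21, 4), (15, 4), (6, 1), (2, 1), (4, 1), (3, 1), (4, 1), (1, 1)])]

set_option Elab.async false in
theorem covH_13_11_8_6_3 : CovH [13, 11, 8, 6, 3] :=
  covH_of_tree (by decide) ls_13_11_8_6_3 sp_13_11_8_6_3 cm_13_11_8_6_3 spC_13_11_8_6_3 cmC_13_11_8_6_3 99 (by decide +kernel) (by decide +kernel)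
    (by decide +kernel) (by decide +kernel) (by decide +kernel) (by decide +kernel)

theorem covT_hV_8_2 : CovH (hV 8 2) := covH_13_11_8_6_3


/-! hook list [11, 9, 5, 3], n = 52: 61 nodes, 6 commitments -/

def ls_11_9_5_3 : List (List Pc) :=
  [[.pair 11, .pair 7, .dup 4, .rect 3 1, .rect 2 3, .rect 1 1]]

def sp_11_9_5_3 : List (ℕ × List ℕ) :=
  [(0, [0, 1, 3, 0, 0, 1])]

def spC_11_9_5_3 : List (List (ℕ × ℕ)) :=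
  [[(21, 4), (12, 3), (10, 3), (3, 1), (6, 1), (0, 1)]]

def cm_11_9_5_3 : List CM :=
  [⟨[15, 5], 0, [([4, 0], (.pl 4, 17)), ([4, 0], (.pl 4, 9)), ([4, 4], (.ev, 0)), ([1, 0], (.pl 1, 2)), ([1, 1], (.pl 1, 4)), ([1, 0], (.pl 1, 0))], [0, 0, 1, 0, 0, 0]⟩,
   ⟨[14, 6], 0, [([4, 1], (.pl 4, 16)), ([4, 0], (.pl 4, 9)), ([4, 4], (.ev, 0)), ([1, 0], (.pl 1, 2)), ([1, 1], (.pl 1, 4)), ([0, 0], (.pl 1, 1))], [0, 0, 1, 0, 0, 0]⟩,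
   ⟨[14, 5], 0, [([4, 0], (.pl 4, 17)), ([4, 0], (.pl 4, 9)), ([4, 4], (.ev, 0)), ([1, 0], (.pl 1, 2)), ([1, 1], (.pl 1, 4)), ([0, 0], (.pl 1, 1))], [0, 0, 1, 0, 0, 0]⟩,
   ⟨[13, 7], 0, [([4, 2], (.pl 4, 15)), ([3, 0], (.pl 4, 10)), ([4, 4], (.ev, 0)), ([1, 0], (.pl 1, 2)), ([1, 1], (.pl 1, 4)), ([0, 0], (.pl 1, 1))], [0, 0, 1, 0, 0, 0]⟩,
   ⟨[13, 6], 0, [([4, 1], (.pl 4, 16)), ([3, 0], (.pl 4, 10)), ([4, 4], (.ev, 0)), ([1, 0], (.pl 1, 2)), ([1, 1], (.pl 1, 4)), ([0, 0], (.pl 1, 1))], [0, 0, 1, 0, 0, 0]⟩,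
   ⟨[13, 5], 0, [([4, 0], (.pl 4, 17)), ([3, 0], (.pl 4, 10)), ([4, 4], (.ev, 0)), ([1, 0], (.pl 1, 2)), ([1, 1], (.pl 1, 4)), ([0, 0], (.pl 1, 1))], [0, 0, 1, 0, 0, 0]⟩]

def cmC_11_9_5_3 : List (List ℕ × List (ℕ × ℕ)) :=
  [([15, 5], [(17, 4), (9, 4), (0, 1), (2, 1), (4, 1), (0, 1)]),
   ([14, 6], [(16, 4), (9, 4), (0, 1), (2, 1), (4, 1), (1, 1)]),
   ([14, 5], [(17, 4), (9, 4), (0, 1), (2, 1), (4, 1), (1, 1)]),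
   ([13, 7], [(15, 4), (10, 4), (0, 1), (2, 1), (4, 1), (1, 1)]),
   ([13, 6], [(16, 4), (10, 4), (0, 1), (2, 1), (4, 1), (1, 1)]),
   ([13, 5], [(17, 4), (10, 4), (0, 1), (2, 1), (4, 1), (1, 1)])]

set_option Elab.async false in
theorem covH_11_9_5_3 : CovH [11, 9, 5, 3] :=
  covH_of_tree (by decide) ls_11_9_5_3 sp_11_9_5_3 cm_11_9_5_3 spC_11_9_5_3 cmC_11_9_5_3 99 (by decide +kernel) (by decide +kernel)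
    (by decide +kernel) (by decide +kernel) (by decide +kernel) (by decide +kernel)

end Crest.Agent.R195
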