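import Crest.Agent.R195.TreeFin

set_option autoImplicit false
set_option maxHeartbeats 2000000

namespace Crest.Agent.R195

/-! hook list [10, 8, 5, 4, 2, 1], n = 54: 64 nodes, 7 commitments -/

def ls_10_8_5_4_2_1 : List (List Pc) :=
  [[.pair 10, .dup 7, .dup 6, .rect 4 1, .dup 2, .rect 1 1]]

def sp_10_8_5_4_2_1 : List (ℕ × List ℕ) :=
  [(0, [1, 2, 2, 0, 1, 1])]

def spC_10_8_5_4_2_1 : List (List (ℕ × ℕ)) :=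
  [[(18, 3), (15, 2), (13, 2), (4, 1), (4, 1), (0, 1)]]

def cm_10_8_5_4_2_1_0 : List CM :=
  [⟨[12, 6], 0, [([4, 0], (.pl 4, 15)), ([4, 4], (.ev, 6)), ([2, 2], (.ev, 8)), ([1, 0], (.pl 1, 3)), ([0, 0], (.ev, 4)), ([1, 0], (.pl 1, 0))], [0, 1, 1, 0, 1, 0]⟩,
   ⟨[11, 7], 0, [([4, 0], (.pl 4, 15)), ([4, 4], (.ev, 6)), ([3, 3], (.ev, 6)), ([0, 0], (.pl 1, 4)), ([0, 0], (.ev, 4)), ([0, 0], (.pl 1, 1))], [0, 1, 1, 0, 1, 0]⟩,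
   ⟨[11, 6], 0, [([4, 0], (.pl 4, 15)), ([4, 4], (.ev, 6)), ([2, 2], (.ev, 8)), ([1, 0], (.pl 1, 3)), ([0, 0], (.ev, 4)), ([0, 0], (.pl 1, 1))], [0, 1, 1, 0, 1, 0]⟩,
   ⟨[10, 8], 0, [([2, 0], (.pl 4, 17)), ([4, 4], (.ev, 6)), ([4, 4], (.ev, 4)), ([0, 0], (.pl 1, 4)), ([0, 0], (.ev, 4)), ([0, 0], (.pl 1, 1))], [0, 1, 1, 0, 1, 0]⟩,
   ⟨[10, 7], 0, [([3, 0], (.pl 4, 16)), ([4, 4], (.ev, 6)), ([3, 3], (.ev, 6)), ([0, 0], (.pl 1, 4)), ([0, 0], (.ev, 4)), ([0, 0], (.pl 1, 1))], [0, 1, 1, 0, 1, 0]⟩,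
   ⟨[10, 6], 0, [([4, 0], (.pl 4, 15)), ([4, 4], (.ev, 6)), ([2, 2], (.ev, 8)), ([0, 0], (.pl 1, 4)), ([0, 0], (.ev, 4)), ([0, 0], (.pl 1, 1))], [0, 1, 1, 0, 1, 0]⟩,
   ⟨[9, 9], 0, [([1, 1], (.pl 4, 17)), ([4, 4], (.ev, 6)), ([4, 4], (.ev, 4)), ([0, 0], (.pl 1, 4)), ([0, 0], (.ev, 4)), ([0, 0], (.pl 1, 1))], [0, 2, 1, 0, 1, 1]⟩]

def cmC_10_8_5_4_2_1_0 : List (List ℕ × List (ℕ × ℕ)) :=
  [([12, 6], [(15, 4), (6, 1), (8, 1), (3, 1), (4, 1), (0, 1)]),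
   ([11, 7], [(15, 4), (6, 1), (6, 1), (4, 1), (4, 1), (1, 1)]),
   ([11, 6], [(15, 4), (6, 1), (8, 1), (3, 1), (4, 1), (1, 1)]),
   ([10, 8], [(17, 4), (6, 1), (4, 1), (4, 1), (4, 1), (1, 1)]),
   ([10, 7], [(16, 4), (6, 1), (6, 1), (4, 1), (4, 1), (1, 1)]),
   ([10, 6], [(15, 4), (6, 1), (8, 1), (4, 1), (4, 1), (1, 1)]),
   ([9, 9], [(17, 4), (7, 2), (4, 1), (4, 1), (4, 1), (0, 1)])]

def cm_10_8_5_4_2_1 : List CM :=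
  cm_10_8_5_4_2_1_0

def cmC_10_8_5_4_2_1 : List (List ℕ × List (ℕ × ℕ)) :=
  cmC_10_8_5_4_2_1_0

set_option Elab.async false in
theorem covH_10_8_5_4_2_1 : CovH [10, 8, 5, 4, 2, 1] :=
  covH_of_tree (by decide) ls_10_8_5_4_2_1 sp_10_8_5_4_2_1 cm_10_8_5_4_2_1 spC_10_8_5_4_2_1 cmC_10_8_5_4_2_1 99 (by decide +kernel) (by decide +kernel)
    (by decide +kernel) (by decide +kernel) (by decide +kernel) (by decide +kernel)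


/-! hook list [12, 10, 8, 5, 4, 2, 1], n = 77: 198 nodes, 6 commitments -/

def ls_12_10_8_5_4_2_1 : List (List Pc) :=
  [[.pair 12, .rect 10 1, .dup 8, .dup 7, .rect 5 1, .dup 3, .pair 2]]

def sp_12_10_8_5_4_2_1 : List (ℕ × List ℕ) :=
  [(0, [0, 0, 3, 2, 0, 1, 3])]

def spC_12_10_8_5_4_2_1 : List (List (ℕ × ℕ)) :=
  [[(23, 4), (10, 1), (18, 3), (15, 2), (5, 1), (6, 1), (0, 1)]]

def cm_12_10_8_5_4_2_1_0 : List CM :=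
  [⟨[15, 7], 0, [([4, 0], (.pl 4, 19)), ([1, 0], (.pl 1, 9)), ([4, 4], (.ev, 8)), ([3, 3], (.ev, 8)), ([1, 0], (.pl 1, 4)), ([0, 0], (.ev, 6)), ([2, 0], (.pl 4, 1))], [0, 0, 1, 1, 0, 1, 0]⟩,
   ⟨[14, 8], 0, [([4, 0], (.pl 4, 19)), ([1, 0], (.pl 1, 9)), ([4, 4], (.ev, 8)), ([4, 4], (.ev, 6)), ([1, 0], (.pl 1, 4)), ([0, 0], (.ev, 6)), ([0, 0], (.pl 4, 3))], [0, 0, 1, 1, 0, 1, 0]⟩,
   ⟨[14, 7], 0, [([4, 0], (.pl 4, 19)), ([1, 0], (.pl 1, 9)), ([4, 4], (.ev, 8)), ([3, 3], (.ev, 8)), ([1, 0], (.pl 1, 4)), ([0, 0], (.ev, 6)), ([1, 0], (.pl 4, 2))], [0, 0, 1, 1, 0, 1, 0]⟩,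
   ⟨[13, 9], 0, [([3, 0], (.pl 4, 20)), ([1, 0], (.pl 1, 9)), ([4, 4], (.ev, 8)), ([4, 4], (.ev, 6)), ([0, 0], (.pl 1, 5)), ([1, 1], (.ev, 4)), ([0, 0], (.pl 4, 3))], [0, 0, 1, 1, 0, 1, 0]⟩,
   ⟨[13, 8], 0, [([4, 0], (.pl 4, 19)), ([1, 0], (.pl 1, 9)), ([4, 4], (.ev, 8)), ([4, 4], (.ev, 6)), ([0, 0], (.pl 1, 5)), ([0, 0], (.ev, 6)), ([0, 0], (.pl 4, 3))], [0, 0, 1, 1, 0, 1, 0]⟩,
   ⟨[13, 7], 0, [([4, 0], (.pl 4, 19)), ([1, 0], (.pl 1, 9)), ([4, 4], (.ev, 8)), ([3, 3], (.ev, 8)), ([1, 0], (.pl 1, 4)), ([0, 0], (.ev, 6)), ([0, 0], (.pl 4, 3))], [0, 0, 1, 1, 0, 1, 0]⟩]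

def cmC_12_10_8_5_4_2_1_0 : List (List ℕ × List (ℕ × ℕ)) :=
  [([15, 7], [(19, 4), (9, 1), (8, 1), (8, 1), (4, 1), (6, 1), (1, 4)]),
   ([14, 8], [(19, 4), (9, 1), (8, 1), (6, 1), (4, 1), (6, 1), (3, 4)]),
   ([14, 7], [(19, 4), (9, 1), (8, 1), (8, 1), (4, 1), (6, 1), (2, 4)]),
   ([13, 9], [(20, 4), (9, 1), (8, 1), (6, 1), (5, 1), (4, 1), (3, 4)]),
   ([13, 8], [(19, 4), (9, 1), (8, 1), (6, 1), (5, 1), (6, 1), (3, 4)]),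
   ([13, 7], [(19, 4), (9, 1), (8, 1), (8, 1), (4, 1), (6, 1), (3, 4)])]

def cm_12_10_8_5_4_2_1 : List CM :=
  cm_12_10_8_5_4_2_1_0

def cmC_12_10_8_5_4_2_1 : List (List ℕ × List (ℕ × ℕ)) :=
  cmC_12_10_8_5_4_2_1_0

def ex_12_10_8_5_4_2_1 : List (List ℕ) :=
  [[9, 9, 9, 9, 9, 9, 9, 9, 5],
   [9, 9, 9, 9, 9, 9, 9, 8, 6],
   [9, 9, 9, 9, 9, 9, 9, 7, 7],
   [9, 9, 9, 9, 9, 9, 8, 8, 7],
   [9, 9, 9, 9, 9, 8, 8, 8, 8]]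

set_option Elab.async false in
theorem fullT_12_10_8_5_4_2_1 (hf : FullH [10, 8, 5, 4, 2, 1])
    (hexc : ∀ q ∈ ex_12_10_8_5_4_2_1, ∀ μ : YoungDiagram, μ.card = 77 →
      (List.range (μ.rowLen 0)).map μ.colLen = q → OccSh (hk [12, 10, 8, 5, 4, 2, 1]) (hk [12, 10, 8, 5, 4, 2, 1]) μ) :
    FullH [12, 10, 8, 5, 4, 2, 1] :=
  fullH_of_tree (by decide) (HC_of (by decide) (by decide)) hf ls_12_10_8_5_4_2_1 sp_12_10_8_5_4_2_1 cm_12_10_8_5_4_2_1 ex_12_10_8_5_4_2_1 spC_12_10_8_5_4_2_1 cmC_12_10_8_5_4_2_1 99 hexc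
    (by decide +kernel) (by decide +kernel) (by decide +kernel) (by decide +kernel) (by decide +kernel)
    (by decide +kernel)

end Crest.Agent.R195
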