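import Crest.Agent.R195.Fam
import Crest.Agent.R195.CTSmall
import Crest.Agent.R195.CTX
import Crest.Agent.R195.CXs
import Crest.Agent.R195.TreeM7
import Crest.Agent.R195.TreeM7a
import Crest.Agent.R195.TreeM9
import Crest.Agent.R195.TreeX
import Crest.Agent.R195.TreeSmall

/-! Row 195, S0298 (helper545).  The small full shapes, from certificates (helper895, helper563) and
trees (helper958). -/

set_option autoImplicit false

namespace Crest.Agent.R195

theorem b_1 : FullH [1] := fullH_stair 1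
theorem b_2 : FullH [2] := fullH_stair 2
theorem b_3_1 : FullH [3, 1] := fullH_stair 3
theorem b_4_2 : FullH [4, 2] := fullH_stair 4
theorem b_5_3_1 : FullH [5, 3, 1] := fullH_stair 5
theorem b_6_4_2 : FullH [6, 4, 2] := fullH_stair 6
theorem b_7_5_3_1 : FullH [7, 5, 3, 1] := fullH_stair 7
theorem b_3 : FullH [3] := ct3_full (fullH_stair 0)
theorem b_4 : FullH [4] := ct4_full (fullH_stair 0)
theorem b_4_1 : FullH [4, 1] := ct4_1_full b_1
theorem b_4_2_1 : FullH [4, 2, 1] := ct4_2_1_full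
theorem b_5_2 : FullH [5, 2] := ct5_2_full b_2
theorem b_5_2_1 : FullH [5, 2, 1] := ct5_2_1_full
theorem b_5_3 : FullH [5, 3] := fullH_of_cov (by decide) (by decide) (by decide) b_3 covH_5_3
theorem b_6_3 : FullH [6, 3] := ct6_3_full b_3
theorem b_6_3_1 : FullH [6, 3, 1] := fullT_6_3_1 b_3_1 cxs_6_3_1_hexc
theorem b_6_4 : FullH [6, 4] := ct6_4_full b_4
theorem b_6_4_1 : FullH [6, 4, 1] :=
  fullH_of_cov (by decide) (by decide) (by decide) b_4_1 covH_6_4_1
theorem b_6_4_2_1 : FullH [6, 4, 2, 1] :=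
  fullH_of_cov (by decide) (by decide) (by decide) b_4_2_1 covH_6_4_2_1
theorem b_7_4_2 : FullH [7, 4, 2] :=
  fullH_of_cov (by decide) (by decide) (by decide) b_4_2 covH_7_4_2
theorem b_7_4_2_1 : FullH [7, 4, 2, 1] := fullT_7_4_2_1 b_4_2_1 cxs_7_4_2_1_hexc
theorem b_7_5_2 : FullH [7, 5, 2] :=
  fullH_of_cov (by decide) (by decide) (by decide) b_5_2 covH_7_5_2
theorem b_7_5_2_1 : FullH [7, 5, 2, 1] :=
  fullH_of_cov (by decide) (by decide) (by decide) b_5_2_1 covH_7_5_2_1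
theorem b_7_5_3 : FullH [7, 5, 3] :=
  fullH_of_cov (by decide) (by decide) (by decide) b_5_3 covH_7_5_3
theorem b_8_5_3 : FullH [8, 5, 3] :=
  fullH_of_cov (by decide) (by decide) (by decide) b_5_3 covH_8_5_3
theorem b_8_5_3_1 : FullH [8, 5, 3, 1] :=
  fullH_of_cov (by decide) (by decide) (by decide) b_5_3_1 covH_8_5_3_1
theorem b_8_6_3 : FullH [8, 6, 3] :=
  fullH_of_cov (by decide) (by decide) (by decide) b_6_3 covH_8_6_3
theorem b_9_6_4_2_1 : FullH [9, 6, 4, 2, 1] := fullT_9_6_4_2_1 b_6_4_2_1 cxs_9_6_4_2_1_hexc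
theorem b_10_7_5_3_1 : FullH [10, 7, 5, 3, 1] := fullT_10_7_5_3_1 b_7_5_3_1 cxs_10_7_5_3_1_hexc
theorem b_10_7_5_3 : FullH [10, 7, 5, 3] := fullT_10_7_5_3 b_7_5_3 cxs_10_7_5_3_hexc
theorem b_9_5_3 : FullH [9, 5, 3] := ct9_5_3_full b_5_3
/-- `n = 52` -/
theorem b_52 : FullH [11, 9, 5, 3] :=
  fullH_of_cov (by decide) (by decide) (by decide) b_9_5_3 covH_11_9_5_3
/-- `n = 54` -/
theorem b_54 : FullH [10, 8, 5, 4, 2, 1] :=
  fullH_of_cov (by decide) (by decide) (by decide) fullH_8_5_4_2_1 covH_10_8_5_4_2_1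
/-- `n = 77` -/
theorem b_77 : FullH [12, 10, 8, 5, 4, 2, 1] :=
  fullT_12_10_8_5_4_2_1 b_54 cxs_12_10_8_5_4_2_1_hexc

end Crest.Agent.R195
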