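import Crest.Agent.R195.Fam

/-! Row 195, S0298 (helper545).  Fullness of all members of the families, when every member is either
covered or known to be full. -/

set_option autoImplicit false

namespace Crest.Agent.R195

open Finset

theorem fullA_of (step : ∀ M e, 1 ≤ e → 2 * e ≤ M → CovH (hA M e) ∨ FullH (hA M e)) :
    ∀ M e, 2 * e ≤ M → FullH (hA M e) := by
  intro M e
  induction e generalizing M with
  | zero => intro _; rw [hA_zero]; exact fullH_stair M
  | succ e ih =>
    intro h
    rcases step M (e + 1) (by omega) h with hc | hf
    · rw [hA_succ (by omega)] at hc ⊢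
      refine fullH_of_cov (validH_hA (by omega)) ?_ ?_ (ih (M - 2) (by omega)) hc
      · have := headD_hA (M := M - 2) (e := e) (by omega)
        omega
      · have : ad (hA (M - 2) e) ≤ M := by
          unfold hA
          refine ad_runH_le (fun _ => by omega) ?_
          have : ad (runH (M - 2 - 2 * e) ((M - 2 + 1) / 2 - e) []) ≤ M - 2 * e :=
            ad_runH_le (fun _ => by omega) (by simp only [ad]; omega)
          omega
        omega
    · exact hf

theorem fullB_of (step : ∀ M e, M % 2 = 0 → 4 ≤ M → 2 * e + 2 ≤ M →
      (6 ≤ M ∧ CovH (hB M e)) ∨ FullH (hB M e)) :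
    ∀ M e, M % 2 = 0 → 4 ≤ M → 2 * e + 2 ≤ M → FullH (hB M e) := by
  have had : ∀ M e, M % 2 = 0 → 2 * e + 2 ≤ M → ad (hB M e) ≤ M + 1 := by
    intro M e h1 h2
    unfold hB
    refine ad_runH_le (fun _ => by omega) ?_
    have h3 : ad [1] = 1 := rfl
    have : ad (runH (M - 2 * e) (M / 2 - e) [1]) ≤ M - 2 * e + 1 :=
      ad_runH_le (fun _ => by omega) (by omega)
    omega
  intro M
  induction M using Nat.strong_induction_on with
  | _ M ih =>
    intro e h1 h2 h3
    rcases step M e h1 h2 h3 with ⟨h6, hc⟩ | hf
    · cases e with
      | zero =>
        rw [hB_zero (by omega)] at hc ⊢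
        refine fullH_of_cov (validH_hB (by omega) (by omega)) ?_ ?_
          (ih (M - 2) (by omega) 0 (by omega) (by omega) (by omega)) hc
        · rw [hB_zero (by omega), List.headD_cons]; omega
        · have := had (M - 2) 0 (by omega) (by omega)
          omega
      | succ e =>
        rw [hB_succ (by omega)] at hc ⊢
        refine fullH_of_cov (validH_hB (by omega) (by omega)) ?_ ?_
          (ih (M - 2) (by omega) e (by omega) (by omega) (by omega)) hc
        · unfold hB
          rw [headD_runH]
          split_ifs
          · rw [headD_runH]; split_ifs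
            · simp only [List.headD_cons]; omega
            · omega
          · omega
        · have := had (M - 2) e (by omega) (by omega)
          omega
    · exact hf

theorem fullC_of (step : ∀ M e, M % 2 = 1 → 2 * e + 3 ≤ M →
      (5 ≤ M ∧ CovH (hC M e)) ∨ FullH (hC M e)) :
    ∀ M e, M % 2 = 1 → 2 * e + 3 ≤ M → FullH (hC M e) := by
  have had : ∀ M e, M % 2 = 1 → 2 * e + 3 ≤ M → ad (hC M e) ≤ M + 1 := by
    intro M e h1 h2
    unfold hC
    refine ad_runH_le (fun _ => by omega) ?_
    have : ad (runH (M - 2 * e) ((M - 1) / 2 - e) []) ≤ M - 2 * e :=
      ad_runH_le (fun _ => by omega) (by simp only [ad]; omega)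
    omega
  intro M
  induction M using Nat.strong_induction_on with
  | _ M ih =>
    intro e h1 h3
    rcases step M e h1 h3 with ⟨h5, hc⟩ | hf
    · cases e with
      | zero =>
        rw [hC_zero (by omega)] at hc ⊢
        refine fullH_of_cov (validH_hC (by omega)) ?_ ?_
          (ih (M - 2) (by omega) 0 (by omega) (by omega)) hc
        · rw [hC_zero (by omega), List.headD_cons]; omega
        · have : ad (hC (M - 2) 0) ≤ M - 2 := by
            unfold hC
            rw [runH_zero]
            exact ad_runH_le (fun _ => by omega) (by simp only [ad]; omega)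
          omega
      | succ e =>
        rw [hC_succ (by omega)] at hc ⊢
        refine fullH_of_cov (validH_hC (by omega)) ?_ ?_
          (ih (M - 2) (by omega) e (by omega) (by omega)) hc
        · unfold hC
          rw [headD_runH]
          split_ifs
          · rw [headD_runH]; split_ifs
            · simp only [List.headD_nil]; omega
            · omega
          · omega
        · have := had (M - 2) e (by omega) (by omega)
          omega
    · exact hf

end Crest.Agent.R195
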