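import Crest.Agent.R195.TreeFin

set_option autoImplicit false

namespace Crest.Agent.R195

/-! hook list [12, 9, 7, 5, 3], n = 67: 259 nodes, 109 commitments -/

def ls_12_9_7_5_3 : List (List Pc) :=
  [[.rect 12 1, .pair 10, .pair 8, .dup 5, .pair 4, .rect 2 1, .dup 1],
   [.gap 12, .pair 9, .rect 7 1, .dup 5, .pair 4, .rect 2 1, .dup 1]]

def sp_12_9_7_5_3 : List (ℕ × List ℕ) :=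
  [(0, [0, 0, 0, 4, 3, 0, 1]),
   (1, [3, 2, 0, 2, 3, 0, 1])]

def spC_12_9_7_5_3 : List (List (ℕ × ℕ)) :=
  [[(12, 1), (19, 4), (15, 4), (13, 4), (4, 1), (2, 1), (2, 1)],
   [(26, 3), (15, 2), (7, 1), (11, 2), (4, 1), (2, 1), (2, 1)]]

def cm_12_9_7_5_3 : List CM :=
  [⟨[17, 5], 0, [([1, 0], (.pl 1, 11)), ([4, 0], (.pl 4, 15)), ([4, 0], (.pl 4, 11)), ([4, 4], (.ev, 2)), ([2, 0], (.pl 4, 5)), ([1, 0], (.pl 1, 1)), ([1, 1], (.ev, 0))], [0, 0, 0, 1, 0, 0, 1]⟩,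
   ⟨[11, 11, 11, 11, 11, 7], 1, [([4, 4, 4, 4, 2, 2], (.ev, 2)), ([2, 4, 4, 3, 1, 2], (.pl 4, 1)), ([1, 1, 1, 1, 1, 1], (.pl 1, 1)), ([4, 1, 1, 0, 4, 0], (.ev, 0)), ([0, 0, 0, 2, 2, 2], (.pl 4, 1)), ([0, 0, 1, 0, 1, 0], (.pl 1, 0)), ([0, 1, 0, 1, 0, 0], (.ev, 0))], [1, 0, 0, 1, 0, 0, 1]⟩,
   ⟨[11, 11, 11, 11, 11, 6], 1, [([4, 4, 4, 4, 2, 2], (.ev, 2)), ([2, 4, 4, 3, 1, 2], (.pl 4, 1)), ([1, 1, 1, 1, 1, 1], (.pl 1, 1)), ([4, 1, 1, 0, 4, 0], (.ev, 0)), ([0, 0, 0, 2, 2, 1], (.pl 4, 2)), ([0, 0, 1, 0, 1, 0], (.pl 1, 0)), ([0, 1, 0, 1, 0, 0], (.ev, 0))], [1, 0, 0, 1, 0, 0, 1]⟩,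
   ⟨[11, 11, 11, 11, 11, 5], 1, [([4, 4, 4, 4, 2, 2], (.ev, 2)), ([2, 4, 4, 3, 1, 1], (.pl 4, 2)), ([1, 1, 1, 1, 1, 1], (.pl 1, 1)), ([4, 1, 1, 0, 4, 0], (.ev, 0)), ([0, 0, 0, 2, 2, 1], (.pl 4, 2)), ([0, 0, 1, 0, 1, 0], (.pl 1, 0)), ([0, 1, 0, 1, 0, 0], (.ev, 0))], [1, 0, 0, 1, 0, 0, 1]⟩,
   ⟨[11, 11, 11, 11, 11, 4], 1, [([4, 4, 4, 4, 2, 2], (.ev, 2)), ([2, 4, 4, 3, 1, 1], (.pl 4, 2)), ([1, 1, 1, 1, 1, 1], (.pl 1, 1)), ([4, 1, 1, 0, 4, 0], (.ev, 0)), ([0, 0, 0, 2, 2, 0], (.pl 4, 3)), ([0, 0, 1, 0, 1, 0], (.pl 1, 0)), ([0, 1, 0, 1, 0, 0], (.ev, 0))], [1, 0, 0, 1, 0, 0, 1]⟩,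
   ⟨[11, 11, 11, 11, 11, 3], 1, [([4, 4, 4, 4, 2, 2], (.ev, 2)), ([2, 4, 4, 3, 1, 0], (.pl 4, 3)), ([1, 1, 1, 1, 1, 1], (.pl 1, 1)), ([4, 1, 1, 0, 4, 0], (.ev, 0)), ([0, 0, 0, 2, 2, 0], (.pl 4, 3)), ([0, 0, 1, 0, 1, 0], (.pl 1, 0)), ([0, 1, 0, 1, 0, 0], (.ev, 0))], [1, 0, 0, 1, 0, 0, 1]⟩,
   ⟨[11, 11, 11, 11, 11, 2], 1, [([4, 4, 4, 4, 2, 2], (.ev, 2)), ([2, 4, 4, 3, 1, 0], (.pl 4, 3)), ([1, 1, 1, 1, 1, 0], (.pl 1, 2)), ([4, 1, 1, 0, 4, 0], (.ev, 0)), ([0, 0, 0, 2, 2, 0], (.pl 4, 3)), ([0, 0, 1, 0, 1, 0], (.pl 1, 0)), ([0, 1, 0, 1, 0, 0], (.ev, 0))], [1, 0, 0, 1, 0, 0, 1]⟩,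
   ⟨[11, 11, 11, 11, 10, 8], 1, [([4, 4, 4, 4, 2, 2], (.ev, 2)), ([2, 4, 4, 3, 1, 2], (.pl 4, 1)), ([1, 1, 1, 1, 1, 1], (.pl 1, 1)), ([4, 1, 1, 0, 4, 0], (.ev, 0)), ([0, 0, 0, 2, 2, 2], (.pl 4, 1)), ([0, 0, 1, 0, 0, 1], (.pl 1, 0)), ([0, 1, 0, 1, 0, 0], (.ev, 0))], [1, 0, 0, 1, 0, 0, 1]⟩,
   ⟨[11, 11, 11, 11, 10, 7], 1, [([4, 4, 4, 4, 2, 2], (.ev, 2)), ([2, 4, 4, 3, 1, 2], (.pl 4, 1)), ([1, 1, 1, 1, 1, 1], (.pl 1, 1)), ([4, 1, 1, 0, 4, 0], (.ev, 0)), ([0, 0, 0, 2, 2, 1], (.pl 4, 2)), ([0, 0, 1, 0, 0, 1], (.pl 1, 0)), ([0, 1, 0, 1, 0, 0], (.ev, 0))], [1, 0, 0, 1, 0, 0, 1]⟩,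
   ⟨[11, 11, 11, 11, 10, 6], 1, [([4, 4, 4, 4, 2, 2], (.ev, 2)), ([2, 4, 4, 3, 1, 1], (.pl 4, 2)), ([1, 1, 1, 1, 1, 1], (.pl 1, 1)), ([4, 1, 1, 0, 4, 0], (.ev, 0)), ([0, 0, 0, 2, 2, 1], (.pl 4, 2)), ([0, 0, 1, 0, 0, 1], (.pl 1, 0)), ([0, 1, 0, 1, 0, 0], (.ev, 0))], [1, 0, 0, 1, 0, 0, 1]⟩,
   ⟨[11, 11, 11, 11, 10, 5], 1, [([4, 4, 4, 4, 2, 2], (.ev, 2)), ([2, 4, 4, 3, 1, 1], (.pl 4, 2)), ([1, 1, 1, 1, 1, 1], (.pl 1, 1)), ([4, 1, 1, 0, 4, 0], (.ev, 0)), ([0, 0, 0, 2, 2, 0], (.pl 4, 3)), ([0, 0, 1, 0, 0, 1], (.pl 1, 0)), ([0, 1, 0, 1, 0, 0], (.ev, 0))], [1, 0, 0, 1, 0, 0, 1]⟩,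
   ⟨[11, 11, 11, 11, 10, 4], 1, [([4, 4, 4, 4, 2, 2], (.ev, 2)), ([2, 4, 4, 3, 1, 0], (.pl 4, 3)), ([1, 1, 1, 1, 1, 1], (.pl 1, 1)), ([4, 1, 1, 0, 4, 0], (.ev, 0)), ([0, 0, 0, 2, 2, 0], (.pl 4, 3)), ([0, 0, 1, 0, 0, 1], (.pl 1, 0)), ([0, 1, 0, 1, 0, 0], (.ev, 0))], [1, 0, 0, 1, 0, 0, 1]⟩,
   ⟨[11, 11, 11, 11, 10, 3], 1, [([4, 4, 4, 4, 2, 2], (.ev, 2)), ([2, 4, 4, 3, 1, 0], (.pl 4, 3)), ([1, 1, 1, 1, 1, 1], (.pl 1, 1)), ([4, 1, 1, 0, 4, 0], (.ev, 0)), ([0, 0, 0, 2, 2, 0], (.pl 4, 3)), ([0, 0, 1, 0, 0, 0], (.pl 1, 1)), ([0, 1, 0, 1, 0, 0], (.ev, 0))], [1, 0, 0, 1, 0, 0, 1]⟩,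
   ⟨[11, 11, 11, 11, 9, 9], 1, [([4, 4, 4, 4, 2, 2], (.ev, 2)), ([2, 2, 4, 4, 2, 2], (.pl 4, 1)), ([1, 1, 1, 1, 1, 1], (.pl 1, 1)), ([4, 4, 1, 1, 0, 0], (.ev, 0)), ([0, 0, 0, 1, 3, 2], (.pl 4, 1)), ([0, 0, 1, 0, 0, 1], (.pl 1, 0)), ([0, 0, 0, 0, 1, 1], (.ev, 0))], [1, 0, 0, 1, 0, 0, 1]⟩,
   ⟨[11, 11, 11, 11, 9, 8], 1, [([4, 4, 4, 4, 2, 2], (.ev, 2)), ([2, 2, 4, 3, 3, 2], (.pl 4, 1)), ([1, 1, 1, 1, 1, 1], (.pl 1, 1)), ([4, 4, 1, 1, 0, 0], (.ev, 0)), ([0, 0, 0, 1, 2, 2], (.pl 4, 2)), ([0, 0, 0, 1, 0, 1], (.pl 1, 0)), ([0, 0, 1, 0, 1, 0], (.ev, 0))], [1, 0, 0, 1, 0, 0, 1]⟩,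
   ⟨[11, 11, 11, 11, 9, 7], 1, [([4, 4, 4, 4, 2, 2], (.ev, 2)), ([2, 2, 4, 3, 3, 1], (.pl 4, 2)), ([1, 1, 1, 1, 1, 1], (.pl 1, 1)), ([4, 4, 1, 1, 0, 0], (.ev, 0)), ([0, 0, 0, 1, 2, 2], (.pl 4, 2)), ([0, 0, 0, 1, 0, 1], (.pl 1, 0)), ([0, 0, 1, 0, 1, 0], (.ev, 0))], [1, 0, 0, 1, 0, 0, 1]⟩,
   ⟨[11, 11, 11, 11, 9, 6], 1, [([4, 4, 4, 4, 2, 2], (.ev, 2)), ([2, 2, 4, 3, 3, 1], (.pl 4, 2)), ([1, 1, 1, 1, 1, 1], (.pl 1, 1)), ([4, 4, 1, 1, 0, 0], (.ev, 0)), ([0, 0, 0, 1, 2, 1], (.pl 4, 3)), ([0, 0, 0, 1, 0, 1], (.pl 1, 0)), ([0, 0, 1, 0, 1, 0], (.ev, 0))], [1, 0, 0, 1, 0, 0, 1]⟩,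
   ⟨[11, 11, 11, 11, 9, 5], 1, [([4, 4, 4, 4, 2, 2], (.ev, 2)), ([2, 2, 4, 3, 3, 0], (.pl 4, 3)), ([1, 1, 1, 1, 1, 1], (.pl 1, 1)), ([4, 4, 1, 1, 0, 0], (.ev, 0)), ([0, 0, 0, 1, 2, 1], (.pl 4, 3)), ([0, 0, 0, 1, 0, 1], (.pl 1, 0)), ([0, 0, 1, 0, 1, 0], (.ev, 0))], [1, 0, 0, 1, 0, 0, 1]⟩,
   ⟨[11, 11, 11, 11, 9, 4], 1, [([4, 4, 4, 4, 2, 2], (.ev, 2)), ([2, 2, 4, 3, 3, 0], (.pl 4, 3)), ([1, 1, 1, 1, 1, 1], (.pl 1, 1)), ([4, 4, 1, 1, 0, 0], (.ev, 0)), ([0, 0, 0, 1, 2, 1], (.pl 4, 3)), ([0, 0, 0, 1, 0, 0], (.pl 1, 1)), ([0, 0, 1, 0, 1, 0], (.ev, 0))], [1, 0, 0, 1, 0, 0, 1]⟩,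
   ⟨[11, 11, 11, 11, 9, 3], 1, [([4, 4, 4, 4, 2, 2], (.ev, 2)), ([2, 2, 4, 3, 3, 0], (.pl 4, 3)), ([1, 1, 1, 1, 1, 1], (.pl 1, 1)), ([4, 4, 1, 1, 0, 0], (.ev, 0)), ([0, 0, 0, 1, 2, 0], (.pl 4, 4)), ([0, 0, 0, 1, 0, 0], (.pl 1, 1)), ([0, 0, 1, 0, 1, 0], (.ev, 0))], [1, 0, 0, 1, 0, 0, 1]⟩,
   ⟨[11, 11, 11, 11, 8, 8], 1, [([4, 4, 4, 4, 2, 2], (.ev, 2)), ([2, 2, 4, 3, 2, 2], (.pl 4, 2)), ([1, 1, 1, 1, 1, 1], (.pl 1, 1)), ([4, 4, 1, 1, 0, 0], (.ev, 0)), ([0, 0, 0, 0, 3, 2], (.pl 4, 2)), ([0, 0, 0, 1, 0, 1], (.pl 1, 0)), ([0, 0, 1, 1, 0, 0], (.ev, 0))], [1, 0, 0, 1, 0, 0, 1]⟩,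
   ⟨[11, 11, 11, 11, 8, 7], 1, [([4, 4, 4, 4, 2, 2], (.ev, 2)), ([2, 2, 4, 3, 2, 2], (.pl 4, 2)), ([1, 1, 1, 1, 1, 1], (.pl 1, 1)), ([4, 4, 1, 1, 0, 0], (.ev, 0)), ([0, 0, 0, 0, 3, 1], (.pl 4, 3)), ([0, 0, 0, 1, 0, 1], (.pl 1, 0)), ([0, 0, 1, 1, 0, 0], (.ev, 0))], [1, 0, 0, 1, 0, 0, 1]⟩,
   ⟨[11, 11, 11, 11, 8, 6], 1, [([4, 4, 4, 4, 2, 2], (.ev, 2)), ([2, 2, 4, 3, 2, 1], (.pl 4, 3)), ([1, 1, 1, 1, 1, 1], (.pl 1, 1)), ([4, 4, 1, 1, 0, 0], (.ev, 0)), ([0, 0, 0, 0, 3, 1], (.pl 4, 3)), ([0, 0, 0, 1, 0, 1], (.pl 1, 0)), ([0, 0, 1, 1, 0, 0], (.ev, 0))], [1, 0, 0, 1, 0, 0, 1]⟩,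
   ⟨[11, 11, 11, 11, 8, 5], 1, [([4, 4, 4, 4, 2, 2], (.ev, 2)), ([2, 2, 4, 3, 2, 1], (.pl 4, 3)), ([1, 1, 1, 1, 1, 1], (.pl 1, 1)), ([4, 4, 1, 1, 0, 0], (.ev, 0)), ([0, 0, 0, 0, 3, 1], (.pl 4, 3)), ([0, 0, 0, 1, 0, 0], (.pl 1, 1)), ([0, 0, 1, 1, 0, 0], (.ev, 0))], [1, 0, 0, 1, 0, 0, 1]⟩,
   ⟨[11, 11, 11, 11, 8, 4], 1, [([4, 4, 4, 4, 2, 2], (.ev, 2)), ([2, 2, 4, 3, 2, 1], (.pl 4, 3)), ([1, 1, 1, 1, 1, 1], (.pl 1, 1)), ([4, 4, 1, 1, 0, 0], (.ev, 0)), ([0, 0, 0, 0, 3, 0], (.pl 4, 4)), ([0, 0, 0, 1, 0, 0], (.pl 1, 1)), ([0, 0, 1, 1, 0, 0], (.ev, 0))], [1, 0, 0, 1, 0, 0, 1]⟩,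
   ⟨[11, 11, 11, 11, 8, 3], 1, [([4, 4, 4, 4, 2, 2], (.ev, 2)), ([2, 2, 4, 3, 2, 0], (.pl 4, 4)), ([1, 1, 1, 1, 1, 1], (.pl 1, 1)), ([4, 4, 1, 1, 0, 0], (.ev, 0)), ([0, 0, 0, 0, 3, 0], (.pl 4, 4)), ([0, 0, 0, 1, 0, 0], (.pl 1, 1)), ([0, 0, 1, 1, 0, 0], (.ev, 0))], [1, 0, 0, 1, 0, 0, 1]⟩,
   ⟨[11, 11, 11, 11, 7, 7], 1, [([4, 4, 4, 4, 2, 2], (.ev, 2)), ([2, 2, 4, 3, 2, 1], (.pl 4, 3)), ([1, 1, 1, 1, 1, 1], (.pl 1, 1)), ([4, 4, 1, 1, 0, 0], (.ev, 0)), ([0, 0, 0, 0, 2, 2], (.pl 4, 3)), ([0, 0, 0, 1, 0, 1], (.pl 1, 0)), ([0, 0, 1, 1, 0, 0], (.ev, 0))], [1, 0, 0, 1, 0, 0, 1]⟩,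
   ⟨[11, 11, 11, 11, 7, 6], 1, [([4, 4, 4, 4, 2, 2], (.ev, 2)), ([2, 2, 4, 3, 2, 1], (.pl 4, 3)), ([1, 1, 1, 1, 1, 1], (.pl 1, 1)), ([4, 4, 1, 1, 0, 0], (.ev, 0)), ([0, 0, 0, 0, 2, 2], (.pl 4, 3)), ([0, 0, 0, 1, 0, 0], (.pl 1, 1)), ([0, 0, 1, 1, 0, 0], (.ev, 0))], [1, 0, 0, 1, 0, 0, 1]⟩,
   ⟨[11, 11, 11, 11, 7, 5], 1, [([4, 4, 4, 4, 2, 2], (.ev, 2)), ([2, 2, 4, 3, 2, 1], (.pl 4, 3)), ([1, 1, 1, 1, 1, 1], (.pl 1, 1)), ([4, 4, 1, 1, 0, 0], (.ev, 0)), ([0, 0, 0, 0, 2, 1], (.pl 4, 4)), ([0, 0, 0, 1, 0, 0], (.pl 1, 1)), ([0, 0, 1, 1, 0, 0], (.ev, 0))], [1, 0, 0, 1, 0, 0, 1]⟩,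
   ⟨[11, 11, 11, 11, 7, 4], 1, [([4, 4, 4, 4, 2, 2], (.ev, 2)), ([2, 2, 4, 3, 2, 0], (.pl 4, 4)), ([1, 1, 1, 1, 1, 1], (.pl 1, 1)), ([4, 4, 1, 1, 0, 0], (.ev, 0)), ([0, 0, 0, 0, 2, 1], (.pl 4, 4)), ([0, 0, 0, 1, 0, 0], (.pl 1, 1)), ([0, 0, 1, 1, 0, 0], (.ev, 0))], [1, 0, 0, 1, 0, 0, 1]⟩,
   ⟨[11, 11, 11, 11, 7, 3], 1, [([4, 4, 4, 4, 2, 2], (.ev, 2)), ([2, 2, 4, 3, 2, 0], (.pl 4, 4)), ([1, 1, 1, 1, 1, 1], (.pl 1, 1)), ([4, 4, 1, 1, 0, 0], (.ev, 0)), ([0, 0, 0, 0, 2, 0], (.pl 4, 5)), ([0, 0, 0, 1, 0, 0], (.pl 1, 1)), ([0, 0, 1, 1, 0, 0], (.ev, 0))], [1, 0, 0, 1, 0, 0, 1]⟩,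
   ⟨[11, 11, 11, 11, 6], 1, [([4, 4, 2, 2, 0], (.ev, 10)), ([4, 4, 3, 2, 2], (.pl 4, 2)), ([1, 1, 1, 1, 1], (.pl 1, 2)), ([1, 1, 4, 4, 0], (.ev, 0)), ([0, 0, 0, 2, 2], (.pl 4, 3)), ([0, 0, 1, 0, 1], (.pl 1, 0)), ([1, 1, 0, 0, 0], (.ev, 0))], [4, 2, 0, 1, 1, 0, 1]⟩,
   ⟨[11, 11, 11, 11, 5], 1, [([4, 4, 2, 2, 0], (.ev, 10)), ([4, 4, 3, 2, 1], (.pl 4, 3)), ([1, 1, 1, 1, 1], (.pl 1, 2)), ([1, 1, 4, 4, 0], (.ev, 0)), ([0, 0, 0, 2, 2], (.pl 4, 3)), ([0, 0, 1, 0, 1], (.pl 1, 0)), ([1, 1, 0, 0, 0], (.ev, 0))], [3, 1, 0, 1, 1, 0, 1]⟩,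
   ⟨[11, 11, 11, 11, 4], 1, [([4, 4, 2, 2, 0], (.ev, 10)), ([4, 4, 3, 2, 1], (.pl 4, 3)), ([1, 1, 1, 1, 1], (.pl 1, 2)), ([1, 1, 4, 4, 0], (.ev, 0)), ([0, 0, 0, 2, 2], (.pl 4, 3)), ([0, 0, 1, 0, 0], (.pl 1, 1)), ([1, 1, 0, 0, 0], (.ev, 0))], [2, 0, 0, 1, 0, 1, 1]⟩,
   ⟨[11, 11, 11, 10, 10, 9], 1, [([4, 4, 4, 4, 2, 2], (.ev, 2)), ([2, 4, 4, 3, 1, 2], (.pl 4, 1)), ([1, 1, 1, 1, 1, 1], (.pl 1, 1)), ([4, 1, 1, 0, 4, 0], (.ev, 0)), ([0, 0, 0, 2, 2, 2], (.pl 4, 1)), ([0, 0, 1, 0, 0, 1], (.pl 1, 0)), ([0, 1, 0, 0, 0, 1], (.ev, 0))], [1, 0, 0, 1, 0, 0, 1]⟩,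
   ⟨[11, 11, 11, 10, 10, 8], 1, [([4, 4, 4, 4, 2, 2], (.ev, 2)), ([2, 4, 4, 2, 2, 2], (.pl 4, 1)), ([1, 1, 1, 1, 1, 1], (.pl 1, 1)), ([4, 1, 1, 0, 4, 0], (.ev, 0)), ([0, 0, 0, 2, 1, 2], (.pl 4, 2)), ([0, 0, 0, 1, 0, 1], (.pl 1, 0)), ([0, 1, 1, 0, 0, 0], (.ev, 0))], [1, 0, 0, 1, 0, 0, 1]⟩,
   ⟨[11, 11, 11, 10, 10, 7], 1, [([4, 4, 4, 4, 2, 2], (.ev, 2)), ([2, 4, 4, 2, 2, 1], (.pl 4, 2)), ([1, 1, 1, 1, 1, 1], (.pl 1, 1)), ([4, 1, 1, 0, 4, 0], (.ev, 0)), ([0, 0, 0, 2, 1, 2], (.pl 4, 2)), ([0, 0, 0, 1, 0, 1], (.pl 1, 0)), ([0, 1, 1, 0, 0, 0], (.ev, 0))], [1, 0, 0, 1, 0, 0, 1]⟩,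
   ⟨[11, 11, 11, 10, 10, 6], 1, [([4, 4, 4, 4, 2, 2], (.ev, 2)), ([2, 4, 4, 2, 2, 1], (.pl 4, 2)), ([1, 1, 1, 1, 1, 1], (.pl 1, 1)), ([4, 1, 1, 0, 4, 0], (.ev, 0)), ([0, 0, 0, 2, 1, 1], (.pl 4, 3)), ([0, 0, 0, 1, 0, 1], (.pl 1, 0)), ([0, 1, 1, 0, 0, 0], (.ev, 0))], [1, 0, 0, 1, 0, 0, 1]⟩,
   ⟨[11, 11, 11, 10, 10, 5], 1, [([4, 4, 4, 4, 2, 2], (.ev, 2)), ([2, 4, 4, 2, 2, 0], (.pl 4, 3)), ([1, 1, 1, 1, 1, 1], (.pl 1, 1)), ([4, 1, 1, 0, 4, 0], (.ev, 0)), ([0, 0, 0, 2, 1, 1], (.pl 4, 3)), ([0, 0, 0, 1, 0, 1], (.pl 1, 0)), ([0, 1, 1, 0, 0, 0], (.ev, 0))], [1, 0, 0, 1, 0, 0, 1]⟩,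
   ⟨[11, 11, 11, 10, 10, 4], 1, [([4, 4, 4, 4, 2, 2], (.ev, 2)), ([2, 4, 4, 2, 2, 0], (.pl 4, 3)), ([1, 1, 1, 1, 1, 1], (.pl 1, 1)), ([4, 1, 1, 0, 4, 0], (.ev, 0)), ([0, 0, 0, 2, 1, 1], (.pl 4, 3)), ([0, 0, 0, 1, 0, 0], (.pl 1, 1)), ([0, 1, 1, 0, 0, 0], (.ev, 0))], [1, 0, 0, 1, 0, 0, 1]⟩,
   ⟨[11, 11, 11, 10, 10, 3], 1, [([4, 4, 4, 4, 2, 2], (.ev, 2)), ([2, 4, 4, 2, 2, 0], (.pl 4, 3)), ([1, 1, 1, 1, 1, 1], (.pl 1, 1)), ([4, 1, 1, 0, 4, 0], (.ev, 0)), ([0, 0, 0, 2, 1, 0], (.pl 4, 4)), ([0, 0, 0, 1, 0, 0], (.pl 1, 1)), ([0, 1, 1, 0, 0, 0], (.ev, 0))], [1, 0, 0, 1, 0, 0, 1]⟩,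
   ⟨[11, 11, 11, 10, 9, 9], 1, [([4, 4, 4, 4, 2, 2], (.ev, 2)), ([2, 2, 4, 3, 3, 2], (.pl 4, 1)), ([1, 1, 1, 1, 1, 1], (.pl 1, 1)), ([4, 4, 1, 0, 1, 0], (.ev, 0)), ([0, 0, 0, 1, 2, 2], (.pl 4, 2)), ([0, 0, 0, 1, 0, 1], (.pl 1, 0)), ([0, 0, 1, 0, 0, 1], (.ev, 0))], [1, 0, 0, 1, 0, 0, 1]⟩,
   ⟨[11, 11, 11, 10, 9, 8], 1, [([4, 4, 4, 4, 2, 2], (.ev, 2)), ([2, 2, 4, 3, 2, 2], (.pl 4, 2)), ([1, 1, 1, 1, 1, 1], (.pl 1, 1)), ([4, 4, 1, 0, 1, 0], (.ev, 0)), ([0, 0, 0, 0, 3, 2], (.pl 4, 2)), ([0, 0, 0, 1, 0, 1], (.pl 1, 0)), ([0, 0, 1, 1, 0, 0], (.ev, 0))], [1, 0, 0, 1, 0, 0, 1]⟩,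
   ⟨[11, 11, 11, 10, 9, 7], 1, [([4, 4, 4, 4, 2, 2], (.ev, 2)), ([2, 2, 4, 3, 2, 2], (.pl 4, 2)), ([1, 1, 1, 1, 1, 1], (.pl 1, 1)), ([4, 4, 1, 0, 1, 0], (.ev, 0)), ([0, 0, 0, 0, 3, 1], (.pl 4, 3)), ([0, 0, 0, 1, 0, 1], (.pl 1, 0)), ([0, 0, 1, 1, 0, 0], (.ev, 0))], [1, 0, 0, 1, 0, 0, 1]⟩,
   ⟨[11, 11, 11, 10, 9, 6], 1, [([4, 4, 4, 4, 2, 2], (.ev, 2)), ([2, 2, 4, 3, 2, 1], (.pl 4, 3)), ([1, 1, 1, 1, 1, 1], (.pl 1, 1)), ([4, 4, 1, 0, 1, 0], (.ev, 0)), ([0, 0, 0, 0, 3, 1], (.pl 4, 3)), ([0, 0, 0, 1, 0, 1], (.pl 1, 0)), ([0, 0, 1, 1, 0, 0], (.ev, 0))], [1, 0, 0, 1, 0, 0, 1]⟩,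
   ⟨[11, 11, 11, 10, 9, 5], 1, [([4, 4, 4, 4, 2, 2], (.ev, 2)), ([2, 2, 4, 3, 2, 1], (.pl 4, 3)), ([1, 1, 1, 1, 1, 1], (.pl 1, 1)), ([4, 4, 1, 0, 1, 0], (.ev, 0)), ([0, 0, 0, 0, 3, 1], (.pl 4, 3)), ([0, 0, 0, 1, 0, 0], (.pl 1, 1)), ([0, 0, 1, 1, 0, 0], (.ev, 0))], [1, 0, 0, 1, 0, 0, 1]⟩,
   ⟨[11, 11, 11, 10, 9, 4], 1, [([4, 4, 4, 4, 2, 2], (.ev, 2)), ([2, 2, 4, 3, 2, 1], (.pl 4, 3)), ([1, 1, 1, 1, 1, 1], (.pl 1, 1)), ([4, 4, 1, 0, 1, 0], (.ev, 0)), ([0, 0, 0, 0, 3, 0], (.pl 4, 4)), ([0, 0, 0, 1, 0, 0], (.pl 1, 1)), ([0, 0, 1, 1, 0, 0], (.ev, 0))], [1, 0, 0, 1, 0, 0, 1]⟩,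
   ⟨[11, 11, 11, 10, 9, 3], 1, [([4, 4, 4, 4, 2, 2], (.ev, 2)), ([2, 2, 4, 3, 2, 0], (.pl 4, 4)), ([1, 1, 1, 1, 1, 1], (.pl 1, 1)), ([4, 4, 1, 0, 1, 0], (.ev, 0)), ([0, 0, 0, 0, 3, 0], (.pl 4, 4)), ([0, 0, 0, 1, 0, 0], (.pl 1, 1)), ([0, 0, 1, 1, 0, 0], (.ev, 0))], [1, 0, 0, 1, 0, 0, 1]⟩,
   ⟨[11, 11, 11, 10, 8, 8], 1, [([4, 4, 4, 4, 2, 2], (.ev, 2)), ([2, 2, 4, 3, 2, 2], (.pl 4, 2)), ([1, 1, 1, 1, 1, 1], (.pl 1, 1)), ([4, 4, 1, 1, 0, 0], (.ev, 0)), ([0, 0, 0, 0, 2, 2], (.pl 4, 3)), ([0, 0, 0, 1, 0, 1], (.pl 1, 0)), ([0, 0, 1, 0, 1, 0], (.ev, 0))], [1, 0, 0, 1, 0, 0, 1]⟩,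
   ⟨[11, 11, 11, 10, 8, 7], 1, [([4, 4, 4, 4, 2, 2], (.ev, 2)), ([2, 2, 4, 3, 2, 1], (.pl 4, 3)), ([1, 1, 1, 1, 1, 1], (.pl 1, 1)), ([4, 4, 1, 1, 0, 0], (.ev, 0)), ([0, 0, 0, 0, 2, 2], (.pl 4, 3)), ([0, 0, 0, 1, 0, 1], (.pl 1, 0)), ([0, 0, 1, 0, 1, 0], (.ev, 0))], [1, 0, 0, 1, 0, 0, 1]⟩,
   ⟨[11, 11, 11, 10, 8, 6], 1, [([4, 4, 4, 4, 2, 2], (.ev, 2)), ([2, 2, 4, 3, 2, 1], (.pl 4, 3)), ([1, 1, 1, 1, 1, 1], (.pl 1, 1)), ([4, 4, 1, 1, 0, 0], (.ev, 0)), ([0, 0, 0, 0, 2, 2], (.pl 4, 3)), ([0, 0, 0, 1, 0, 0], (.pl 1, 1)), ([0, 0, 1, 0, 1, 0], (.ev, 0))], [1, 0, 0, 1, 0, 0, 1]⟩,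
   ⟨[11, 11, 11, 10, 8, 5], 1, [([4, 4, 4, 4, 2, 2], (.ev, 2)), ([2, 2, 4, 3, 2, 1], (.pl 4, 3)), ([1, 1, 1, 1, 1, 1], (.pl 1, 1)), ([4, 4, 1, 1, 0, 0], (.ev, 0)), ([0, 0, 0, 0, 2, 1], (.pl 4, 4)), ([0, 0, 0, 1, 0, 0], (.pl 1, 1)), ([0, 0, 1, 0, 1, 0], (.ev, 0))], [1, 0, 0, 1, 0, 0, 1]⟩,
   ⟨[11, 11, 11, 10, 8, 4], 1, [([4, 4, 4, 4, 2, 2], (.ev, 2)), ([2, 2, 4, 3, 2, 0], (.pl 4, 4)), ([1, 1, 1, 1, 1, 1], (.pl 1, 1)), ([4, 4, 1, 1, 0, 0], (.ev, 0)), ([0, 0, 0, 0, 2, 1], (.pl 4, 4)), ([0, 0, 0, 1, 0, 0], (.pl 1, 1)), ([0, 0, 1, 0, 1, 0], (.ev, 0))], [1, 0, 0, 1, 0, 0, 1]⟩,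
   ⟨[11, 11, 11, 10, 8, 3], 1, [([4, 4, 4, 4, 2, 2], (.ev, 2)), ([2, 2, 4, 3, 2, 0], (.pl 4, 4)), ([1, 1, 1, 1, 1, 1], (.pl 1, 1)), ([4, 4, 1, 1, 0, 0], (.ev, 0)), ([0, 0, 0, 0, 2, 0], (.pl 4, 5)), ([0, 0, 0, 1, 0, 0], (.pl 1, 1)), ([0, 0, 1, 0, 1, 0], (.ev, 0))], [1, 0, 0, 1, 0, 0, 1]⟩,
   ⟨[11, 11, 11, 10, 7, 7], 1, [([4, 4, 4, 4, 2, 2], (.ev, 2)), ([2, 2, 4, 2, 2, 2], (.pl 4, 3)), ([1, 1, 1, 1, 1, 1], (.pl 1, 1)), ([4, 4, 1, 1, 0, 0], (.ev, 0)), ([0, 0, 0, 0, 2, 2], (.pl 4, 3)), ([0, 0, 0, 1, 0, 0], (.pl 1, 1)), ([0, 0, 1, 1, 0, 0], (.ev, 0))], [1, 0, 0, 1, 0, 0, 1]⟩,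
   ⟨[11, 11, 11, 10, 7, 6], 1, [([4, 4, 4, 4, 2, 2], (.ev, 2)), ([2, 2, 4, 2, 2, 2], (.pl 4, 3)), ([1, 1, 1, 1, 1, 1], (.pl 1, 1)), ([4, 4, 1, 1, 0, 0], (.ev, 0)), ([0, 0, 0, 0, 2, 1], (.pl 4, 4)), ([0, 0, 0, 1, 0, 0], (.pl 1, 1)), ([0, 0, 1, 1, 0, 0], (.ev, 0))], [1, 0, 0, 1, 0, 0, 1]⟩,
   ⟨[11, 11, 11, 10, 7, 5], 1, [([4, 4, 4, 4, 2, 2], (.ev, 2)), ([2, 2, 4, 2, 2, 1], (.pl 4, 4)), ([1, 1, 1, 1, 1, 1], (.pl 1, 1)), ([4, 4, 1, 1, 0, 0], (.ev, 0)), ([0, 0, 0, 0, 2, 1], (.pl 4, 4)), ([0, 0, 0, 1, 0, 0], (.pl 1, 1)), ([0, 0, 1, 1, 0, 0], (.ev, 0))], [1, 0, 0, 1, 0, 0, 1]⟩,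
   ⟨[11, 11, 11, 10, 7, 4], 1, [([4, 4, 4, 4, 2, 2], (.ev, 2)), ([2, 2, 4, 2, 2, 1], (.pl 4, 4)), ([1, 1, 1, 1, 1, 1], (.pl 1, 1)), ([4, 4, 1, 1, 0, 0], (.ev, 0)), ([0, 0, 0, 0, 2, 0], (.pl 4, 5)), ([0, 0, 0, 1, 0, 0], (.pl 1, 1)), ([0, 0, 1, 1, 0, 0], (.ev, 0))], [1, 0, 0, 1, 0, 0, 1]⟩,
   ⟨[11, 11, 11, 10, 7, 3], 1, [([4, 4, 4, 4, 2, 2], (.ev, 2)), ([2, 2, 4, 2, 2, 0], (.pl 4, 5)), ([1, 1, 1, 1, 1, 1], (.pl 1, 1)), ([4, 4, 1, 1, 0, 0], (.ev, 0)), ([0, 0, 0, 0, 2, 0], (.pl 4, 5)), ([0, 0, 0, 1, 0, 0], (.pl 1, 1)), ([0, 0, 1, 1, 0, 0], (.ev, 0))], [1, 0, 0, 1, 0, 0, 1]⟩,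
   ⟨[11, 11, 11, 10, 6], 1, [([4, 4, 2, 2, 0], (.ev, 10)), ([4, 4, 3, 1, 2], (.pl 4, 3)), ([1, 1, 1, 1, 1], (.pl 1, 2)), ([1, 1, 4, 4, 0], (.ev, 0)), ([0, 0, 0, 2, 2], (.pl 4, 3)), ([0, 0, 1, 0, 1], (.pl 1, 0)), ([1, 1, 0, 0, 0], (.ev, 0))], [3, 1, 0, 1, 1, 0, 1]⟩,
   ⟨[11, 11, 11, 10, 5], 1, [([4, 4, 2, 2, 0], (.ev, 10)), ([4, 4, 3, 1, 2], (.pl 4, 3)), ([1, 1, 1, 1, 1], (.pl 1, 2)), ([1, 1, 4, 4, 0], (.ev, 0)), ([0, 0, 0, 2, 2], (.pl 4, 3)), ([0, 0, 1, 0, 0], (.pl 1, 1)), ([1, 1, 0, 0, 0], (.ev, 0))], [3, 1, 0, 1, 0, 1, 1]⟩,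
   ⟨[11, 11, 11, 10, 4], 1, [([4, 4, 2, 2, 0], (.ev, 10)), ([4, 4, 3, 1, 2], (.pl 4, 3)), ([1, 1, 1, 1, 1], (.pl 1, 2)), ([1, 1, 4, 4, 0], (.ev, 0)), ([0, 0, 0, 2, 1], (.pl 4, 4)), ([0, 0, 1, 0, 0], (.pl 1, 1)), ([1, 1, 0, 0, 0], (.ev, 0))], [2, 0, 0, 1, 0, 1, 1]⟩,
   ⟨[11, 11, 11, 9], 1, [([4, 4, 2, 2], (.ev, 10)), ([2, 4, 4, 2], (.pl 4, 5)), ([1, 1, 1, 1], (.pl 1, 3)), ([4, 1, 4, 1], (.ev, 0)), ([0, 0, 0, 1], (.pl 4, 6)), ([0, 0, 0, 1], (.pl 1, 1)), ([0, 1, 0, 1], (.ev, 0))], [3, 1, 0, 1, 0, 1, 1]⟩,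
   ⟨[11, 11, 11, 8], 1, [([4, 4, 2, 2], (.ev, 10)), ([2, 4, 3, 2], (.pl 4, 6)), ([1, 1, 1, 1], (.pl 1, 3)), ([4, 1, 4, 1], (.ev, 0)), ([0, 0, 0, 1], (.pl 4, 6)), ([0, 0, 0, 1], (.pl 1, 1)), ([0, 1, 1, 0], (.ev, 0))], [3, 1, 0, 1, 0, 1, 1]⟩,
   ⟨[11, 11, 11, 7], 1, [([4, 4, 2, 2], (.ev, 10)), ([2, 4, 3, 2], (.pl 4, 6)), ([1, 1, 1, 1], (.pl 1, 3)), ([4, 1, 4, 1], (.ev, 0)), ([0, 0, 0, 0], (.pl 4, 7)), ([0, 0, 0, 1], (.pl 1, 1)), ([0, 1, 1, 0], (.ev, 0))], [2, 0, 0, 1, 0, 1, 1]⟩,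
   ⟨[11, 11, 11, 6], 1, [([4, 4, 2, 2], (.ev, 10)), ([2, 4, 3, 1], (.pl 4, 7)), ([1, 1, 1, 1], (.pl 1, 3)), ([4, 1, 4, 1], (.ev, 0)), ([0, 0, 0, 0], (.pl 4, 7)), ([0, 0, 0, 1], (.pl 1, 1)), ([0, 1, 1, 0], (.ev, 0))], [2, 0, 0, 1, 0, 1, 1]⟩,
   ⟨[11, 11, 11, 5], 1, [([4, 4, 2, 2], (.ev, 10)), ([2, 4, 3, 1], (.pl 4, 7)), ([1, 1, 1, 1], (.pl 1, 3)), ([4, 1, 4, 1], (.ev, 0)), ([0, 0, 0, 0], (.pl 4, 7)), ([0, 0, 0, 0], (.pl 1, 2)), ([0, 1, 1, 0], (.ev, 0))], [2, 1, 0, 1, 0, 0, 1]⟩,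
   ⟨[11, 11, 10, 10, 10, 10], 1, [([4, 4, 4, 4, 2, 2], (.ev, 2)), ([4, 4, 3, 3, 1, 1], (.pl 4, 1)), ([1, 1, 1, 1, 1, 1], (.pl 1, 1)), ([1, 1, 0, 0, 4, 4], (.ev, 0)), ([0, 0, 1, 2, 1, 2], (.pl 4, 1)), ([0, 0, 1, 0, 1, 0], (.pl 1, 0)), ([1, 1, 0, 0, 0, 0], (.ev, 0))], [1, 0, 0, 1, 0, 0, 1]⟩,
   ⟨[11, 11, 10, 10, 10, 9], 1, [([4, 4, 4, 4, 2, 2], (.ev, 2)), ([2, 4, 4, 2, 2, 2], (.pl 4, 1)), ([1, 1, 1, 1, 1, 1], (.pl 1, 1)), ([4, 1, 0, 0, 4, 1], (.ev, 0)), ([0, 0, 0, 2, 1, 2], (.pl 4, 2)), ([0, 0, 0, 1, 0, 1], (.pl 1, 0)), ([0, 1, 1, 0, 0, 0], (.ev, 0))], [1, 0, 0, 1, 0, 0, 1]⟩,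
   ⟨[11, 11, 10, 10, 10, 8], 1, [([4, 4, 4, 4, 2, 2], (.ev, 2)), ([2, 4, 4, 2, 1, 2], (.pl 4, 2)), ([1, 1, 1, 1, 1, 1], (.pl 1, 1)), ([4, 1, 1, 0, 4, 0], (.ev, 0)), ([0, 0, 0, 1, 2, 2], (.pl 4, 2)), ([0, 0, 0, 1, 0, 1], (.pl 1, 0)), ([0, 1, 0, 1, 0, 0], (.ev, 0))], [1, 0, 0, 1, 0, 0, 1]⟩,
   ⟨[11, 11, 10, 10, 10, 7], 1, [([4, 4, 4, 4, 2, 2], (.ev, 2)), ([2, 4, 4, 2, 1, 2], (.pl 4, 2)), ([1, 1, 1, 1, 1, 1], (.pl 1, 1)), ([4, 1, 1, 0, 4, 0], (.ev, 0)), ([0, 0, 0, 1, 2, 1], (.pl 4, 3)), ([0, 0, 0, 1, 0, 1], (.pl 1, 0)), ([0, 1, 0, 1, 0, 0], (.ev, 0))], [1, 0, 0, 1, 0, 0, 1]⟩,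
   ⟨[11, 11, 10, 10, 10, 6], 1, [([4, 4, 4, 4, 2, 2], (.ev, 2)), ([2, 4, 4, 2, 1, 1], (.pl 4, 3)), ([1, 1, 1, 1, 1, 1], (.pl 1, 1)), ([4, 1, 1, 0, 4, 0], (.ev, 0)), ([0, 0, 0, 1, 2, 1], (.pl 4, 3)), ([0, 0, 0, 1, 0, 1], (.pl 1, 0)), ([0, 1, 0, 1, 0, 0], (.ev, 0))], [1, 0, 0, 1, 0, 0, 1]⟩,
   ⟨[11, 11, 10, 10, 10, 5], 1, [([4, 4, 4, 4, 2, 2], (.ev, 2)), ([2, 4, 4, 2, 1, 1], (.pl 4, 3)), ([1, 1, 1, 1, 1, 1], (.pl 1, 1)), ([4, 1, 1, 0, 4, 0], (.ev, 0)), ([0, 0, 0, 1, 2, 1], (.pl 4, 3)), ([0, 0, 0, 1, 0, 0], (.pl 1, 1)), ([0, 1, 0, 1, 0, 0], (.ev, 0))], [1, 0, 0, 1, 0, 0, 1]⟩,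
   ⟨[11, 11, 10, 10, 10, 4], 1, [([4, 4, 4, 4, 2, 2], (.ev, 2)), ([2, 4, 4, 2, 1, 1], (.pl 4, 3)), ([1, 1, 1, 1, 1, 1], (.pl 1, 1)), ([4, 1, 1, 0, 4, 0], (.ev, 0)), ([0, 0, 0, 1, 2, 0], (.pl 4, 4)), ([0, 0, 0, 1, 0, 0], (.pl 1, 1)), ([0, 1, 0, 1, 0, 0], (.ev, 0))], [1, 0, 0, 1, 0, 0, 1]⟩,
   ⟨[11, 11, 10, 10, 10, 3], 1, [([4, 4, 4, 4, 2, 2], (.ev, 2)), ([2, 4, 4, 2, 1, 0], (.pl 4, 4)), ([1, 1, 1, 1, 1, 1], (.pl 1, 1)), ([4, 1, 1, 0, 4, 0], (.ev, 0)), ([0, 0, 0, 1, 2, 0], (.pl 4, 4)), ([0, 0, 0, 1, 0, 0], (.pl 1, 1)), ([0, 1, 0, 1, 0, 0], (.ev, 0))], [1, 0, 0, 1, 0, 0, 1]⟩,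
   ⟨[11, 11, 10, 10, 9, 9], 1, [([4, 4, 4, 4, 2, 2], (.ev, 2)), ([2, 2, 4, 3, 2, 2], (.pl 4, 2)), ([1, 1, 1, 1, 1, 1], (.pl 1, 1)), ([4, 4, 0, 0, 1, 1], (.ev, 0)), ([0, 0, 0, 0, 3, 2], (.pl 4, 2)), ([0, 0, 0, 1, 0, 1], (.pl 1, 0)), ([0, 0, 1, 1, 0, 0], (.ev, 0))], [1, 0, 0, 1, 0, 0, 1]⟩,
   ⟨[11, 11, 10, 10, 9, 8], 1, [([4, 4, 4, 4, 2, 2], (.ev, 2)), ([2, 2, 4, 3, 2, 2], (.pl 4, 2)), ([1, 1, 1, 1, 1, 1], (.pl 1, 1)), ([4, 4, 1, 0, 1, 0], (.ev, 0)), ([0, 0, 0, 0, 2, 2], (.pl 4, 3)), ([0, 0, 0, 1, 0, 1], (.pl 1, 0)), ([0, 0, 0, 1, 1, 0], (.ev, 0))], [1, 0, 0, 1, 0, 0, 1]⟩,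
   ⟨[11, 11, 10, 10, 9, 7], 1, [([4, 4, 4, 4, 2, 2], (.ev, 2)), ([2, 2, 4, 3, 2, 1], (.pl 4, 3)), ([1, 1, 1, 1, 1, 1], (.pl 1, 1)), ([4, 4, 1, 0, 1, 0], (.ev, 0)), ([0, 0, 0, 0, 2, 2], (.pl 4, 3)), ([0, 0, 0, 1, 0, 1], (.pl 1, 0)), ([0, 0, 0, 1, 1, 0], (.ev, 0))], [1, 0, 0, 1, 0, 0, 1]⟩,
   ⟨[11, 11, 10, 10, 9, 6], 1, [([4, 4, 4, 4, 2, 2], (.ev, 2)), ([2, 2, 4, 3, 2, 1], (.pl 4, 3)), ([1, 1, 1, 1, 1, 1], (.pl 1, 1)), ([4, 4, 1, 0, 1, 0], (.ev, 0)), ([0, 0, 0, 0, 2, 2], (.pl 4, 3)), ([0, 0, 0, 1, 0, 0], (.pl 1, 1)), ([0, 0, 0, 1, 1, 0], (.ev, 0))], [1, 0, 0, 1, 0, 0, 1]⟩,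
   ⟨[11, 11, 10, 10, 9, 5], 1, [([4, 4, 4, 4, 2, 2], (.ev, 2)), ([2, 2, 4, 3, 2, 1], (.pl 4, 3)), ([1, 1, 1, 1, 1, 1], (.pl 1, 1)), ([4, 4, 1, 0, 1, 0], (.ev, 0)), ([0, 0, 0, 0, 2, 1], (.pl 4, 4)), ([0, 0, 0, 1, 0, 0], (.pl 1, 1)), ([0, 0, 0, 1, 1, 0], (.ev, 0))], [1, 0, 0, 1, 0, 0, 1]⟩,
   ⟨[11, 11, 10, 10, 9, 4], 1, [([4, 4, 4, 4, 2, 2], (.ev, 2)), ([2, 2, 4, 3, 2, 0], (.pl 4, 4)), ([1, 1, 1, 1, 1, 1], (.pl 1, 1)), ([4, 4, 1, 0, 1, 0], (.ev, 0)), ([0, 0, 0, 0, 2, 1], (.pl 4, 4)), ([0, 0, 0, 1, 0, 0], (.pl 1, 1)), ([0, 0, 0, 1, 1, 0], (.ev, 0))], [1, 0, 0, 1, 0, 0, 1]⟩,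
   ⟨[11, 11, 10, 10, 9, 3], 1, [([4, 4, 4, 4, 2, 2], (.ev, 2)), ([2, 2, 4, 3, 2, 0], (.pl 4, 4)), ([1, 1, 1, 1, 1, 1], (.pl 1, 1)), ([4, 4, 1, 0, 1, 0], (.ev, 0)), ([0, 0, 0, 0, 2, 0], (.pl 4, 5)), ([0, 0, 0, 1, 0, 0], (.pl 1, 1)), ([0, 0, 0, 1, 1, 0], (.ev, 0))], [1, 0, 0, 1, 0, 0, 1]⟩,
   ⟨[11, 11, 10, 10, 8, 8], 1, [([4, 4, 4, 4, 2, 2], (.ev, 2)), ([2, 2, 4, 3, 2, 1], (.pl 4, 3)), ([1, 1, 1, 1, 1, 1], (.pl 1, 1)), ([4, 4, 1, 1, 0, 0], (.ev, 0)), ([0, 0, 0, 0, 2, 2], (.pl 4, 3)), ([0, 0, 0, 1, 0, 1], (.pl 1, 0)), ([0, 0, 0, 0, 1, 1], (.ev, 0))], [1, 0, 0, 1, 0, 0, 1]⟩,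
   ⟨[11, 11, 10, 10, 8, 7], 1, [([4, 4, 4, 4, 2, 2], (.ev, 2)), ([2, 2, 3, 3, 2, 2], (.pl 4, 3)), ([1, 1, 1, 1, 1, 1], (.pl 1, 1)), ([4, 4, 1, 1, 0, 0], (.ev, 0)), ([0, 0, 0, 0, 2, 2], (.pl 4, 3)), ([0, 0, 0, 1, 0, 0], (.pl 1, 1)), ([0, 0, 1, 0, 1, 0], (.ev, 0))], [1, 0, 0, 1, 0, 0, 1]⟩,
   ⟨[11, 11, 10, 10, 8, 6], 1, [([4, 4, 4, 4, 2, 2], (.ev, 2)), ([2, 2, 3, 3, 2, 2], (.pl 4, 3)), ([1, 1, 1, 1, 1, 1], (.pl 1, 1)), ([4, 4, 1, 1, 0, 0], (.ev, 0)), ([0, 0, 0, 0, 2, 1], (.pl 4, 4)), ([0, 0, 0, 1, 0, 0], (.pl 1, 1)), ([0, 0, 1, 0, 1, 0], (.ev, 0))], [1, 0, 0, 1, 0, 0, 1]⟩,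
   ⟨[11, 11, 10, 10, 8, 5], 1, [([4, 4, 4, 4, 2, 2], (.ev, 2)), ([2, 2, 3, 3, 2, 1], (.pl 4, 4)), ([1, 1, 1, 1, 1, 1], (.pl 1, 1)), ([4, 4, 1, 1, 0, 0], (.ev, 0)), ([0, 0, 0, 0, 2, 1], (.pl 4, 4)), ([0, 0, 0, 1, 0, 0], (.pl 1, 1)), ([0, 0, 1, 0, 1, 0], (.ev, 0))], [1, 0, 0, 1, 0, 0, 1]⟩,
   ⟨[11, 11, 10, 10, 8, 4], 1, [([4, 4, 4, 4, 2, 2], (.ev, 2)), ([2, 2, 3, 3, 2, 1], (.pl 4, 4)), ([1, 1, 1, 1, 1, 1], (.pl 1, 1)), ([4, 4, 1, 1, 0, 0], (.ev, 0)), ([0, 0, 0, 0, 2, 0], (.pl 4, 5)), ([0, 0, 0, 1, 0, 0], (.pl 1, 1)), ([0, 0, 1, 0, 1, 0], (.ev, 0))], [1, 0, 0, 1, 0, 0, 1]⟩,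
   ⟨[11, 11, 10, 10, 8, 3], 1, [([4, 4, 4, 4, 2, 2], (.ev, 2)), ([2, 2, 3, 3, 2, 0], (.pl 4, 5)), ([1, 1, 1, 1, 1, 1], (.pl 1, 1)), ([4, 4, 1, 1, 0, 0], (.ev, 0)), ([0, 0, 0, 0, 2, 0], (.pl 4, 5)), ([0, 0, 0, 1, 0, 0], (.pl 1, 1)), ([0, 0, 1, 0, 1, 0], (.ev, 0))], [1, 0, 0, 1, 0, 0, 1]⟩,
   ⟨[11, 11, 10, 10, 7, 7], 1, [([4, 4, 4, 4, 2, 2], (.ev, 2)), ([2, 2, 3, 3, 2, 2], (.pl 4, 3)), ([1, 1, 1, 1, 1, 1], (.pl 1, 1)), ([4, 4, 1, 1, 0, 0], (.ev, 0)), ([0, 0, 0, 0, 1, 2], (.pl 4, 4)), ([0, 0, 0, 0, 1, 0], (.pl 1, 1)), ([0, 0, 1, 1, 0, 0], (.ev, 0))], [1, 0, 0, 1, 0, 0, 1]⟩,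
   ⟨[11, 11, 10, 10, 7, 6], 1, [([4, 4, 4, 4, 2, 2], (.ev, 2)), ([2, 2, 3, 3, 2, 1], (.pl 4, 4)), ([1, 1, 1, 1, 1, 1], (.pl 1, 1)), ([4, 4, 1, 1, 0, 0], (.ev, 0)), ([0, 0, 0, 0, 1, 2], (.pl 4, 4)), ([0, 0, 0, 0, 1, 0], (.pl 1, 1)), ([0, 0, 1, 1, 0, 0], (.ev, 0))], [1, 0, 0, 1, 0, 0, 1]⟩,
   ⟨[11, 11, 10, 10, 7, 5], 1, [([4, 4, 4, 4, 2, 2], (.ev, 2)), ([2, 2, 3, 3, 2, 1], (.pl 4, 4)), ([1, 1, 1, 1, 1, 1], (.pl 1, 1)), ([4, 4, 1, 1, 0, 0], (.ev, 0)), ([0, 0, 0, 0, 1, 1], (.pl 4, 5)), ([0, 0, 0, 0, 1, 0], (.pl 1, 1)), ([0, 0, 1, 1, 0, 0], (.ev, 0))], [1, 0, 0, 1, 0, 0, 1]⟩,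
   ⟨[11, 11, 10, 10, 7, 4], 1, [([4, 4, 4, 4, 2, 2], (.ev, 2)), ([2, 2, 3, 3, 2, 0], (.pl 4, 5)), ([1, 1, 1, 1, 1, 1], (.pl 1, 1)), ([4, 4, 1, 1, 0, 0], (.ev, 0)), ([0, 0, 0, 0, 1, 1], (.pl 4, 5)), ([0, 0, 0, 0, 1, 0], (.pl 1, 1)), ([0, 0, 1, 1, 0, 0], (.ev, 0))], [1, 0, 0, 1, 0, 0, 1]⟩,
   ⟨[11, 11, 10, 10, 7, 3], 1, [([4, 4, 4, 4, 2, 2], (.ev, 2)), ([2, 2, 3, 3, 2, 0], (.pl 4, 5)), ([1, 1, 1, 1, 1, 1], (.pl 1, 1)), ([4, 4, 1, 1, 0, 0], (.ev, 0)), ([0, 0, 0, 0, 1, 0], (.pl 4, 6)), ([0, 0, 0, 0, 1, 0], (.pl 1, 1)), ([0, 0, 1, 1, 0, 0], (.ev, 0))], [1, 0, 0, 1, 0, 0, 1]⟩,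
   ⟨[11, 11, 10, 10, 6], 1, [([4, 4, 2, 2, 0], (.ev, 10)), ([4, 4, 2, 2, 2], (.pl 4, 3)), ([1, 1, 1, 1, 1], (.pl 1, 2)), ([1, 1, 4, 4, 0], (.ev, 0)), ([0, 0, 0, 1, 3], (.pl 4, 3)), ([0, 0, 1, 0, 0], (.pl 1, 1)), ([1, 1, 0, 0, 0], (.ev, 0))], [3, 1, 0, 1, 0, 1, 1]⟩,
   ⟨[11, 11, 10, 10, 5], 1, [([4, 4, 2, 2, 0], (.ev, 10)), ([4, 4, 2, 2, 2], (.pl 4, 3)), ([1, 1, 1, 1, 1], (.pl 1, 2)), ([1, 1, 4, 4, 0], (.ev, 0)), ([0, 0, 0, 1, 2], (.pl 4, 4)), ([0, 0, 1, 0, 0], (.pl 1, 1)), ([1, 1, 0, 0, 0], (.ev, 0))], [3, 1, 0, 1, 0, 1, 1]⟩,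
   ⟨[11, 11, 10, 10, 4], 1, [([4, 4, 2, 2, 0], (.ev, 10)), ([4, 4, 2, 2, 1], (.pl 4, 4)), ([1, 1, 1, 1, 1], (.pl 1, 2)), ([1, 1, 4, 4, 0], (.ev, 0)), ([0, 0, 0, 1, 2], (.pl 4, 4)), ([0, 0, 1, 0, 0], (.pl 1, 1)), ([1, 1, 0, 0, 0], (.ev, 0))], [2, 0, 0, 1, 0, 1, 1]⟩,
   ⟨[11, 11, 10, 9], 1, [([4, 4, 2, 2], (.ev, 10)), ([2, 4, 3, 2], (.pl 4, 6)), ([1, 1, 1, 1], (.pl 1, 3)), ([4, 1, 4, 1], (.ev, 0)), ([0, 0, 0, 1], (.pl 4, 6)), ([0, 0, 0, 1], (.pl 1, 1)), ([0, 1, 0, 1], (.ev, 0))], [3, 1, 0, 1, 0, 1, 1]⟩,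
   ⟨[11, 11, 10, 8], 1, [([4, 4, 2, 2], (.ev, 10)), ([2, 4, 3, 2], (.pl 4, 6)), ([1, 1, 1, 1], (.pl 1, 3)), ([4, 1, 4, 1], (.ev, 0)), ([0, 0, 0, 0], (.pl 4, 7)), ([0, 0, 0, 1], (.pl 1, 1)), ([0, 1, 0, 1], (.ev, 0))], [3, 1, 0, 1, 0, 1, 1]⟩,
   ⟨[11, 11, 10, 7], 1, [([4, 4, 2, 2], (.ev, 10)), ([2, 4, 2, 2], (.pl 4, 7)), ([1, 1, 1, 1], (.pl 1, 3)), ([4, 1, 4, 1], (.ev, 0)), ([0, 0, 0, 0], (.pl 4, 7)), ([0, 0, 0, 1], (.pl 1, 1)), ([0, 1, 1, 0], (.ev, 0))], [2, 0, 0, 1, 0, 1, 1]⟩,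
   ⟨[11, 11, 10, 6], 1, [([4, 4, 2, 2], (.ev, 10)), ([2, 4, 2, 2], (.pl 4, 7)), ([1, 1, 1, 1], (.pl 1, 3)), ([4, 1, 4, 1], (.ev, 0)), ([0, 0, 0, 0], (.pl 4, 7)), ([0, 0, 0, 0], (.pl 1, 2)), ([0, 1, 1, 0], (.ev, 0))], [2, 1, 0, 1, 0, 0, 1]⟩,
   ⟨[11, 11, 10, 5], 1, [([4, 4, 2, 2], (.ev, 10)), ([2, 4, 2, 1], (.pl 4, 8)), ([1, 1, 1, 1], (.pl 1, 3)), ([4, 1, 4, 1], (.ev, 0)), ([0, 0, 0, 0], (.pl 4, 7)), ([0, 0, 0, 0], (.pl 1, 2)), ([0, 1, 1, 0], (.ev, 0))], [2, 0, 0, 1, 1, 0, 1]⟩,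
   ⟨[11, 11, 9, 9], 1, [([4, 4, 2, 2], (.ev, 10)), ([2, 2, 4, 3], (.pl 4, 6)), ([1, 1, 1, 1], (.pl 1, 3)), ([4, 4, 1, 1], (.ev, 0)), ([0, 0, 0, 0], (.pl 4, 7)), ([0, 0, 0, 1], (.pl 1, 1)), ([0, 0, 1, 1], (.ev, 0))], [3, 1, 0, 1, 0, 1, 1]⟩,
   ⟨[11, 11, 9, 8], 1, [([4, 4, 2, 2], (.ev, 10)), ([2, 2, 4, 2], (.pl 4, 7)), ([1, 1, 1, 1], (.pl 1, 3)), ([4, 4, 1, 1], (.ev, 0)), ([0, 0, 0, 0], (.pl 4, 7)), ([0, 0, 0, 1], (.pl 1, 1)), ([0, 0, 1, 1], (.ev, 0))], [3, 1, 0, 1, 0, 1, 1]⟩,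
   ⟨[11, 11, 8], 1, [([2, 2, 0], (.ev, 18)), ([3, 4, 4], (.pl 4, 6)), ([1, 1, 1], (.pl 1, 4)), ([4, 4, 0], (.ev, 2)), ([0, 0, 1], (.pl 4, 6)), ([0, 0, 1], (.pl 1, 1)), ([1, 0, 1], (.ev, 0))], [4, 1, 0, 1, 1, 1, 1]⟩,
   ⟨[11, 10], 1, [([2, 2], (.ev, 18)), ([3, 2], (.pl 4, 12)), ([1, 1], (.pl 1, 5)), ([4, 4], (.ev, 2)), ([0, 0], (.pl 4, 7)), ([0, 0], (.pl 1, 2)), ([1, 1], (.ev, 0))], [4, 1, 0, 1, 2, 0, 1]⟩,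
   ⟨[11, 9], 1, [([2, 2], (.ev, 18)), ([3, 1], (.pl 4, 13)), ([1, 1], (.pl 1, 5)), ([4, 4], (.ev, 2)), ([0, 0], (.pl 4, 7)), ([0, 0], (.pl 1, 2)), ([1, 1], (.ev, 0))], [4, 1, 0, 1, 2, 0, 1]⟩,
   ⟨[10, 10], 1, [([2, 2], (.ev, 18)), ([2, 2], (.pl 4, 13)), ([1, 1], (.pl 1, 5)), ([4, 4], (.ev, 2)), ([0, 0], (.pl 4, 7)), ([0, 0], (.pl 1, 2)), ([1, 1], (.ev, 0))], [4, 1, 0, 1, 2, 0, 1]⟩,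
   ⟨[10, 9], 1, [([2, 2], (.ev, 18)), ([2, 1], (.pl 4, 14)), ([1, 1], (.pl 1, 5)), ([4, 4], (.ev, 2)), ([0, 0], (.pl 4, 7)), ([0, 0], (.pl 1, 2)), ([1, 1], (.ev, 0))], [4, 1, 0, 1, 2, 0, 1]⟩,
   ⟨[9, 9], 1, [([2, 2], (.ev, 18)), ([1, 1], (.pl 4, 15)), ([1, 1], (.pl 1, 5)), ([4, 4], (.ev, 2)), ([0, 0], (.pl 4, 7)), ([0, 0], (.pl 1, 2)), ([1, 1], (.ev, 0))], [4, 1, 0, 1, 2, 0, 1]⟩]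

def cmC_12_9_7_5_3 : List (List ℕ × List (ℕ × ℕ)) :=
  [([17, 5], [(11, 1), (15, 4), (11, 4), (2, 1), (5, 4), (1, 1), (0, 1)]),
   ([11, 11, 11, 11, 11, 7], [(2, 1), (1, 4), (1, 1), (0, 1), (1, 4), (0, 1), (0, 1)]),
   ([11, 11, 11, 11, 11, 6], [(2, 1), (1, 4), (1, 1), (0, 1), (2, 4), (0, 1), (0, 1)]),
   ([11, 11, 11, 11, 11, 5], [(2, 1), (2, 4), (1, 1), (0, 1), (2, 4), (0, 1), (0, 1)]),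
   ([11, 11, 11, 11, 11, 4], [(2, 1), (2, 4), (1, 1), (0, 1), (3, 4), (0, 1), (0, 1)]),
   ([11, 11, 11, 11, 11, 3], [(2, 1), (3, 4), (1, 1), (0, 1), (3, 4), (0, 1), (0, 1)]),
   ([11, 11, 11, 11, 11, 2], [(2, 1), (3, 4), (2, 1), (0, 1), (3, 4), (0, 1), (0, 1)]),
   ([11, 11, 11, 11, 10, 8], [(2, 1), (1, 4), (1, 1), (0, 1), (1, 4), (0, 1), (0, 1)]),
   ([11, 11, 11, 11, 10, 7], [(2, 1), (1, 4), (1, 1), (0, 1), (2, 4), (0, 1), (0, 1)]),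
   ([11, 11, 11, 11, 10, 6], [(2, 1), (2, 4), (1, 1), (0, 1), (2, 4), (0, 1), (0, 1)]),
   ([11, 11, 11, 11, 10, 5], [(2, 1), (2, 4), (1, 1), (0, 1), (3, 4), (0, 1), (0, 1)]),
   ([11, 11, 11, 11, 10, 4], [(2, 1), (3, 4), (1, 1), (0, 1), (3, 4), (0, 1), (0, 1)]),
   ([11, 11, 11, 11, 10, 3], [(2, 1), (3, 4), (1, 1), (0, 1), (3, 4), (1, 1), (0, 1)]),
   ([11, 11, 11, 11, 9, 9], [(2, 1), (1, 4), (1, 1), (0, 1), (1, 4), (0, 1), (0, 1)]),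
   ([11, 11, 11, 11, 9, 8], [(2, 1), (1, 4), (1, 1), (0, 1), (2, 4), (0, 1), (0, 1)]),
   ([11, 11, 11, 11, 9, 7], [(2, 1), (2, 4), (1, 1), (0, 1), (2, 4), (0, 1), (0, 1)]),
   ([11, 11, 11, 11, 9, 6], [(2, 1), (2, 4), (1, 1), (0, 1), (3, 4), (0, 1), (0, 1)]),
   ([11, 11, 11, 11, 9, 5], [(2, 1), (3, 4), (1, 1), (0, 1), (3, 4), (0, 1), (0, 1)]),
   ([11, 11, 11, 11, 9, 4], [(2, 1), (3, 4), (1, 1), (0, 1), (3, 4), (1, 1), (0, 1)]),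
   ([11, 11, 11, 11, 9, 3], [(2, 1), (3, 4), (1, 1), (0, 1), (4, 4), (1, 1), (0, 1)]),
   ([11, 11, 11, 11, 8, 8], [(2, 1), (2, 4), (1, 1), (0, 1), (2, 4), (0, 1), (0, 1)]),
   ([11, 11, 11, 11, 8, 7], [(2, 1), (2, 4), (1, 1), (0, 1), (3, 4), (0, 1), (0, 1)]),
   ([11, 11, 11, 11, 8, 6], [(2, 1), (3, 4), (1, 1), (0, 1), (3, 4), (0, 1), (0, 1)]),
   ([11, 11, 11, 11, 8, 5], [(2, 1), (3, 4), (1, 1), (0, 1), (3, 4), (1, 1), (0, 1)]),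
   ([11, 11, 11, 11, 8, 4], [(2, 1), (3, 4), (1, 1), (0, 1), (4, 4), (1, 1), (0, 1)]),
   ([11, 11, 11, 11, 8, 3], [(2, 1), (4, 4), (1, 1), (0, 1), (4, 4), (1, 1), (0, 1)]),
   ([11, 11, 11, 11, 7, 7], [(2, 1), (3, 4), (1, 1), (0, 1), (3, 4), (0, 1), (0, 1)]),
   ([11, 11, 11, 11, 7, 6], [(2, 1), (3, 4), (1, 1), (0, 1), (3, 4), (1, 1), (0, 1)]),
   ([11, 11, 11, 11, 7, 5], [(2, 1), (3, 4), (1, 1), (0, 1), (4, 4), (1, 1), (0, 1)]),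
   ([11, 11, 11, 11, 7, 4], [(2, 1), (4, 4), (1, 1), (0, 1), (4, 4), (1, 1), (0, 1)]),
   ([11, 11, 11, 11, 7, 3], [(2, 1), (4, 4), (1, 1), (0, 1), (5, 4), (1, 1), (0, 1)]),
   ([11, 11, 11, 11, 6], [(13, 4), (0, 2), (2, 1), (0, 1), (2, 3), (0, 1), (0, 1)]),
   ([11, 11, 11, 11, 5], [(12, 3), (2, 3), (2, 1), (0, 1), (2, 3), (0, 1), (0, 1)]),
   ([11, 11, 11, 11, 4], [(11, 2), (3, 4), (2, 1), (0, 1), (3, 4), (0, 1), (0, 1)]),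
   ([11, 11, 11, 10, 10, 9], [(2, 1), (1, 4), (1, 1), (0, 1), (1, 4), (0, 1), (0, 1)]),
   ([11, 11, 11, 10, 10, 8], [(2, 1), (1, 4), (1, 1), (0, 1), (2, 4), (0, 1), (0, 1)]),
   ([11, 11, 11, 10, 10, 7], [(2, 1), (2, 4), (1, 1), (0, 1), (2, 4), (0, 1), (0, 1)]),
   ([11, 11, 11, 10, 10, 6], [(2, 1), (2, 4), (1, 1), (0, 1), (3, 4), (0, 1), (0, 1)]),
   ([11, 11, 11, 10, 10, 5], [(2, 1), (3, 4), (1, 1), (0, 1), (3, 4), (0, 1), (0, 1)]),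
   ([11, 11, 11, 10, 10, 4], [(2, 1), (3, 4), (1, 1), (0, 1), (3, 4), (1, 1), (0, 1)]),
   ([11, 11, 11, 10, 10, 3], [(2, 1), (3, 4), (1, 1), (0, 1), (4, 4), (1, 1), (0, 1)]),
   ([11, 11, 11, 10, 9, 9], [(2, 1), (1, 4), (1, 1), (0, 1), (2, 4), (0, 1), (0, 1)]),
   ([11, 11, 11, 10, 9, 8], [(2, 1), (2, 4), (1, 1), (0, 1), (2, 4), (0, 1), (0, 1)]),
   ([11, 11, 11, 10, 9, 7], [(2, 1), (2, 4), (1, 1), (0, 1), (3, 4), (0, 1), (0, 1)]),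
   ([11, 11, 11, 10, 9, 6], [(2, 1), (3, 4), (1, 1), (0, 1), (3, 4), (0, 1), (0, 1)]),
   ([11, 11, 11, 10, 9, 5], [(2, 1), (3, 4), (1, 1), (0, 1), (3, 4), (1, 1), (0, 1)]),
   ([11, 11, 11, 10, 9, 4], [(2, 1), (3, 4), (1, 1), (0, 1), (4, 4), (1, 1), (0, 1)]),
   ([11, 11, 11, 10, 9, 3], [(2, 1), (4, 4), (1, 1), (0, 1), (4, 4), (1, 1), (0, 1)]),
   ([11, 11, 11, 10, 8, 8], [(2, 1), (2, 4), (1, 1), (0, 1), (3, 4), (0, 1), (0, 1)]),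
   ([11, 11, 11, 10, 8, 7], [(2, 1), (3, 4), (1, 1), (0, 1), (3, 4), (0, 1), (0, 1)]),
   ([11, 11, 11, 10, 8, 6], [(2, 1), (3, 4), (1, 1), (0, 1), (3, 4), (1, 1), (0, 1)]),
   ([11, 11, 11, 10, 8, 5], [(2, 1), (3, 4), (1, 1), (0, 1), (4, 4), (1, 1), (0, 1)]),
   ([11, 11, 11, 10, 8, 4], [(2, 1), (4, 4), (1, 1), (0, 1), (4, 4), (1, 1), (0, 1)]),
   ([11, 11, 11, 10, 8, 3], [(2, 1), (4, 4), (1, 1), (0, 1), (5, 4), (1, 1), (0, 1)]),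
   ([11, 11, 11, 10, 7, 7], [(2, 1), (3, 4), (1, 1), (0, 1), (3, 4), (1, 1), (0, 1)]),
   ([11, 11, 11, 10, 7, 6], [(2, 1), (3, 4), (1, 1), (0, 1), (4, 4), (1, 1), (0, 1)]),
   ([11, 11, 11, 10, 7, 5], [(2, 1), (4, 4), (1, 1), (0, 1), (4, 4), (1, 1), (0, 1)]),
   ([11, 11, 11, 10, 7, 4], [(2, 1), (4, 4), (1, 1), (0, 1), (5, 4), (1, 1), (0, 1)]),
   ([11, 11, 11, 10, 7, 3], [(2, 1), (5, 4), (1, 1), (0, 1), (5, 4), (1, 1), (0, 1)]),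
   ([11, 11, 11, 10, 6], [(12, 3), (2, 3), (2, 1), (0, 1), (2, 3), (0, 1), (0, 1)]),
   ([11, 11, 11, 10, 5], [(12, 3), (2, 3), (2, 1), (0, 1), (3, 4), (0, 1), (0, 1)]),
   ([11, 11, 11, 10, 4], [(11, 2), (3, 4), (2, 1), (0, 1), (4, 4), (0, 1), (0, 1)]),
   ([11, 11, 11, 9], [(12, 3), (4, 3), (3, 1), (0, 1), (6, 4), (0, 1), (0, 1)]),
   ([11, 11, 11, 8], [(12, 3), (5, 3), (3, 1), (0, 1), (6, 4), (0, 1), (0, 1)]),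
   ([11, 11, 11, 7], [(11, 2), (6, 4), (3, 1), (0, 1), (7, 4), (0, 1), (0, 1)]),
   ([11, 11, 11, 6], [(11, 2), (7, 4), (3, 1), (0, 1), (7, 4), (0, 1), (0, 1)]),
   ([11, 11, 11, 5], [(11, 2), (6, 3), (3, 1), (0, 1), (7, 4), (2, 1), (0, 1)]),
   ([11, 11, 10, 10, 10, 10], [(2, 1), (1, 4), (1, 1), (0, 1), (1, 4), (0, 1), (0, 1)]),
   ([11, 11, 10, 10, 10, 9], [(2, 1), (1, 4), (1, 1), (0, 1), (2, 4), (0, 1), (0, 1)]),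
   ([11, 11, 10, 10, 10, 8], [(2, 1), (2, 4), (1, 1), (0, 1), (2, 4), (0, 1), (0, 1)]),
   ([11, 11, 10, 10, 10, 7], [(2, 1), (2, 4), (1, 1), (0, 1), (3, 4), (0, 1), (0, 1)]),
   ([11, 11, 10, 10, 10, 6], [(2, 1), (3, 4), (1, 1), (0, 1), (3, 4), (0, 1), (0, 1)]),
   ([11, 11, 10, 10, 10, 5], [(2, 1), (3, 4), (1, 1), (0, 1), (3, 4), (1, 1), (0, 1)]),
   ([11, 11, 10, 10, 10, 4], [(2, 1), (3, 4), (1, 1), (0, 1), (4, 4), (1, 1), (0, 1)]),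
   ([11, 11, 10, 10, 10, 3], [(2, 1), (4, 4), (1, 1), (0, 1), (4, 4), (1, 1), (0, 1)]),
   ([11, 11, 10, 10, 9, 9], [(2, 1), (2, 4), (1, 1), (0, 1), (2, 4), (0, 1), (0, 1)]),
   ([11, 11, 10, 10, 9, 8], [(2, 1), (2, 4), (1, 1), (0, 1), (3, 4), (0, 1), (0, 1)]),
   ([11, 11, 10, 10, 9, 7], [(2, 1), (3, 4), (1, 1), (0, 1), (3, 4), (0, 1), (0, 1)]),
   ([11, 11, 10, 10, 9, 6], [(2, 1), (3, 4), (1, 1), (0, 1), (3, 4), (1, 1), (0, 1)]),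
   ([11, 11, 10, 10, 9, 5], [(2, 1), (3, 4), (1, 1), (0, 1), (4, 4), (1, 1), (0, 1)]),
   ([11, 11, 10, 10, 9, 4], [(2, 1), (4, 4), (1, 1), (0, 1), (4, 4), (1, 1), (0, 1)]),
   ([11, 11, 10, 10, 9, 3], [(2, 1), (4, 4), (1, 1), (0, 1), (5, 4), (1, 1), (0, 1)]),
   ([11, 11, 10, 10, 8, 8], [(2, 1), (3, 4), (1, 1), (0, 1), (3, 4), (0, 1), (0, 1)]),
   ([11, 11, 10, 10, 8, 7], [(2, 1), (3, 4), (1, 1), (0, 1), (3, 4), (1, 1), (0, 1)]),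
   ([11, 11, 10, 10, 8, 6], [(2, 1), (3, 4), (1, 1), (0, 1), (4, 4), (1, 1), (0, 1)]),
   ([11, 11, 10, 10, 8, 5], [(2, 1), (4, 4), (1, 1), (0, 1), (4, 4), (1, 1), (0, 1)]),
   ([11, 11, 10, 10, 8, 4], [(2, 1), (4, 4), (1, 1), (0, 1), (5, 4), (1, 1), (0, 1)]),
   ([11, 11, 10, 10, 8, 3], [(2, 1), (5, 4), (1, 1), (0, 1), (5, 4), (1, 1), (0, 1)]),
   ([11, 11, 10, 10, 7, 7], [(2, 1), (3, 4), (1, 1), (0, 1), (4, 4), (1, 1), (0, 1)]),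
   ([11, 11, 10, 10, 7, 6], [(2, 1), (4, 4), (1, 1), (0, 1), (4, 4), (1, 1), (0, 1)]),
   ([11, 11, 10, 10, 7, 5], [(2, 1), (4, 4), (1, 1), (0, 1), (5, 4), (1, 1), (0, 1)]),
   ([11, 11, 10, 10, 7, 4], [(2, 1), (5, 4), (1, 1), (0, 1), (5, 4), (1, 1), (0, 1)]),
   ([11, 11, 10, 10, 7, 3], [(2, 1), (5, 4), (1, 1), (0, 1), (6, 4), (1, 1), (0, 1)]),
   ([11, 11, 10, 10, 6], [(12, 3), (2, 3), (2, 1), (0, 1), (3, 4), (0, 1), (0, 1)]),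
   ([11, 11, 10, 10, 5], [(12, 3), (2, 3), (2, 1), (0, 1), (4, 4), (0, 1), (0, 1)]),
   ([11, 11, 10, 10, 4], [(11, 2), (4, 4), (2, 1), (0, 1), (4, 4), (0, 1), (0, 1)]),
   ([11, 11, 10, 9], [(12, 3), (5, 3), (3, 1), (0, 1), (6, 4), (0, 1), (0, 1)]),
   ([11, 11, 10, 8], [(12, 3), (5, 3), (3, 1), (0, 1), (7, 4), (0, 1), (0, 1)]),
   ([11, 11, 10, 7], [(11, 2), (7, 4), (3, 1), (0, 1), (7, 4), (0, 1), (0, 1)]),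
   ([11, 11, 10, 6], [(11, 2), (6, 3), (3, 1), (0, 1), (7, 4), (2, 1), (0, 1)]),
   ([11, 11, 10, 5], [(11, 2), (8, 4), (3, 1), (0, 1), (6, 3), (2, 1), (0, 1)]),
   ([11, 11, 9, 9], [(12, 3), (5, 3), (3, 1), (0, 1), (7, 4), (0, 1), (0, 1)]),
   ([11, 11, 9, 8], [(12, 3), (6, 3), (3, 1), (0, 1), (7, 4), (0, 1), (0, 1)]),
   ([11, 11, 8], [(21, 4), (5, 3), (4, 1), (2, 1), (5, 3), (0, 1), (0, 1)]),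
   ([11, 10], [(21, 4), (11, 3), (5, 1), (2, 1), (5, 2), (2, 1), (0, 1)]),
   ([11, 9], [(21, 4), (12, 3), (5, 1), (2, 1), (5, 2), (2, 1), (0, 1)]),
   ([10, 10], [(21, 4), (12, 3), (5, 1), (2, 1), (5, 2), (2, 1), (0, 1)]),
   ([10, 9], [(21, 4), (13, 3), (5, 1), (2, 1), (5, 2), (2, 1), (0, 1)]),
   ([9, 9], [(21, 4), (14, 3), (5, 1), (2, 1), (5, 2), (2, 1), (0, 1)])]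

set_option Elab.async false in
theorem covH_12_9_7_5_3 : CovH [12, 9, 7, 5, 3] :=
  covH_of_tree (by decide) ls_12_9_7_5_3 sp_12_9_7_5_3 cm_12_9_7_5_3 spC_12_9_7_5_3 cmC_12_9_7_5_3 99 (by decide +kernel) (by decide +kernel)
    (by decide +kernel) (by decide +kernel) (by decide +kernel) (by decide +kernel)

theorem covT_hC_11_1 : CovH (hC 11 1) := covH_12_9_7_5_3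

end Crest.Agent.R195
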