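import Crest.Agent.R195.TreeFin

set_option autoImplicit false

namespace Crest.Agent.R195

/-! hook list [13, 10, 8, 6, 3], n = 75: 360 nodes, 165 commitments -/

def ls_13_10_8_6_3 : List (List Pc) :=
  [[.rect 13 1, .pair 11, .rect 9 1, .rect 7 1, .dup 5, .dup 4, .pair 3, .dup 1],
   [.gap 13, .pair 10, .rect 7 1, .dup 5, .dup 4, .pair 3, .dup 1],
   [.rect 13 1, .pair 11, .gap 9, .dup 5, .dup 4, .pair 3, .dup 1]]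

def sp_13_10_8_6_3 : List (ℕ × List ℕ) :=
  [(0, [0, 0, 0, 0, 3, 2, 3, 1]),
   (1, [3, 2, 0, 2, 1, 3, 1])]

def spC_13_10_8_6_3 : List (List (ℕ × ℕ)) :=
  [[(13, 1), (21, 4), (9, 1), (7, 1), (12, 3), (9, 2), (2, 1), (2, 1)],
   [(28, 3), (17, 2), (7, 1), (11, 2), (8, 1), (2, 1), (2, 1)]]

def cm_13_10_8_6_3 : List CM :=
  [⟨[18, 6, 6], 1, [([2, 2, 0], (.ev, 20)), ([4, 0, 0], (.pl 4, 15)), ([1, 0, 1], (.pl 1, 5)), ([4, 0, 4], (.ev, 2)), ([4, 4, 0], (.ev, 0)), ([2, 0, 0], (.pl 4, 3)), ([1, 0, 1], (.ev, 0))], [2, 0, 0, 1, 1, 1, 1]⟩,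
   ⟨[17, 7], 0, [([1, 0], (.pl 1, 12)), ([4, 0], (.pl 4, 17)), ([1, 0], (.pl 1, 8)), ([1, 0], (.pl 1, 6)), ([4, 4], (.ev, 2)), ([3, 3], (.ev, 2)), ([3, 0], (.pl 4, 2)), ([0, 0], (.ev, 2))], [0, 0, 0, 0, 1, 1, 0, 1]⟩,
   ⟨[17, 6], 0, [([1, 0], (.pl 1, 12)), ([4, 0], (.pl 4, 17)), ([1, 0], (.pl 1, 8)), ([1, 0], (.pl 1, 6)), ([4, 4], (.ev, 2)), ([2, 2], (.ev, 4)), ([4, 0], (.pl 4, 1)), ([0, 0], (.ev, 2))], [0, 0, 0, 0, 1, 1, 0, 1]⟩,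
   ⟨[16, 8], 1, [([2, 2], (.ev, 20)), ([4, 0], (.pl 4, 15)), ([1, 0], (.pl 1, 6)), ([4, 4], (.ev, 2)), ([2, 2], (.ev, 4)), ([3, 0], (.pl 4, 2)), ([0, 0], (.ev, 2))], [3, 1, 0, 1, 1, 1, 1]⟩,
   ⟨[16, 7], 1, [([2, 2], (.ev, 20)), ([4, 0], (.pl 4, 15)), ([1, 0], (.pl 1, 6)), ([4, 4], (.ev, 2)), ([1, 1], (.ev, 6)), ([4, 0], (.pl 4, 1)), ([0, 0], (.ev, 2))], [2, 0, 0, 1, 1, 1, 1]⟩,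
   ⟨[16, 6], 0, [([1, 0], (.pl 1, 12)), ([4, 0], (.pl 4, 17)), ([1, 0], (.pl 1, 8)), ([1, 0], (.pl 1, 6)), ([4, 4], (.ev, 2)), ([2, 2], (.ev, 4)), ([3, 0], (.pl 4, 2)), ([0, 0], (.ev, 2))], [0, 0, 0, 0, 1, 1, 0, 1]⟩,
   ⟨[15, 9], 1, [([2, 2], (.ev, 20)), ([4, 0], (.pl 4, 15)), ([1, 0], (.pl 1, 6)), ([4, 4], (.ev, 2)), ([3, 3], (.ev, 2)), ([1, 0], (.pl 4, 4)), ([0, 0], (.ev, 2))], [3, 1, 0, 1, 1, 1, 1]⟩,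
   ⟨[15, 8], 1, [([2, 2], (.ev, 20)), ([4, 0], (.pl 4, 15)), ([1, 0], (.pl 1, 6)), ([4, 4], (.ev, 2)), ([2, 2], (.ev, 4)), ([2, 0], (.pl 4, 3)), ([0, 0], (.ev, 2))], [3, 1, 0, 1, 1, 1, 1]⟩,
   ⟨[15, 7], 1, [([2, 2], (.ev, 20)), ([4, 0], (.pl 4, 15)), ([1, 0], (.pl 1, 6)), ([4, 4], (.ev, 2)), ([1, 1], (.ev, 6)), ([3, 0], (.pl 4, 2)), ([0, 0], (.ev, 2))], [3, 1, 0, 1, 1, 1, 1]⟩,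
   ⟨[15, 6], 1, [([2, 2], (.ev, 20)), ([4, 0], (.pl 4, 15)), ([1, 0], (.pl 1, 6)), ([4, 4], (.ev, 2)), ([0, 0], (.ev, 8)), ([4, 0], (.pl 4, 1)), ([0, 0], (.ev, 2))], [2, 0, 0, 1, 1, 1, 1]⟩,
   ⟨[14, 10], 1, [([2, 2], (.ev, 20)), ([3, 0], (.pl 4, 16)), ([1, 0], (.pl 1, 6)), ([4, 4], (.ev, 2)), ([4, 4], (.ev, 0)), ([0, 0], (.pl 4, 5)), ([0, 0], (.ev, 2))], [4, 0, 0, 1, 1, 3, 1]⟩,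
   ⟨[14, 9], 1, [([2, 2], (.ev, 20)), ([4, 0], (.pl 4, 15)), ([1, 0], (.pl 1, 6)), ([4, 4], (.ev, 2)), ([3, 3], (.ev, 2)), ([0, 0], (.pl 4, 5)), ([0, 0], (.ev, 2))], [4, 1, 0, 1, 1, 2, 1]⟩,
   ⟨[13, 11], 2, [([1, 1], (.pl 1, 11)), ([4, 2], (.pl 4, 15)), ([2, 2], (.ev, 12)), ([4, 4], (.ev, 2)), ([2, 2], (.ev, 4)), ([0, 0], (.pl 4, 5)), ([0, 0], (.ev, 2))], [0, 0, 4, 1, 1, 3, 1]⟩,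
   ⟨[13, 10], 1, [([2, 2], (.ev, 20)), ([2, 0], (.pl 4, 17)), ([1, 0], (.pl 1, 6)), ([4, 4], (.ev, 2)), ([4, 4], (.ev, 0)), ([0, 0], (.pl 4, 5)), ([0, 0], (.ev, 2))], [4, 0, 0, 1, 1, 3, 1]⟩,
   ⟨[13, 9], 1, [([2, 2], (.ev, 20)), ([3, 0], (.pl 4, 16)), ([1, 0], (.pl 1, 6)), ([4, 4], (.ev, 2)), ([3, 3], (.ev, 2)), ([0, 0], (.pl 4, 5)), ([0, 0], (.ev, 2))], [3, 1, 0, 1, 1, 1, 1]⟩,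
   ⟨[12, 12, 12, 12, 12, 9], 1, [([4, 4, 4, 4, 2, 2], (.ev, 4)), ([3, 2, 4, 3, 4, 3], (.pl 4, 0)), ([1, 1, 1, 1, 1, 1], (.pl 1, 1)), ([4, 1, 1, 0, 4, 0], (.ev, 0)), ([0, 4, 0, 4, 0, 0], (.ev, 0)), ([0, 0, 1, 0, 1, 2], (.pl 4, 1)), ([0, 0, 1, 0, 0, 1], (.ev, 0))], [1, 0, 0, 1, 1, 0, 1]⟩,
   ⟨[12, 12, 12, 12, 12, 8], 1, [([4, 4, 4, 4, 2, 2], (.ev, 4)), ([3, 2, 4, 3, 4, 2], (.pl 4, 1)), ([1, 1, 1, 1, 1, 1], (.pl 1, 1)), ([4, 1, 1, 0, 4, 0], (.ev, 0)), ([0, 4, 0, 4, 0, 0], (.ev, 0)), ([0, 0, 1, 0, 0, 3], (.pl 4, 1)), ([0, 0, 1, 0, 1, 0], (.ev, 0))], [1, 0, 0, 1, 1, 0, 1]⟩,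
   ⟨[12, 12, 12, 12, 12, 7], 1, [([4, 4, 4, 4, 2, 2], (.ev, 4)), ([3, 2, 4, 3, 4, 2], (.pl 4, 1)), ([1, 1, 1, 1, 1, 1], (.pl 1, 1)), ([4, 1, 1, 0, 4, 0], (.ev, 0)), ([0, 4, 0, 4, 0, 0], (.ev, 0)), ([0, 0, 1, 0, 0, 2], (.pl 4, 2)), ([0, 0, 1, 0, 1, 0], (.ev, 0))], [1, 0, 0, 1, 1, 0, 1]⟩,
   ⟨[12, 12, 12, 12, 12, 6], 1, [([4, 4, 4, 4, 2, 2], (.ev, 4)), ([3, 2, 4, 3, 4, 1], (.pl 4, 2)), ([1, 1, 1, 1, 1, 1], (.pl 1, 1)), ([4, 1, 1, 0, 4, 0], (.ev, 0)), ([0, 4, 0, 4, 0, 0], (.ev, 0)), ([0, 0, 1, 0, 0, 2], (.pl 4, 2)), ([0, 0, 1, 0, 1, 0], (.ev, 0))], [1, 0, 0, 1, 1, 0, 1]⟩,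
   ⟨[12, 12, 12, 12, 12, 5], 1, [([4, 4, 4, 4, 2, 2], (.ev, 4)), ([3, 2, 4, 3, 4, 1], (.pl 4, 2)), ([1, 1, 1, 1, 1, 1], (.pl 1, 1)), ([4, 1, 1, 0, 4, 0], (.ev, 0)), ([0, 4, 0, 4, 0, 0], (.ev, 0)), ([0, 0, 1, 0, 0, 1], (.pl 4, 3)), ([0, 0, 1, 0, 1, 0], (.ev, 0))], [1, 0, 0, 1, 1, 0, 1]⟩,
   ⟨[12, 12, 12, 12, 12, 4], 1, [([4, 4, 4, 4, 2, 2], (.ev, 4)), ([3, 2, 4, 3, 4, 0], (.pl 4, 3)), ([1, 1, 1, 1, 1, 1], (.pl 1, 1)), ([4, 1, 1, 0, 4, 0], (.ev, 0)), ([0, 4, 0, 4, 0, 0], (.ev, 0)), ([0, 0, 1, 0, 0, 1], (.pl 4, 3)), ([0, 0, 1, 0, 1, 0], (.ev, 0))], [1, 0, 0, 1, 1, 0, 1]⟩,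
   ⟨[12, 12, 12, 12, 12, 3], 1, [([4, 4, 4, 4, 2, 2], (.ev, 4)), ([3, 2, 4, 3, 4, 0], (.pl 4, 3)), ([1, 1, 1, 1, 1, 1], (.pl 1, 1)), ([4, 1, 1, 0, 4, 0], (.ev, 0)), ([0, 4, 0, 4, 0, 0], (.ev, 0)), ([0, 0, 1, 0, 0, 0], (.pl 4, 4)), ([0, 0, 1, 0, 1, 0], (.ev, 0))], [1, 0, 0, 1, 1, 0, 1]⟩,
   ⟨[12, 12, 12, 12, 11, 10], 1, [([4, 4, 4, 4, 2, 2], (.ev, 4)), ([3, 4, 4, 3, 3, 2], (.pl 4, 0)), ([1, 1, 1, 1, 1, 1], (.pl 1, 1)), ([4, 1, 1, 0, 4, 0], (.ev, 0)), ([0, 0, 0, 4, 0, 4], (.ev, 0)), ([0, 1, 1, 0, 1, 1], (.pl 4, 1)), ([0, 1, 1, 0, 0, 0], (.ev, 0))], [1, 0, 0, 1, 1, 0, 1]⟩,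
   ⟨[12, 12, 12, 12, 11, 9], 1, [([4, 4, 4, 4, 2, 2], (.ev, 4)), ([3, 2, 4, 3, 4, 2], (.pl 4, 1)), ([1, 1, 1, 1, 1, 1], (.pl 1, 1)), ([4, 1, 1, 0, 4, 0], (.ev, 0)), ([0, 4, 0, 4, 0, 0], (.ev, 0)), ([0, 0, 1, 0, 0, 3], (.pl 4, 1)), ([0, 0, 1, 0, 0, 1], (.ev, 0))], [1, 0, 0, 1, 1, 0, 1]⟩,
   ⟨[12, 12, 12, 12, 11, 8], 1, [([4, 4, 4, 4, 2, 2], (.ev, 4)), ([3, 2, 4, 3, 4, 2], (.pl 4, 1)), ([1, 1, 1, 1, 1, 1], (.pl 1, 1)), ([4, 1, 1, 0, 4, 0], (.ev, 0)), ([0, 4, 0, 4, 0, 0], (.ev, 0)), ([0, 0, 1, 0, 0, 2], (.pl 4, 2)), ([0, 0, 1, 0, 0, 1], (.ev, 0))], [1, 0, 0, 1, 1, 0, 1]⟩,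
   ⟨[12, 12, 12, 12, 11, 7], 1, [([4, 4, 4, 4, 2, 2], (.ev, 4)), ([3, 2, 4, 3, 3, 2], (.pl 4, 2)), ([1, 1, 1, 1, 1, 1], (.pl 1, 1)), ([4, 1, 1, 0, 4, 0], (.ev, 0)), ([0, 4, 0, 4, 0, 0], (.ev, 0)), ([0, 0, 1, 0, 0, 2], (.pl 4, 2)), ([0, 0, 1, 0, 1, 0], (.ev, 0))], [1, 0, 0, 1, 1, 0, 1]⟩,
   ⟨[12, 12, 12, 12, 11, 6], 1, [([4, 4, 4, 4, 2, 2], (.ev, 4)), ([3, 2, 4, 3, 3, 2], (.pl 4, 2)), ([1, 1, 1, 1, 1, 1], (.pl 1, 1)), ([4, 1, 1, 0, 4, 0], (.ev, 0)), ([0, 4, 0, 4, 0, 0], (.ev, 0)), ([0, 0, 1, 0, 0, 1], (.pl 4, 3)), ([0, 0, 1, 0, 1, 0], (.ev, 0))], [1, 0, 0, 1, 1, 0, 1]⟩,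
   ⟨[12, 12, 12, 12, 11, 5], 1, [([4, 4, 4, 4, 2, 2], (.ev, 4)), ([3, 2, 4, 3, 3, 1], (.pl 4, 3)), ([1, 1, 1, 1, 1, 1], (.pl 1, 1)), ([4, 1, 1, 0, 4, 0], (.ev, 0)), ([0, 4, 0, 4, 0, 0], (.ev, 0)), ([0, 0, 1, 0, 0, 1], (.pl 4, 3)), ([0, 0, 1, 0, 1, 0], (.ev, 0))], [1, 0, 0, 1, 1, 0, 1]⟩,
   ⟨[12, 12, 12, 12, 11, 4], 1, [([4, 4, 4, 4, 2, 2], (.ev, 4)), ([3, 2, 4, 3, 3, 1], (.pl 4, 3)), ([1, 1, 1, 1, 1, 1], (.pl 1, 1)), ([4, 1, 1, 0, 4, 0], (.ev, 0)), ([0, 4, 0, 4, 0, 0], (.ev, 0)), ([0, 0, 1, 0, 0, 0], (.pl 4, 4)), ([0, 0, 1, 0, 1, 0], (.ev, 0))], [1, 0, 0, 1, 1, 0, 1]⟩,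
   ⟨[12, 12, 12, 12, 11, 3], 1, [([4, 4, 4, 4, 2, 2], (.ev, 4)), ([3, 2, 4, 3, 3, 0], (.pl 4, 4)), ([1, 1, 1, 1, 1, 1], (.pl 1, 1)), ([4, 1, 1, 0, 4, 0], (.ev, 0)), ([0, 4, 0, 4, 0, 0], (.ev, 0)), ([0, 0, 1, 0, 0, 0], (.pl 4, 4)), ([0, 0, 1, 0, 1, 0], (.ev, 0))], [1, 0, 0, 1, 1, 0, 1]⟩,
   ⟨[12, 12, 12, 12, 10, 10], 1, [([4, 4, 4, 4, 2, 2], (.ev, 4)), ([3, 3, 4, 4, 3, 1], (.pl 4, 1)), ([1, 1, 1, 1, 1, 1], (.pl 1, 1)), ([4, 4, 1, 1, 0, 0], (.ev, 0)), ([0, 0, 0, 0, 4, 4], (.ev, 0)), ([0, 0, 1, 1, 0, 2], (.pl 4, 1)), ([0, 0, 1, 1, 0, 0], (.ev, 0))], [1, 0, 0, 1, 1, 0, 1]⟩,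
   ⟨[12, 12, 12, 12, 10, 9], 1, [([4, 4, 4, 4, 2, 2], (.ev, 4)), ([3, 3, 2, 4, 3, 3], (.pl 4, 1)), ([1, 1, 1, 1, 1, 1], (.pl 1, 1)), ([4, 4, 1, 1, 0, 0], (.ev, 0)), ([0, 0, 4, 0, 4, 0], (.ev, 0)), ([0, 0, 0, 1, 0, 2], (.pl 4, 2)), ([0, 0, 0, 1, 0, 1], (.ev, 0))], [1, 0, 0, 1, 1, 0, 1]⟩,
   ⟨[12, 12, 12, 12, 10, 8], 1, [([4, 4, 4, 4, 2, 2], (.ev, 4)), ([3, 3, 2, 4, 3, 2], (.pl 4, 2)), ([1, 1, 1, 1, 1, 1], (.pl 1, 1)), ([4, 4, 1, 1, 0, 0], (.ev, 0)), ([0, 0, 4, 0, 4, 0], (.ev, 0)), ([0, 0, 0, 1, 0, 2], (.pl 4, 2)), ([0, 0, 0, 1, 0, 1], (.ev, 0))], [1, 0, 0, 1, 1, 0, 1]⟩,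
   ⟨[12, 12, 12, 12, 10, 7], 1, [([4, 4, 4, 4, 2, 2], (.ev, 4)), ([3, 3, 2, 4, 3, 2], (.pl 4, 2)), ([1, 1, 1, 1, 1, 1], (.pl 1, 1)), ([4, 4, 1, 1, 0, 0], (.ev, 0)), ([0, 0, 4, 0, 4, 0], (.ev, 0)), ([0, 0, 0, 1, 0, 1], (.pl 4, 3)), ([0, 0, 0, 1, 0, 1], (.ev, 0))], [1, 0, 0, 1, 1, 0, 1]⟩,
   ⟨[12, 12, 12, 12, 10, 6], 1, [([4, 4, 4, 4, 2, 2], (.ev, 4)), ([2, 3, 2, 4, 3, 2], (.pl 4, 3)), ([1, 1, 1, 1, 1, 1], (.pl 1, 1)), ([4, 4, 1, 1, 0, 0], (.ev, 0)), ([0, 0, 4, 0, 4, 0], (.ev, 0)), ([0, 0, 0, 1, 0, 1], (.pl 4, 3)), ([1, 0, 0, 1, 0, 0], (.ev, 0))], [1, 0, 0, 1, 1, 0, 1]⟩,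
   ⟨[12, 12, 12, 12, 10, 5], 1, [([4, 4, 4, 4, 2, 2], (.ev, 4)), ([2, 3, 2, 4, 3, 2], (.pl 4, 3)), ([1, 1, 1, 1, 1, 1], (.pl 1, 1)), ([4, 4, 1, 1, 0, 0], (.ev, 0)), ([0, 0, 4, 0, 4, 0], (.ev, 0)), ([0, 0, 0, 1, 0, 0], (.pl 4, 4)), ([1, 0, 0, 1, 0, 0], (.ev, 0))], [1, 0, 0, 1, 1, 0, 1]⟩,
   ⟨[12, 12, 12, 12, 10, 4], 1, [([4, 4, 4, 4, 2, 2], (.ev, 4)), ([2, 3, 2, 4, 3, 1], (.pl 4, 4)), ([1, 1, 1, 1, 1, 1], (.pl 1, 1)), ([4, 4, 1, 1, 0, 0], (.ev, 0)), ([0, 0, 4, 0, 4, 0], (.ev, 0)), ([0, 0, 0, 1, 0, 0], (.pl 4, 4)), ([1, 0, 0, 1, 0, 0], (.ev, 0))], [1, 0, 0, 1, 1, 0, 1]⟩,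
   ⟨[12, 12, 12, 12, 10, 3], 1, [([4, 4, 4, 4, 2, 2], (.ev, 4)), ([2, 3, 2, 4, 3, 0], (.pl 4, 5)), ([1, 1, 1, 1, 1, 1], (.pl 1, 1)), ([4, 4, 1, 1, 0, 0], (.ev, 0)), ([0, 0, 4, 0, 4, 0], (.ev, 0)), ([0, 0, 0, 1, 0, 0], (.pl 4, 4)), ([1, 0, 0, 1, 0, 0], (.ev, 0))], [1, 0, 0, 1, 1, 0, 1]⟩,
   ⟨[12, 12, 12, 12, 9, 9], 1, [([4, 4, 4, 4, 2, 2], (.ev, 4)), ([3, 3, 2, 2, 4, 3], (.pl 4, 2)), ([1, 1, 1, 1, 1, 1], (.pl 1, 1)), ([4, 4, 1, 1, 0, 0], (.ev, 0)), ([0, 0, 4, 4, 0, 0], (.ev, 0)), ([0, 0, 0, 0, 1, 2], (.pl 4, 2)), ([0, 0, 0, 0, 1, 1], (.ev, 0))], [1, 0, 0, 1, 1, 0, 1]⟩,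
   ⟨[12, 12, 12, 12, 9, 8], 1, [([4, 4, 4, 4, 2, 2], (.ev, 4)), ([3, 3, 2, 2, 4, 3], (.pl 4, 2)), ([1, 1, 1, 1, 1, 1], (.pl 1, 1)), ([4, 4, 1, 1, 0, 0], (.ev, 0)), ([0, 0, 4, 4, 0, 0], (.ev, 0)), ([0, 0, 0, 0, 1, 1], (.pl 4, 3)), ([0, 0, 0, 0, 1, 1], (.ev, 0))], [1, 0, 0, 1, 1, 0, 1]⟩,
   ⟨[12, 12, 12, 12, 9, 7], 1, [([4, 4, 4, 4, 2, 2], (.ev, 4)), ([3, 3, 2, 2, 4, 2], (.pl 4, 3)), ([1, 1, 1, 1, 1, 1], (.pl 1, 1)), ([4, 4, 1, 1, 0, 0], (.ev, 0)), ([0, 0, 4, 4, 0, 0], (.ev, 0)), ([0, 0, 0, 0, 1, 1], (.pl 4, 3)), ([0, 0, 0, 0, 1, 1], (.ev, 0))], [1, 0, 0, 1, 1, 0, 1]⟩,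
   ⟨[12, 12, 12, 12, 9, 6], 1, [([4, 4, 4, 4, 2, 2], (.ev, 4)), ([2, 3, 2, 2, 4, 3], (.pl 4, 3)), ([1, 1, 1, 1, 1, 1], (.pl 1, 1)), ([4, 4, 1, 1, 0, 0], (.ev, 0)), ([0, 0, 4, 4, 0, 0], (.ev, 0)), ([0, 0, 0, 0, 1, 0], (.pl 4, 4)), ([1, 0, 0, 0, 1, 0], (.ev, 0))], [1, 0, 0, 1, 1, 0, 1]⟩,
   ⟨[12, 12, 12, 12, 9, 5], 1, [([4, 4, 4, 4, 2, 2], (.ev, 4)), ([2, 3, 2, 2, 4, 2], (.pl 4, 4)), ([1, 1, 1, 1, 1, 1], (.pl 1, 1)), ([4, 4, 1, 1, 0, 0], (.ev, 0)), ([0, 0, 4, 4, 0, 0], (.ev, 0)), ([0, 0, 0, 0, 1, 0], (.pl 4, 4)), ([1, 0, 0, 0, 1, 0], (.ev, 0))], [1, 0, 0, 1, 1, 0, 1]⟩,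
   ⟨[12, 12, 12, 12, 9, 4], 1, [([4, 4, 4, 4, 2, 2], (.ev, 4)), ([2, 3, 2, 2, 4, 1], (.pl 4, 5)), ([1, 1, 1, 1, 1, 1], (.pl 1, 1)), ([4, 4, 1, 1, 0, 0], (.ev, 0)), ([0, 0, 4, 4, 0, 0], (.ev, 0)), ([0, 0, 0, 0, 1, 0], (.pl 4, 4)), ([1, 0, 0, 0, 1, 0], (.ev, 0))], [1, 0, 0, 1, 1, 0, 1]⟩,
   ⟨[12, 12, 12, 12, 9, 3], 1, [([4, 4, 4, 4, 2, 2], (.ev, 4)), ([2, 3, 2, 2, 4, 0], (.pl 4, 6)), ([1, 1, 1, 1, 1, 1], (.pl 1, 1)), ([4, 4, 1, 1, 0, 0], (.ev, 0)), ([0, 0, 4, 4, 0, 0], (.ev, 0)), ([0, 0, 0, 0, 1, 0], (.pl 4, 4)), ([1, 0, 0, 0, 1, 0], (.ev, 0))], [1, 0, 0, 1, 1, 0, 1]⟩,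
   ⟨[12, 12, 12, 12, 8, 8], 1, [([4, 4, 4, 4, 2, 2], (.ev, 4)), ([3, 3, 2, 2, 4, 2], (.pl 4, 3)), ([1, 1, 1, 1, 1, 1], (.pl 1, 1)), ([4, 4, 1, 1, 0, 0], (.ev, 0)), ([0, 0, 4, 4, 0, 0], (.ev, 0)), ([0, 0, 0, 0, 0, 2], (.pl 4, 3)), ([0, 0, 0, 0, 1, 1], (.ev, 0))], [1, 0, 0, 1, 1, 0, 1]⟩,
   ⟨[12, 12, 12, 12, 8, 7], 1, [([4, 4, 4, 4, 2, 2], (.ev, 4)), ([3, 3, 2, 2, 4, 2], (.pl 4, 3)), ([1, 1, 1, 1, 1, 1], (.pl 1, 1)), ([4, 4, 1, 1, 0, 0], (.ev, 0)), ([0, 0, 4, 4, 0, 0], (.ev, 0)), ([0, 0, 0, 0, 0, 1], (.pl 4, 4)), ([0, 0, 0, 0, 1, 1], (.ev, 0))], [1, 0, 0, 1, 1, 0, 1]⟩,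
   ⟨[12, 12, 12, 12, 8, 6], 1, [([4, 4, 4, 4, 2, 2], (.ev, 4)), ([2, 3, 2, 2, 4, 2], (.pl 4, 4)), ([1, 1, 1, 1, 1, 1], (.pl 1, 1)), ([4, 4, 1, 1, 0, 0], (.ev, 0)), ([0, 0, 4, 4, 0, 0], (.ev, 0)), ([0, 0, 0, 0, 0, 1], (.pl 4, 4)), ([1, 0, 0, 0, 1, 0], (.ev, 0))], [1, 0, 0, 1, 1, 0, 1]⟩,
   ⟨[12, 12, 12, 12, 8, 5], 1, [([4, 4, 4, 4, 2, 2], (.ev, 4)), ([2, 3, 2, 2, 4, 2], (.pl 4, 4)), ([1, 1, 1, 1, 1, 1], (.pl 1, 1)), ([4, 4, 1, 1, 0, 0], (.ev, 0)), ([0, 0, 4, 4, 0, 0], (.ev, 0)), ([0, 0, 0, 0, 0, 0], (.pl 4, 5)), ([1, 0, 0, 0, 1, 0], (.ev, 0))], [1, 0, 0, 1, 1, 0, 1]⟩,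
   ⟨[12, 12, 12, 12, 8, 4], 1, [([4, 4, 4, 4, 2, 2], (.ev, 4)), ([2, 3, 2, 2, 4, 1], (.pl 4, 5)), ([1, 1, 1, 1, 1, 1], (.pl 1, 1)), ([4, 4, 1, 1, 0, 0], (.ev, 0)), ([0, 0, 4, 4, 0, 0], (.ev, 0)), ([0, 0, 0, 0, 0, 0], (.pl 4, 5)), ([1, 0, 0, 0, 1, 0], (.ev, 0))], [1, 0, 0, 1, 1, 0, 1]⟩,
   ⟨[12, 12, 12, 12, 8, 3], 1, [([4, 4, 4, 4, 2, 2], (.ev, 4)), ([2, 3, 2, 2, 4, 0], (.pl 4, 6)), ([1, 1, 1, 1, 1, 1], (.pl 1, 1)), ([4, 4, 1, 1, 0, 0], (.ev, 0)), ([0, 0, 4, 4, 0, 0], (.ev, 0)), ([0, 0, 0, 0, 0, 0], (.pl 4, 5)), ([1, 0, 0, 0, 1, 0], (.ev, 0))], [1, 0, 0, 1, 1, 0, 1]⟩,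
   ⟨[12, 12, 12, 12, 7, 7], 1, [([4, 4, 4, 4, 2, 2], (.ev, 4)), ([3, 3, 2, 2, 3, 2], (.pl 4, 4)), ([1, 1, 1, 1, 1, 1], (.pl 1, 1)), ([4, 4, 1, 1, 0, 0], (.ev, 0)), ([0, 0, 4, 4, 0, 0], (.ev, 0)), ([0, 0, 0, 0, 0, 1], (.pl 4, 4)), ([0, 0, 0, 0, 1, 1], (.ev, 0))], [1, 0, 0, 1, 1, 0, 1]⟩,
   ⟨[12, 12, 12, 12, 7, 6], 1, [([4, 4, 4, 4, 2, 2], (.ev, 4)), ([2, 3, 2, 2, 3, 3], (.pl 4, 4)), ([1, 1, 1, 1, 1, 1], (.pl 1, 1)), ([4, 4, 1, 1, 0, 0], (.ev, 0)), ([0, 0, 4, 4, 0, 0], (.ev, 0)), ([0, 0, 0, 0, 0, 0], (.pl 4, 5)), ([1, 0, 0, 0, 1, 0], (.ev, 0))], [1, 0, 0, 1, 1, 0, 1]⟩,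
   ⟨[12, 12, 12, 12, 7, 5], 1, [([4, 4, 4, 4, 2, 2], (.ev, 4)), ([2, 3, 2, 2, 3, 2], (.pl 4, 5)), ([1, 1, 1, 1, 1, 1], (.pl 1, 1)), ([4, 4, 1, 1, 0, 0], (.ev, 0)), ([0, 0, 4, 4, 0, 0], (.ev, 0)), ([0, 0, 0, 0, 0, 0], (.pl 4, 5)), ([1, 0, 0, 0, 1, 0], (.ev, 0))], [1, 0, 0, 1, 1, 0, 1]⟩,
   ⟨[12, 12, 12, 12, 7, 4], 1, [([4, 4, 4, 4, 2, 2], (.ev, 4)), ([2, 3, 2, 2, 3, 1], (.pl 4, 6)), ([1, 1, 1, 1, 1, 1], (.pl 1, 1)), ([4, 4, 1, 1, 0, 0], (.ev, 0)), ([0, 0, 4, 4, 0, 0], (.ev, 0)), ([0, 0, 0, 0, 0, 0], (.pl 4, 5)), ([1, 0, 0, 0, 1, 0], (.ev, 0))], [1, 0, 0, 1, 1, 0, 1]⟩,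
   ⟨[12, 12, 12, 12, 7, 3], 1, [([4, 4, 4, 4, 2, 2], (.ev, 4)), ([2, 3, 2, 2, 3, 0], (.pl 4, 7)), ([1, 1, 1, 1, 1, 1], (.pl 1, 1)), ([4, 4, 1, 1, 0, 0], (.ev, 0)), ([0, 0, 4, 4, 0, 0], (.ev, 0)), ([0, 0, 0, 0, 0, 0], (.pl 4, 5)), ([1, 0, 0, 0, 1, 0], (.ev, 0))], [1, 0, 0, 1, 1, 0, 1]⟩,
   ⟨[12, 12, 12, 12, 6], 1, [([4, 4, 2, 2, 0], (.ev, 12)), ([2, 2, 4, 4, 4], (.pl 4, 3)), ([1, 1, 1, 1, 1], (.pl 1, 2)), ([1, 1, 4, 4, 0], (.ev, 0)), ([4, 4, 0, 0, 0], (.ev, 0)), ([0, 0, 0, 0, 1], (.pl 4, 4)), ([0, 0, 1, 1, 0], (.ev, 0))], [4, 3, 0, 1, 1, 0, 1]⟩,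
   ⟨[12, 12, 12, 12, 5], 1, [([4, 4, 2, 2, 0], (.ev, 12)), ([2, 2, 4, 4, 3], (.pl 4, 4)), ([1, 1, 1, 1, 1], (.pl 1, 2)), ([1, 1, 4, 4, 0], (.ev, 0)), ([4, 4, 0, 0, 0], (.ev, 0)), ([0, 0, 0, 0, 1], (.pl 4, 4)), ([0, 0, 1, 1, 0], (.ev, 0))], [3, 1, 0, 1, 1, 1, 1]⟩,
   ⟨[12, 12, 12, 12, 4], 1, [([4, 4, 2, 2, 0], (.ev, 12)), ([2, 2, 4, 4, 3], (.pl 4, 4)), ([1, 1, 1, 1, 1], (.pl 1, 2)), ([1, 1, 4, 4, 0], (.ev, 0)), ([4, 4, 0, 0, 0], (.ev, 0)), ([0, 0, 0, 0, 0], (.pl 4, 5)), ([0, 0, 1, 1, 0], (.ev, 0))], [2, 1, 0, 1, 1, 0, 1]⟩,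
   ⟨[12, 12, 12, 11, 11, 11], 1, [([4, 4, 4, 4, 2, 2], (.ev, 4)), ([2, 4, 3, 4, 4, 2], (.pl 4, 0)), ([1, 1, 1, 1, 1, 1], (.pl 1, 1)), ([1, 1, 0, 0, 4, 4], (.ev, 0)), ([4, 0, 4, 0, 0, 0], (.ev, 0)), ([0, 1, 0, 1, 0, 2], (.pl 4, 1)), ([0, 1, 0, 1, 0, 0], (.ev, 0))], [1, 0, 0, 1, 1, 0, 1]⟩,
   ⟨[12, 12, 12, 11, 11, 10], 1, [([4, 4, 4, 4, 2, 2], (.ev, 4)), ([3, 2, 4, 4, 4, 1], (.pl 4, 1)), ([1, 1, 1, 1, 1, 1], (.pl 1, 1)), ([4, 1, 1, 0, 4, 0], (.ev, 0)), ([0, 4, 0, 0, 0, 4], (.ev, 0)), ([0, 0, 1, 1, 0, 2], (.pl 4, 1)), ([0, 0, 1, 1, 0, 0], (.ev, 0))], [1, 0, 0, 1, 1, 0, 1]⟩,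
   ⟨[12, 12, 12, 11, 11, 9], 1, [([4, 4, 4, 4, 2, 2], (.ev, 4)), ([3, 2, 2, 4, 4, 3], (.pl 4, 1)), ([1, 1, 1, 1, 1, 1], (.pl 1, 1)), ([4, 1, 1, 0, 4, 0], (.ev, 0)), ([0, 4, 4, 0, 0, 0], (.ev, 0)), ([0, 0, 0, 1, 0, 2], (.pl 4, 2)), ([0, 0, 0, 1, 0, 1], (.ev, 0))], [1, 0, 0, 1, 1, 0, 1]⟩,
   ⟨[12, 12, 12, 11, 11, 8], 1, [([4, 4, 4, 4, 2, 2], (.ev, 4)), ([3, 2, 2, 4, 4, 2], (.pl 4, 2)), ([1, 1, 1, 1, 1, 1], (.pl 1, 1)), ([4, 1, 1, 0, 4, 0], (.ev, 0)), ([0, 4, 4, 0, 0, 0], (.ev, 0)), ([0, 0, 0, 1, 0, 2], (.pl 4, 2)), ([0, 0, 0, 1, 0, 1], (.ev, 0))], [1, 0, 0, 1, 1, 0, 1]⟩,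
   ⟨[12, 12, 12, 11, 11, 7], 1, [([4, 4, 4, 4, 2, 2], (.ev, 4)), ([3, 2, 2, 4, 3, 3], (.pl 4, 2)), ([1, 1, 1, 1, 1, 1], (.pl 1, 1)), ([4, 1, 1, 0, 4, 0], (.ev, 0)), ([0, 4, 4, 0, 0, 0], (.ev, 0)), ([0, 0, 0, 1, 0, 1], (.pl 4, 3)), ([0, 0, 0, 1, 1, 0], (.ev, 0))], [1, 0, 0, 1, 1, 0, 1]⟩,
   ⟨[12, 12, 12, 11, 11, 6], 1, [([4, 4, 4, 4, 2, 2], (.ev, 4)), ([3, 2, 2, 4, 3, 2], (.pl 4, 3)), ([1, 1, 1, 1, 1, 1], (.pl 1, 1)), ([4, 1, 1, 0, 4, 0], (.ev, 0)), ([0, 4, 4, 0, 0, 0], (.ev, 0)), ([0, 0, 0, 1, 0, 1], (.pl 4, 3)), ([0, 0, 0, 1, 1, 0], (.ev, 0))], [1, 0, 0, 1, 1, 0, 1]⟩,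
   ⟨[12, 12, 12, 11, 11, 5], 1, [([4, 4, 4, 4, 2, 2], (.ev, 4)), ([3, 2, 2, 4, 3, 2], (.pl 4, 3)), ([1, 1, 1, 1, 1, 1], (.pl 1, 1)), ([4, 1, 1, 0, 4, 0], (.ev, 0)), ([0, 4, 4, 0, 0, 0], (.ev, 0)), ([0, 0, 0, 1, 0, 0], (.pl 4, 4)), ([0, 0, 0, 1, 1, 0], (.ev, 0))], [1, 0, 0, 1, 1, 0, 1]⟩,
   ⟨[12, 12, 12, 11, 11, 4], 1, [([4, 4, 4, 4, 2, 2], (.ev, 4)), ([3, 2, 2, 4, 3, 1], (.pl 4, 4)), ([1, 1, 1, 1, 1, 1], (.pl 1, 1)), ([4, 1, 1, 0, 4, 0], (.ev, 0)), ([0, 4, 4, 0, 0, 0], (.ev, 0)), ([0, 0, 0, 1, 0, 0], (.pl 4, 4)), ([0, 0, 0, 1, 1, 0], (.ev, 0))], [1, 0, 0, 1, 1, 0, 1]⟩,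
   ⟨[12, 12, 12, 11, 11, 3], 1, [([4, 4, 4, 4, 2, 2], (.ev, 4)), ([3, 2, 2, 4, 3, 0], (.pl 4, 5)), ([1, 1, 1, 1, 1, 1], (.pl 1, 1)), ([4, 1, 1, 0, 4, 0], (.ev, 0)), ([0, 4, 4, 0, 0, 0], (.ev, 0)), ([0, 0, 0, 1, 0, 0], (.pl 4, 4)), ([0, 0, 0, 1, 1, 0], (.ev, 0))], [1, 0, 0, 1, 1, 0, 1]⟩,
   ⟨[12, 12, 12, 11, 10, 10], 1, [([4, 4, 4, 4, 2, 2], (.ev, 4)), ([3, 3, 2, 4, 4, 2], (.pl 4, 1)), ([1, 1, 1, 1, 1, 1], (.pl 1, 1)), ([4, 4, 1, 0, 1, 0], (.ev, 0)), ([0, 0, 4, 0, 0, 4], (.ev, 0)), ([0, 0, 0, 1, 1, 1], (.pl 4, 2)), ([0, 0, 0, 1, 1, 0], (.ev, 0))], [1, 0, 0, 1, 1, 0, 1]⟩,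
   ⟨[12, 12, 12, 11, 10, 9], 1, [([4, 4, 4, 4, 2, 2], (.ev, 4)), ([3, 3, 2, 2, 4, 3], (.pl 4, 2)), ([1, 1, 1, 1, 1, 1], (.pl 1, 1)), ([4, 4, 1, 0, 1, 0], (.ev, 0)), ([0, 0, 4, 4, 0, 0], (.ev, 0)), ([0, 0, 0, 0, 1, 2], (.pl 4, 2)), ([0, 0, 0, 0, 1, 1], (.ev, 0))], [1, 0, 0, 1, 1, 0, 1]⟩,
   ⟨[12, 12, 12, 11, 10, 8], 1, [([4, 4, 4, 4, 2, 2], (.ev, 4)), ([3, 3, 2, 2, 4, 3], (.pl 4, 2)), ([1, 1, 1, 1, 1, 1], (.pl 1, 1)), ([4, 4, 1, 0, 1, 0], (.ev, 0)), ([0, 0, 4, 4, 0, 0], (.ev, 0)), ([0, 0, 0, 0, 1, 1], (.pl 4, 3)), ([0, 0, 0, 0, 1, 1], (.ev, 0))], [1, 0, 0, 1, 1, 0, 1]⟩,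
   ⟨[12, 12, 12, 11, 10, 7], 1, [([4, 4, 4, 4, 2, 2], (.ev, 4)), ([3, 3, 2, 2, 4, 2], (.pl 4, 3)), ([1, 1, 1, 1, 1, 1], (.pl 1, 1)), ([4, 4, 1, 0, 1, 0], (.ev, 0)), ([0, 0, 4, 4, 0, 0], (.ev, 0)), ([0, 0, 0, 0, 1, 1], (.pl 4, 3)), ([0, 0, 0, 0, 1, 1], (.ev, 0))], [1, 0, 0, 1, 1, 0, 1]⟩,
   ⟨[12, 12, 12, 11, 10, 6], 1, [([4, 4, 4, 4, 2, 2], (.ev, 4)), ([2, 3, 2, 2, 4, 3], (.pl 4, 3)), ([1, 1, 1, 1, 1, 1], (.pl 1, 1)), ([4, 4, 1, 0, 1, 0], (.ev, 0)), ([0, 0, 4, 4, 0, 0], (.ev, 0)), ([0, 0, 0, 0, 1, 0], (.pl 4, 4)), ([1, 0, 0, 0, 1, 0], (.ev, 0))], [1, 0, 0, 1, 1, 0, 1]⟩,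
   ⟨[12, 12, 12, 11, 10, 5], 1, [([4, 4, 4, 4, 2, 2], (.ev, 4)), ([2, 3, 2, 2, 4, 2], (.pl 4, 4)), ([1, 1, 1, 1, 1, 1], (.pl 1, 1)), ([4, 4, 1, 0, 1, 0], (.ev, 0)), ([0, 0, 4, 4, 0, 0], (.ev, 0)), ([0, 0, 0, 0, 1, 0], (.pl 4, 4)), ([1, 0, 0, 0, 1, 0], (.ev, 0))], [1, 0, 0, 1, 1, 0, 1]⟩,
   ⟨[12, 12, 12, 11, 10, 4], 1, [([4, 4, 4, 4, 2, 2], (.ev, 4)), ([2, 3, 2, 2, 4, 1], (.pl 4, 5)), ([1, 1, 1, 1, 1, 1], (.pl 1, 1)), ([4, 4, 1, 0, 1, 0], (.ev, 0)), ([0, 0, 4, 4, 0, 0], (.ev, 0)), ([0, 0, 0, 0, 1, 0], (.pl 4, 4)), ([1, 0, 0, 0, 1, 0], (.ev, 0))], [1, 0, 0, 1, 1, 0, 1]⟩,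
   ⟨[12, 12, 12, 11, 10, 3], 1, [([4, 4, 4, 4, 2, 2], (.ev, 4)), ([2, 3, 2, 2, 4, 0], (.pl 4, 6)), ([1, 1, 1, 1, 1, 1], (.pl 1, 1)), ([4, 4, 1, 0, 1, 0], (.ev, 0)), ([0, 0, 4, 4, 0, 0], (.ev, 0)), ([0, 0, 0, 0, 1, 0], (.pl 4, 4)), ([1, 0, 0, 0, 1, 0], (.ev, 0))], [1, 0, 0, 1, 1, 0, 1]⟩,
   ⟨[12, 12, 12, 11, 9, 9], 1, [([4, 4, 4, 4, 2, 2], (.ev, 4)), ([3, 3, 2, 4, 2, 3], (.pl 4, 2)), ([1, 1, 1, 1, 1, 1], (.pl 1, 1)), ([4, 4, 1, 1, 0, 0], (.ev, 0)), ([0, 0, 4, 0, 4, 0], (.ev, 0)), ([0, 0, 0, 0, 0, 2], (.pl 4, 3)), ([0, 0, 0, 1, 0, 1], (.ev, 0))], [1, 0, 0, 1, 1, 0, 1]⟩,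
   ⟨[12, 12, 12, 11, 9, 8], 1, [([4, 4, 4, 4, 2, 2], (.ev, 4)), ([3, 3, 2, 4, 2, 2], (.pl 4, 3)), ([1, 1, 1, 1, 1, 1], (.pl 1, 1)), ([4, 4, 1, 1, 0, 0], (.ev, 0)), ([0, 0, 4, 0, 4, 0], (.ev, 0)), ([0, 0, 0, 0, 0, 2], (.pl 4, 3)), ([0, 0, 0, 1, 0, 1], (.ev, 0))], [1, 0, 0, 1, 1, 0, 1]⟩,
   ⟨[12, 12, 12, 11, 9, 7], 1, [([4, 4, 4, 4, 2, 2], (.ev, 4)), ([3, 3, 2, 4, 2, 2], (.pl 4, 3)), ([1, 1, 1, 1, 1, 1], (.pl 1, 1)), ([4, 4, 1, 1, 0, 0], (.ev, 0)), ([0, 0, 4, 0, 4, 0], (.ev, 0)), ([0, 0, 0, 0, 0, 1], (.pl 4, 4)), ([0, 0, 0, 1, 0, 1], (.ev, 0))], [1, 0, 0, 1, 1, 0, 1]⟩,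
   ⟨[12, 12, 12, 11, 9, 6], 1, [([4, 4, 4, 4, 2, 2], (.ev, 4)), ([2, 3, 2, 4, 2, 2], (.pl 4, 4)), ([1, 1, 1, 1, 1, 1], (.pl 1, 1)), ([4, 4, 1, 1, 0, 0], (.ev, 0)), ([0, 0, 4, 0, 4, 0], (.ev, 0)), ([0, 0, 0, 0, 0, 1], (.pl 4, 4)), ([1, 0, 0, 1, 0, 0], (.ev, 0))], [1, 0, 0, 1, 1, 0, 1]⟩,
   ⟨[12, 12, 12, 11, 9, 5], 1, [([4, 4, 4, 4, 2, 2], (.ev, 4)), ([2, 3, 2, 4, 2, 2], (.pl 4, 4)), ([1, 1, 1, 1, 1, 1], (.pl 1, 1)), ([4, 4, 1, 1, 0, 0], (.ev, 0)), ([0, 0, 4, 0, 4, 0], (.ev, 0)), ([0, 0, 0, 0, 0, 0], (.pl 4, 5)), ([1, 0, 0, 1, 0, 0], (.ev, 0))], [1, 0, 0, 1, 1, 0, 1]⟩,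
   ⟨[12, 12, 12, 11, 9, 4], 1, [([4, 4, 4, 4, 2, 2], (.ev, 4)), ([2, 3, 2, 4, 2, 1], (.pl 4, 5)), ([1, 1, 1, 1, 1, 1], (.pl 1, 1)), ([4, 4, 1, 1, 0, 0], (.ev, 0)), ([0, 0, 4, 0, 4, 0], (.ev, 0)), ([0, 0, 0, 0, 0, 0], (.pl 4, 5)), ([1, 0, 0, 1, 0, 0], (.ev, 0))], [1, 0, 0, 1, 1, 0, 1]⟩,
   ⟨[12, 12, 12, 11, 9, 3], 1, [([4, 4, 4, 4, 2, 2], (.ev, 4)), ([2, 3, 2, 4, 2, 0], (.pl 4, 6)), ([1, 1, 1, 1, 1, 1], (.pl 1, 1)), ([4, 4, 1, 1, 0, 0], (.ev, 0)), ([0, 0, 4, 0, 4, 0], (.ev, 0)), ([0, 0, 0, 0, 0, 0], (.pl 4, 5)), ([1, 0, 0, 1, 0, 0], (.ev, 0))], [1, 0, 0, 1, 1, 0, 1]⟩,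
   ⟨[12, 12, 12, 11, 8, 8], 1, [([4, 4, 4, 4, 2, 2], (.ev, 4)), ([3, 3, 2, 1, 4, 3], (.pl 4, 3)), ([1, 1, 1, 1, 1, 1], (.pl 1, 1)), ([4, 4, 1, 1, 0, 0], (.ev, 0)), ([0, 0, 4, 4, 0, 0], (.ev, 0)), ([0, 0, 0, 0, 0, 1], (.pl 4, 4)), ([0, 0, 0, 0, 1, 1], (.ev, 0))], [1, 0, 0, 1, 1, 0, 1]⟩,
   ⟨[12, 12, 12, 11, 8, 7], 1, [([4, 4, 4, 4, 2, 2], (.ev, 4)), ([3, 3, 2, 1, 4, 2], (.pl 4, 4)), ([1, 1, 1, 1, 1, 1], (.pl 1, 1)), ([4, 4, 1, 1, 0, 0], (.ev, 0)), ([0, 0, 4, 4, 0, 0], (.ev, 0)), ([0, 0, 0, 0, 0, 1], (.pl 4, 4)), ([0, 0, 0, 0, 1, 1], (.ev, 0))], [1, 0, 0, 1, 1, 0, 1]⟩,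
   ⟨[12, 12, 12, 11, 8, 6], 1, [([4, 4, 4, 4, 2, 2], (.ev, 4)), ([2, 3, 2, 1, 4, 3], (.pl 4, 4)), ([1, 1, 1, 1, 1, 1], (.pl 1, 1)), ([4, 4, 1, 1, 0, 0], (.ev, 0)), ([0, 0, 4, 4, 0, 0], (.ev, 0)), ([0, 0, 0, 0, 0, 0], (.pl 4, 5)), ([1, 0, 0, 0, 1, 0], (.ev, 0))], [1, 0, 0, 1, 1, 0, 1]⟩,
   ⟨[12, 12, 12, 11, 8, 5], 1, [([4, 4, 4, 4, 2, 2], (.ev, 4)), ([2, 3, 2, 1, 4, 2], (.pl 4, 5)), ([1, 1, 1, 1, 1, 1], (.pl 1, 1)), ([4, 4, 1, 1, 0, 0], (.ev, 0)), ([0, 0, 4, 4, 0, 0], (.ev, 0)), ([0, 0, 0, 0, 0, 0], (.pl 4, 5)), ([1, 0, 0, 0, 1, 0], (.ev, 0))], [1, 0, 0, 1, 1, 0, 1]⟩,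
   ⟨[12, 12, 12, 11, 8, 4], 1, [([4, 4, 4, 4, 2, 2], (.ev, 4)), ([2, 3, 2, 1, 4, 1], (.pl 4, 6)), ([1, 1, 1, 1, 1, 1], (.pl 1, 1)), ([4, 4, 1, 1, 0, 0], (.ev, 0)), ([0, 0, 4, 4, 0, 0], (.ev, 0)), ([0, 0, 0, 0, 0, 0], (.pl 4, 5)), ([1, 0, 0, 0, 1, 0], (.ev, 0))], [1, 0, 0, 1, 1, 0, 1]⟩,
   ⟨[12, 12, 12, 11, 8, 3], 1, [([4, 4, 4, 4, 2, 2], (.ev, 4)), ([2, 3, 2, 1, 4, 0], (.pl 4, 7)), ([1, 1, 1, 1, 1, 1], (.pl 1, 1)), ([4, 4, 1, 1, 0, 0], (.ev, 0)), ([0, 0, 4, 4, 0, 0], (.ev, 0)), ([0, 0, 0, 0, 0, 0], (.pl 4, 5)), ([1, 0, 0, 0, 1, 0], (.ev, 0))], [1, 0, 0, 1, 1, 0, 1]⟩,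
   ⟨[12, 12, 12, 11, 7], 1, [([4, 4, 2, 2, 0], (.ev, 12)), ([2, 2, 4, 4, 4], (.pl 4, 3)), ([1, 1, 1, 1, 1], (.pl 1, 2)), ([1, 1, 4, 4, 0], (.ev, 0)), ([4, 4, 0, 0, 0], (.ev, 0)), ([0, 0, 0, 0, 1], (.pl 4, 4)), ([0, 0, 1, 0, 1], (.ev, 0))], [4, 3, 0, 1, 1, 0, 1]⟩,
   ⟨[12, 12, 12, 11, 6], 1, [([4, 4, 2, 2, 0], (.ev, 12)), ([2, 2, 4, 4, 3], (.pl 4, 4)), ([1, 1, 1, 1, 1], (.pl 1, 2)), ([1, 1, 4, 4, 0], (.ev, 0)), ([4, 4, 0, 0, 0], (.ev, 0)), ([0, 0, 0, 0, 1], (.pl 4, 4)), ([0, 0, 1, 0, 1], (.ev, 0))], [4, 2, 0, 1, 1, 1, 1]⟩,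
   ⟨[12, 12, 12, 11, 5], 1, [([4, 4, 2, 2, 0], (.ev, 12)), ([2, 2, 4, 3, 4], (.pl 4, 4)), ([1, 1, 1, 1, 1], (.pl 1, 2)), ([1, 1, 4, 4, 0], (.ev, 0)), ([4, 4, 0, 0, 0], (.ev, 0)), ([0, 0, 0, 0, 0], (.pl 4, 5)), ([0, 0, 1, 1, 0], (.ev, 0))], [3, 1, 0, 1, 1, 1, 1]⟩,
   ⟨[12, 12, 12, 11, 4], 1, [([4, 4, 2, 2, 0], (.ev, 12)), ([2, 2, 4, 3, 3], (.pl 4, 5)), ([1, 1, 1, 1, 1], (.pl 1, 2)), ([1, 1, 4, 4, 0], (.ev, 0)), ([4, 4, 0, 0, 0], (.ev, 0)), ([0, 0, 0, 0, 0], (.pl 4, 5)), ([0, 0, 1, 1, 0], (.ev, 0))], [2, 1, 0, 1, 1, 0, 1]⟩,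
   ⟨[12, 12, 12, 10], 1, [([4, 4, 2, 2], (.ev, 12)), ([2, 2, 4, 2], (.pl 4, 9)), ([1, 1, 1, 1], (.pl 1, 3)), ([4, 1, 4, 1], (.ev, 0)), ([0, 4, 0, 4], (.ev, 0)), ([0, 0, 0, 0], (.pl 4, 5)), ([1, 0, 1, 0], (.ev, 0))], [4, 0, 0, 1, 1, 3, 1]⟩,
   ⟨[12, 12, 12, 9], 1, [([4, 4, 2, 2], (.ev, 12)), ([2, 2, 1, 4], (.pl 4, 10)), ([1, 1, 1, 1], (.pl 1, 3)), ([4, 1, 4, 1], (.ev, 0)), ([0, 4, 4, 0], (.ev, 0)), ([0, 0, 0, 0], (.pl 4, 5)), ([1, 0, 0, 1], (.ev, 0))], [3, 1, 0, 1, 1, 1, 1]⟩,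
   ⟨[12, 12, 12, 8], 1, [([4, 4, 2, 2], (.ev, 12)), ([2, 2, 1, 3], (.pl 4, 11)), ([1, 1, 1, 1], (.pl 1, 3)), ([4, 1, 4, 1], (.ev, 0)), ([0, 4, 4, 0], (.ev, 0)), ([0, 0, 0, 0], (.pl 4, 5)), ([1, 0, 0, 1], (.ev, 0))], [3, 1, 0, 1, 1, 1, 1]⟩,
   ⟨[12, 12, 12, 7], 1, [([4, 4, 2, 2], (.ev, 12)), ([2, 2, 1, 2], (.pl 4, 12)), ([1, 1, 1, 1], (.pl 1, 3)), ([4, 1, 4, 1], (.ev, 0)), ([0, 4, 4, 0], (.ev, 0)), ([0, 0, 0, 0], (.pl 4, 5)), ([1, 0, 0, 1], (.ev, 0))], [3, 1, 0, 1, 1, 1, 1]⟩,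
   ⟨[12, 12, 12, 6], 1, [([4, 4, 2, 2], (.ev, 12)), ([2, 1, 1, 2], (.pl 4, 13)), ([1, 1, 1, 1], (.pl 1, 3)), ([4, 1, 4, 1], (.ev, 0)), ([0, 4, 4, 0], (.ev, 0)), ([0, 0, 0, 0], (.pl 4, 5)), ([1, 1, 0, 0], (.ev, 0))], [2, 0, 0, 1, 1, 1, 1]⟩,
   ⟨[12, 12, 12, 5], 1, [([4, 4, 2, 2], (.ev, 12)), ([2, 1, 1, 1], (.pl 4, 14)), ([1, 1, 1, 1], (.pl 1, 3)), ([4, 1, 4, 1], (.ev, 0)), ([0, 4, 4, 0], (.ev, 0)), ([0, 0, 0, 0], (.pl 4, 5)), ([1, 1, 0, 0], (.ev, 0))], [2, 0, 0, 1, 1, 1, 1]⟩,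
   ⟨[12, 12, 11, 11, 11, 11], 1, [([4, 4, 4, 4, 2, 2], (.ev, 4)), ([2, 2, 4, 4, 4, 2], (.pl 4, 1)), ([1, 1, 1, 1, 1, 1], (.pl 1, 1)), ([1, 1, 0, 0, 4, 4], (.ev, 0)), ([4, 4, 0, 0, 0, 0], (.ev, 0)), ([0, 0, 1, 1, 0, 2], (.pl 4, 1)), ([0, 0, 1, 1, 0, 0], (.ev, 0))], [1, 0, 0, 1, 1, 0, 1]⟩,
   ⟨[12, 12, 11, 11, 11, 10], 1, [([4, 4, 4, 4, 2, 2], (.ev, 4)), ([3, 2, 2, 4, 4, 3], (.pl 4, 1)), ([1, 1, 1, 1, 1, 1], (.pl 1, 1)), ([4, 1, 0, 0, 4, 1], (.ev, 0)), ([0, 4, 4, 0, 0, 0], (.ev, 0)), ([0, 0, 0, 1, 0, 2], (.pl 4, 2)), ([0, 0, 0, 1, 0, 1], (.ev, 0))], [1, 0, 0, 1, 1, 0, 1]⟩,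
   ⟨[12, 12, 11, 11, 11, 9], 1, [([4, 4, 4, 4, 2, 2], (.ev, 4)), ([3, 2, 4, 2, 4, 2], (.pl 4, 2)), ([1, 1, 1, 1, 1, 1], (.pl 1, 1)), ([4, 1, 1, 0, 4, 0], (.ev, 0)), ([0, 4, 0, 4, 0, 0], (.ev, 0)), ([0, 0, 0, 0, 0, 3], (.pl 4, 2)), ([0, 0, 1, 0, 0, 1], (.ev, 0))], [1, 0, 0, 1, 1, 0, 1]⟩,
   ⟨[12, 12, 11, 11, 11, 8], 1, [([4, 4, 4, 4, 2, 2], (.ev, 4)), ([3, 2, 4, 2, 4, 2], (.pl 4, 2)), ([1, 1, 1, 1, 1, 1], (.pl 1, 1)), ([4, 1, 1, 0, 4, 0], (.ev, 0)), ([0, 4, 0, 4, 0, 0], (.ev, 0)), ([0, 0, 0, 0, 0, 2], (.pl 4, 3)), ([0, 0, 1, 0, 0, 1], (.ev, 0))], [1, 0, 0, 1, 1, 0, 1]⟩,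
   ⟨[12, 12, 11, 11, 11, 7], 1, [([4, 4, 4, 4, 2, 2], (.ev, 4)), ([3, 2, 4, 2, 3, 2], (.pl 4, 3)), ([1, 1, 1, 1, 1, 1], (.pl 1, 1)), ([4, 1, 1, 0, 4, 0], (.ev, 0)), ([0, 4, 0, 4, 0, 0], (.ev, 0)), ([0, 0, 0, 0, 0, 2], (.pl 4, 3)), ([0, 0, 1, 0, 1, 0], (.ev, 0))], [1, 0, 0, 1, 1, 0, 1]⟩,
   ⟨[12, 12, 11, 11, 11, 6], 1, [([4, 4, 4, 4, 2, 2], (.ev, 4)), ([3, 2, 4, 2, 3, 2], (.pl 4, 3)), ([1, 1, 1, 1, 1, 1], (.pl 1, 1)), ([4, 1, 1, 0, 4, 0], (.ev, 0)), ([0, 4, 0, 4, 0, 0], (.ev, 0)), ([0, 0, 0, 0, 0, 1], (.pl 4, 4)), ([0, 0, 1, 0, 1, 0], (.ev, 0))], [1, 0, 0, 1, 1, 0, 1]⟩,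
   ⟨[12, 12, 11, 11, 11, 5], 1, [([4, 4, 4, 4, 2, 2], (.ev, 4)), ([3, 2, 4, 2, 3, 1], (.pl 4, 4)), ([1, 1, 1, 1, 1, 1], (.pl 1, 1)), ([4, 1, 1, 0, 4, 0], (.ev, 0)), ([0, 4, 0, 4, 0, 0], (.ev, 0)), ([0, 0, 0, 0, 0, 1], (.pl 4, 4)), ([0, 0, 1, 0, 1, 0], (.ev, 0))], [1, 0, 0, 1, 1, 0, 1]⟩,
   ⟨[12, 12, 11, 11, 11, 4], 1, [([4, 4, 4, 4, 2, 2], (.ev, 4)), ([3, 2, 4, 2, 3, 1], (.pl 4, 4)), ([1, 1, 1, 1, 1, 1], (.pl 1, 1)), ([4, 1, 1, 0, 4, 0], (.ev, 0)), ([0, 4, 0, 4, 0, 0], (.ev, 0)), ([0, 0, 0, 0, 0, 0], (.pl 4, 5)), ([0, 0, 1, 0, 1, 0], (.ev, 0))], [1, 0, 0, 1, 1, 0, 1]⟩,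
   ⟨[12, 12, 11, 11, 11, 3], 1, [([4, 4, 4, 4, 2, 2], (.ev, 4)), ([3, 2, 4, 2, 3, 0], (.pl 4, 5)), ([1, 1, 1, 1, 1, 1], (.pl 1, 1)), ([4, 1, 1, 0, 4, 0], (.ev, 0)), ([0, 4, 0, 4, 0, 0], (.ev, 0)), ([0, 0, 0, 0, 0, 0], (.pl 4, 5)), ([0, 0, 1, 0, 1, 0], (.ev, 0))], [1, 0, 0, 1, 1, 0, 1]⟩,
   ⟨[12, 12, 11, 11, 10, 10], 1, [([4, 4, 4, 4, 2, 2], (.ev, 4)), ([3, 3, 2, 2, 4, 3], (.pl 4, 2)), ([1, 1, 1, 1, 1, 1], (.pl 1, 1)), ([4, 4, 0, 0, 1, 1], (.ev, 0)), ([0, 0, 4, 4, 0, 0], (.ev, 0)), ([0, 0, 0, 0, 1, 2], (.pl 4, 2)), ([0, 0, 0, 0, 1, 1], (.ev, 0))], [1, 0, 0, 1, 1, 0, 1]⟩,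
   ⟨[12, 12, 11, 11, 10, 9], 1, [([4, 4, 4, 4, 2, 2], (.ev, 4)), ([3, 3, 4, 2, 2, 3], (.pl 4, 2)), ([1, 1, 1, 1, 1, 1], (.pl 1, 1)), ([4, 4, 1, 0, 1, 0], (.ev, 0)), ([0, 0, 0, 4, 4, 0], (.ev, 0)), ([0, 0, 0, 0, 0, 2], (.pl 4, 3)), ([0, 0, 1, 0, 0, 1], (.ev, 0))], [1, 0, 0, 1, 1, 0, 1]⟩,
   ⟨[12, 12, 11, 11, 10, 8], 1, [([4, 4, 4, 4, 2, 2], (.ev, 4)), ([3, 3, 4, 2, 2, 2], (.pl 4, 3)), ([1, 1, 1, 1, 1, 1], (.pl 1, 1)), ([4, 4, 1, 0, 1, 0], (.ev, 0)), ([0, 0, 0, 4, 4, 0], (.ev, 0)), ([0, 0, 0, 0, 0, 2], (.pl 4, 3)), ([0, 0, 1, 0, 0, 1], (.ev, 0))], [1, 0, 0, 1, 1, 0, 1]⟩,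
   ⟨[12, 12, 11, 11, 10, 7], 1, [([4, 4, 4, 4, 2, 2], (.ev, 4)), ([3, 3, 4, 2, 2, 2], (.pl 4, 3)), ([1, 1, 1, 1, 1, 1], (.pl 1, 1)), ([4, 4, 1, 0, 1, 0], (.ev, 0)), ([0, 0, 0, 4, 4, 0], (.ev, 0)), ([0, 0, 0, 0, 0, 1], (.pl 4, 4)), ([0, 0, 1, 0, 0, 1], (.ev, 0))], [1, 0, 0, 1, 1, 0, 1]⟩,
   ⟨[12, 12, 11, 11, 10, 6], 1, [([4, 4, 4, 4, 2, 2], (.ev, 4)), ([2, 3, 4, 2, 2, 2], (.pl 4, 4)), ([1, 1, 1, 1, 1, 1], (.pl 1, 1)), ([4, 4, 1, 0, 1, 0], (.ev, 0)), ([0, 0, 0, 4, 4, 0], (.ev, 0)), ([0, 0, 0, 0, 0, 1], (.pl 4, 4)), ([1, 0, 1, 0, 0, 0], (.ev, 0))], [1, 0, 0, 1, 1, 0, 1]⟩,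
   ⟨[12, 12, 11, 11, 10, 5], 1, [([4, 4, 4, 4, 2, 2], (.ev, 4)), ([2, 3, 4, 2, 2, 2], (.pl 4, 4)), ([1, 1, 1, 1, 1, 1], (.pl 1, 1)), ([4, 4, 1, 0, 1, 0], (.ev, 0)), ([0, 0, 0, 4, 4, 0], (.ev, 0)), ([0, 0, 0, 0, 0, 0], (.pl 4, 5)), ([1, 0, 1, 0, 0, 0], (.ev, 0))], [1, 0, 0, 1, 1, 0, 1]⟩,
   ⟨[12, 12, 11, 11, 10, 4], 1, [([4, 4, 4, 4, 2, 2], (.ev, 4)), ([2, 3, 4, 2, 2, 1], (.pl 4, 5)), ([1, 1, 1, 1, 1, 1], (.pl 1, 1)), ([4, 4, 1, 0, 1, 0], (.ev, 0)), ([0, 0, 0, 4, 4, 0], (.ev, 0)), ([0, 0, 0, 0, 0, 0], (.pl 4, 5)), ([1, 0, 1, 0, 0, 0], (.ev, 0))], [1, 0, 0, 1, 1, 0, 1]⟩,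
   ⟨[12, 12, 11, 11, 10, 3], 1, [([4, 4, 4, 4, 2, 2], (.ev, 4)), ([2, 3, 4, 2, 2, 0], (.pl 4, 6)), ([1, 1, 1, 1, 1, 1], (.pl 1, 1)), ([4, 4, 1, 0, 1, 0], (.ev, 0)), ([0, 0, 0, 4, 4, 0], (.ev, 0)), ([0, 0, 0, 0, 0, 0], (.pl 4, 5)), ([1, 0, 1, 0, 0, 0], (.ev, 0))], [1, 0, 0, 1, 1, 0, 1]⟩,
   ⟨[12, 12, 11, 11, 9, 9], 1, [([4, 4, 4, 4, 2, 2], (.ev, 4)), ([3, 3, 4, 4, 1, 1], (.pl 4, 3)), ([1, 1, 1, 1, 1, 1], (.pl 1, 1)), ([4, 4, 1, 1, 0, 0], (.ev, 0)), ([0, 0, 0, 0, 4, 4], (.ev, 0)), ([0, 0, 0, 0, 1, 1], (.pl 4, 3)), ([0, 0, 1, 1, 0, 0], (.ev, 0))], [1, 0, 0, 1, 1, 0, 1]⟩,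
   ⟨[12, 12, 11, 11, 9, 8], 1, [([4, 4, 4, 4, 2, 2], (.ev, 4)), ([3, 3, 1, 4, 2, 3], (.pl 4, 3)), ([1, 1, 1, 1, 1, 1], (.pl 1, 1)), ([4, 4, 1, 1, 0, 0], (.ev, 0)), ([0, 0, 4, 0, 4, 0], (.ev, 0)), ([0, 0, 0, 0, 0, 1], (.pl 4, 4)), ([0, 0, 0, 1, 0, 1], (.ev, 0))], [1, 0, 0, 1, 1, 0, 1]⟩,
   ⟨[12, 12, 11, 11, 9, 7], 1, [([4, 4, 4, 4, 2, 2], (.ev, 4)), ([3, 3, 1, 4, 2, 2], (.pl 4, 4)), ([1, 1, 1, 1, 1, 1], (.pl 1, 1)), ([4, 4, 1, 1, 0, 0], (.ev, 0)), ([0, 0, 4, 0, 4, 0], (.ev, 0)), ([0, 0, 0, 0, 0, 1], (.pl 4, 4)), ([0, 0, 0, 1, 0, 1], (.ev, 0))], [1, 0, 0, 1, 1, 0, 1]⟩,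
   ⟨[12, 12, 11, 11, 9, 6], 1, [([4, 4, 4, 4, 2, 2], (.ev, 4)), ([2, 3, 1, 4, 2, 3], (.pl 4, 4)), ([1, 1, 1, 1, 1, 1], (.pl 1, 1)), ([4, 4, 1, 1, 0, 0], (.ev, 0)), ([0, 0, 4, 0, 4, 0], (.ev, 0)), ([0, 0, 0, 0, 0, 0], (.pl 4, 5)), ([1, 0, 0, 1, 0, 0], (.ev, 0))], [1, 0, 0, 1, 1, 0, 1]⟩,
   ⟨[12, 12, 11, 11, 9, 5], 1, [([4, 4, 4, 4, 2, 2], (.ev, 4)), ([2, 3, 1, 4, 2, 2], (.pl 4, 5)), ([1, 1, 1, 1, 1, 1], (.pl 1, 1)), ([4, 4, 1, 1, 0, 0], (.ev, 0)), ([0, 0, 4, 0, 4, 0], (.ev, 0)), ([0, 0, 0, 0, 0, 0], (.pl 4, 5)), ([1, 0, 0, 1, 0, 0], (.ev, 0))], [1, 0, 0, 1, 1, 0, 1]⟩,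
   ⟨[12, 12, 11, 11, 9, 4], 1, [([4, 4, 4, 4, 2, 2], (.ev, 4)), ([2, 3, 1, 4, 2, 1], (.pl 4, 6)), ([1, 1, 1, 1, 1, 1], (.pl 1, 1)), ([4, 4, 1, 1, 0, 0], (.ev, 0)), ([0, 0, 4, 0, 4, 0], (.ev, 0)), ([0, 0, 0, 0, 0, 0], (.pl 4, 5)), ([1, 0, 0, 1, 0, 0], (.ev, 0))], [1, 0, 0, 1, 1, 0, 1]⟩,
   ⟨[12, 12, 11, 11, 9, 3], 1, [([4, 4, 4, 4, 2, 2], (.ev, 4)), ([2, 3, 1, 4, 2, 0], (.pl 4, 7)), ([1, 1, 1, 1, 1, 1], (.pl 1, 1)), ([4, 4, 1, 1, 0, 0], (.ev, 0)), ([0, 0, 4, 0, 4, 0], (.ev, 0)), ([0, 0, 0, 0, 0, 0], (.pl 4, 5)), ([1, 0, 0, 1, 0, 0], (.ev, 0))], [1, 0, 0, 1, 1, 0, 1]⟩,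
   ⟨[12, 12, 11, 11, 8, 8], 1, [([4, 4, 4, 4, 2, 2], (.ev, 4)), ([3, 3, 1, 1, 4, 3], (.pl 4, 4)), ([1, 1, 1, 1, 1, 1], (.pl 1, 1)), ([4, 4, 1, 1, 0, 0], (.ev, 0)), ([0, 0, 4, 4, 0, 0], (.ev, 0)), ([0, 0, 0, 0, 0, 1], (.pl 4, 4)), ([0, 0, 0, 0, 1, 1], (.ev, 0))], [1, 0, 0, 1, 1, 0, 1]⟩,
   ⟨[12, 12, 11, 11, 8, 7], 1, [([4, 4, 4, 4, 2, 2], (.ev, 4)), ([3, 3, 1, 1, 4, 3], (.pl 4, 4)), ([1, 1, 1, 1, 1, 1], (.pl 1, 1)), ([4, 4, 1, 1, 0, 0], (.ev, 0)), ([0, 0, 4, 4, 0, 0], (.ev, 0)), ([0, 0, 0, 0, 0, 0], (.pl 4, 5)), ([0, 0, 0, 0, 1, 1], (.ev, 0))], [1, 0, 0, 1, 1, 0, 1]⟩,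
   ⟨[12, 12, 11, 11, 8, 6], 1, [([4, 4, 4, 4, 2, 2], (.ev, 4)), ([2, 3, 1, 1, 4, 3], (.pl 4, 5)), ([1, 1, 1, 1, 1, 1], (.pl 1, 1)), ([4, 4, 1, 1, 0, 0], (.ev, 0)), ([0, 0, 4, 4, 0, 0], (.ev, 0)), ([0, 0, 0, 0, 0, 0], (.pl 4, 5)), ([1, 0, 0, 0, 1, 0], (.ev, 0))], [1, 0, 0, 1, 1, 0, 1]⟩,
   ⟨[12, 12, 11, 11, 8, 5], 1, [([4, 4, 4, 4, 2, 2], (.ev, 4)), ([2, 3, 1, 1, 4, 2], (.pl 4, 6)), ([1, 1, 1, 1, 1, 1], (.pl 1, 1)), ([4, 4, 1, 1, 0, 0], (.ev, 0)), ([0, 0, 4, 4, 0, 0], (.ev, 0)), ([0, 0, 0, 0, 0, 0], (.pl 4, 5)), ([1, 0, 0, 0, 1, 0], (.ev, 0))], [1, 0, 0, 1, 1, 0, 1]⟩,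
   ⟨[12, 12, 11, 11, 8, 4], 1, [([4, 4, 4, 4, 2, 2], (.ev, 4)), ([2, 3, 1, 1, 4, 1], (.pl 4, 7)), ([1, 1, 1, 1, 1, 1], (.pl 1, 1)), ([4, 4, 1, 1, 0, 0], (.ev, 0)), ([0, 0, 4, 4, 0, 0], (.ev, 0)), ([0, 0, 0, 0, 0, 0], (.pl 4, 5)), ([1, 0, 0, 0, 1, 0], (.ev, 0))], [1, 0, 0, 1, 1, 0, 1]⟩,
   ⟨[12, 12, 11, 11, 8, 3], 1, [([4, 4, 4, 4, 2, 2], (.ev, 4)), ([2, 3, 1, 1, 4, 1], (.pl 4, 7)), ([1, 1, 1, 1, 1, 0], (.pl 1, 2)), ([4, 4, 1, 1, 0, 0], (.ev, 0)), ([0, 0, 4, 4, 0, 0], (.ev, 0)), ([0, 0, 0, 0, 0, 0], (.pl 4, 5)), ([1, 0, 0, 0, 1, 0], (.ev, 0))], [1, 0, 0, 1, 1, 0, 1]⟩,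
   ⟨[12, 12, 11, 11, 7], 1, [([4, 4, 2, 2, 0], (.ev, 12)), ([2, 2, 3, 4, 4], (.pl 4, 4)), ([1, 1, 1, 1, 1], (.pl 1, 2)), ([1, 1, 4, 4, 0], (.ev, 0)), ([4, 4, 0, 0, 0], (.ev, 0)), ([0, 0, 0, 0, 1], (.pl 4, 4)), ([0, 0, 1, 0, 1], (.ev, 0))], [4, 2, 0, 1, 1, 1, 1]⟩,
   ⟨[12, 12, 11, 11, 6], 1, [([4, 4, 2, 2, 0], (.ev, 12)), ([2, 2, 3, 4, 4], (.pl 4, 4)), ([1, 1, 1, 1, 1], (.pl 1, 2)), ([1, 1, 4, 4, 0], (.ev, 0)), ([4, 4, 0, 0, 0], (.ev, 0)), ([0, 0, 0, 0, 0], (.pl 4, 5)), ([0, 0, 1, 0, 1], (.ev, 0))], [3, 1, 0, 1, 1, 1, 1]⟩,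
   ⟨[12, 12, 11, 11, 5], 1, [([4, 4, 2, 2, 0], (.ev, 12)), ([2, 2, 3, 3, 4], (.pl 4, 5)), ([1, 1, 1, 1, 1], (.pl 1, 2)), ([1, 1, 4, 4, 0], (.ev, 0)), ([4, 4, 0, 0, 0], (.ev, 0)), ([0, 0, 0, 0, 0], (.pl 4, 5)), ([0, 0, 1, 1, 0], (.ev, 0))], [3, 1, 0, 1, 1, 1, 1]⟩,
   ⟨[12, 12, 11, 11, 4], 1, [([4, 4, 2, 2, 0], (.ev, 12)), ([2, 2, 3, 3, 3], (.pl 4, 6)), ([1, 1, 1, 1, 1], (.pl 1, 2)), ([1, 1, 4, 4, 0], (.ev, 0)), ([4, 4, 0, 0, 0], (.ev, 0)), ([0, 0, 0, 0, 0], (.pl 4, 5)), ([0, 0, 1, 1, 0], (.ev, 0))], [2, 0, 0, 1, 1, 1, 1]⟩,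
   ⟨[12, 12, 11, 10], 1, [([4, 4, 2, 2], (.ev, 12)), ([2, 2, 3, 2], (.pl 4, 10)), ([1, 1, 1, 1], (.pl 1, 3)), ([4, 1, 4, 1], (.ev, 0)), ([0, 4, 0, 4], (.ev, 0)), ([0, 0, 0, 0], (.pl 4, 5)), ([1, 0, 1, 0], (.ev, 0))], [4, 0, 0, 1, 1, 3, 1]⟩,
   ⟨[12, 12, 11, 9], 1, [([4, 4, 2, 2], (.ev, 12)), ([2, 2, 3, 1], (.pl 4, 11)), ([1, 1, 1, 1], (.pl 1, 3)), ([4, 1, 4, 1], (.ev, 0)), ([0, 4, 0, 4], (.ev, 0)), ([0, 0, 0, 0], (.pl 4, 5)), ([1, 0, 1, 0], (.ev, 0))], [3, 0, 0, 1, 1, 2, 1]⟩,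
   ⟨[12, 12, 11, 8], 1, [([4, 4, 2, 2], (.ev, 12)), ([2, 2, 0, 3], (.pl 4, 12)), ([1, 1, 1, 1], (.pl 1, 3)), ([4, 1, 4, 1], (.ev, 0)), ([0, 4, 4, 0], (.ev, 0)), ([0, 0, 0, 0], (.pl 4, 5)), ([1, 0, 0, 1], (.ev, 0))], [3, 1, 0, 1, 1, 1, 1]⟩,
   ⟨[12, 12, 11, 7], 1, [([4, 4, 2, 2], (.ev, 12)), ([2, 2, 0, 2], (.pl 4, 13)), ([1, 1, 1, 1], (.pl 1, 3)), ([4, 1, 4, 1], (.ev, 0)), ([0, 4, 4, 0], (.ev, 0)), ([0, 0, 0, 0], (.pl 4, 5)), ([1, 0, 0, 1], (.ev, 0))], [2, 0, 0, 1, 1, 1, 1]⟩,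
   ⟨[12, 12, 11, 6], 1, [([4, 4, 2, 2], (.ev, 12)), ([2, 1, 0, 2], (.pl 4, 14)), ([1, 1, 1, 1], (.pl 1, 3)), ([4, 1, 4, 1], (.ev, 0)), ([0, 4, 4, 0], (.ev, 0)), ([0, 0, 0, 0], (.pl 4, 5)), ([1, 1, 0, 0], (.ev, 0))], [2, 0, 0, 1, 1, 1, 1]⟩,
   ⟨[12, 12, 11, 5], 1, [([4, 4, 2, 2], (.ev, 12)), ([2, 1, 0, 1], (.pl 4, 15)), ([1, 1, 1, 1], (.pl 1, 3)), ([4, 1, 4, 1], (.ev, 0)), ([0, 4, 4, 0], (.ev, 0)), ([0, 0, 0, 0], (.pl 4, 5)), ([1, 1, 0, 0], (.ev, 0))], [2, 0, 0, 1, 1, 1, 1]⟩,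
   ⟨[12, 12, 10, 10], 1, [([4, 4, 2, 2], (.ev, 12)), ([2, 2, 2, 2], (.pl 4, 11)), ([1, 1, 1, 1], (.pl 1, 3)), ([4, 4, 1, 1], (.ev, 0)), ([0, 0, 4, 4], (.ev, 0)), ([0, 0, 0, 0], (.pl 4, 5)), ([1, 1, 0, 0], (.ev, 0))], [4, 0, 0, 1, 1, 3, 1]⟩,
   ⟨[12, 12, 10, 9], 1, [([4, 4, 2, 2], (.ev, 12)), ([2, 2, 2, 1], (.pl 4, 12)), ([1, 1, 1, 1], (.pl 1, 3)), ([4, 4, 1, 1], (.ev, 0)), ([0, 0, 4, 4], (.ev, 0)), ([0, 0, 0, 0], (.pl 4, 5)), ([1, 1, 0, 0], (.ev, 0))], [3, 0, 0, 1, 1, 2, 1]⟩,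
   ⟨[12, 12, 10, 8], 1, [([4, 4, 2, 2], (.ev, 12)), ([2, 2, 2, 0], (.pl 4, 13)), ([1, 1, 1, 1], (.pl 1, 3)), ([4, 4, 1, 1], (.ev, 0)), ([0, 0, 4, 4], (.ev, 0)), ([0, 0, 0, 0], (.pl 4, 5)), ([1, 1, 0, 0], (.ev, 0))], [3, 1, 0, 1, 1, 1, 1]⟩,
   ⟨[12, 12, 10, 7], 1, [([4, 4, 2, 2], (.ev, 12)), ([0, 2, 2, 2], (.pl 4, 13)), ([0, 1, 1, 1], (.pl 1, 4)), ([4, 4, 1, 1], (.ev, 0)), ([4, 0, 4, 0], (.ev, 0)), ([0, 0, 0, 0], (.pl 4, 5)), ([0, 1, 0, 1], (.ev, 0))], [2, 0, 0, 1, 1, 1, 1]⟩,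
   ⟨[12, 12, 10, 6], 1, [([4, 4, 2, 2], (.ev, 12)), ([0, 2, 1, 2], (.pl 4, 14)), ([0, 1, 1, 1], (.pl 1, 4)), ([4, 4, 1, 1], (.ev, 0)), ([4, 0, 4, 0], (.ev, 0)), ([0, 0, 0, 0], (.pl 4, 5)), ([0, 1, 1, 0], (.ev, 0))], [2, 0, 0, 1, 1, 1, 1]⟩,
   ⟨[12, 12, 10, 5], 1, [([4, 4, 2, 2], (.ev, 12)), ([0, 2, 1, 1], (.pl 4, 15)), ([0, 1, 1, 1], (.pl 1, 4)), ([4, 4, 1, 1], (.ev, 0)), ([4, 0, 4, 0], (.ev, 0)), ([0, 0, 0, 0], (.pl 4, 5)), ([0, 1, 1, 0], (.ev, 0))], [2, 0, 0, 1, 1, 1, 1]⟩,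
   ⟨[12, 12, 9, 9], 1, [([4, 4, 2, 2], (.ev, 12)), ([2, 2, 1, 1], (.pl 4, 13)), ([1, 1, 1, 1], (.pl 1, 3)), ([4, 4, 1, 1], (.ev, 0)), ([0, 0, 4, 4], (.ev, 0)), ([0, 0, 0, 0], (.pl 4, 5)), ([1, 1, 0, 0], (.ev, 0))], [3, 0, 0, 1, 1, 2, 1]⟩,
   ⟨[12, 12, 9, 8], 1, [([4, 4, 2, 2], (.ev, 12)), ([2, 2, 1, 0], (.pl 4, 14)), ([1, 1, 1, 1], (.pl 1, 3)), ([4, 4, 1, 1], (.ev, 0)), ([0, 0, 4, 4], (.ev, 0)), ([0, 0, 0, 0], (.pl 4, 5)), ([1, 1, 0, 0], (.ev, 0))], [3, 1, 0, 1, 1, 1, 1]⟩,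
   ⟨[12, 12, 9, 7], 1, [([4, 4, 2, 2], (.ev, 12)), ([0, 2, 1, 2], (.pl 4, 14)), ([0, 1, 1, 1], (.pl 1, 4)), ([4, 4, 1, 1], (.ev, 0)), ([4, 0, 4, 0], (.ev, 0)), ([0, 0, 0, 0], (.pl 4, 5)), ([0, 1, 0, 1], (.ev, 0))], [2, 0, 0, 1, 1, 1, 1]⟩,
   ⟨[12, 12, 9, 6], 1, [([4, 4, 2, 2], (.ev, 12)), ([0, 2, 1, 1], (.pl 4, 15)), ([0, 1, 1, 1], (.pl 1, 4)), ([4, 4, 1, 1], (.ev, 0)), ([4, 0, 4, 0], (.ev, 0)), ([0, 0, 0, 0], (.pl 4, 5)), ([0, 1, 0, 1], (.ev, 0))], [2, 0, 0, 1, 1, 1, 1]⟩,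
   ⟨[12, 12, 9, 5], 1, [([4, 4, 2, 2], (.ev, 12)), ([0, 2, 0, 1], (.pl 4, 16)), ([0, 1, 1, 1], (.pl 1, 4)), ([4, 4, 1, 1], (.ev, 0)), ([4, 0, 4, 0], (.ev, 0)), ([0, 0, 0, 0], (.pl 4, 5)), ([0, 1, 1, 0], (.ev, 0))], [2, 0, 0, 1, 1, 1, 1]⟩,
   ⟨[12, 12, 8], 1, [([2, 2, 0], (.ev, 20)), ([1, 4, 2], (.pl 4, 12)), ([1, 1, 1], (.pl 1, 4)), ([4, 4, 0], (.ev, 2)), ([4, 0, 4], (.ev, 0)), ([0, 0, 0], (.pl 4, 5)), ([0, 1, 1], (.ev, 0))], [4, 1, 0, 1, 1, 2, 1]⟩,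
   ⟨[12, 12, 7], 1, [([2, 2, 0], (.ev, 20)), ([1, 4, 1], (.pl 4, 13)), ([1, 1, 1], (.pl 1, 4)), ([4, 4, 0], (.ev, 2)), ([4, 0, 4], (.ev, 0)), ([0, 0, 0], (.pl 4, 5)), ([0, 1, 1], (.ev, 0))], [4, 1, 0, 1, 1, 2, 1]⟩,
   ⟨[12, 12, 6], 1, [([2, 2, 0], (.ev, 20)), ([0, 1, 4], (.pl 4, 14)), ([1, 1, 1], (.pl 1, 4)), ([4, 4, 0], (.ev, 2)), ([4, 4, 0], (.ev, 0)), ([0, 0, 0], (.pl 4, 5)), ([1, 0, 1], (.ev, 0))], [3, 1, 0, 1, 1, 1, 1]⟩,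
   ⟨[12, 11], 1, [([2, 2], (.ev, 20)), ([2, 1], (.pl 4, 16)), ([1, 1], (.pl 1, 5)), ([4, 4], (.ev, 2)), ([3, 3], (.ev, 2)), ([0, 0], (.pl 4, 5)), ([0, 0], (.ev, 2))], [4, 0, 0, 1, 1, 3, 1]⟩,
   ⟨[12, 10], 1, [([2, 2], (.ev, 20)), ([1, 0], (.pl 4, 18)), ([1, 0], (.pl 1, 6)), ([4, 4], (.ev, 2)), ([4, 4], (.ev, 0)), ([0, 0], (.pl 4, 5)), ([0, 0], (.ev, 2))], [4, 0, 0, 1, 1, 3, 1]⟩,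
   ⟨[12, 9], 1, [([2, 2], (.ev, 20)), ([2, 0], (.pl 4, 17)), ([1, 0], (.pl 1, 6)), ([4, 4], (.ev, 2)), ([3, 3], (.ev, 2)), ([0, 0], (.pl 4, 5)), ([0, 0], (.ev, 2))], [3, 1, 0, 1, 1, 1, 1]⟩,
   ⟨[12, 8], 1, [([2, 2], (.ev, 20)), ([3, 0], (.pl 4, 16)), ([1, 0], (.pl 1, 6)), ([4, 4], (.ev, 2)), ([2, 2], (.ev, 4)), ([0, 0], (.pl 4, 5)), ([0, 0], (.ev, 2))], [3, 1, 0, 1, 1, 1, 1]⟩,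
   ⟨[12, 7], 1, [([2, 2], (.ev, 20)), ([4, 0], (.pl 4, 15)), ([1, 0], (.pl 1, 6)), ([4, 4], (.ev, 2)), ([1, 1], (.ev, 6)), ([0, 0], (.pl 4, 5)), ([0, 0], (.ev, 2))], [3, 1, 0, 1, 1, 1, 1]⟩,
   ⟨[12, 6], 1, [([2, 2], (.ev, 20)), ([4, 0], (.pl 4, 15)), ([1, 0], (.pl 1, 6)), ([4, 4], (.ev, 2)), ([0, 0], (.ev, 8)), ([1, 0], (.pl 4, 4)), ([0, 0], (.ev, 2))], [3, 1, 0, 1, 1, 1, 1]⟩,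
   ⟨[11, 11], 1, [([2, 2], (.ev, 20)), ([1, 1], (.pl 4, 17)), ([1, 1], (.pl 1, 5)), ([4, 4], (.ev, 2)), ([3, 3], (.ev, 2)), ([0, 0], (.pl 4, 5)), ([0, 0], (.ev, 2))], [4, 0, 0, 1, 1, 3, 1]⟩,
   ⟨[11, 10], 1, [([2, 2], (.ev, 20)), ([0, 0], (.pl 4, 19)), ([1, 0], (.pl 1, 6)), ([4, 4], (.ev, 2)), ([4, 4], (.ev, 0)), ([0, 0], (.pl 4, 5)), ([0, 0], (.ev, 2))], [4, 0, 0, 1, 1, 3, 1]⟩,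
   ⟨[11, 9], 1, [([2, 2], (.ev, 20)), ([1, 0], (.pl 4, 18)), ([1, 0], (.pl 1, 6)), ([4, 4], (.ev, 2)), ([3, 3], (.ev, 2)), ([0, 0], (.pl 4, 5)), ([0, 0], (.ev, 2))], [4, 1, 0, 1, 1, 2, 1]⟩,
   ⟨[10, 10], 1, [([2, 2], (.ev, 20)), ([0, 0], (.pl 4, 19)), ([0, 0], (.pl 1, 7)), ([4, 4], (.ev, 2)), ([4, 4], (.ev, 0)), ([0, 0], (.pl 4, 5)), ([0, 0], (.ev, 2))], [4, 0, 0, 1, 1, 3, 1]⟩,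
   ⟨[10, 9], 1, [([2, 2], (.ev, 20)), ([0, 0], (.pl 4, 19)), ([1, 0], (.pl 1, 6)), ([4, 4], (.ev, 2)), ([3, 3], (.ev, 2)), ([0, 0], (.pl 4, 5)), ([0, 0], (.ev, 2))], [4, 1, 0, 1, 1, 2, 1]⟩,
   ⟨[9, 9], 1, [([2, 2], (.ev, 20)), ([0, 0], (.pl 4, 19)), ([0, 0], (.pl 1, 7)), ([4, 4], (.ev, 2)), ([3, 3], (.ev, 2)), ([0, 0], (.pl 4, 5)), ([0, 0], (.ev, 2))], [4, 1, 0, 1, 1, 2, 1]⟩]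

def cmC_13_10_8_6_3 : List (List ℕ × List (ℕ × ℕ)) :=
  [([18, 6, 6], [(21, 2), (15, 4), (5, 1), (2, 1), (0, 1), (2, 3), (0, 1)]),
   ([17, 7], [(12, 1), (17, 4), (8, 1), (6, 1), (2, 1), (2, 1), (2, 4), (2, 1)]),
   ([17, 6], [(12, 1), (17, 4), (8, 1), (6, 1), (2, 1), (4, 1), (1, 4), (2, 1)]),
   ([16, 8], [(22, 3), (14, 3), (6, 1), (2, 1), (4, 1), (1, 3), (2, 1)]),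
   ([16, 7], [(21, 2), (15, 4), (6, 1), (2, 1), (6, 1), (0, 3), (2, 1)]),
   ([16, 6], [(12, 1), (17, 4), (8, 1), (6, 1), (2, 1), (4, 1), (2, 4), (2, 1)]),
   ([15, 9], [(22, 3), (14, 3), (6, 1), (2, 1), (2, 1), (3, 3), (2, 1)]),
   ([15, 8], [(22, 3), (14, 3), (6, 1), (2, 1), (4, 1), (2, 3), (2, 1)]),
   ([15, 7], [(22, 3), (14, 3), (6, 1), (2, 1), (6, 1), (1, 3), (2, 1)]),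
   ([15, 6], [(21, 2), (15, 4), (6, 1), (2, 1), (8, 1), (0, 3), (2, 1)]),
   ([14, 10], [(23, 4), (16, 4), (6, 1), (2, 1), (0, 1), (2, 1), (2, 1)]),
   ([14, 9], [(23, 4), (14, 3), (6, 1), (2, 1), (2, 1), (3, 2), (2, 1)]),
   ([13, 11], [(11, 1), (15, 4), (15, 4), (2, 1), (4, 1), (2, 1), (2, 1)]),
   ([13, 10], [(23, 4), (17, 4), (6, 1), (2, 1), (0, 1), (2, 1), (2, 1)]),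
   ([13, 9], [(22, 3), (15, 3), (6, 1), (2, 1), (2, 1), (4, 3), (2, 1)]),
   ([12, 12, 12, 12, 12, 9], [(4, 1), (0, 4), (1, 1), (0, 1), (0, 1), (1, 4), (0, 1)]),
   ([12, 12, 12, 12, 12, 8], [(4, 1), (1, 4), (1, 1), (0, 1), (0, 1), (1, 4), (0, 1)]),
   ([12, 12, 12, 12, 12, 7], [(4, 1), (1, 4), (1, 1), (0, 1), (0, 1), (2, 4), (0, 1)]),
   ([12, 12, 12, 12, 12, 6], [(4, 1), (2, 4), (1, 1), (0, 1), (0, 1), (2, 4), (0, 1)]),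
   ([12, 12, 12, 12, 12, 5], [(4, 1), (2, 4), (1, 1), (0, 1), (0, 1), (3, 4), (0, 1)]),
   ([12, 12, 12, 12, 12, 4], [(4, 1), (3, 4), (1, 1), (0, 1), (0, 1), (3, 4), (0, 1)]),
   ([12, 12, 12, 12, 12, 3], [(4, 1), (3, 4), (1, 1), (0, 1), (0, 1), (4, 4), (0, 1)]),
   ([12, 12, 12, 12, 11, 10], [(4, 1), (0, 4), (1, 1), (0, 1), (0, 1), (1, 4), (0, 1)]),
   ([12, 12, 12, 12, 11, 9], [(4, 1), (1, 4), (1, 1), (0, 1), (0, 1), (1, 4), (0, 1)]),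
   ([12, 12, 12, 12, 11, 8], [(4, 1), (1, 4), (1, 1), (0, 1), (0, 1), (2, 4), (0, 1)]),
   ([12, 12, 12, 12, 11, 7], [(4, 1), (2, 4), (1, 1), (0, 1), (0, 1), (2, 4), (0, 1)]),
   ([12, 12, 12, 12, 11, 6], [(4, 1), (2, 4), (1, 1), (0, 1), (0, 1), (3, 4), (0, 1)]),
   ([12, 12, 12, 12, 11, 5], [(4, 1), (3, 4), (1, 1), (0, 1), (0, 1), (3, 4), (0, 1)]),
   ([12, 12, 12, 12, 11, 4], [(4, 1), (3, 4), (1, 1), (0, 1), (0, 1), (4, 4), (0, 1)]),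
   ([12, 12, 12, 12, 11, 3], [(4, 1), (4, 4), (1, 1), (0, 1), (0, 1), (4, 4), (0, 1)]),
   ([12, 12, 12, 12, 10, 10], [(4, 1), (1, 4), (1, 1), (0, 1), (0, 1), (1, 4), (0, 1)]),
   ([12, 12, 12, 12, 10, 9], [(4, 1), (1, 4), (1, 1), (0, 1), (0, 1), (2, 4), (0, 1)]),
   ([12, 12, 12, 12, 10, 8], [(4, 1), (2, 4), (1, 1), (0, 1), (0, 1), (2, 4), (0, 1)]),
   ([12, 12, 12, 12, 10, 7], [(4, 1), (2, 4), (1, 1), (0, 1), (0, 1), (3, 4), (0, 1)]),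
   ([12, 12, 12, 12, 10, 6], [(4, 1), (3, 4), (1, 1), (0, 1), (0, 1), (3, 4), (0, 1)]),
   ([12, 12, 12, 12, 10, 5], [(4, 1), (3, 4), (1, 1), (0, 1), (0, 1), (4, 4), (0, 1)]),
   ([12, 12, 12, 12, 10, 4], [(4, 1), (4, 4), (1, 1), (0, 1), (0, 1), (4, 4), (0, 1)]),
   ([12, 12, 12, 12, 10, 3], [(4, 1), (5, 4), (1, 1), (0, 1), (0, 1), (4, 4), (0, 1)]),
   ([12, 12, 12, 12, 9, 9], [(4, 1), (2, 4), (1, 1), (0, 1), (0, 1), (2, 4), (0, 1)]),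
   ([12, 12, 12, 12, 9, 8], [(4, 1), (2, 4), (1, 1), (0, 1), (0, 1), (3, 4), (0, 1)]),
   ([12, 12, 12, 12, 9, 7], [(4, 1), (3, 4), (1, 1), (0, 1), (0, 1), (3, 4), (0, 1)]),
   ([12, 12, 12, 12, 9, 6], [(4, 1), (3, 4), (1, 1), (0, 1), (0, 1), (4, 4), (0, 1)]),
   ([12, 12, 12, 12, 9, 5], [(4, 1), (4, 4), (1, 1), (0, 1), (0, 1), (4, 4), (0, 1)]),
   ([12, 12, 12, 12, 9, 4], [(4, 1), (5, 4), (1, 1), (0, 1), (0, 1), (4, 4), (0, 1)]),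
   ([12, 12, 12, 12, 9, 3], [(4, 1), (6, 4), (1, 1), (0, 1), (0, 1), (4, 4), (0, 1)]),
   ([12, 12, 12, 12, 8, 8], [(4, 1), (3, 4), (1, 1), (0, 1), (0, 1), (3, 4), (0, 1)]),
   ([12, 12, 12, 12, 8, 7], [(4, 1), (3, 4), (1, 1), (0, 1), (0, 1), (4, 4), (0, 1)]),
   ([12, 12, 12, 12, 8, 6], [(4, 1), (4, 4), (1, 1), (0, 1), (0, 1), (4, 4), (0, 1)]),
   ([12, 12, 12, 12, 8, 5], [(4, 1), (4, 4), (1, 1), (0, 1), (0, 1), (5, 4), (0, 1)]),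
   ([12, 12, 12, 12, 8, 4], [(4, 1), (5, 4), (1, 1), (0, 1), (0, 1), (5, 4), (0, 1)]),
   ([12, 12, 12, 12, 8, 3], [(4, 1), (6, 4), (1, 1), (0, 1), (0, 1), (5, 4), (0, 1)]),
   ([12, 12, 12, 12, 7, 7], [(4, 1), (4, 4), (1, 1), (0, 1), (0, 1), (4, 4), (0, 1)]),
   ([12, 12, 12, 12, 7, 6], [(4, 1), (4, 4), (1, 1), (0, 1), (0, 1), (5, 4), (0, 1)]),
   ([12, 12, 12, 12, 7, 5], [(4, 1), (5, 4), (1, 1), (0, 1), (0, 1), (5, 4), (0, 1)]),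
   ([12, 12, 12, 12, 7, 4], [(4, 1), (6, 4), (1, 1), (0, 1), (0, 1), (5, 4), (0, 1)]),
   ([12, 12, 12, 12, 7, 3], [(4, 1), (7, 4), (1, 1), (0, 1), (0, 1), (5, 4), (0, 1)]),
   ([12, 12, 12, 12, 6], [(15, 4), (0, 1), (2, 1), (0, 1), (0, 1), (4, 4), (0, 1)]),
   ([12, 12, 12, 12, 5], [(14, 3), (3, 3), (2, 1), (0, 1), (0, 1), (3, 3), (0, 1)]),
   ([12, 12, 12, 12, 4], [(13, 2), (3, 3), (2, 1), (0, 1), (0, 1), (5, 4), (0, 1)]),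
   ([12, 12, 12, 11, 11, 11], [(4, 1), (0, 4), (1, 1), (0, 1), (0, 1), (1, 4), (0, 1)]),
   ([12, 12, 12, 11, 11, 10], [(4, 1), (1, 4), (1, 1), (0, 1), (0, 1), (1, 4), (0, 1)]),
   ([12, 12, 12, 11, 11, 9], [(4, 1), (1, 4), (1, 1), (0, 1), (0, 1), (2, 4), (0, 1)]),
   ([12, 12, 12, 11, 11, 8], [(4, 1), (2, 4), (1, 1), (0, 1), (0, 1), (2, 4), (0, 1)]),
   ([12, 12, 12, 11, 11, 7], [(4, 1), (2, 4), (1, 1), (0, 1), (0, 1), (3, 4), (0, 1)]),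
   ([12, 12, 12, 11, 11, 6], [(4, 1), (3, 4), (1, 1), (0, 1), (0, 1), (3, 4), (0, 1)]),
   ([12, 12, 12, 11, 11, 5], [(4, 1), (3, 4), (1, 1), (0, 1), (0, 1), (4, 4), (0, 1)]),
   ([12, 12, 12, 11, 11, 4], [(4, 1), (4, 4), (1, 1), (0, 1), (0, 1), (4, 4), (0, 1)]),
   ([12, 12, 12, 11, 11, 3], [(4, 1), (5, 4), (1, 1), (0, 1), (0, 1), (4, 4), (0, 1)]),
   ([12, 12, 12, 11, 10, 10], [(4, 1), (1, 4), (1, 1), (0, 1), (0, 1), (2, 4), (0, 1)]),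
   ([12, 12, 12, 11, 10, 9], [(4, 1), (2, 4), (1, 1), (0, 1), (0, 1), (2, 4), (0, 1)]),
   ([12, 12, 12, 11, 10, 8], [(4, 1), (2, 4), (1, 1), (0, 1), (0, 1), (3, 4), (0, 1)]),
   ([12, 12, 12, 11, 10, 7], [(4, 1), (3, 4), (1, 1), (0, 1), (0, 1), (3, 4), (0, 1)]),
   ([12, 12, 12, 11, 10, 6], [(4, 1), (3, 4), (1, 1), (0, 1), (0, 1), (4, 4), (0, 1)]),
   ([12, 12, 12, 11, 10, 5], [(4, 1), (4, 4), (1, 1), (0, 1), (0, 1), (4, 4), (0, 1)]),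
   ([12, 12, 12, 11, 10, 4], [(4, 1), (5, 4), (1, 1), (0, 1), (0, 1), (4, 4), (0, 1)]),
   ([12, 12, 12, 11, 10, 3], [(4, 1), (6, 4), (1, 1), (0, 1), (0, 1), (4, 4), (0, 1)]),
   ([12, 12, 12, 11, 9, 9], [(4, 1), (2, 4), (1, 1), (0, 1), (0, 1), (3, 4), (0, 1)]),
   ([12, 12, 12, 11, 9, 8], [(4, 1), (3, 4), (1, 1), (0, 1), (0, 1), (3, 4), (0, 1)]),
   ([12, 12, 12, 11, 9, 7], [(4, 1), (3, 4), (1, 1), (0, 1), (0, 1), (4, 4), (0, 1)]),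
   ([12, 12, 12, 11, 9, 6], [(4, 1), (4, 4), (1, 1), (0, 1), (0, 1), (4, 4), (0, 1)]),
   ([12, 12, 12, 11, 9, 5], [(4, 1), (4, 4), (1, 1), (0, 1), (0, 1), (5, 4), (0, 1)]),
   ([12, 12, 12, 11, 9, 4], [(4, 1), (5, 4), (1, 1), (0, 1), (0, 1), (5, 4), (0, 1)]),
   ([12, 12, 12, 11, 9, 3], [(4, 1), (6, 4), (1, 1), (0, 1), (0, 1), (5, 4), (0, 1)]),
   ([12, 12, 12, 11, 8, 8], [(4, 1), (3, 4), (1, 1), (0, 1), (0, 1), (4, 4), (0, 1)]),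
   ([12, 12, 12, 11, 8, 7], [(4, 1), (4, 4), (1, 1), (0, 1), (0, 1), (4, 4), (0, 1)]),
   ([12, 12, 12, 11, 8, 6], [(4, 1), (4, 4), (1, 1), (0, 1), (0, 1), (5, 4), (0, 1)]),
   ([12, 12, 12, 11, 8, 5], [(4, 1), (5, 4), (1, 1), (0, 1), (0, 1), (5, 4), (0, 1)]),
   ([12, 12, 12, 11, 8, 4], [(4, 1), (6, 4), (1, 1), (0, 1), (0, 1), (5, 4), (0, 1)]),
   ([12, 12, 12, 11, 8, 3], [(4, 1), (7, 4), (1, 1), (0, 1), (0, 1), (5, 4), (0, 1)]),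
   ([12, 12, 12, 11, 7], [(15, 4), (0, 1), (2, 1), (0, 1), (0, 1), (4, 4), (0, 1)]),
   ([12, 12, 12, 11, 6], [(15, 4), (2, 2), (2, 1), (0, 1), (0, 1), (3, 3), (0, 1)]),
   ([12, 12, 12, 11, 5], [(14, 3), (3, 3), (2, 1), (0, 1), (0, 1), (4, 3), (0, 1)]),
   ([12, 12, 12, 11, 4], [(13, 2), (4, 3), (2, 1), (0, 1), (0, 1), (5, 4), (0, 1)]),
   ([12, 12, 12, 10], [(15, 4), (9, 4), (3, 1), (0, 1), (0, 1), (2, 1), (0, 1)]),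
   ([12, 12, 12, 9], [(14, 3), (9, 3), (3, 1), (0, 1), (0, 1), (4, 3), (0, 1)]),
   ([12, 12, 12, 8], [(14, 3), (10, 3), (3, 1), (0, 1), (0, 1), (4, 3), (0, 1)]),
   ([12, 12, 12, 7], [(14, 3), (11, 3), (3, 1), (0, 1), (0, 1), (4, 3), (0, 1)]),
   ([12, 12, 12, 6], [(13, 2), (13, 4), (3, 1), (0, 1), (0, 1), (4, 3), (0, 1)]),
   ([12, 12, 12, 5], [(13, 2), (14, 4), (3, 1), (0, 1), (0, 1), (4, 3), (0, 1)]),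
   ([12, 12, 11, 11, 11, 11], [(4, 1), (1, 4), (1, 1), (0, 1), (0, 1), (1, 4), (0, 1)]),
   ([12, 12, 11, 11, 11, 10], [(4, 1), (1, 4), (1, 1), (0, 1), (0, 1), (2, 4), (0, 1)]),
   ([12, 12, 11, 11, 11, 9], [(4, 1), (2, 4), (1, 1), (0, 1), (0, 1), (2, 4), (0, 1)]),
   ([12, 12, 11, 11, 11, 8], [(4, 1), (2, 4), (1, 1), (0, 1), (0, 1), (3, 4), (0, 1)]),
   ([12, 12, 11, 11, 11, 7], [(4, 1), (3, 4), (1, 1), (0, 1), (0, 1), (3, 4), (0, 1)]),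
   ([12, 12, 11, 11, 11, 6], [(4, 1), (3, 4), (1, 1), (0, 1), (0, 1), (4, 4), (0, 1)]),
   ([12, 12, 11, 11, 11, 5], [(4, 1), (4, 4), (1, 1), (0, 1), (0, 1), (4, 4), (0, 1)]),
   ([12, 12, 11, 11, 11, 4], [(4, 1), (4, 4), (1, 1), (0, 1), (0, 1), (5, 4), (0, 1)]),
   ([12, 12, 11, 11, 11, 3], [(4, 1), (5, 4), (1, 1), (0, 1), (0, 1), (5, 4), (0, 1)]),
   ([12, 12, 11, 11, 10, 10], [(4, 1), (2, 4), (1, 1), (0, 1), (0, 1), (2, 4), (0, 1)]),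
   ([12, 12, 11, 11, 10, 9], [(4, 1), (2, 4), (1, 1), (0, 1), (0, 1), (3, 4), (0, 1)]),
   ([12, 12, 11, 11, 10, 8], [(4, 1), (3, 4), (1, 1), (0, 1), (0, 1), (3, 4), (0, 1)]),
   ([12, 12, 11, 11, 10, 7], [(4, 1), (3, 4), (1, 1), (0, 1), (0, 1), (4, 4), (0, 1)]),
   ([12, 12, 11, 11, 10, 6], [(4, 1), (4, 4), (1, 1), (0, 1), (0, 1), (4, 4), (0, 1)]),
   ([12, 12, 11, 11, 10, 5], [(4, 1), (4, 4), (1, 1), (0, 1), (0, 1), (5, 4), (0, 1)]),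
   ([12, 12, 11, 11, 10, 4], [(4, 1), (5, 4), (1, 1), (0, 1), (0, 1), (5, 4), (0, 1)]),
   ([12, 12, 11, 11, 10, 3], [(4, 1), (6, 4), (1, 1), (0, 1), (0, 1), (5, 4), (0, 1)]),
   ([12, 12, 11, 11, 9, 9], [(4, 1), (3, 4), (1, 1), (0, 1), (0, 1), (3, 4), (0, 1)]),
   ([12, 12, 11, 11, 9, 8], [(4, 1), (3, 4), (1, 1), (0, 1), (0, 1), (4, 4), (0, 1)]),
   ([12, 12, 11, 11, 9, 7], [(4, 1), (4, 4), (1, 1), (0, 1), (0, 1), (4, 4), (0, 1)]),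
   ([12, 12, 11, 11, 9, 6], [(4, 1), (4, 4), (1, 1), (0, 1), (0, 1), (5, 4), (0, 1)]),
   ([12, 12, 11, 11, 9, 5], [(4, 1), (5, 4), (1, 1), (0, 1), (0, 1), (5, 4), (0, 1)]),
   ([12, 12, 11, 11, 9, 4], [(4, 1), (6, 4), (1, 1), (0, 1), (0, 1), (5, 4), (0, 1)]),
   ([12, 12, 11, 11, 9, 3], [(4, 1), (7, 4), (1, 1), (0, 1), (0, 1), (5, 4), (0, 1)]),
   ([12, 12, 11, 11, 8, 8], [(4, 1), (4, 4), (1, 1), (0, 1), (0, 1), (4, 4), (0, 1)]),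
   ([12, 12, 11, 11, 8, 7], [(4, 1), (4, 4), (1, 1), (0, 1), (0, 1), (5, 4), (0, 1)]),
   ([12, 12, 11, 11, 8, 6], [(4, 1), (5, 4), (1, 1), (0, 1), (0, 1), (5, 4), (0, 1)]),
   ([12, 12, 11, 11, 8, 5], [(4, 1), (6, 4), (1, 1), (0, 1), (0, 1), (5, 4), (0, 1)]),
   ([12, 12, 11, 11, 8, 4], [(4, 1), (7, 4), (1, 1), (0, 1), (0, 1), (5, 4), (0, 1)]),
   ([12, 12, 11, 11, 8, 3], [(4, 1), (7, 4), (2, 1), (0, 1), (0, 1), (5, 4), (0, 1)]),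
   ([12, 12, 11, 11, 7], [(15, 4), (2, 2), (2, 1), (0, 1), (0, 1), (3, 3), (0, 1)]),
   ([12, 12, 11, 11, 6], [(14, 3), (3, 3), (2, 1), (0, 1), (0, 1), (4, 3), (0, 1)]),
   ([12, 12, 11, 11, 5], [(14, 3), (4, 3), (2, 1), (0, 1), (0, 1), (4, 3), (0, 1)]),
   ([12, 12, 11, 11, 4], [(13, 2), (6, 4), (2, 1), (0, 1), (0, 1), (4, 3), (0, 1)]),
   ([12, 12, 11, 10], [(15, 4), (10, 4), (3, 1), (0, 1), (0, 1), (2, 1), (0, 1)]),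
   ([12, 12, 11, 9], [(14, 3), (11, 4), (3, 1), (0, 1), (0, 1), (3, 2), (0, 1)]),
   ([12, 12, 11, 8], [(14, 3), (11, 3), (3, 1), (0, 1), (0, 1), (4, 3), (0, 1)]),
   ([12, 12, 11, 7], [(13, 2), (13, 4), (3, 1), (0, 1), (0, 1), (4, 3), (0, 1)]),
   ([12, 12, 11, 6], [(13, 2), (14, 4), (3, 1), (0, 1), (0, 1), (4, 3), (0, 1)]),
   ([12, 12, 11, 5], [(13, 2), (15, 4), (3, 1), (0, 1), (0, 1), (4, 3), (0, 1)]),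
   ([12, 12, 10, 10], [(15, 4), (11, 4), (3, 1), (0, 1), (0, 1), (2, 1), (0, 1)]),
   ([12, 12, 10, 9], [(14, 3), (12, 4), (3, 1), (0, 1), (0, 1), (3, 2), (0, 1)]),
   ([12, 12, 10, 8], [(14, 3), (12, 3), (3, 1), (0, 1), (0, 1), (4, 3), (0, 1)]),
   ([12, 12, 10, 7], [(13, 2), (13, 4), (4, 1), (0, 1), (0, 1), (4, 3), (0, 1)]),
   ([12, 12, 10, 6], [(13, 2), (14, 4), (4, 1), (0, 1), (0, 1), (4, 3), (0, 1)]),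
   ([12, 12, 10, 5], [(13, 2), (15, 4), (4, 1), (0, 1), (0, 1), (4, 3), (0, 1)]),
   ([12, 12, 9, 9], [(14, 3), (13, 4), (3, 1), (0, 1), (0, 1), (3, 2), (0, 1)]),
   ([12, 12, 9, 8], [(14, 3), (13, 3), (3, 1), (0, 1), (0, 1), (4, 3), (0, 1)]),
   ([12, 12, 9, 7], [(13, 2), (14, 4), (4, 1), (0, 1), (0, 1), (4, 3), (0, 1)]),
   ([12, 12, 9, 6], [(13, 2), (15, 4), (4, 1), (0, 1), (0, 1), (4, 3), (0, 1)]),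
   ([12, 12, 9, 5], [(13, 2), (16, 4), (4, 1), (0, 1), (0, 1), (4, 3), (0, 1)]),
   ([12, 12, 8], [(23, 4), (11, 3), (4, 1), (2, 1), (0, 1), (3, 2), (0, 1)]),
   ([12, 12, 7], [(23, 4), (12, 3), (4, 1), (2, 1), (0, 1), (3, 2), (0, 1)]),
   ([12, 12, 6], [(22, 3), (13, 3), (4, 1), (2, 1), (0, 1), (4, 3), (0, 1)]),
   ([12, 11], [(23, 4), (16, 4), (5, 1), (2, 1), (2, 1), (2, 1), (2, 1)]),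
   ([12, 10], [(23, 4), (18, 4), (6, 1), (2, 1), (0, 1), (2, 1), (2, 1)]),
   ([12, 9], [(22, 3), (16, 3), (6, 1), (2, 1), (2, 1), (4, 3), (2, 1)]),
   ([12, 8], [(22, 3), (15, 3), (6, 1), (2, 1), (4, 1), (4, 3), (2, 1)]),
   ([12, 7], [(22, 3), (14, 3), (6, 1), (2, 1), (6, 1), (4, 3), (2, 1)]),
   ([12, 6], [(22, 3), (14, 3), (6, 1), (2, 1), (8, 1), (3, 3), (2, 1)]),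
   ([11, 11], [(23, 4), (17, 4), (5, 1), (2, 1), (2, 1), (2, 1), (2, 1)]),
   ([11, 10], [(23, 4), (19, 4), (6, 1), (2, 1), (0, 1), (2, 1), (2, 1)]),
   ([11, 9], [(23, 4), (17, 3), (6, 1), (2, 1), (2, 1), (3, 2), (2, 1)]),
   ([10, 10], [(23, 4), (19, 4), (7, 1), (2, 1), (0, 1), (2, 1), (2, 1)]),
   ([10, 9], [(23, 4), (18, 3), (6, 1), (2, 1), (2, 1), (3, 2), (2, 1)]),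
   ([9, 9], [(23, 4), (18, 3), (7, 1), (2, 1), (2, 1), (3, 2), (2, 1)])]

set_option Elab.async false in
theorem covH_13_10_8_6_3 : CovH [13, 10, 8, 6, 3] :=
  covH_of_tree (by decide) ls_13_10_8_6_3 sp_13_10_8_6_3 cm_13_10_8_6_3 spC_13_10_8_6_3 cmC_13_10_8_6_3 99 (by decide +kernel) (by decide +kernel)
    (by decide +kernel) (by decide +kernel) (by decide +kernel) (by decide +kernel)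

theorem covT_hV_10_1 : CovH (hV 10 1) := covH_13_10_8_6_3

end Crest.Agent.R195
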