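import Crest.Agent.R195.TreeFin

set_option autoImplicit false

namespace Crest.Agent.R195

/-! hook list [15, 12, 10, 8, 6, 3], n = 102: 677 nodes, 249 commitments -/

def ls_15_12_10_8_6_3 : List (List Pc) :=
  [[.rect 15 1, .pair 13, .pair 11, .rect 8 1, .dup 6, .dup 5, .pair 4, .rect 2 1, .dup 1],
   [.gap 15, .pair 12, .rect 10 1, .rect 8 1, .dup 6, .dup 5, .pair 4, .rect 2 1, .dup 1],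
   [.gap 15, .pair 12, .gap 10, .dup 6, .dup 5, .pair 4, .rect 2 1, .dup 1]]

def sp_15_12_10_8_6_3 : List (ℕ × List ℕ) :=
  [(0, [0, 0, 0, 0, 3, 2, 3, 0, 1]),
   (1, [3, 1, 0, 0, 1, 1, 3, 0, 1])]

def spC_15_12_10_8_6_3 : List (List (ℕ × ℕ)) :=
  [[(15, 1), (25, 4), (21, 4), (8, 1), (14, 3), (11, 2), (4, 1), (2, 1), (2, 1)],
   [(32, 3), (22, 3), (10, 1), (8, 1), (12, 1), (10, 1), (4, 1), (2, 1), (2, 1)]]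

def cm_15_12_10_8_6_3 : List CM :=
  [⟨[21, 7], 0, [([1, 0], (.pl 1, 14)), ([4, 0], (.pl 4, 21)), ([4, 0], (.pl 4, 17)), ([1, 0], (.pl 1, 7)), ([4, 4], (.ev, 4)), ([3, 3], (.ev, 4)), ([3, 0], (.pl 4, 4)), ([1, 0], (.pl 1, 1)), ([0, 0], (.ev, 2))], [0, 0, 0, 0, 1, 1, 0, 0, 1]⟩,
   ⟨[20, 8], 0, [([1, 0], (.pl 1, 14)), ([4, 0], (.pl 4, 21)), ([4, 0], (.pl 4, 17)), ([1, 0], (.pl 1, 7)), ([4, 4], (.ev, 4)), ([4, 4], (.ev, 2)), ([1, 0], (.pl 4, 6)), ([1, 0], (.pl 1, 1)), ([0, 0], (.ev, 2))], [0, 0, 0, 0, 1, 1, 0, 0, 1]⟩,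
   ⟨[20, 7], 0, [([1, 0], (.pl 1, 14)), ([4, 0], (.pl 4, 21)), ([4, 0], (.pl 4, 17)), ([1, 0], (.pl 1, 7)), ([4, 4], (.ev, 4)), ([3, 3], (.ev, 4)), ([2, 0], (.pl 4, 5)), ([1, 0], (.pl 1, 1)), ([0, 0], (.ev, 2))], [0, 0, 0, 0, 1, 1, 0, 0, 1]⟩,
   ⟨[19, 9], 1, [([2, 2], (.ev, 24)), ([4, 0], (.pl 4, 19)), ([1, 0], (.pl 1, 9)), ([1, 0], (.pl 1, 7)), ([4, 4], (.ev, 4)), ([3, 3], (.ev, 4)), ([3, 0], (.pl 4, 4)), ([1, 0], (.pl 1, 1)), ([0, 0], (.ev, 2))], [3, 0, 0, 0, 1, 1, 1, 1, 1]⟩,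
   ⟨[19, 8], 1, [([2, 2], (.ev, 24)), ([4, 0], (.pl 4, 19)), ([1, 0], (.pl 1, 9)), ([1, 0], (.pl 1, 7)), ([4, 4], (.ev, 4)), ([2, 2], (.ev, 6)), ([4, 0], (.pl 4, 3)), ([1, 0], (.pl 1, 1)), ([0, 0], (.ev, 2))], [2, 0, 0, 0, 1, 1, 0, 1, 1]⟩,
   ⟨[19, 7], 0, [([1, 0], (.pl 1, 14)), ([4, 0], (.pl 4, 21)), ([4, 0], (.pl 4, 17)), ([1, 0], (.pl 1, 7)), ([4, 4], (.ev, 4)), ([3, 3], (.ev, 4)), ([1, 0], (.pl 4, 6)), ([1, 0], (.pl 1, 1)), ([0, 0], (.ev, 2))], [0, 0, 0, 0, 1, 1, 0, 0, 1]⟩,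
   ⟨[14, 14, 14, 14, 14, 14, 11, 1], 2, [([4, 4, 4, 4, 2, 2, 1, 1], (.ev, 6)), ([3, 4, 4, 4, 4, 1, 3, 0], (.pl 4, 0)), ([3, 3, 2, 2, 4, 4, 0, 0], (.ev, 0)), ([0, 0, 4, 2, 2, 0, 4, 0], (.ev, 0)), ([4, 1, 0, 1, 0, 4, 0, 0], (.ev, 0)), ([0, 0, 0, 1, 1, 2, 3, 0], (.pl 4, 0)), ([0, 1, 0, 0, 0, 1, 0, 0], (.pl 1, 0)), ([0, 1, 0, 0, 1, 0, 0, 0], (.ev, 0))], [1, 0, 1, 1, 1, 0, 0, 1]⟩,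
   ⟨[14, 14, 14, 14, 14, 14, 10, 2], 2, [([4, 4, 4, 4, 4, 4, 2, 2], (.ev, 0)), ([2, 4, 4, 3, 3, 2, 2, 0], (.pl 4, 3)), ([4, 4, 3, 3, 2, 2, 0, 0], (.ev, 0)), ([0, 0, 2, 0, 4, 4, 2, 0], (.ev, 0)), ([4, 1, 0, 4, 0, 0, 1, 0], (.ev, 0)), ([0, 0, 0, 0, 0, 2, 2, 0], (.pl 4, 3)), ([0, 0, 0, 0, 1, 0, 1, 0], (.pl 1, 0)), ([0, 1, 1, 0, 0, 0, 0, 0], (.ev, 0))], [1, 0, 1, 1, 1, 0, 0, 1]⟩,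
   ⟨[14, 14, 14, 14, 14, 14, 10, 1], 2, [([4, 4, 4, 4, 2, 2, 1, 1], (.ev, 6)), ([3, 4, 4, 4, 4, 1, 3, 0], (.pl 4, 0)), ([3, 3, 2, 2, 4, 4, 0, 0], (.ev, 0)), ([0, 0, 4, 2, 2, 0, 4, 0], (.ev, 0)), ([4, 1, 0, 1, 0, 4, 0, 0], (.ev, 0)), ([0, 0, 0, 1, 1, 2, 2, 0], (.pl 4, 1)), ([0, 1, 0, 0, 0, 1, 0, 0], (.pl 1, 0)), ([0, 1, 0, 0, 1, 0, 0, 0], (.ev, 0))], [1, 0, 1, 1, 1, 0, 0, 1]⟩,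
   ⟨[14, 14, 14, 14, 14, 14, 9, 3], 2, [([4, 4, 4, 4, 4, 4, 2, 2], (.ev, 0)), ([2, 4, 4, 4, 3, 2, 1, 0], (.pl 4, 3)), ([4, 4, 3, 3, 2, 2, 0, 0], (.ev, 0)), ([0, 0, 2, 2, 4, 4, 0, 0], (.ev, 0)), ([4, 1, 1, 0, 0, 0, 4, 0], (.ev, 0)), ([0, 0, 0, 0, 0, 2, 2, 0], (.pl 4, 3)), ([0, 0, 0, 0, 1, 0, 0, 1], (.pl 1, 0)), ([0, 1, 0, 1, 0, 0, 0, 0], (.ev, 0))], [1, 0, 1, 1, 1, 0, 0, 1]⟩,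
   ⟨[14, 14, 14, 14, 14, 14, 9, 2], 2, [([4, 4, 4, 4, 4, 4, 2, 2], (.ev, 0)), ([2, 4, 4, 4, 3, 2, 1, 0], (.pl 4, 3)), ([4, 4, 3, 3, 2, 2, 0, 0], (.ev, 0)), ([0, 0, 2, 2, 4, 4, 0, 0], (.ev, 0)), ([4, 1, 1, 0, 0, 0, 4, 0], (.ev, 0)), ([0, 0, 0, 0, 0, 2, 2, 0], (.pl 4, 3)), ([0, 0, 0, 0, 1, 0, 0, 0], (.pl 1, 1)), ([0, 1, 0, 1, 0, 0, 0, 0], (.ev, 0))], [1, 0, 1, 1, 1, 0, 0, 1]⟩,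
   ⟨[14, 14, 14, 14, 14, 14, 8, 4], 2, [([4, 4, 4, 4, 4, 4, 2, 2], (.ev, 0)), ([2, 2, 4, 4, 4, 2, 2, 0], (.pl 4, 3)), ([4, 4, 3, 3, 2, 2, 0, 0], (.ev, 0)), ([0, 0, 2, 2, 4, 4, 0, 0], (.ev, 0)), ([4, 4, 1, 0, 0, 0, 1, 0], (.ev, 0)), ([0, 0, 0, 0, 0, 1, 2, 1], (.pl 4, 3)), ([0, 0, 0, 0, 0, 1, 0, 1], (.pl 1, 0)), ([0, 0, 0, 1, 0, 0, 1, 0], (.ev, 0))], [1, 0, 1, 1, 1, 0, 0, 1]⟩,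
   ⟨[14, 14, 14, 14, 14, 14, 8, 3], 2, [([4, 4, 4, 4, 4, 4, 2, 2], (.ev, 0)), ([2, 2, 4, 4, 4, 2, 2, 0], (.pl 4, 3)), ([4, 4, 3, 3, 2, 2, 0, 0], (.ev, 0)), ([0, 0, 2, 2, 4, 4, 0, 0], (.ev, 0)), ([4, 4, 1, 0, 0, 0, 1, 0], (.ev, 0)), ([0, 0, 0, 0, 0, 1, 2, 1], (.pl 4, 3)), ([0, 0, 0, 0, 0, 1, 0, 0], (.pl 1, 1)), ([0, 0, 0, 1, 0, 0, 1, 0], (.ev, 0))], [1, 0, 1, 1, 1, 0, 0, 1]⟩,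
   ⟨[14, 14, 14, 14, 14, 14, 8, 2], 2, [([4, 4, 4, 4, 4, 4, 2, 2], (.ev, 0)), ([2, 2, 4, 4, 4, 2, 2, 0], (.pl 4, 3)), ([4, 4, 3, 3, 2, 2, 0, 0], (.ev, 0)), ([0, 0, 2, 2, 4, 4, 0, 0], (.ev, 0)), ([4, 4, 1, 0, 0, 0, 1, 0], (.ev, 0)), ([0, 0, 0, 0, 0, 1, 2, 0], (.pl 4, 4)), ([0, 0, 0, 0, 0, 1, 0, 0], (.pl 1, 1)), ([0, 0, 0, 1, 0, 0, 1, 0], (.ev, 0))], [1, 0, 1, 1, 1, 0, 0, 1]⟩,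
   ⟨[14, 14, 14, 14, 14, 14, 7, 5], 2, [([4, 4, 4, 4, 4, 4, 2, 2], (.ev, 0)), ([2, 2, 3, 4, 4, 2, 2, 1], (.pl 4, 3)), ([4, 4, 3, 3, 2, 2, 0, 0], (.ev, 0)), ([0, 0, 2, 2, 4, 4, 0, 0], (.ev, 0)), ([4, 4, 1, 1, 0, 0, 0, 0], (.ev, 0)), ([0, 0, 0, 0, 0, 1, 2, 1], (.pl 4, 3)), ([0, 0, 0, 0, 0, 1, 0, 1], (.pl 1, 0)), ([0, 0, 1, 0, 0, 0, 1, 0], (.ev, 0))], [1, 0, 1, 1, 1, 0, 0, 1]⟩,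
   ⟨[14, 14, 14, 14, 14, 14, 7, 4], 2, [([4, 4, 4, 4, 4, 4, 2, 2], (.ev, 0)), ([2, 2, 3, 4, 4, 2, 2, 1], (.pl 4, 3)), ([4, 4, 3, 3, 2, 2, 0, 0], (.ev, 0)), ([0, 0, 2, 2, 4, 4, 0, 0], (.ev, 0)), ([4, 4, 1, 1, 0, 0, 0, 0], (.ev, 0)), ([0, 0, 0, 0, 0, 1, 2, 1], (.pl 4, 3)), ([0, 0, 0, 0, 0, 1, 0, 0], (.pl 1, 1)), ([0, 0, 1, 0, 0, 0, 1, 0], (.ev, 0))], [1, 0, 1, 1, 1, 0, 0, 1]⟩,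
   ⟨[14, 14, 14, 14, 14, 14, 7, 3], 2, [([4, 4, 4, 4, 4, 4, 2, 2], (.ev, 0)), ([2, 2, 3, 4, 4, 2, 2, 1], (.pl 4, 3)), ([4, 4, 3, 3, 2, 2, 0, 0], (.ev, 0)), ([0, 0, 2, 2, 4, 4, 0, 0], (.ev, 0)), ([4, 4, 1, 1, 0, 0, 0, 0], (.ev, 0)), ([0, 0, 0, 0, 0, 1, 2, 0], (.pl 4, 4)), ([0, 0, 0, 0, 0, 1, 0, 0], (.pl 1, 1)), ([0, 0, 1, 0, 0, 0, 1, 0], (.ev, 0))], [1, 0, 1, 1, 1, 0, 0, 1]⟩,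
   ⟨[14, 14, 14, 14, 14, 14, 7, 2], 2, [([4, 4, 4, 4, 4, 4, 2, 2], (.ev, 0)), ([2, 2, 3, 4, 4, 2, 2, 0], (.pl 4, 4)), ([4, 4, 3, 3, 2, 2, 0, 0], (.ev, 0)), ([0, 0, 2, 2, 4, 4, 0, 0], (.ev, 0)), ([4, 4, 1, 1, 0, 0, 0, 0], (.ev, 0)), ([0, 0, 0, 0, 0, 1, 2, 0], (.pl 4, 4)), ([0, 0, 0, 0, 0, 1, 0, 0], (.pl 1, 1)), ([0, 0, 1, 0, 0, 0, 1, 0], (.ev, 0))], [1, 0, 1, 1, 1, 0, 0, 1]⟩,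
   ⟨[14, 14, 14, 14, 14, 14, 6, 6], 2, [([4, 4, 4, 4, 4, 4, 2, 2], (.ev, 0)), ([2, 2, 3, 3, 4, 3, 2, 1], (.pl 4, 3)), ([4, 4, 3, 3, 2, 2, 0, 0], (.ev, 0)), ([0, 0, 2, 2, 4, 4, 0, 0], (.ev, 0)), ([4, 4, 1, 1, 0, 0, 0, 0], (.ev, 0)), ([0, 0, 0, 0, 0, 0, 2, 2], (.pl 4, 3)), ([0, 0, 0, 0, 0, 1, 0, 1], (.pl 1, 0)), ([0, 0, 1, 1, 0, 0, 0, 0], (.ev, 0))], [1, 0, 1, 1, 1, 0, 0, 1]⟩,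
   ⟨[14, 14, 14, 14, 14, 14, 6, 5], 2, [([4, 4, 4, 4, 4, 4, 2, 2], (.ev, 0)), ([2, 2, 3, 3, 4, 3, 2, 1], (.pl 4, 3)), ([4, 4, 3, 3, 2, 2, 0, 0], (.ev, 0)), ([0, 0, 2, 2, 4, 4, 0, 0], (.ev, 0)), ([4, 4, 1, 1, 0, 0, 0, 0], (.ev, 0)), ([0, 0, 0, 0, 0, 0, 2, 2], (.pl 4, 3)), ([0, 0, 0, 0, 0, 1, 0, 0], (.pl 1, 1)), ([0, 0, 1, 1, 0, 0, 0, 0], (.ev, 0))], [1, 0, 1, 1, 1, 0, 0, 1]⟩,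
   ⟨[14, 14, 14, 14, 14, 14, 6, 4], 2, [([4, 4, 4, 4, 4, 4, 2, 2], (.ev, 0)), ([2, 2, 3, 3, 4, 3, 2, 1], (.pl 4, 3)), ([4, 4, 3, 3, 2, 2, 0, 0], (.ev, 0)), ([0, 0, 2, 2, 4, 4, 0, 0], (.ev, 0)), ([4, 4, 1, 1, 0, 0, 0, 0], (.ev, 0)), ([0, 0, 0, 0, 0, 0, 2, 1], (.pl 4, 4)), ([0, 0, 0, 0, 0, 1, 0, 0], (.pl 1, 1)), ([0, 0, 1, 1, 0, 0, 0, 0], (.ev, 0))], [1, 0, 1, 1, 1, 0, 0, 1]⟩,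
   ⟨[14, 14, 14, 14, 14, 14, 6, 3], 2, [([4, 4, 4, 4, 4, 4, 2, 2], (.ev, 0)), ([2, 2, 3, 3, 4, 3, 2, 0], (.pl 4, 4)), ([4, 4, 3, 3, 2, 2, 0, 0], (.ev, 0)), ([0, 0, 2, 2, 4, 4, 0, 0], (.ev, 0)), ([4, 4, 1, 1, 0, 0, 0, 0], (.ev, 0)), ([0, 0, 0, 0, 0, 0, 2, 1], (.pl 4, 4)), ([0, 0, 0, 0, 0, 1, 0, 0], (.pl 1, 1)), ([0, 0, 1, 1, 0, 0, 0, 0], (.ev, 0))], [1, 0, 1, 1, 1, 0, 0, 1]⟩,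
   ⟨[14, 14, 14, 14, 14, 14, 6, 2], 2, [([4, 4, 4, 4, 4, 4, 2, 2], (.ev, 0)), ([2, 2, 3, 3, 4, 3, 2, 0], (.pl 4, 4)), ([4, 4, 3, 3, 2, 2, 0, 0], (.ev, 0)), ([0, 0, 2, 2, 4, 4, 0, 0], (.ev, 0)), ([4, 4, 1, 1, 0, 0, 0, 0], (.ev, 0)), ([0, 0, 0, 0, 0, 0, 2, 0], (.pl 4, 5)), ([0, 0, 0, 0, 0, 1, 0, 0], (.pl 1, 1)), ([0, 0, 1, 1, 0, 0, 0, 0], (.ev, 0))], [1, 0, 1, 1, 1, 0, 0, 1]⟩,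
   ⟨[14, 14, 14, 14, 14, 14, 5], 2, [([4, 4, 4, 4, 2, 2, 0], (.ev, 8)), ([3, 3, 4, 4, 3, 2, 2], (.pl 4, 2)), ([3, 3, 2, 2, 4, 4, 0], (.ev, 0)), ([0, 0, 4, 4, 2, 2, 0], (.ev, 0)), ([4, 4, 0, 0, 1, 1, 0], (.ev, 0)), ([0, 0, 0, 0, 0, 2, 2], (.pl 4, 3)), ([0, 0, 0, 0, 1, 0, 1], (.pl 1, 0)), ([0, 0, 0, 0, 1, 1, 0], (.ev, 0))], [2, 1, 1, 1, 1, 0, 0, 1]⟩,
   ⟨[14, 14, 14, 14, 14, 14, 4], 2, [([4, 4, 4, 4, 2, 2, 0], (.ev, 8)), ([3, 3, 4, 4, 3, 2, 1], (.pl 4, 3)), ([3, 3, 2, 2, 4, 4, 0], (.ev, 0)), ([0, 0, 4, 4, 2, 2, 0], (.ev, 0)), ([4, 4, 0, 0, 1, 1, 0], (.ev, 0)), ([0, 0, 0, 0, 0, 2, 2], (.pl 4, 3)), ([0, 0, 0, 0, 1, 0, 1], (.pl 1, 0)), ([0, 0, 0, 0, 1, 1, 0], (.ev, 0))], [2, 1, 1, 1, 1, 0, 0, 1]⟩,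
   ⟨[14, 14, 14, 14, 14, 14, 3], 2, [([4, 4, 4, 4, 2, 2, 0], (.ev, 8)), ([3, 3, 4, 4, 3, 2, 1], (.pl 4, 3)), ([3, 3, 2, 2, 4, 4, 0], (.ev, 0)), ([0, 0, 4, 4, 2, 2, 0], (.ev, 0)), ([4, 4, 0, 0, 1, 1, 0], (.ev, 0)), ([0, 0, 0, 0, 0, 2, 2], (.pl 4, 3)), ([0, 0, 0, 0, 1, 0, 0], (.pl 1, 1)), ([0, 0, 0, 0, 1, 1, 0], (.ev, 0))], [2, 0, 1, 1, 1, 0, 1, 1]⟩,
   ⟨[14, 14, 14, 14, 14, 13, 12, 1], 2, [([4, 4, 4, 4, 2, 2, 1, 1], (.ev, 6)), ([3, 4, 4, 4, 4, 2, 2, 0], (.pl 4, 0)), ([3, 2, 2, 0, 4, 4, 3, 0], (.ev, 0)), ([0, 4, 2, 4, 2, 0, 0, 0], (.ev, 0)), ([4, 0, 1, 0, 0, 1, 4, 0], (.ev, 0)), ([0, 0, 0, 1, 1, 3, 2, 0], (.pl 4, 0)), ([0, 0, 1, 0, 0, 1, 0, 0], (.pl 1, 0)), ([0, 0, 0, 1, 1, 0, 0, 0], (.ev, 0))], [1,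 0, 1, 1, 1, 0, 0, 1]⟩,
   ⟨[14, 14, 14, 14, 14, 13, 11, 2], 2, [([4, 4, 4, 4, 4, 4, 2, 2], (.ev, 0)), ([2, 4, 4, 4, 3, 1, 2, 0], (.pl 4, 3)), ([4, 4, 3, 3, 2, 2, 0, 0], (.ev, 0)), ([0, 0, 2, 2, 4, 0, 4, 0], (.ev, 0)), ([4, 1, 1, 0, 0, 4, 0, 0], (.ev, 0)), ([0, 0, 0, 0, 0, 2, 2, 0], (.pl 4, 3)), ([0, 0, 0, 0, 1, 0, 1, 0], (.pl 1, 0)), ([0, 1, 0, 1, 0, 0, 0, 0], (.ev, 0))], [1, 0, 1, 1, 1, 0, 0, 1]⟩,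
   ⟨[14, 14, 14, 14, 14, 13, 11, 1], 2, [([4, 4, 4, 4, 2, 2, 1, 1], (.ev, 6)), ([3, 3, 4, 4, 4, 2, 3, 0], (.pl 4, 0)), ([3, 3, 2, 2, 4, 4, 0, 0], (.ev, 0)), ([0, 0, 4, 2, 2, 0, 4, 0], (.ev, 0)), ([4, 4, 0, 1, 0, 1, 0, 0], (.ev, 0)), ([0, 0, 0, 0, 1, 3, 2, 0], (.pl 4, 1)), ([0, 0, 0, 1, 0, 0, 1, 0], (.pl 1, 0)), ([0, 0, 0, 0, 1, 1, 0, 0], (.ev, 0))], [1, 0, 1, 1, 1, 0, 0, 1]⟩,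
   ⟨[14, 14, 14, 14, 14, 13, 10, 3], 2, [([4, 4, 4, 4, 4, 4, 2, 2], (.ev, 0)), ([2, 4, 4, 4, 3, 1, 2, 0], (.pl 4, 3)), ([4, 4, 3, 3, 2, 2, 0, 0], (.ev, 0)), ([0, 0, 2, 2, 4, 0, 4, 0], (.ev, 0)), ([4, 1, 1, 0, 0, 4, 0, 0], (.ev, 0)), ([0, 0, 0, 0, 0, 2, 2, 0], (.pl 4, 3)), ([0, 0, 0, 0, 1, 0, 0, 1], (.pl 1, 0)), ([0, 1, 0, 1, 0, 0, 0, 0], (.ev, 0))], [1, 0, 1, 1, 1, 0, 0, 1]⟩,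
   ⟨[14, 14, 14, 14, 14, 13, 10, 2], 2, [([4, 4, 4, 4, 4, 4, 2, 2], (.ev, 0)), ([2, 4, 4, 4, 3, 1, 2, 0], (.pl 4, 3)), ([4, 4, 3, 3, 2, 2, 0, 0], (.ev, 0)), ([0, 0, 2, 2, 4, 0, 4, 0], (.ev, 0)), ([4, 1, 1, 0, 0, 4, 0, 0], (.ev, 0)), ([0, 0, 0, 0, 0, 2, 2, 0], (.pl 4, 3)), ([0, 0, 0, 0, 1, 0, 0, 0], (.pl 1, 1)), ([0, 1, 0, 1, 0, 0, 0, 0], (.ev, 0))], [1, 0, 1, 1, 1, 0, 0, 1]⟩,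
   ⟨[14, 14, 14, 14, 14, 13, 9, 4], 2, [([4, 4, 4, 4, 4, 4, 2, 2], (.ev, 0)), ([2, 4, 3, 4, 3, 2, 2, 0], (.pl 4, 3)), ([4, 4, 3, 3, 2, 2, 0, 0], (.ev, 0)), ([0, 0, 4, 2, 4, 2, 0, 0], (.ev, 0)), ([4, 1, 0, 1, 0, 0, 4, 0], (.ev, 0)), ([0, 0, 0, 0, 0, 2, 1, 1], (.pl 4, 3)), ([0, 0, 0, 0, 1, 0, 0, 1], (.pl 1, 0)), ([0, 1, 0, 0, 0, 1, 0, 0], (.ev, 0))], [1, 0, 1, 1, 1, 0, 0, 1]⟩,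
   ⟨[14, 14, 14, 14, 14, 13, 9, 3], 2, [([4, 4, 4, 4, 4, 4, 2, 2], (.ev, 0)), ([2, 4, 3, 4, 3, 2, 2, 0], (.pl 4, 3)), ([4, 4, 3, 3, 2, 2, 0, 0], (.ev, 0)), ([0, 0, 4, 2, 4, 2, 0, 0], (.ev, 0)), ([4, 1, 0, 1, 0, 0, 4, 0], (.ev, 0)), ([0, 0, 0, 0, 0, 2, 1, 1], (.pl 4, 3)), ([0, 0, 0, 0, 1, 0, 0, 0], (.pl 1, 1)), ([0, 1, 0, 0, 0, 1, 0, 0], (.ev, 0))], [1, 0, 1, 1, 1, 0, 0, 1]⟩,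
   ⟨[14, 14, 14, 14, 14, 13, 9, 2], 2, [([4, 4, 4, 4, 4, 4, 2, 2], (.ev, 0)), ([2, 4, 3, 4, 3, 2, 2, 0], (.pl 4, 3)), ([4, 4, 3, 3, 2, 2, 0, 0], (.ev, 0)), ([0, 0, 4, 2, 4, 2, 0, 0], (.ev, 0)), ([4, 1, 0, 1, 0, 0, 4, 0], (.ev, 0)), ([0, 0, 0, 0, 0, 2, 1, 0], (.pl 4, 4)), ([0, 0, 0, 0, 1, 0, 0, 0], (.pl 1, 1)), ([0, 1, 0, 0, 0, 1, 0, 0], (.ev, 0))], [1, 0, 1, 1, 1, 0, 0, 1]⟩,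
   ⟨[14, 14, 14, 14, 14, 13, 8, 5], 2, [([4, 4, 4, 4, 4, 4, 2, 2], (.ev, 0)), ([2, 2, 3, 4, 4, 2, 2, 1], (.pl 4, 3)), ([4, 4, 3, 3, 2, 2, 0, 0], (.ev, 0)), ([0, 0, 4, 2, 4, 2, 0, 0], (.ev, 0)), ([4, 4, 0, 1, 0, 0, 1, 0], (.ev, 0)), ([0, 0, 0, 0, 0, 1, 2, 1], (.pl 4, 3)), ([0, 0, 0, 0, 0, 1, 0, 1], (.pl 1, 0)), ([0, 0, 0, 0, 0, 1, 1, 0], (.ev, 0))], [1, 0, 1, 1, 1, 0, 0, 1]⟩,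
   ⟨[14, 14, 14, 14, 14, 13, 8, 4], 2, [([4, 4, 4, 4, 4, 4, 2, 2], (.ev, 0)), ([2, 2, 3, 4, 4, 2, 2, 1], (.pl 4, 3)), ([4, 4, 3, 3, 2, 2, 0, 0], (.ev, 0)), ([0, 0, 4, 2, 4, 2, 0, 0], (.ev, 0)), ([4, 4, 0, 1, 0, 0, 1, 0], (.ev, 0)), ([0, 0, 0, 0, 0, 1, 2, 1], (.pl 4, 3)), ([0, 0, 0, 0, 0, 1, 0, 0], (.pl 1, 1)), ([0, 0, 0, 0, 0, 1, 1, 0], (.ev, 0))], [1, 0, 1, 1, 1, 0, 0, 1]⟩,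
   ⟨[14, 14, 14, 14, 14, 13, 8, 3], 2, [([4, 4, 4, 4, 4, 4, 2, 2], (.ev, 0)), ([2, 2, 3, 4, 4, 2, 2, 1], (.pl 4, 3)), ([4, 4, 3, 3, 2, 2, 0, 0], (.ev, 0)), ([0, 0, 4, 2, 4, 2, 0, 0], (.ev, 0)), ([4, 4, 0, 1, 0, 0, 1, 0], (.ev, 0)), ([0, 0, 0, 0, 0, 1, 2, 0], (.pl 4, 4)), ([0, 0, 0, 0, 0, 1, 0, 0], (.pl 1, 1)), ([0, 0, 0, 0, 0, 1, 1, 0], (.ev, 0))], [1, 0, 1, 1, 1, 0, 0, 1]⟩,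
   ⟨[14, 14, 14, 14, 14, 13, 8, 2], 2, [([4, 4, 4, 4, 4, 4, 2, 2], (.ev, 0)), ([2, 2, 3, 4, 4, 2, 2, 0], (.pl 4, 4)), ([4, 4, 3, 3, 2, 2, 0, 0], (.ev, 0)), ([0, 0, 4, 2, 4, 2, 0, 0], (.ev, 0)), ([4, 4, 0, 1, 0, 0, 1, 0], (.ev, 0)), ([0, 0, 0, 0, 0, 1, 2, 0], (.pl 4, 4)), ([0, 0, 0, 0, 0, 1, 0, 0], (.pl 1, 1)), ([0, 0, 0, 0, 0, 1, 1, 0], (.ev, 0))], [1, 0, 1, 1, 1, 0, 0, 1]⟩,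
   ⟨[14, 14, 14, 14, 14, 13, 7, 6], 2, [([4, 4, 4, 4, 4, 4, 2, 2], (.ev, 0)), ([2, 2, 3, 3, 4, 3, 2, 1], (.pl 4, 3)), ([4, 4, 3, 3, 2, 2, 0, 0], (.ev, 0)), ([0, 0, 4, 2, 4, 2, 0, 0], (.ev, 0)), ([4, 4, 0, 1, 0, 1, 0, 0], (.ev, 0)), ([0, 0, 0, 0, 0, 0, 2, 2], (.pl 4, 3)), ([0, 0, 0, 0, 0, 1, 0, 1], (.pl 1, 0)), ([0, 0, 0, 1, 0, 0, 1, 0], (.ev, 0))], [1, 0, 1, 1, 1, 0, 0, 1]⟩,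
   ⟨[14, 14, 14, 14, 14, 13, 7, 5], 2, [([4, 4, 4, 4, 4, 4, 2, 2], (.ev, 0)), ([2, 2, 3, 3, 4, 3, 2, 1], (.pl 4, 3)), ([4, 4, 3, 3, 2, 2, 0, 0], (.ev, 0)), ([0, 0, 4, 2, 4, 2, 0, 0], (.ev, 0)), ([4, 4, 0, 1, 0, 1, 0, 0], (.ev, 0)), ([0, 0, 0, 0, 0, 0, 2, 2], (.pl 4, 3)), ([0, 0, 0, 0, 0, 1, 0, 0], (.pl 1, 1)), ([0, 0, 0, 1, 0, 0, 1, 0], (.ev, 0))], [1, 0, 1, 1, 1, 0, 0, 1]⟩,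
   ⟨[14, 14, 14, 14, 14, 13, 7, 4], 2, [([4, 4, 4, 4, 4, 4, 2, 2], (.ev, 0)), ([2, 2, 3, 3, 4, 3, 2, 1], (.pl 4, 3)), ([4, 4, 3, 3, 2, 2, 0, 0], (.ev, 0)), ([0, 0, 4, 2, 4, 2, 0, 0], (.ev, 0)), ([4, 4, 0, 1, 0, 1, 0, 0], (.ev, 0)), ([0, 0, 0, 0, 0, 0, 2, 1], (.pl 4, 4)), ([0, 0, 0, 0, 0, 1, 0, 0], (.pl 1, 1)), ([0, 0, 0, 1, 0, 0, 1, 0], (.ev, 0))], [1, 0, 1, 1, 1, 0, 0, 1]⟩,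
   ⟨[14, 14, 14, 14, 14, 13, 7, 3], 2, [([4, 4, 4, 4, 4, 4, 2, 2], (.ev, 0)), ([2, 2, 3, 3, 4, 3, 2, 0], (.pl 4, 4)), ([4, 4, 3, 3, 2, 2, 0, 0], (.ev, 0)), ([0, 0, 4, 2, 4, 2, 0, 0], (.ev, 0)), ([4, 4, 0, 1, 0, 1, 0, 0], (.ev, 0)), ([0, 0, 0, 0, 0, 0, 2, 1], (.pl 4, 4)), ([0, 0, 0, 0, 0, 1, 0, 0], (.pl 1, 1)), ([0, 0, 0, 1, 0, 0, 1, 0], (.ev, 0))], [1, 0, 1, 1, 1, 0, 0, 1]⟩,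
   ⟨[14, 14, 14, 14, 14, 13, 7, 2], 2, [([4, 4, 4, 4, 4, 4, 2, 2], (.ev, 0)), ([2, 2, 3, 3, 4, 3, 2, 0], (.pl 4, 4)), ([4, 4, 3, 3, 2, 2, 0, 0], (.ev, 0)), ([0, 0, 4, 2, 4, 2, 0, 0], (.ev, 0)), ([4, 4, 0, 1, 0, 1, 0, 0], (.ev, 0)), ([0, 0, 0, 0, 0, 0, 2, 0], (.pl 4, 5)), ([0, 0, 0, 0, 0, 1, 0, 0], (.pl 1, 1)), ([0, 0, 0, 1, 0, 0, 1, 0], (.ev, 0))], [1, 0, 1, 1, 1, 0, 0, 1]⟩,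
   ⟨[14, 14, 14, 14, 14, 13, 6], 2, [([4, 4, 4, 4, 2, 2, 0], (.ev, 8)), ([4, 3, 4, 4, 2, 2, 2], (.pl 4, 2)), ([3, 3, 2, 2, 4, 4, 0], (.ev, 0)), ([2, 0, 4, 4, 2, 0, 0], (.ev, 0)), ([0, 4, 0, 0, 1, 4, 1], (.ev, 0)), ([0, 0, 0, 0, 1, 1, 2], (.pl 4, 3)), ([0, 0, 0, 0, 1, 0, 1], (.pl 1, 0)), ([1, 0, 0, 0, 1, 0, 0], (.ev, 0))], [2, 1, 1, 1, 1, 0, 0, 1]⟩,
   ⟨[14, 14, 14, 14, 14, 13, 5], 2, [([4, 4, 4, 4, 2, 2, 0], (.ev, 8)), ([4, 3, 4, 4, 2, 2, 1], (.pl 4, 3)), ([3, 3, 2, 2, 4, 4, 0], (.ev, 0)), ([2, 0, 4, 4, 2, 0, 0], (.ev, 0)), ([1, 4, 0, 0, 1, 4, 0], (.ev, 0)), ([0, 0, 0, 0, 1, 1, 2], (.pl 4, 3)), ([0, 0, 0, 0, 1, 0, 1], (.pl 1, 0)), ([0, 0, 0, 0, 1, 0, 1], (.ev, 0))], [2, 1, 1, 1, 1, 0, 0, 1]⟩,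
   ⟨[14, 14, 14, 14, 14, 13, 4], 2, [([4, 4, 4, 4, 2, 2, 0], (.ev, 8)), ([3, 3, 4, 4, 3, 1, 2], (.pl 4, 3)), ([3, 3, 2, 2, 4, 4, 0], (.ev, 0)), ([2, 0, 4, 4, 2, 0, 0], (.ev, 0)), ([1, 4, 0, 0, 1, 4, 0], (.ev, 0)), ([0, 0, 0, 0, 0, 2, 2], (.pl 4, 3)), ([0, 0, 0, 0, 1, 0, 0], (.pl 1, 1)), ([1, 0, 0, 0, 1, 0, 0], (.ev, 0))], [2, 0, 1, 1, 1, 0, 1, 1]⟩,
   ⟨[14, 14, 14, 14, 14, 13, 3], 2, [([4, 4, 4, 4, 2, 2, 0], (.ev, 8)), ([3, 3, 4, 4, 3, 1, 2], (.pl 4, 3)), ([3, 3, 2, 2, 4, 4, 0], (.ev, 0)), ([2, 0, 4, 4, 2, 0, 0], (.ev, 0)), ([1, 4, 0, 0, 1, 4, 0], (.ev, 0)), ([0, 0, 0, 0, 0, 2, 1], (.pl 4, 4)), ([0, 0, 0, 0, 1, 0, 0], (.pl 1, 1)), ([1, 0, 0, 0, 1, 0, 0], (.ev, 0))], [2, 0, 1, 1, 1, 0, 1, 1]⟩,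
   ⟨[14, 14, 14, 14, 14, 12, 12, 2], 2, [([4, 4, 4, 4, 4, 4, 2, 2], (.ev, 0)), ([2, 4, 4, 3, 3, 2, 2, 0], (.pl 4, 3)), ([4, 4, 3, 3, 2, 0, 2, 0], (.ev, 0)), ([0, 0, 2, 0, 4, 4, 2, 0], (.ev, 0)), ([4, 1, 0, 4, 0, 0, 1, 0], (.ev, 0)), ([0, 0, 0, 0, 0, 2, 2, 0], (.pl 4, 3)), ([0, 0, 0, 0, 1, 0, 1, 0], (.pl 1, 0)), ([0, 1, 1, 0, 0, 0, 0, 0], (.ev, 0))], [1, 0, 1, 1, 1, 0, 0, 1]⟩,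
   ⟨[14, 14, 14, 14, 14, 12, 12, 1], 2, [([4, 4, 4, 4, 2, 2, 1, 1], (.ev, 6)), ([3, 3, 4, 4, 4, 2, 3, 0], (.pl 4, 0)), ([3, 3, 2, 2, 4, 0, 4, 0], (.ev, 0)), ([0, 0, 4, 2, 2, 4, 0, 0], (.ev, 0)), ([4, 4, 0, 1, 0, 0, 1, 0], (.ev, 0)), ([0, 0, 0, 0, 1, 3, 2, 0], (.pl 4, 1)), ([0, 0, 0, 1, 0, 0, 1, 0], (.pl 1, 0)), ([0, 0, 0, 0, 1, 1, 0, 0], (.ev, 0))], [1, 0, 1, 1, 1, 0, 0, 1]⟩,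
   ⟨[14, 14, 14, 14, 14, 12, 11, 3], 2, [([4, 4, 4, 4, 4, 4, 2, 2], (.ev, 0)), ([2, 4, 4, 4, 3, 2, 1, 0], (.pl 4, 3)), ([4, 4, 3, 3, 2, 0, 2, 0], (.ev, 0)), ([0, 0, 2, 2, 4, 4, 0, 0], (.ev, 0)), ([4, 1, 1, 0, 0, 0, 4, 0], (.ev, 0)), ([0, 0, 0, 0, 0, 2, 2, 0], (.pl 4, 3)), ([0, 0, 0, 0, 1, 0, 0, 1], (.pl 1, 0)), ([0, 1, 0, 1, 0, 0, 0, 0], (.ev, 0))], [1, 0, 1, 1, 1, 0, 0, 1]⟩,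
   ⟨[14, 14, 14, 14, 14, 12, 11, 2], 2, [([4, 4, 4, 4, 4, 4, 2, 2], (.ev, 0)), ([2, 4, 4, 4, 3, 2, 1, 0], (.pl 4, 3)), ([4, 4, 3, 3, 2, 0, 2, 0], (.ev, 0)), ([0, 0, 2, 2, 4, 4, 0, 0], (.ev, 0)), ([4, 1, 1, 0, 0, 0, 4, 0], (.ev, 0)), ([0, 0, 0, 0, 0, 2, 2, 0], (.pl 4, 3)), ([0, 0, 0, 0, 1, 0, 0, 0], (.pl 1, 1)), ([0, 1, 0, 1, 0, 0, 0, 0], (.ev, 0))], [1, 0, 1, 1, 1, 0, 0, 1]⟩,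
   ⟨[14, 14, 14, 14, 14, 12, 10, 4], 2, [([4, 4, 4, 4, 4, 4, 2, 2], (.ev, 0)), ([2, 2, 4, 4, 4, 2, 2, 0], (.pl 4, 3)), ([4, 4, 3, 3, 2, 2, 0, 0], (.ev, 0)), ([0, 0, 2, 2, 4, 0, 4, 0], (.ev, 0)), ([4, 4, 1, 0, 0, 1, 0, 0], (.ev, 0)), ([0, 0, 0, 0, 0, 1, 2, 1], (.pl 4, 3)), ([0, 0, 0, 0, 0, 1, 0, 1], (.pl 1, 0)), ([0, 0, 0, 1, 0, 1, 0, 0], (.ev, 0))], [1, 0, 1, 1, 1, 0, 0, 1]⟩,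
   ⟨[14, 14, 14, 14, 14, 12, 10, 3], 2, [([4, 4, 4, 4, 4, 4, 2, 2], (.ev, 0)), ([2, 2, 4, 4, 4, 2, 2, 0], (.pl 4, 3)), ([4, 4, 3, 3, 2, 2, 0, 0], (.ev, 0)), ([0, 0, 2, 2, 4, 0, 4, 0], (.ev, 0)), ([4, 4, 1, 0, 0, 1, 0, 0], (.ev, 0)), ([0, 0, 0, 0, 0, 1, 2, 1], (.pl 4, 3)), ([0, 0, 0, 0, 0, 1, 0, 0], (.pl 1, 1)), ([0, 0, 0, 1, 0, 1, 0, 0], (.ev, 0))], [1, 0, 1, 1, 1, 0, 0, 1]⟩,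
   ⟨[14, 14, 14, 14, 14, 12, 10, 2], 2, [([4, 4, 4, 4, 4, 4, 2, 2], (.ev, 0)), ([2, 2, 4, 4, 4, 2, 2, 0], (.pl 4, 3)), ([4, 4, 3, 3, 2, 2, 0, 0], (.ev, 0)), ([0, 0, 2, 2, 4, 0, 4, 0], (.ev, 0)), ([4, 4, 1, 0, 0, 1, 0, 0], (.ev, 0)), ([0, 0, 0, 0, 0, 1, 2, 0], (.pl 4, 4)), ([0, 0, 0, 0, 0, 1, 0, 0], (.pl 1, 1)), ([0, 0, 0, 1, 0, 1, 0, 0], (.ev, 0))], [1, 0, 1, 1, 1, 0, 0, 1]⟩,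
   ⟨[14, 14, 14, 14, 14, 12, 9, 5], 2, [([4, 4, 4, 4, 4, 4, 2, 2], (.ev, 0)), ([2, 2, 3, 4, 4, 2, 2, 1], (.pl 4, 3)), ([4, 4, 3, 3, 2, 2, 0, 0], (.ev, 0)), ([0, 0, 4, 2, 4, 0, 2, 0], (.ev, 0)), ([4, 4, 0, 1, 0, 1, 0, 0], (.ev, 0)), ([0, 0, 0, 0, 0, 1, 2, 1], (.pl 4, 3)), ([0, 0, 0, 0, 0, 1, 0, 1], (.pl 1, 0)), ([0, 0, 0, 0, 0, 1, 1, 0], (.ev, 0))], [1, 0, 1, 1, 1, 0, 0, 1]⟩,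
   ⟨[14, 14, 14, 14, 14, 12, 9, 4], 2, [([4, 4, 4, 4, 4, 4, 2, 2], (.ev, 0)), ([2, 2, 3, 4, 4, 2, 2, 1], (.pl 4, 3)), ([4, 4, 3, 3, 2, 2, 0, 0], (.ev, 0)), ([0, 0, 4, 2, 4, 0, 2, 0], (.ev, 0)), ([4, 4, 0, 1, 0, 1, 0, 0], (.ev, 0)), ([0, 0, 0, 0, 0, 1, 2, 1], (.pl 4, 3)), ([0, 0, 0, 0, 0, 1, 0, 0], (.pl 1, 1)), ([0, 0, 0, 0, 0, 1, 1, 0], (.ev, 0))], [1, 0, 1, 1, 1, 0, 0, 1]⟩,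
   ⟨[14, 14, 14, 14, 14, 12, 9, 3], 2, [([4, 4, 4, 4, 4, 4, 2, 2], (.ev, 0)), ([2, 2, 3, 4, 4, 2, 2, 1], (.pl 4, 3)), ([4, 4, 3, 3, 2, 2, 0, 0], (.ev, 0)), ([0, 0, 4, 2, 4, 0, 2, 0], (.ev, 0)), ([4, 4, 0, 1, 0, 1, 0, 0], (.ev, 0)), ([0, 0, 0, 0, 0, 1, 2, 0], (.pl 4, 4)), ([0, 0, 0, 0, 0, 1, 0, 0], (.pl 1, 1)), ([0, 0, 0, 0, 0, 1, 1, 0], (.ev, 0))], [1, 0, 1, 1, 1, 0, 0, 1]⟩,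
   ⟨[14, 14, 14, 14, 14, 12, 9, 2], 2, [([4, 4, 4, 4, 4, 4, 2, 2], (.ev, 0)), ([2, 2, 3, 4, 4, 2, 2, 0], (.pl 4, 4)), ([4, 4, 3, 3, 2, 2, 0, 0], (.ev, 0)), ([0, 0, 4, 2, 4, 0, 2, 0], (.ev, 0)), ([4, 4, 0, 1, 0, 1, 0, 0], (.ev, 0)), ([0, 0, 0, 0, 0, 1, 2, 0], (.pl 4, 4)), ([0, 0, 0, 0, 0, 1, 0, 0], (.pl 1, 1)), ([0, 0, 0, 0, 0, 1, 1, 0], (.ev, 0))], [1, 0, 1, 1, 1, 0, 0, 1]⟩,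
   ⟨[14, 14, 14, 14, 14, 12, 8, 6], 2, [([4, 4, 4, 4, 4, 4, 2, 2], (.ev, 0)), ([3, 2, 3, 4, 4, 1, 2, 1], (.pl 4, 3)), ([4, 4, 3, 3, 2, 2, 0, 0], (.ev, 0)), ([2, 0, 4, 2, 4, 0, 0, 0], (.ev, 0)), ([0, 4, 0, 1, 0, 4, 1, 0], (.ev, 0)), ([0, 0, 0, 0, 0, 0, 2, 2], (.pl 4, 3)), ([0, 0, 0, 0, 0, 1, 0, 1], (.pl 1, 0)), ([1, 0, 0, 0, 0, 0, 1, 0], (.ev, 0))], [1, 0, 1, 1, 1, 0, 0, 1]⟩,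
   ⟨[14, 14, 14, 14, 14, 12, 8, 5], 2, [([4, 4, 4, 4, 4, 4, 2, 2], (.ev, 0)), ([3, 2, 3, 4, 4, 1, 2, 1], (.pl 4, 3)), ([4, 4, 3, 3, 2, 2, 0, 0], (.ev, 0)), ([2, 0, 4, 2, 4, 0, 0, 0], (.ev, 0)), ([0, 4, 0, 1, 0, 4, 1, 0], (.ev, 0)), ([0, 0, 0, 0, 0, 0, 2, 2], (.pl 4, 3)), ([0, 0, 0, 0, 0, 1, 0, 0], (.pl 1, 1)), ([1, 0, 0, 0, 0, 0, 1, 0], (.ev, 0))], [1, 0, 1, 1, 1, 0, 0, 1]⟩,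
   ⟨[14, 14, 14, 14, 14, 12, 8, 4], 2, [([4, 4, 4, 4, 4, 4, 2, 2], (.ev, 0)), ([3, 2, 3, 4, 4, 1, 2, 1], (.pl 4, 3)), ([4, 4, 3, 3, 2, 2, 0, 0], (.ev, 0)), ([2, 0, 4, 2, 4, 0, 0, 0], (.ev, 0)), ([0, 4, 0, 1, 0, 4, 1, 0], (.ev, 0)), ([0, 0, 0, 0, 0, 0, 2, 1], (.pl 4, 4)), ([0, 0, 0, 0, 0, 1, 0, 0], (.pl 1, 1)), ([1, 0, 0, 0, 0, 0, 1, 0], (.ev, 0))], [1, 0, 1, 1, 1, 0, 0, 1]⟩,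
   ⟨[14, 14, 14, 14, 14, 12, 8, 3], 2, [([4, 4, 4, 4, 4, 4, 2, 2], (.ev, 0)), ([3, 2, 3, 4, 4, 1, 2, 0], (.pl 4, 4)), ([4, 4, 3, 3, 2, 2, 0, 0], (.ev, 0)), ([2, 0, 4, 2, 4, 0, 0, 0], (.ev, 0)), ([0, 4, 0, 1, 0, 4, 1, 0], (.ev, 0)), ([0, 0, 0, 0, 0, 0, 2, 1], (.pl 4, 4)), ([0, 0, 0, 0, 0, 1, 0, 0], (.pl 1, 1)), ([1, 0, 0, 0, 0, 0, 1, 0], (.ev, 0))], [1, 0, 1, 1, 1, 0, 0, 1]⟩,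
   ⟨[14, 14, 14, 14, 14, 12, 8, 2], 2, [([4, 4, 4, 4, 4, 4, 2, 2], (.ev, 0)), ([3, 2, 3, 4, 4, 1, 2, 0], (.pl 4, 4)), ([4, 4, 3, 3, 2, 2, 0, 0], (.ev, 0)), ([2, 0, 4, 2, 4, 0, 0, 0], (.ev, 0)), ([0, 4, 0, 1, 0, 4, 1, 0], (.ev, 0)), ([0, 0, 0, 0, 0, 0, 2, 0], (.pl 4, 5)), ([0, 0, 0, 0, 0, 1, 0, 0], (.pl 1, 1)), ([1, 0, 0, 0, 0, 0, 1, 0], (.ev, 0))], [1, 0, 1, 1, 1, 0, 0, 1]⟩,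
   ⟨[14, 14, 14, 14, 14, 12, 7, 7], 2, [([4, 4, 4, 4, 4, 4, 2, 2], (.ev, 0)), ([3, 2, 3, 4, 4, 1, 2, 1], (.pl 4, 3)), ([4, 4, 3, 3, 2, 2, 0, 0], (.ev, 0)), ([2, 0, 4, 2, 4, 0, 0, 0], (.ev, 0)), ([0, 4, 0, 1, 0, 4, 1, 0], (.ev, 0)), ([0, 0, 0, 0, 0, 0, 2, 2], (.pl 4, 3)), ([0, 0, 0, 0, 0, 1, 0, 1], (.pl 1, 0)), ([1, 0, 0, 0, 0, 0, 0, 1], (.ev, 0))], [1, 0, 1, 1, 1, 0, 0, 1]⟩,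
   ⟨[14, 14, 14, 14, 14, 12, 7, 6], 2, [([4, 4, 4, 4, 4, 4, 2, 2], (.ev, 0)), ([3, 2, 3, 3, 4, 1, 2, 2], (.pl 4, 3)), ([4, 4, 3, 3, 2, 2, 0, 0], (.ev, 0)), ([2, 0, 4, 2, 4, 0, 0, 0], (.ev, 0)), ([0, 4, 0, 1, 0, 4, 1, 0], (.ev, 0)), ([0, 0, 0, 0, 0, 0, 2, 2], (.pl 4, 3)), ([0, 0, 0, 0, 0, 1, 0, 0], (.pl 1, 1)), ([1, 0, 0, 1, 0, 0, 0, 0], (.ev, 0))], [1, 0, 1, 1, 1, 0, 0, 1]⟩,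
   ⟨[14, 14, 14, 14, 14, 12, 7, 5], 2, [([4, 4, 4, 4, 4, 4, 2, 2], (.ev, 0)), ([3, 2, 3, 3, 4, 1, 2, 2], (.pl 4, 3)), ([4, 4, 3, 3, 2, 2, 0, 0], (.ev, 0)), ([2, 0, 4, 2, 4, 0, 0, 0], (.ev, 0)), ([0, 4, 0, 1, 0, 4, 1, 0], (.ev, 0)), ([0, 0, 0, 0, 0, 0, 2, 1], (.pl 4, 4)), ([0, 0, 0, 0, 0, 1, 0, 0], (.pl 1, 1)), ([1, 0, 0, 1, 0, 0, 0, 0], (.ev, 0))], [1, 0, 1, 1, 1, 0, 0, 1]⟩,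
   ⟨[14, 14, 14, 14, 14, 12, 7, 4], 2, [([4, 4, 4, 4, 4, 4, 2, 2], (.ev, 0)), ([3, 2, 3, 3, 4, 1, 2, 1], (.pl 4, 4)), ([4, 4, 3, 3, 2, 2, 0, 0], (.ev, 0)), ([2, 0, 4, 2, 4, 0, 0, 0], (.ev, 0)), ([0, 4, 0, 1, 0, 4, 1, 0], (.ev, 0)), ([0, 0, 0, 0, 0, 0, 2, 1], (.pl 4, 4)), ([0, 0, 0, 0, 0, 1, 0, 0], (.pl 1, 1)), ([1, 0, 0, 1, 0, 0, 0, 0], (.ev, 0))], [1, 0, 1, 1, 1, 0, 0, 1]⟩,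
   ⟨[14, 14, 14, 14, 14, 12, 7, 3], 2, [([4, 4, 4, 4, 4, 4, 2, 2], (.ev, 0)), ([3, 2, 3, 3, 4, 1, 2, 1], (.pl 4, 4)), ([4, 4, 3, 3, 2, 2, 0, 0], (.ev, 0)), ([2, 0, 4, 2, 4, 0, 0, 0], (.ev, 0)), ([0, 4, 0, 1, 0, 4, 1, 0], (.ev, 0)), ([0, 0, 0, 0, 0, 0, 2, 0], (.pl 4, 5)), ([0, 0, 0, 0, 0, 1, 0, 0], (.pl 1, 1)), ([1, 0, 0, 1, 0, 0, 0, 0], (.ev, 0))], [1, 0, 1, 1, 1, 0, 0, 1]⟩,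
   ⟨[14, 14, 14, 14, 14, 12, 7, 2], 2, [([4, 4, 4, 4, 4, 4, 2, 2], (.ev, 0)), ([3, 2, 3, 3, 4, 1, 2, 0], (.pl 4, 5)), ([4, 4, 3, 3, 2, 2, 0, 0], (.ev, 0)), ([2, 0, 4, 2, 4, 0, 0, 0], (.ev, 0)), ([0, 4, 0, 1, 0, 4, 1, 0], (.ev, 0)), ([0, 0, 0, 0, 0, 0, 2, 0], (.pl 4, 5)), ([0, 0, 0, 0, 0, 1, 0, 0], (.pl 1, 1)), ([1, 0, 0, 1, 0, 0, 0, 0], (.ev, 0))], [1, 0, 1, 1, 1, 0, 0, 1]⟩,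
   ⟨[14, 14, 14, 14, 14, 12, 6], 2, [([4, 4, 4, 4, 2, 2, 0], (.ev, 8)), ([2, 4, 3, 4, 3, 2, 2], (.pl 4, 3)), ([4, 3, 3, 2, 4, 2, 0], (.ev, 0)), ([0, 2, 0, 4, 4, 2, 0], (.ev, 0)), ([4, 0, 4, 0, 0, 1, 1], (.ev, 0)), ([0, 0, 0, 0, 0, 2, 2], (.pl 4, 3)), ([0, 0, 0, 0, 1, 0, 1], (.pl 1, 0)), ([0, 1, 0, 0, 0, 1, 0], (.ev, 0))], [2, 1, 1, 1, 1, 0, 0, 1]⟩,
   ⟨[14, 14, 14, 14, 14, 12, 5], 2, [([4, 4, 4, 4, 2, 2, 0], (.ev, 8)), ([2, 4, 3, 4, 3, 2, 2], (.pl 4, 3)), ([4, 3, 3, 2, 4, 2, 0], (.ev, 0)), ([0, 2, 0, 4, 4, 2, 0], (.ev, 0)), ([4, 1, 4, 0, 0, 1, 0], (.ev, 0)), ([0, 0, 0, 0, 0, 2, 2], (.pl 4, 3)), ([0, 0, 0, 0, 1, 0, 0], (.pl 1, 1)), ([0, 0, 0, 0, 0, 1, 1], (.ev, 0))], [2, 0, 1, 1, 1, 0, 1, 1]⟩,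
   ⟨[14, 14, 14, 14, 14, 12, 4], 2, [([4, 4, 4, 4, 2, 2, 0], (.ev, 8)), ([2, 3, 3, 4, 4, 2, 2], (.pl 4, 3)), ([4, 3, 3, 2, 4, 2, 0], (.ev, 0)), ([0, 2, 0, 4, 4, 2, 0], (.ev, 0)), ([4, 1, 4, 0, 0, 1, 0], (.ev, 0)), ([0, 0, 0, 0, 0, 1, 2], (.pl 4, 4)), ([0, 0, 0, 0, 0, 1, 0], (.pl 1, 1)), ([0, 1, 0, 0, 0, 1, 0], (.ev, 0))], [2, 0, 1, 1, 1, 0, 1, 1]⟩,
   ⟨[14, 14, 14, 14, 14, 12, 3], 2, [([4, 4, 4, 4, 2, 2, 0], (.ev, 8)), ([2, 3, 3, 4, 4, 2, 1], (.pl 4, 4)), ([4, 3, 3, 2, 4, 2, 0], (.ev, 0)), ([0, 2, 0, 4, 4, 2, 0], (.ev, 0)), ([4, 1, 4, 0, 0, 1, 0], (.ev, 0)), ([0, 0, 0, 0, 0, 1, 2], (.pl 4, 4)), ([0, 0, 0, 0, 0, 1, 0], (.pl 1, 1)), ([0, 1, 0, 0, 0, 1, 0], (.ev, 0))], [2, 0, 1, 1, 1, 0, 1, 1]⟩,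
   ⟨[14, 14, 14, 14, 14, 11], 2, [([4, 4, 4, 4, 2, 2], (.ev, 8)), ([2, 4, 4, 4, 3, 1], (.pl 4, 5)), ([4, 3, 3, 2, 4, 2], (.ev, 0)), ([0, 2, 2, 4, 4, 0], (.ev, 0)), ([4, 1, 1, 0, 0, 4], (.ev, 0)), ([0, 0, 0, 0, 0, 2], (.pl 4, 5)), ([0, 0, 0, 0, 1, 0], (.pl 1, 1)), ([0, 0, 0, 0, 0, 0], (.ev, 2))], [1, 0, 1, 1, 1, 0, 0, 1]⟩,
   ⟨[14, 14, 14, 14, 14, 10], 2, [([4, 4, 4, 4, 2, 2], (.ev, 8)), ([2, 3, 3, 4, 4, 1], (.pl 4, 6)), ([4, 3, 3, 2, 4, 2], (.ev, 0)), ([0, 2, 2, 4, 4, 0], (.ev, 0)), ([4, 1, 1, 0, 0, 4], (.ev, 0)), ([0, 0, 0, 0, 0, 0], (.pl 4, 7)), ([0, 0, 0, 0, 0, 1], (.pl 1, 1)), ([0, 1, 1, 0, 0, 0], (.ev, 0))], [1, 0, 1, 1, 1, 0, 0, 1]⟩,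
   ⟨[14, 14, 14, 14, 14, 9], 2, [([4, 4, 4, 4, 2, 2], (.ev, 8)), ([2, 1, 3, 3, 4, 3], (.pl 4, 7)), ([4, 3, 3, 2, 4, 2], (.ev, 0)), ([0, 2, 2, 4, 4, 0], (.ev, 0)), ([4, 4, 1, 0, 0, 1], (.ev, 0)), ([0, 0, 0, 0, 0, 0], (.pl 4, 7)), ([0, 0, 0, 0, 0, 1], (.pl 1, 1)), ([0, 0, 1, 1, 0, 0], (.ev, 0))], [1, 0, 1, 1, 1, 0, 0, 1]⟩,
   ⟨[14, 14, 14, 14, 14, 8], 2, [([4, 4, 4, 4, 2, 2], (.ev, 8)), ([2, 1, 3, 3, 3, 4], (.pl 4, 7)), ([4, 3, 3, 2, 4, 2], (.ev, 0)), ([0, 2, 2, 4, 4, 0], (.ev, 0)), ([4, 4, 1, 1, 0, 0], (.ev, 0)), ([0, 0, 0, 0, 0, 0], (.pl 4, 7)), ([0, 0, 0, 0, 0, 0], (.pl 1, 2)), ([0, 0, 1, 0, 1, 0], (.ev, 0))], [1, 0, 1, 1, 1, 0, 0, 1]⟩,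
   ⟨[14, 14, 14, 14, 14, 7], 2, [([4, 4, 4, 4, 2, 2], (.ev, 8)), ([2, 1, 3, 3, 3, 3], (.pl 4, 8)), ([4, 3, 3, 2, 4, 2], (.ev, 0)), ([0, 2, 2, 4, 4, 0], (.ev, 0)), ([4, 4, 1, 1, 0, 0], (.ev, 0)), ([0, 0, 0, 0, 0, 0], (.pl 4, 7)), ([0, 0, 0, 0, 0, 0], (.pl 1, 2)), ([0, 0, 1, 0, 1, 0], (.ev, 0))], [1, 0, 1, 1, 1, 0, 0, 1]⟩,
   ⟨[14, 14, 14, 14, 14, 6], 2, [([4, 4, 4, 4, 2, 2], (.ev, 8)), ([2, 1, 3, 3, 3, 2], (.pl 4, 9)), ([4, 3, 3, 2, 4, 2], (.ev, 0)), ([0, 2, 2, 4, 4, 0], (.ev, 0)), ([4, 4, 1, 1, 0, 0], (.ev, 0)), ([0, 0, 0, 0, 0, 0], (.pl 4, 7)), ([0, 0, 0, 0, 0, 0], (.pl 1, 2)), ([0, 0, 1, 0, 1, 0], (.ev, 0))], [1, 0, 1, 1, 1, 0, 0, 1]⟩,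
   ⟨[14, 14, 14, 14, 14, 5], 2, [([4, 4, 4, 4, 2, 2], (.ev, 8)), ([2, 1, 3, 3, 3, 1], (.pl 4, 10)), ([4, 3, 3, 2, 4, 2], (.ev, 0)), ([0, 2, 2, 4, 4, 0], (.ev, 0)), ([4, 4, 1, 1, 0, 0], (.ev, 0)), ([0, 0, 0, 0, 0, 0], (.pl 4, 7)), ([0, 0, 0, 0, 0, 0], (.pl 1, 2)), ([0, 0, 1, 0, 1, 0], (.ev, 0))], [1, 0, 1, 1, 1, 0, 0, 1]⟩,
   ⟨[14, 14, 14, 14, 14, 4], 2, [([4, 4, 4, 4, 2, 2], (.ev, 8)), ([2, 1, 3, 3, 3, 0], (.pl 4, 11)), ([4, 3, 3, 2, 4, 2], (.ev, 0)), ([0, 2, 2, 4, 4, 0], (.ev, 0)), ([4, 4, 1, 1, 0, 0], (.ev, 0)), ([0, 0, 0, 0, 0, 0], (.pl 4, 7)), ([0, 0, 0, 0, 0, 0], (.pl 1, 2)), ([0, 0, 1, 0, 1, 0], (.ev, 0))], [1, 0, 1, 1, 1, 0, 0, 1]⟩,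
   ⟨[14, 14, 14, 14, 13, 13, 13, 1], 2, [([4, 4, 4, 4, 2, 2, 1, 1], (.ev, 6)), ([3, 4, 4, 4, 4, 2, 2, 0], (.pl 4, 0)), ([3, 2, 2, 0, 4, 3, 4, 0], (.ev, 0)), ([0, 4, 2, 4, 0, 2, 0, 0], (.ev, 0)), ([4, 0, 1, 0, 1, 0, 4, 0], (.ev, 0)), ([0, 0, 0, 1, 1, 3, 2, 0], (.pl 4, 0)), ([0, 0, 1, 0, 0, 1, 0, 0], (.pl 1, 0)), ([0, 0, 0, 1, 1, 0, 0, 0], (.ev, 0))], [1, 0, 1, 1, 1, 0, 0, 1]⟩,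
   ⟨[14, 14, 14, 14, 13, 13, 12, 2], 2, [([4, 4, 4, 4, 4, 4, 2, 2], (.ev, 0)), ([2, 4, 4, 4, 2, 3, 1, 0], (.pl 4, 3)), ([4, 4, 3, 3, 2, 0, 2, 0], (.ev, 0)), ([0, 0, 2, 2, 0, 4, 4, 0], (.ev, 0)), ([4, 1, 1, 0, 4, 0, 0, 0], (.ev, 0)), ([0, 0, 0, 0, 0, 2, 2, 0], (.pl 4, 3)), ([0, 0, 0, 0, 1, 0, 1, 0], (.pl 1, 0)), ([0, 1, 0, 1, 0, 0, 0, 0], (.ev, 0))], [1, 0, 1, 1, 1, 0, 0, 1]⟩,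
   ⟨[14, 14, 14, 14, 13, 13, 12, 1], 2, [([4, 4, 4, 4, 2, 2, 1, 1], (.ev, 6)), ([3, 4, 4, 4, 3, 2, 3, 0], (.pl 4, 0)), ([3, 2, 2, 0, 4, 4, 3, 0], (.ev, 0)), ([0, 4, 2, 4, 0, 0, 2, 0], (.ev, 0)), ([4, 0, 1, 0, 4, 1, 0, 0], (.ev, 0)), ([0, 0, 0, 1, 0, 3, 2, 0], (.pl 4, 1)), ([0, 0, 1, 0, 0, 0, 1, 0], (.pl 1, 0)), ([0, 0, 0, 1, 0, 1, 0, 0], (.ev, 0))], [1, 0, 1, 1, 1, 0, 0, 1]⟩,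
   ⟨[14, 14, 14, 14, 13, 13, 11, 3], 2, [([4, 4, 4, 4, 4, 4, 2, 2], (.ev, 0)), ([2, 4, 3, 4, 3, 2, 2, 0], (.pl 4, 3)), ([4, 4, 3, 3, 2, 2, 0, 0], (.ev, 0)), ([0, 0, 4, 2, 2, 0, 4, 0], (.ev, 0)), ([4, 1, 0, 1, 0, 4, 0, 0], (.ev, 0)), ([0, 0, 0, 0, 0, 1, 3, 0], (.pl 4, 3)), ([0, 0, 0, 0, 1, 0, 0, 1], (.pl 1, 0)), ([0, 1, 0, 0, 1, 0, 0, 0], (.ev, 0))], [1, 0, 1, 1, 1, 0, 0, 1]⟩,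
   ⟨[14, 14, 14, 14, 13, 13, 11, 2], 2, [([4, 4, 4, 4, 4, 4, 2, 2], (.ev, 0)), ([2, 4, 3, 4, 3, 2, 2, 0], (.pl 4, 3)), ([4, 4, 3, 3, 2, 2, 0, 0], (.ev, 0)), ([0, 0, 4, 2, 2, 0, 4, 0], (.ev, 0)), ([4, 1, 0, 1, 0, 4, 0, 0], (.ev, 0)), ([0, 0, 0, 0, 0, 1, 3, 0], (.pl 4, 3)), ([0, 0, 0, 0, 1, 0, 0, 0], (.pl 1, 1)), ([0, 1, 0, 0, 1, 0, 0, 0], (.ev, 0))], [1, 0, 1, 1, 1, 0, 0, 1]⟩,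
   ⟨[14, 14, 14, 14, 13, 13, 10, 4], 2, [([4, 4, 4, 4, 4, 4, 2, 2], (.ev, 0)), ([2, 4, 3, 4, 3, 2, 2, 0], (.pl 4, 3)), ([4, 4, 3, 3, 2, 2, 0, 0], (.ev, 0)), ([0, 0, 4, 2, 2, 0, 4, 0], (.ev, 0)), ([4, 1, 0, 1, 0, 4, 0, 0], (.ev, 0)), ([0, 0, 0, 0, 0, 1, 2, 1], (.pl 4, 3)), ([0, 0, 0, 0, 1, 0, 0, 1], (.pl 1, 0)), ([0, 1, 0, 0, 1, 0, 0, 0], (.ev, 0))], [1, 0, 1, 1, 1, 0, 0, 1]⟩,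
   ⟨[14, 14, 14, 14, 13, 13, 10, 3], 2, [([4, 4, 4, 4, 4, 4, 2, 2], (.ev, 0)), ([2, 4, 3, 4, 3, 2, 2, 0], (.pl 4, 3)), ([4, 4, 3, 3, 2, 2, 0, 0], (.ev, 0)), ([0, 0, 4, 2, 2, 0, 4, 0], (.ev, 0)), ([4, 1, 0, 1, 0, 4, 0, 0], (.ev, 0)), ([0, 0, 0, 0, 0, 1, 2, 1], (.pl 4, 3)), ([0, 0, 0, 0, 1, 0, 0, 0], (.pl 1, 1)), ([0, 1, 0, 0, 1, 0, 0, 0], (.ev, 0))], [1, 0, 1, 1, 1, 0, 0, 1]⟩,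
   ⟨[14, 14, 14, 14, 13, 13, 10, 2], 2, [([4, 4, 4, 4, 4, 4, 2, 2], (.ev, 0)), ([2, 4, 3, 4, 3, 2, 2, 0], (.pl 4, 3)), ([4, 4, 3, 3, 2, 2, 0, 0], (.ev, 0)), ([0, 0, 4, 2, 2, 0, 4, 0], (.ev, 0)), ([4, 1, 0, 1, 0, 4, 0, 0], (.ev, 0)), ([0, 0, 0, 0, 0, 1, 2, 0], (.pl 4, 4)), ([0, 0, 0, 0, 1, 0, 0, 0], (.pl 1, 1)), ([0, 1, 0, 0, 1, 0, 0, 0], (.ev, 0))], [1, 0, 1, 1, 1, 0, 0, 1]⟩,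
   ⟨[14, 14, 14, 14, 13, 13, 9, 5], 2, [([4, 4, 4, 4, 4, 4, 2, 2], (.ev, 0)), ([2, 4, 3, 3, 4, 2, 1, 1], (.pl 4, 3)), ([4, 4, 3, 3, 2, 2, 0, 0], (.ev, 0)), ([0, 0, 4, 4, 2, 2, 0, 0], (.ev, 0)), ([4, 1, 0, 0, 1, 0, 4, 0], (.ev, 0)), ([0, 0, 0, 0, 0, 1, 2, 1], (.pl 4, 3)), ([0, 0, 0, 0, 0, 1, 0, 1], (.pl 1, 0)), ([0, 1, 0, 0, 0, 1, 0, 0], (.ev, 0))], [1, 0, 1, 1, 1, 0, 0, 1]⟩,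
   ⟨[14, 14, 14, 14, 13, 13, 9, 4], 2, [([4, 4, 4, 4, 4, 4, 2, 2], (.ev, 0)), ([2, 4, 3, 3, 4, 2, 1, 1], (.pl 4, 3)), ([4, 4, 3, 3, 2, 2, 0, 0], (.ev, 0)), ([0, 0, 4, 4, 2, 2, 0, 0], (.ev, 0)), ([4, 1, 0, 0, 1, 0, 4, 0], (.ev, 0)), ([0, 0, 0, 0, 0, 1, 2, 1], (.pl 4, 3)), ([0, 0, 0, 0, 0, 1, 0, 0], (.pl 1, 1)), ([0, 1, 0, 0, 0, 1, 0, 0], (.ev, 0))], [1, 0, 1, 1, 1, 0, 0, 1]⟩,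
   ⟨[14, 14, 14, 14, 13, 13, 9, 3], 2, [([4, 4, 4, 4, 4, 4, 2, 2], (.ev, 0)), ([2, 4, 3, 3, 4, 2, 1, 1], (.pl 4, 3)), ([4, 4, 3, 3, 2, 2, 0, 0], (.ev, 0)), ([0, 0, 4, 4, 2, 2, 0, 0], (.ev, 0)), ([4, 1, 0, 0, 1, 0, 4, 0], (.ev, 0)), ([0, 0, 0, 0, 0, 1, 2, 0], (.pl 4, 4)), ([0, 0, 0, 0, 0, 1, 0, 0], (.pl 1, 1)), ([0, 1, 0, 0, 0, 1, 0, 0], (.ev, 0))], [1, 0, 1, 1, 1, 0, 0, 1]⟩,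
   ⟨[14, 14, 14, 14, 13, 13, 9, 2], 2, [([4, 4, 4, 4, 4, 4, 2, 2], (.ev, 0)), ([2, 4, 3, 3, 4, 2, 1, 0], (.pl 4, 4)), ([4, 4, 3, 3, 2, 2, 0, 0], (.ev, 0)), ([0, 0, 4, 4, 2, 2, 0, 0], (.ev, 0)), ([4, 1, 0, 0, 1, 0, 4, 0], (.ev, 0)), ([0, 0, 0, 0, 0, 1, 2, 0], (.pl 4, 4)), ([0, 0, 0, 0, 0, 1, 0, 0], (.pl 1, 1)), ([0, 1, 0, 0, 0, 1, 0, 0], (.ev, 0))], [1, 0, 1, 1, 1, 0, 0, 1]⟩,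
   ⟨[14, 14, 14, 14, 13, 13, 8, 6], 2, [([4, 4, 4, 4, 4, 4, 2, 2], (.ev, 0)), ([2, 2, 3, 3, 4, 3, 2, 1], (.pl 4, 3)), ([4, 4, 3, 3, 2, 2, 0, 0], (.ev, 0)), ([0, 0, 4, 4, 2, 2, 0, 0], (.ev, 0)), ([4, 4, 0, 0, 1, 0, 1, 0], (.ev, 0)), ([0, 0, 0, 0, 0, 0, 2, 2], (.pl 4, 3)), ([0, 0, 0, 0, 0, 1, 0, 1], (.pl 1, 0)), ([0, 0, 0, 0, 0, 1, 1, 0], (.ev, 0))], [1, 0, 1, 1, 1, 0, 0, 1]⟩,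
   ⟨[14, 14, 14, 14, 13, 13, 8, 5], 2, [([4, 4, 4, 4, 4, 4, 2, 2], (.ev, 0)), ([2, 2, 3, 3, 4, 3, 2, 1], (.pl 4, 3)), ([4, 4, 3, 3, 2, 2, 0, 0], (.ev, 0)), ([0, 0, 4, 4, 2, 2, 0, 0], (.ev, 0)), ([4, 4, 0, 0, 1, 0, 1, 0], (.ev, 0)), ([0, 0, 0, 0, 0, 0, 2, 2], (.pl 4, 3)), ([0, 0, 0, 0, 0, 1, 0, 0], (.pl 1, 1)), ([0, 0, 0, 0, 0, 1, 1, 0], (.ev, 0))], [1, 0, 1, 1, 1, 0, 0, 1]⟩,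
   ⟨[14, 14, 14, 14, 13, 13, 8, 4], 2, [([4, 4, 4, 4, 4, 4, 2, 2], (.ev, 0)), ([2, 2, 3, 3, 4, 3, 2, 1], (.pl 4, 3)), ([4, 4, 3, 3, 2, 2, 0, 0], (.ev, 0)), ([0, 0, 4, 4, 2, 2, 0, 0], (.ev, 0)), ([4, 4, 0, 0, 1, 0, 1, 0], (.ev, 0)), ([0, 0, 0, 0, 0, 0, 2, 1], (.pl 4, 4)), ([0, 0, 0, 0, 0, 1, 0, 0], (.pl 1, 1)), ([0, 0, 0, 0, 0, 1, 1, 0], (.ev, 0))], [1, 0, 1, 1, 1, 0, 0, 1]⟩,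
   ⟨[14, 14, 14, 14, 13, 13, 8, 3], 2, [([4, 4, 4, 4, 4, 4, 2, 2], (.ev, 0)), ([2, 2, 3, 3, 4, 3, 2, 0], (.pl 4, 4)), ([4, 4, 3, 3, 2, 2, 0, 0], (.ev, 0)), ([0, 0, 4, 4, 2, 2, 0, 0], (.ev, 0)), ([4, 4, 0, 0, 1, 0, 1, 0], (.ev, 0)), ([0, 0, 0, 0, 0, 0, 2, 1], (.pl 4, 4)), ([0, 0, 0, 0, 0, 1, 0, 0], (.pl 1, 1)), ([0, 0, 0, 0, 0, 1, 1, 0], (.ev, 0))], [1, 0, 1, 1, 1, 0, 0, 1]⟩,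
   ⟨[14, 14, 14, 14, 13, 13, 8, 2], 2, [([4, 4, 4, 4, 4, 4, 2, 2], (.ev, 0)), ([2, 2, 3, 3, 4, 3, 2, 0], (.pl 4, 4)), ([4, 4, 3, 3, 2, 2, 0, 0], (.ev, 0)), ([0, 0, 4, 4, 2, 2, 0, 0], (.ev, 0)), ([4, 4, 0, 0, 1, 0, 1, 0], (.ev, 0)), ([0, 0, 0, 0, 0, 0, 2, 0], (.pl 4, 5)), ([0, 0, 0, 0, 0, 1, 0, 0], (.pl 1, 1)), ([0, 0, 0, 0, 0, 1, 1, 0], (.ev, 0))], [1, 0, 1, 1, 1, 0, 0, 1]⟩,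
   ⟨[14, 14, 14, 14, 13, 13, 7, 7], 2, [([4, 4, 4, 4, 4, 4, 2, 2], (.ev, 0)), ([2, 2, 3, 3, 4, 3, 2, 1], (.pl 4, 3)), ([4, 4, 3, 3, 2, 2, 0, 0], (.ev, 0)), ([0, 0, 4, 4, 2, 2, 0, 0], (.ev, 0)), ([4, 4, 0, 0, 1, 1, 0, 0], (.ev, 0)), ([0, 0, 0, 0, 0, 0, 2, 2], (.pl 4, 3)), ([0, 0, 0, 0, 0, 1, 0, 1], (.pl 1, 0)), ([0, 0, 0, 0, 0, 0, 1, 1], (.ev, 0))], [1, 0, 1, 1, 1, 0, 0, 1]⟩,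
   ⟨[14, 14, 14, 14, 13, 13, 7, 6], 2, [([4, 4, 4, 4, 4, 4, 2, 2], (.ev, 0)), ([2, 2, 3, 3, 3, 3, 2, 2], (.pl 4, 3)), ([4, 4, 3, 3, 2, 2, 0, 0], (.ev, 0)), ([0, 0, 4, 4, 2, 2, 0, 0], (.ev, 0)), ([4, 4, 0, 0, 1, 1, 0, 0], (.ev, 0)), ([0, 0, 0, 0, 0, 0, 2, 2], (.pl 4, 3)), ([0, 0, 0, 0, 0, 1, 0, 0], (.pl 1, 1)), ([0, 0, 0, 0, 1, 0, 1, 0], (.ev, 0))], [1, 0, 1, 1, 1, 0, 0, 1]⟩,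
   ⟨[14, 14, 14, 14, 13, 13, 7, 5], 2, [([4, 4, 4, 4, 4, 4, 2, 2], (.ev, 0)), ([2, 2, 3, 3, 3, 3, 2, 2], (.pl 4, 3)), ([4, 4, 3, 3, 2, 2, 0, 0], (.ev, 0)), ([0, 0, 4, 4, 2, 2, 0, 0], (.ev, 0)), ([4, 4, 0, 0, 1, 1, 0, 0], (.ev, 0)), ([0, 0, 0, 0, 0, 0, 2, 1], (.pl 4, 4)), ([0, 0, 0, 0, 0, 1, 0, 0], (.pl 1, 1)), ([0, 0, 0, 0, 1, 0, 1, 0], (.ev, 0))], [1, 0, 1, 1, 1, 0, 0, 1]⟩,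
   ⟨[14, 14, 14, 14, 13, 13, 7, 4], 2, [([4, 4, 4, 4, 4, 4, 2, 2], (.ev, 0)), ([2, 2, 3, 3, 3, 3, 2, 1], (.pl 4, 4)), ([4, 4, 3, 3, 2, 2, 0, 0], (.ev, 0)), ([0, 0, 4, 4, 2, 2, 0, 0], (.ev, 0)), ([4, 4, 0, 0, 1, 1, 0, 0], (.ev, 0)), ([0, 0, 0, 0, 0, 0, 2, 1], (.pl 4, 4)), ([0, 0, 0, 0, 0, 1, 0, 0], (.pl 1, 1)), ([0, 0, 0, 0, 1, 0, 1, 0], (.ev, 0))], [1, 0, 1, 1, 1, 0, 0, 1]⟩,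
   ⟨[14, 14, 14, 14, 13, 13, 7, 3], 2, [([4, 4, 4, 4, 4, 4, 2, 2], (.ev, 0)), ([2, 2, 3, 3, 3, 3, 2, 1], (.pl 4, 4)), ([4, 4, 3, 3, 2, 2, 0, 0], (.ev, 0)), ([0, 0, 4, 4, 2, 2, 0, 0], (.ev, 0)), ([4, 4, 0, 0, 1, 1, 0, 0], (.ev, 0)), ([0, 0, 0, 0, 0, 0, 2, 0], (.pl 4, 5)), ([0, 0, 0, 0, 0, 1, 0, 0], (.pl 1, 1)), ([0, 0, 0, 0, 1, 0, 1, 0], (.ev, 0))], [1, 0, 1, 1, 1, 0, 0, 1]⟩,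
   ⟨[14, 14, 14, 14, 13, 13, 7, 2], 2, [([4, 4, 4, 4, 4, 4, 2, 2], (.ev, 0)), ([2, 2, 3, 3, 3, 3, 2, 0], (.pl 4, 5)), ([4, 4, 3, 3, 2, 2, 0, 0], (.ev, 0)), ([0, 0, 4, 4, 2, 2, 0, 0], (.ev, 0)), ([4, 4, 0, 0, 1, 1, 0, 0], (.ev, 0)), ([0, 0, 0, 0, 0, 0, 2, 0], (.pl 4, 5)), ([0, 0, 0, 0, 0, 1, 0, 0], (.pl 1, 1)), ([0, 0, 0, 0, 1, 0, 1, 0], (.ev, 0))], [1, 0, 1, 1, 1, 0, 0, 1]⟩,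
   ⟨[14, 14, 14, 14, 13, 13, 6], 2, [([4, 4, 4, 4, 2, 2, 0], (.ev, 8)), ([4, 4, 4, 4, 1, 2, 1], (.pl 4, 3)), ([3, 3, 2, 2, 4, 4, 0], (.ev, 0)), ([2, 2, 4, 4, 0, 0, 0], (.ev, 0)), ([1, 0, 0, 0, 4, 4, 1], (.ev, 0)), ([0, 0, 0, 0, 1, 1, 2], (.pl 4, 3)), ([0, 0, 0, 0, 1, 0, 1], (.pl 1, 0)), ([0, 1, 0, 0, 0, 0, 1], (.ev, 0))], [2, 1, 1, 1, 1, 0, 0, 1]⟩,
   ⟨[14, 14, 14, 14, 13, 13, 5], 2, [([4, 4, 4, 4, 2, 2, 0], (.ev, 8)), ([3, 4, 4, 4, 2, 1, 2], (.pl 4, 3)), ([3, 3, 2, 2, 4, 4, 0], (.ev, 0)), ([2, 2, 4, 4, 0, 0, 0], (.ev, 0)), ([1, 1, 0, 0, 4, 4, 0], (.ev, 0)), ([0, 0, 0, 0, 0, 2, 2], (.pl 4, 3)), ([0, 0, 0, 0, 1, 0, 0], (.pl 1, 1)), ([1, 0, 0, 0, 0, 0, 1], (.ev, 0))], [2, 0, 1, 1, 1, 0, 1, 1]⟩,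
   ⟨[14, 14, 14, 14, 13, 13, 4], 2, [([4, 4, 4, 4, 2, 2, 0], (.ev, 8)), ([3, 3, 4, 4, 2, 2, 2], (.pl 4, 3)), ([3, 3, 2, 2, 4, 4, 0], (.ev, 0)), ([2, 2, 4, 4, 0, 0, 0], (.ev, 0)), ([1, 1, 0, 0, 4, 4, 0], (.ev, 0)), ([0, 0, 0, 0, 0, 1, 2], (.pl 4, 4)), ([0, 0, 0, 0, 1, 0, 0], (.pl 1, 1)), ([1, 1, 0, 0, 0, 0, 0], (.ev, 0))], [2, 0, 1, 1, 1, 0, 1, 1]⟩,
   ⟨[14, 14, 14, 14, 13, 13, 3], 2, [([4, 4, 4, 4, 2, 2, 0], (.ev, 8)), ([3, 3, 4, 4, 2, 2, 1], (.pl 4, 4)), ([3, 3, 2, 2, 4, 4, 0], (.ev, 0)), ([2, 2, 4, 4, 0, 0, 0], (.ev, 0)), ([1, 1, 0, 0, 4, 4, 0], (.ev, 0)), ([0, 0, 0, 0, 0, 1, 2], (.pl 4, 4)), ([0, 0, 0, 0, 1, 0, 0], (.pl 1, 1)), ([1, 1, 0, 0, 0, 0, 0], (.ev, 0))], [2, 0, 1, 1, 1, 0, 1, 1]⟩,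
   ⟨[14, 14, 14, 14, 13, 12], 2, [([4, 4, 4, 4, 2, 2], (.ev, 8)), ([2, 4, 4, 4, 3, 2], (.pl 4, 4)), ([4, 3, 3, 2, 4, 2], (.ev, 0)), ([0, 2, 2, 4, 0, 4], (.ev, 0)), ([4, 0, 0, 0, 4, 0], (.ev, 2)), ([0, 0, 1, 0, 0, 2], (.pl 4, 4)), ([0, 1, 0, 0, 0, 0], (.pl 1, 1)), ([0, 0, 0, 0, 0, 0], (.ev, 2))], [1, 0, 1, 1, 1, 0, 0, 1]⟩,
   ⟨[14, 14, 14, 14, 13, 11], 2, [([4, 4, 4, 4, 2, 2], (.ev, 8)), ([2, 3, 4, 4, 3, 2], (.pl 4, 5)), ([4, 3, 3, 2, 4, 2], (.ev, 0)), ([0, 4, 2, 4, 2, 0], (.ev, 0)), ([4, 0, 1, 0, 1, 4], (.ev, 0)), ([0, 0, 0, 0, 0, 1], (.pl 4, 6)), ([0, 0, 0, 0, 1, 0], (.pl 1, 1)), ([0, 0, 0, 0, 0, 0], (.ev, 2))], [1, 0, 1, 1, 1, 0, 0, 1]⟩,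
   ⟨[14, 14, 14, 14, 13, 10], 2, [([4, 4, 4, 4, 2, 2], (.ev, 8)), ([2, 3, 3, 3, 4, 1], (.pl 4, 7)), ([4, 3, 3, 2, 4, 2], (.ev, 0)), ([0, 4, 2, 4, 2, 0], (.ev, 0)), ([4, 0, 1, 0, 1, 4], (.ev, 0)), ([0, 0, 0, 0, 0, 0], (.pl 4, 7)), ([0, 0, 0, 0, 0, 1], (.pl 1, 1)), ([0, 0, 1, 1, 0, 0], (.ev, 0))], [1, 0, 1, 1, 1, 0, 0, 1]⟩,
   ⟨[14, 14, 14, 14, 13, 9], 2, [([4, 4, 4, 4, 2, 2], (.ev, 8)), ([2, 3, 1, 3, 3, 4], (.pl 4, 7)), ([4, 3, 3, 2, 4, 2], (.ev, 0)), ([0, 4, 2, 4, 2, 0], (.ev, 0)), ([4, 0, 4, 0, 1, 1], (.ev, 0)), ([0, 0, 0, 0, 0, 0], (.pl 4, 7)), ([0, 0, 0, 0, 0, 0], (.pl 1, 2)), ([0, 0, 0, 1, 1, 0], (.ev, 0))], [1, 0, 1, 1, 1, 0, 0, 1]⟩,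
   ⟨[14, 14, 14, 14, 13, 8], 2, [([4, 4, 4, 4, 2, 2], (.ev, 8)), ([2, 3, 1, 3, 3, 3], (.pl 4, 8)), ([4, 3, 3, 2, 4, 2], (.ev, 0)), ([0, 4, 2, 4, 2, 0], (.ev, 0)), ([4, 0, 4, 1, 1, 0], (.ev, 0)), ([0, 0, 0, 0, 0, 0], (.pl 4, 7)), ([0, 0, 0, 0, 0, 0], (.pl 1, 2)), ([0, 0, 0, 0, 1, 1], (.ev, 0))], [1, 0, 1, 1, 1, 0, 0, 1]⟩,
   ⟨[14, 14, 14, 14, 13, 7], 2, [([4, 4, 4, 4, 2, 2], (.ev, 8)), ([2, 2, 1, 3, 3, 3], (.pl 4, 9)), ([4, 3, 3, 2, 4, 2], (.ev, 0)), ([0, 4, 2, 4, 2, 0], (.ev, 0)), ([4, 0, 4, 1, 1, 0], (.ev, 0)), ([0, 0, 0, 0, 0, 0], (.pl 4, 7)), ([0, 0, 0, 0, 0, 0], (.pl 1, 2)), ([0, 1, 0, 0, 1, 0], (.ev, 0))], [1, 0, 1, 1, 1, 0, 0, 1]⟩,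
   ⟨[14, 14, 14, 14, 13, 6], 2, [([4, 4, 4, 4, 2, 2], (.ev, 8)), ([2, 2, 1, 3, 3, 2], (.pl 4, 10)), ([4, 3, 3, 2, 4, 2], (.ev, 0)), ([0, 4, 2, 4, 2, 0], (.ev, 0)), ([4, 0, 4, 1, 1, 0], (.ev, 0)), ([0, 0, 0, 0, 0, 0], (.pl 4, 7)), ([0, 0, 0, 0, 0, 0], (.pl 1, 2)), ([0, 1, 0, 0, 1, 0], (.ev, 0))], [1, 0, 1, 1, 1, 0, 0, 1]⟩,
   ⟨[14, 14, 14, 14, 13, 5], 2, [([4, 4, 4, 4, 2, 2], (.ev, 8)), ([2, 2, 1, 3, 3, 1], (.pl 4, 11)), ([4, 3, 3, 2, 4, 2], (.ev, 0)), ([0, 4, 2, 4, 2, 0], (.ev, 0)), ([4, 0, 4, 1, 1, 0], (.ev, 0)), ([0, 0, 0, 0, 0, 0], (.pl 4, 7)), ([0, 0, 0, 0, 0, 0], (.pl 1, 2)), ([0, 1, 0, 0, 1, 0], (.ev, 0))], [1, 0, 1, 1, 1, 0, 0, 1]⟩,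
   ⟨[14, 14, 14, 14, 13, 4], 2, [([4, 4, 4, 4, 2, 2], (.ev, 8)), ([2, 2, 1, 3, 3, 0], (.pl 4, 12)), ([4, 3, 3, 2, 4, 2], (.ev, 0)), ([0, 4, 2, 4, 2, 0], (.ev, 0)), ([4, 0, 4, 1, 1, 0], (.ev, 0)), ([0, 0, 0, 0, 0, 0], (.pl 4, 7)), ([0, 0, 0, 0, 0, 0], (.pl 1, 2)), ([0, 1, 0, 0, 1, 0], (.ev, 0))], [1, 0, 1, 1, 1, 0, 0, 1]⟩,
   ⟨[14, 14, 14, 14, 12, 12], 2, [([4, 4, 4, 4, 2, 2], (.ev, 8)), ([2, 2, 4, 4, 4, 3], (.pl 4, 4)), ([4, 4, 3, 3, 2, 2], (.ev, 0)), ([0, 0, 2, 2, 4, 4], (.ev, 0)), ([4, 4, 0, 0, 0, 0], (.ev, 2)), ([0, 0, 0, 1, 0, 1], (.pl 4, 5)), ([0, 0, 1, 0, 0, 0], (.pl 1, 1)), ([0, 0, 0, 0, 0, 0], (.ev, 2))], [1, 0, 1, 1, 1, 0, 0, 1]⟩,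
   ⟨[14, 14, 14, 14, 12, 11], 2, [([4, 4, 4, 4, 2, 2], (.ev, 8)), ([2, 2, 3, 4, 4, 2], (.pl 4, 6)), ([4, 4, 3, 3, 2, 2], (.ev, 0)), ([0, 0, 4, 2, 4, 2], (.ev, 0)), ([4, 4, 0, 1, 0, 1], (.ev, 0)), ([0, 0, 0, 0, 0, 1], (.pl 4, 6)), ([0, 0, 0, 0, 0, 1], (.pl 1, 1)), ([0, 0, 0, 0, 0, 0], (.ev, 2))], [1, 0, 1, 1, 1, 0, 0, 1]⟩,
   ⟨[14, 14, 14, 14, 12, 10], 2, [([4, 4, 4, 4, 2, 2], (.ev, 8)), ([3, 2, 3, 3, 3, 2], (.pl 4, 7)), ([4, 4, 3, 3, 2, 2], (.ev, 0)), ([2, 0, 4, 2, 4, 0], (.ev, 0)), ([1, 4, 0, 1, 0, 4], (.ev, 0)), ([0, 0, 0, 0, 0, 0], (.pl 4, 7)), ([0, 0, 0, 0, 0, 0], (.pl 1, 2)), ([0, 0, 0, 1, 1, 0], (.ev, 0))], [1, 0, 1, 1, 1, 0, 0, 1]⟩,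
   ⟨[14, 14, 14, 14, 12, 9], 2, [([4, 4, 4, 4, 2, 2], (.ev, 8)), ([3, 2, 3, 1, 3, 3], (.pl 4, 8)), ([4, 4, 3, 3, 2, 2], (.ev, 0)), ([2, 0, 4, 2, 4, 0], (.ev, 0)), ([1, 4, 0, 4, 0, 1], (.ev, 0)), ([0, 0, 0, 0, 0, 0], (.pl 4, 7)), ([0, 0, 0, 0, 0, 0], (.pl 1, 2)), ([0, 0, 0, 0, 1, 1], (.ev, 0))], [1, 0, 1, 1, 1, 0, 0, 1]⟩,
   ⟨[14, 14, 14, 14, 12, 8], 2, [([4, 4, 4, 4, 2, 2], (.ev, 8)), ([2, 2, 3, 1, 3, 3], (.pl 4, 9)), ([4, 4, 3, 3, 2, 2], (.ev, 0)), ([2, 0, 4, 2, 4, 0], (.ev, 0)), ([1, 4, 0, 4, 1, 0], (.ev, 0)), ([0, 0, 0, 0, 0, 0], (.pl 4, 7)), ([0, 0, 0, 0, 0, 0], (.pl 1, 2)), ([1, 0, 0, 0, 0, 1], (.ev, 0))], [1, 0, 1, 1, 1, 0, 0, 1]⟩,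
   ⟨[14, 14, 14, 14, 12, 7], 2, [([4, 4, 4, 4, 2, 2], (.ev, 8)), ([2, 2, 2, 1, 3, 3], (.pl 4, 10)), ([4, 4, 3, 3, 2, 2], (.ev, 0)), ([2, 0, 4, 2, 4, 0], (.ev, 0)), ([1, 4, 0, 4, 1, 0], (.ev, 0)), ([0, 0, 0, 0, 0, 0], (.pl 4, 7)), ([0, 0, 0, 0, 0, 0], (.pl 1, 2)), ([1, 0, 1, 0, 0, 0], (.ev, 0))], [1, 0, 1, 1, 1, 0, 0, 1]⟩,
   ⟨[14, 14, 14, 14, 12, 6], 2, [([4, 4, 4, 4, 2, 2], (.ev, 8)), ([2, 2, 2, 1, 3, 2], (.pl 4, 11)), ([4, 4, 3, 3, 2, 2], (.ev, 0)), ([2, 0, 4, 2, 4, 0], (.ev, 0)), ([1, 4, 0, 4, 1, 0], (.ev, 0)), ([0, 0, 0, 0, 0, 0], (.pl 4, 7)), ([0, 0, 0, 0, 0, 0], (.pl 1, 2)), ([1, 0, 1, 0, 0, 0], (.ev, 0))], [1, 0, 1, 1, 1, 0, 0, 1]⟩,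
   ⟨[14, 14, 14, 14, 12, 5], 2, [([4, 4, 4, 4, 2, 2], (.ev, 8)), ([2, 2, 2, 1, 3, 1], (.pl 4, 12)), ([4, 4, 3, 3, 2, 2], (.ev, 0)), ([2, 0, 4, 2, 4, 0], (.ev, 0)), ([1, 4, 0, 4, 1, 0], (.ev, 0)), ([0, 0, 0, 0, 0, 0], (.pl 4, 7)), ([0, 0, 0, 0, 0, 0], (.pl 1, 2)), ([1, 0, 1, 0, 0, 0], (.ev, 0))], [1, 0, 1, 1, 1, 0, 0, 1]⟩,
   ⟨[14, 14, 14, 14, 12, 4], 2, [([4, 4, 4, 4, 2, 2], (.ev, 8)), ([2, 2, 2, 1, 3, 0], (.pl 4, 13)), ([4, 4, 3, 3, 2, 2], (.ev, 0)), ([2, 0, 4, 2, 4, 0], (.ev, 0)), ([1, 4, 0, 4, 1, 0], (.ev, 0)), ([0, 0, 0, 0, 0, 0], (.pl 4, 7)), ([0, 0, 0, 0, 0, 0], (.pl 1, 2)), ([1, 0, 1, 0, 0, 0], (.ev, 0))], [1, 0, 1, 1, 1, 0, 0, 1]⟩,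
   ⟨[14, 14, 14, 14, 11, 11], 2, [([4, 4, 4, 4, 2, 2], (.ev, 8)), ([2, 2, 3, 3, 4, 3], (.pl 4, 6)), ([4, 4, 3, 3, 2, 2], (.ev, 0)), ([0, 0, 4, 4, 2, 2], (.ev, 0)), ([4, 4, 0, 0, 1, 1], (.ev, 0)), ([0, 0, 0, 0, 0, 0], (.pl 4, 7)), ([0, 0, 0, 0, 0, 1], (.pl 1, 1)), ([0, 0, 0, 0, 0, 0], (.ev, 2))], [1, 0, 1, 1, 1, 0, 0, 1]⟩,
   ⟨[14, 14, 14, 14, 11, 10], 2, [([4, 4, 4, 4, 2, 2], (.ev, 8)), ([2, 2, 3, 3, 3, 2], (.pl 4, 8)), ([4, 4, 3, 3, 2, 2], (.ev, 0)), ([2, 0, 4, 4, 2, 0], (.ev, 0)), ([1, 4, 0, 0, 1, 4], (.ev, 0)), ([0, 0, 0, 0, 0, 0], (.pl 4, 7)), ([0, 0, 0, 0, 0, 0], (.pl 1, 2)), ([1, 0, 0, 0, 1, 0], (.ev, 0))], [1, 0, 1, 1, 1, 0, 0, 1]⟩,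
   ⟨[14, 14, 14, 14, 11, 9], 2, [([4, 4, 4, 4, 2, 2], (.ev, 8)), ([2, 2, 3, 3, 1, 3], (.pl 4, 9)), ([4, 4, 3, 3, 2, 2], (.ev, 0)), ([2, 0, 4, 4, 2, 0], (.ev, 0)), ([1, 4, 0, 0, 4, 1], (.ev, 0)), ([0, 0, 0, 0, 0, 0], (.pl 4, 7)), ([0, 0, 0, 0, 0, 0], (.pl 1, 2)), ([1, 0, 0, 0, 0, 1], (.ev, 0))], [1, 0, 1, 1, 1, 0, 0, 1]⟩,
   ⟨[14, 14, 14, 14, 11, 8], 2, [([4, 4, 4, 4, 2, 2], (.ev, 8)), ([2, 2, 2, 3, 1, 3], (.pl 4, 10)), ([4, 4, 3, 3, 2, 2], (.ev, 0)), ([2, 0, 4, 4, 2, 0], (.ev, 0)), ([1, 4, 0, 0, 4, 1], (.ev, 0)), ([0, 0, 0, 0, 0, 0], (.pl 4, 7)), ([0, 0, 0, 0, 0, 0], (.pl 1, 2)), ([1, 0, 1, 0, 0, 0], (.ev, 0))], [1, 0, 1, 1, 1, 0, 0, 1]⟩,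
   ⟨[14, 14, 14, 14, 11, 7], 2, [([4, 4, 4, 4, 2, 2], (.ev, 8)), ([2, 2, 2, 2, 1, 3], (.pl 4, 11)), ([4, 4, 3, 3, 2, 2], (.ev, 0)), ([2, 0, 4, 4, 2, 0], (.ev, 0)), ([1, 4, 1, 0, 4, 0], (.ev, 0)), ([0, 0, 0, 0, 0, 0], (.pl 4, 7)), ([0, 0, 0, 0, 0, 0], (.pl 1, 2)), ([1, 0, 0, 1, 0, 0], (.ev, 0))], [1, 0, 1, 1, 1, 0, 0, 1]⟩,
   ⟨[14, 14, 14, 14, 11, 6], 2, [([4, 4, 4, 4, 2, 2], (.ev, 8)), ([2, 2, 2, 2, 1, 2], (.pl 4, 12)), ([4, 4, 3, 3, 2, 2], (.ev, 0)), ([2, 0, 4, 4, 2, 0], (.ev, 0)), ([1, 4, 1, 0, 4, 0], (.ev, 0)), ([0, 0, 0, 0, 0, 0], (.pl 4, 7)), ([0, 0, 0, 0, 0, 0], (.pl 1, 2)), ([1, 0, 0, 1, 0, 0], (.ev, 0))], [1, 0, 1, 1, 1, 0, 0, 1]⟩,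
   ⟨[14, 14, 14, 14, 11, 5], 2, [([4, 4, 4, 4, 2, 2], (.ev, 8)), ([2, 2, 2, 2, 1, 1], (.pl 4, 13)), ([4, 4, 3, 3, 2, 2], (.ev, 0)), ([2, 0, 4, 4, 2, 0], (.ev, 0)), ([1, 4, 1, 0, 4, 0], (.ev, 0)), ([0, 0, 0, 0, 0, 0], (.pl 4, 7)), ([0, 0, 0, 0, 0, 0], (.pl 1, 2)), ([1, 0, 0, 1, 0, 0], (.ev, 0))], [1, 0, 1, 1, 1, 0, 0, 1]⟩,
   ⟨[14, 14, 14, 14, 11, 4], 2, [([4, 4, 4, 4, 2, 2], (.ev, 8)), ([2, 2, 2, 2, 1, 0], (.pl 4, 14)), ([4, 4, 3, 3, 2, 2], (.ev, 0)), ([2, 0, 4, 4, 2, 0], (.ev, 0)), ([1, 4, 1, 0, 4, 0], (.ev, 0)), ([0, 0, 0, 0, 0, 0], (.pl 4, 7)), ([0, 0, 0, 0, 0, 0], (.pl 1, 2)), ([1, 0, 0, 1, 0, 0], (.ev, 0))], [1, 0, 1, 1, 1, 0, 0, 1]⟩,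
   ⟨[14, 14, 14, 14, 10, 10], 2, [([4, 4, 4, 4, 2, 2], (.ev, 8)), ([2, 2, 3, 3, 2, 2], (.pl 4, 9)), ([4, 4, 3, 3, 2, 2], (.ev, 0)), ([2, 2, 4, 4, 0, 0], (.ev, 0)), ([1, 1, 0, 0, 4, 4], (.ev, 0)), ([0, 0, 0, 0, 0, 0], (.pl 4, 7)), ([0, 0, 0, 0, 0, 0], (.pl 1, 2)), ([1, 1, 0, 0, 0, 0], (.ev, 0))], [2, 0, 1, 1, 1, 1, 0, 1]⟩,
   ⟨[14, 14, 14, 14, 10, 9], 2, [([4, 4, 4, 4, 2, 2], (.ev, 8)), ([2, 2, 3, 3, 2, 1], (.pl 4, 10)), ([4, 4, 3, 3, 2, 2], (.ev, 0)), ([2, 2, 4, 4, 0, 0], (.ev, 0)), ([1, 1, 0, 0, 4, 4], (.ev, 0)), ([0, 0, 0, 0, 0, 0], (.pl 4, 7)), ([0, 0, 0, 0, 0, 0], (.pl 1, 2)), ([1, 1, 0, 0, 0, 0], (.ev, 0))], [1, 0, 1, 1, 1, 0, 0, 1]⟩,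
   ⟨[14, 14, 14, 14, 10, 8], 2, [([4, 4, 4, 4, 2, 2], (.ev, 8)), ([0, 2, 2, 3, 2, 3], (.pl 4, 11)), ([4, 4, 3, 3, 2, 2], (.ev, 0)), ([2, 2, 4, 4, 0, 0], (.ev, 0)), ([4, 1, 0, 0, 4, 1], (.ev, 0)), ([0, 0, 0, 0, 0, 0], (.pl 4, 7)), ([0, 0, 0, 0, 0, 0], (.pl 1, 2)), ([0, 1, 1, 0, 0, 0], (.ev, 0))], [1, 0, 1, 1, 1, 0, 0, 1]⟩,
   ⟨[14, 14, 14, 14, 10, 7], 2, [([4, 4, 4, 4, 2, 2], (.ev, 8)), ([0, 2, 2, 2, 2, 3], (.pl 4, 12)), ([4, 4, 3, 3, 2, 2], (.ev, 0)), ([2, 2, 4, 4, 0, 0], (.ev, 0)), ([4, 1, 1, 0, 4, 0], (.ev, 0)), ([0, 0, 0, 0, 0, 0], (.pl 4, 7)), ([0, 0, 0, 0, 0, 0], (.pl 1, 2)), ([0, 1, 0, 1, 0, 0], (.ev, 0))], [1, 0, 1, 1, 1, 0, 0, 1]⟩,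
   ⟨[14, 14, 14, 14, 10, 6], 2, [([4, 4, 4, 4, 2, 2], (.ev, 8)), ([0, 2, 2, 2, 2, 2], (.pl 4, 13)), ([4, 4, 3, 3, 2, 2], (.ev, 0)), ([2, 2, 4, 4, 0, 0], (.ev, 0)), ([4, 1, 1, 0, 4, 0], (.ev, 0)), ([0, 0, 0, 0, 0, 0], (.pl 4, 7)), ([0, 0, 0, 0, 0, 0], (.pl 1, 2)), ([0, 1, 0, 1, 0, 0], (.ev, 0))], [1, 0, 1, 1, 1, 0, 0, 1]⟩,
   ⟨[14, 14, 14, 14, 10, 5], 2, [([4, 4, 4, 4, 2, 2], (.ev, 8)), ([0, 2, 2, 2, 2, 1], (.pl 4, 14)), ([4, 4, 3, 3, 2, 2], (.ev, 0)), ([2, 2, 4, 4, 0, 0], (.ev, 0)), ([4, 1, 1, 0, 4, 0], (.ev, 0)), ([0, 0, 0, 0, 0, 0], (.pl 4, 7)), ([0, 0, 0, 0, 0, 0], (.pl 1, 2)), ([0, 1, 0, 1, 0, 0], (.ev, 0))], [1, 0, 1, 1, 1, 0, 0, 1]⟩,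
   ⟨[14, 14, 14, 14, 10, 4], 2, [([4, 4, 4, 4, 2, 2], (.ev, 8)), ([0, 2, 2, 2, 2, 0], (.pl 4, 15)), ([4, 4, 3, 3, 2, 2], (.ev, 0)), ([2, 2, 4, 4, 0, 0], (.ev, 0)), ([4, 1, 1, 0, 4, 0], (.ev, 0)), ([0, 0, 0, 0, 0, 0], (.pl 4, 7)), ([0, 0, 0, 0, 0, 0], (.pl 1, 2)), ([0, 1, 0, 1, 0, 0], (.ev, 0))], [1, 0, 1, 1, 1, 0, 0, 1]⟩,
   ⟨[14, 14, 14, 14, 9], 2, [([4, 4, 2, 2, 0], (.ev, 16)), ([3, 2, 4, 4, 3], (.pl 4, 7)), ([2, 2, 4, 4, 0], (.ev, 6)), ([4, 2, 2, 0, 4], (.ev, 0)), ([0, 4, 1, 4, 1], (.ev, 0)), ([0, 0, 0, 0, 0], (.pl 4, 7)), ([0, 0, 0, 0, 1], (.pl 1, 1)), ([1, 0, 1, 0, 0], (.ev, 0))], [4, 1, 1, 1, 1, 1, 1, 1]⟩,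
   ⟨[14, 14, 14, 14, 8], 2, [([4, 4, 2, 2, 0], (.ev, 16)), ([3, 3, 2, 4, 4], (.pl 4, 7)), ([2, 2, 4, 4, 0], (.ev, 6)), ([4, 4, 2, 2, 0], (.ev, 0)), ([1, 0, 4, 1, 4], (.ev, 0)), ([0, 0, 0, 0, 0], (.pl 4, 7)), ([0, 0, 0, 0, 0], (.pl 1, 2)), ([0, 1, 0, 1, 0], (.ev, 0))], [4, 2, 1, 1, 1, 1, 0, 1]⟩,
   ⟨[14, 14, 14, 14, 7], 2, [([4, 4, 2, 2, 0], (.ev, 16)), ([3, 3, 2, 4, 3], (.pl 4, 8)), ([2, 2, 4, 4, 0], (.ev, 6)), ([4, 4, 2, 2, 0], (.ev, 0)), ([1, 0, 4, 1, 4], (.ev, 0)), ([0, 0, 0, 0, 0], (.pl 4, 7)), ([0, 0, 0, 0, 0], (.pl 1, 2)), ([0, 1, 0, 1, 0], (.ev, 0))], [3, 1, 1, 1, 1, 1, 0, 1]⟩,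
   ⟨[14, 14, 14, 14, 6], 2, [([4, 4, 2, 2, 0], (.ev, 16)), ([3, 3, 2, 2, 4], (.pl 4, 9)), ([2, 2, 4, 4, 0], (.ev, 6)), ([4, 4, 2, 2, 0], (.ev, 0)), ([1, 0, 4, 4, 1], (.ev, 0)), ([0, 0, 0, 0, 0], (.pl 4, 7)), ([0, 0, 0, 0, 0], (.pl 1, 2)), ([0, 1, 0, 0, 1], (.ev, 0))], [3, 1, 1, 1, 1, 1, 0, 1]⟩,
   ⟨[14, 14, 14, 14, 5], 2, [([4, 4, 2, 2, 0], (.ev, 16)), ([3, 3, 2, 2, 3], (.pl 4, 10)), ([2, 2, 4, 4, 0], (.ev, 6)), ([4, 4, 2, 2, 0], (.ev, 0)), ([1, 0, 4, 4, 1], (.ev, 0)), ([0, 0, 0, 0, 0], (.pl 4, 7)), ([0, 0, 0, 0, 0], (.pl 1, 2)), ([0, 1, 0, 0, 1], (.ev, 0))], [2, 0, 1, 1, 1, 1, 0, 1]⟩,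
   ⟨[14, 14, 14, 13, 13, 13, 13, 2], 2, [([4, 4, 4, 4, 4, 4, 2, 2], (.ev, 0)), ([4, 3, 4, 4, 2, 2, 1, 0], (.pl 4, 3)), ([4, 3, 3, 2, 2, 0, 4, 0], (.ev, 0)), ([0, 4, 2, 2, 0, 4, 0, 0], (.ev, 0)), ([1, 0, 1, 0, 4, 0, 4, 0], (.ev, 0)), ([0, 0, 0, 0, 0, 3, 1, 0], (.pl 4, 3)), ([0, 0, 0, 0, 1, 0, 1, 0], (.pl 1, 0)), ([1, 0, 0, 1, 0, 0, 0, 0], (.ev, 0))], [1, 0, 1, 1, 1, 0, 0, 1]⟩,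
   ⟨[14, 14, 14, 13, 13, 13, 13, 1], 2, [([4, 4, 4, 4, 2, 2, 1, 1], (.ev, 6)), ([3, 4, 4, 4, 4, 2, 2, 0], (.pl 4, 0)), ([3, 2, 2, 0, 4, 3, 4, 0], (.ev, 0)), ([0, 4, 2, 4, 0, 2, 0, 0], (.ev, 0)), ([4, 0, 1, 0, 1, 0, 4, 0], (.ev, 0)), ([0, 0, 0, 1, 1, 2, 2, 0], (.pl 4, 1)), ([0, 0, 1, 0, 0, 1, 0, 0], (.pl 1, 0)), ([0, 0, 0, 0, 1, 1, 0, 0], (.ev, 0))], [1, 0, 1, 1, 1, 0, 0, 1]⟩,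
   ⟨[14, 14, 14, 13, 13, 13, 12, 3], 2, [([4, 4, 4, 4, 4, 4, 2, 2], (.ev, 0)), ([2, 4, 3, 4, 3, 3, 1, 0], (.pl 4, 3)), ([4, 4, 3, 2, 2, 0, 3, 0], (.ev, 0)), ([0, 0, 4, 2, 2, 4, 0, 0], (.ev, 0)), ([4, 1, 0, 1, 0, 0, 4, 0], (.ev, 0)), ([0, 0, 0, 0, 0, 2, 2, 0], (.pl 4, 3)), ([0, 0, 0, 0, 1, 0, 0, 1], (.pl 1, 0)), ([0, 1, 0, 0, 1, 0, 0, 0], (.ev, 0))], [1, 0, 1, 1, 1, 0, 0, 1]⟩,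
   ⟨[14, 14, 14, 13, 13, 13, 12, 2], 2, [([4, 4, 4, 4, 4, 4, 2, 2], (.ev, 0)), ([2, 4, 3, 4, 3, 3, 1, 0], (.pl 4, 3)), ([4, 4, 3, 2, 2, 0, 3, 0], (.ev, 0)), ([0, 0, 4, 2, 2, 4, 0, 0], (.ev, 0)), ([4, 1, 0, 1, 0, 0, 4, 0], (.ev, 0)), ([0, 0, 0, 0, 0, 2, 2, 0], (.pl 4, 3)), ([0, 0, 0, 0, 1, 0, 0, 0], (.pl 1, 1)), ([0, 1, 0, 0, 1, 0, 0, 0], (.ev, 0))], [1, 0, 1, 1, 1, 0, 0, 1]⟩,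
   ⟨[14, 14, 14, 13, 13, 13, 11, 4], 2, [([4, 4, 4, 4, 4, 4, 2, 2], (.ev, 0)), ([2, 2, 3, 4, 4, 2, 3, 0], (.pl 4, 3)), ([4, 4, 3, 3, 2, 2, 0, 0], (.ev, 0)), ([0, 0, 4, 0, 2, 2, 4, 0], (.ev, 0)), ([4, 4, 0, 1, 1, 0, 0, 0], (.ev, 0)), ([0, 0, 0, 0, 0, 1, 2, 1], (.pl 4, 3)), ([0, 0, 0, 0, 0, 1, 0, 1], (.pl 1, 0)), ([0, 0, 0, 1, 0, 1, 0, 0], (.ev, 0))], [1, 0, 1, 1, 1, 0, 0, 1]⟩,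
   ⟨[14, 14, 14, 13, 13, 13, 11, 3], 2, [([4, 4, 4, 4, 4, 4, 2, 2], (.ev, 0)), ([2, 2, 3, 4, 4, 2, 3, 0], (.pl 4, 3)), ([4, 4, 3, 3, 2, 2, 0, 0], (.ev, 0)), ([0, 0, 4, 0, 2, 2, 4, 0], (.ev, 0)), ([4, 4, 0, 1, 1, 0, 0, 0], (.ev, 0)), ([0, 0, 0, 0, 0, 1, 2, 1], (.pl 4, 3)), ([0, 0, 0, 0, 0, 1, 0, 0], (.pl 1, 1)), ([0, 0, 0, 1, 0, 1, 0, 0], (.ev, 0))], [1, 0, 1, 1, 1, 0, 0, 1]⟩,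
   ⟨[14, 14, 14, 13, 13, 13, 11, 2], 2, [([4, 4, 4, 4, 4, 4, 2, 2], (.ev, 0)), ([2, 2, 3, 4, 4, 2, 3, 0], (.pl 4, 3)), ([4, 4, 3, 3, 2, 2, 0, 0], (.ev, 0)), ([0, 0, 4, 0, 2, 2, 4, 0], (.ev, 0)), ([4, 4, 0, 1, 1, 0, 0, 0], (.ev, 0)), ([0, 0, 0, 0, 0, 1, 2, 0], (.pl 4, 4)), ([0, 0, 0, 0, 0, 1, 0, 0], (.pl 1, 1)), ([0, 0, 0, 1, 0, 1, 0, 0], (.ev, 0))], [1, 0, 1, 1, 1, 0, 0, 1]⟩,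
   ⟨[14, 14, 14, 13, 13, 13, 10, 5], 2, [([4, 4, 4, 4, 4, 4, 2, 2], (.ev, 0)), ([2, 2, 3, 4, 4, 2, 2, 1], (.pl 4, 3)), ([4, 4, 3, 3, 2, 2, 0, 0], (.ev, 0)), ([0, 0, 4, 0, 2, 2, 4, 0], (.ev, 0)), ([4, 4, 0, 1, 1, 0, 0, 0], (.ev, 0)), ([0, 0, 0, 0, 0, 1, 2, 1], (.pl 4, 3)), ([0, 0, 0, 0, 0, 1, 0, 1], (.pl 1, 0)), ([0, 0, 0, 1, 0, 1, 0, 0], (.ev, 0))], [1, 0, 1, 1, 1, 0, 0, 1]⟩,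
   ⟨[14, 14, 14, 13, 13, 13, 10, 4], 2, [([4, 4, 4, 4, 4, 4, 2, 2], (.ev, 0)), ([2, 2, 3, 4, 4, 2, 2, 1], (.pl 4, 3)), ([4, 4, 3, 3, 2, 2, 0, 0], (.ev, 0)), ([0, 0, 4, 0, 2, 2, 4, 0], (.ev, 0)), ([4, 4, 0, 1, 1, 0, 0, 0], (.ev, 0)), ([0, 0, 0, 0, 0, 1, 2, 1], (.pl 4, 3)), ([0, 0, 0, 0, 0, 1, 0, 0], (.pl 1, 1)), ([0, 0, 0, 1, 0, 1, 0, 0], (.ev, 0))], [1, 0, 1, 1, 1, 0, 0, 1]⟩,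
   ⟨[14, 14, 14, 13, 13, 13, 10, 3], 2, [([4, 4, 4, 4, 4, 4, 2, 2], (.ev, 0)), ([2, 2, 3, 4, 4, 2, 2, 1], (.pl 4, 3)), ([4, 4, 3, 3, 2, 2, 0, 0], (.ev, 0)), ([0, 0, 4, 0, 2, 2, 4, 0], (.ev, 0)), ([4, 4, 0, 1, 1, 0, 0, 0], (.ev, 0)), ([0, 0, 0, 0, 0, 1, 2, 0], (.pl 4, 4)), ([0, 0, 0, 0, 0, 1, 0, 0], (.pl 1, 1)), ([0, 0, 0, 1, 0, 1, 0, 0], (.ev, 0))], [1, 0, 1, 1, 1, 0, 0, 1]⟩,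
   ⟨[14, 14, 14, 13, 13, 13, 10, 2], 2, [([4, 4, 4, 4, 4, 4, 2, 2], (.ev, 0)), ([2, 2, 3, 4, 4, 2, 2, 0], (.pl 4, 4)), ([4, 4, 3, 3, 2, 2, 0, 0], (.ev, 0)), ([0, 0, 4, 0, 2, 2, 4, 0], (.ev, 0)), ([4, 4, 0, 1, 1, 0, 0, 0], (.ev, 0)), ([0, 0, 0, 0, 0, 1, 2, 0], (.pl 4, 4)), ([0, 0, 0, 0, 0, 1, 0, 0], (.pl 1, 1)), ([0, 0, 0, 1, 0, 1, 0, 0], (.ev, 0))], [1, 0, 1, 1, 1, 0, 0, 1]⟩,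
   ⟨[14, 14, 14, 13, 13, 13, 9, 6], 2, [([4, 4, 4, 4, 4, 4, 2, 2], (.ev, 0)), ([2, 2, 3, 4, 3, 3, 2, 1], (.pl 4, 3)), ([4, 4, 3, 3, 2, 2, 0, 0], (.ev, 0)), ([0, 0, 4, 0, 4, 2, 2, 0], (.ev, 0)), ([4, 4, 0, 1, 0, 1, 0, 0], (.ev, 0)), ([0, 0, 0, 0, 0, 0, 2, 2], (.pl 4, 3)), ([0, 0, 0, 0, 0, 1, 0, 1], (.pl 1, 0)), ([0, 0, 0, 1, 0, 0, 1, 0], (.ev, 0))], [1, 0, 1, 1, 1, 0, 0, 1]⟩,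
   ⟨[14, 14, 14, 13, 13, 13, 9, 5], 2, [([4, 4, 4, 4, 4, 4, 2, 2], (.ev, 0)), ([2, 2, 3, 4, 3, 3, 2, 1], (.pl 4, 3)), ([4, 4, 3, 3, 2, 2, 0, 0], (.ev, 0)), ([0, 0, 4, 0, 4, 2, 2, 0], (.ev, 0)), ([4, 4, 0, 1, 0, 1, 0, 0], (.ev, 0)), ([0, 0, 0, 0, 0, 0, 2, 2], (.pl 4, 3)), ([0, 0, 0, 0, 0, 1, 0, 0], (.pl 1, 1)), ([0, 0, 0, 1, 0, 0, 1, 0], (.ev, 0))], [1, 0, 1, 1, 1, 0, 0, 1]⟩,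
   ⟨[14, 14, 14, 13, 13, 13, 9, 4], 2, [([4, 4, 4, 4, 4, 4, 2, 2], (.ev, 0)), ([2, 2, 3, 4, 3, 3, 2, 1], (.pl 4, 3)), ([4, 4, 3, 3, 2, 2, 0, 0], (.ev, 0)), ([0, 0, 4, 0, 4, 2, 2, 0], (.ev, 0)), ([4, 4, 0, 1, 0, 1, 0, 0], (.ev, 0)), ([0, 0, 0, 0, 0, 0, 2, 1], (.pl 4, 4)), ([0, 0, 0, 0, 0, 1, 0, 0], (.pl 1, 1)), ([0, 0, 0, 1, 0, 0, 1, 0], (.ev, 0))], [1, 0, 1, 1, 1, 0, 0, 1]⟩,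
   ⟨[14, 14, 14, 13, 13, 13, 9, 3], 2, [([4, 4, 4, 4, 4, 4, 2, 2], (.ev, 0)), ([2, 2, 3, 4, 3, 3, 2, 0], (.pl 4, 4)), ([4, 4, 3, 3, 2, 2, 0, 0], (.ev, 0)), ([0, 0, 4, 0, 4, 2, 2, 0], (.ev, 0)), ([4, 4, 0, 1, 0, 1, 0, 0], (.ev, 0)), ([0, 0, 0, 0, 0, 0, 2, 1], (.pl 4, 4)), ([0, 0, 0, 0, 0, 1, 0, 0], (.pl 1, 1)), ([0, 0, 0, 1, 0, 0, 1, 0], (.ev, 0))], [1, 0, 1, 1, 1, 0, 0, 1]⟩,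
   ⟨[14, 14, 14, 13, 13, 13, 9, 2], 2, [([4, 4, 4, 4, 4, 4, 2, 2], (.ev, 0)), ([2, 2, 3, 4, 3, 3, 2, 0], (.pl 4, 4)), ([4, 4, 3, 3, 2, 2, 0, 0], (.ev, 0)), ([0, 0, 4, 0, 4, 2, 2, 0], (.ev, 0)), ([4, 4, 0, 1, 0, 1, 0, 0], (.ev, 0)), ([0, 0, 0, 0, 0, 0, 2, 0], (.pl 4, 5)), ([0, 0, 0, 0, 0, 1, 0, 0], (.pl 1, 1)), ([0, 0, 0, 1, 0, 0, 1, 0], (.ev, 0))], [1, 0, 1, 1, 1, 0, 0, 1]⟩,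
   ⟨[14, 14, 14, 13, 13, 13, 8, 7], 2, [([4, 4, 4, 4, 4, 4, 2, 2], (.ev, 0)), ([4, 2, 3, 2, 3, 3, 2, 1], (.pl 4, 3)), ([4, 4, 3, 3, 2, 2, 0, 0], (.ev, 0)), ([2, 0, 4, 0, 4, 2, 0, 0], (.ev, 0)), ([0, 4, 0, 4, 0, 1, 1, 0], (.ev, 0)), ([0, 0, 0, 0, 0, 0, 2, 2], (.pl 4, 3)), ([0, 0, 0, 0, 0, 1, 0, 1], (.pl 1, 0)), ([0, 0, 0, 0, 0, 0, 1, 1], (.ev, 0))], [1, 0, 1, 1, 1, 0, 0, 1]⟩,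
   ⟨[14, 14, 14, 13, 13, 13, 8, 6], 2, [([4, 4, 4, 4, 4, 4, 2, 2], (.ev, 0)), ([3, 2, 3, 2, 3, 3, 2, 2], (.pl 4, 3)), ([4, 4, 3, 3, 2, 2, 0, 0], (.ev, 0)), ([2, 0, 4, 0, 4, 2, 0, 0], (.ev, 0)), ([0, 4, 0, 4, 0, 1, 1, 0], (.ev, 0)), ([0, 0, 0, 0, 0, 0, 2, 2], (.pl 4, 3)), ([0, 0, 0, 0, 0, 1, 0, 0], (.pl 1, 1)), ([1, 0, 0, 0, 0, 0, 1, 0], (.ev, 0))], [1, 0, 1, 1, 1, 0, 0, 1]⟩,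
   ⟨[14, 14, 14, 13, 13, 13, 8, 5], 2, [([4, 4, 4, 4, 4, 4, 2, 2], (.ev, 0)), ([3, 2, 3, 2, 3, 3, 2, 2], (.pl 4, 3)), ([4, 4, 3, 3, 2, 2, 0, 0], (.ev, 0)), ([2, 0, 4, 0, 4, 2, 0, 0], (.ev, 0)), ([0, 4, 0, 4, 0, 1, 1, 0], (.ev, 0)), ([0, 0, 0, 0, 0, 0, 2, 1], (.pl 4, 4)), ([0, 0, 0, 0, 0, 1, 0, 0], (.pl 1, 1)), ([1, 0, 0, 0, 0, 0, 1, 0], (.ev, 0))], [1, 0, 1, 1, 1, 0, 0, 1]⟩,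
   ⟨[14, 14, 14, 13, 13, 13, 8, 4], 2, [([4, 4, 4, 4, 4, 4, 2, 2], (.ev, 0)), ([3, 2, 3, 2, 3, 3, 2, 1], (.pl 4, 4)), ([4, 4, 3, 3, 2, 2, 0, 0], (.ev, 0)), ([2, 0, 4, 0, 4, 2, 0, 0], (.ev, 0)), ([0, 4, 0, 4, 0, 1, 1, 0], (.ev, 0)), ([0, 0, 0, 0, 0, 0, 2, 1], (.pl 4, 4)), ([0, 0, 0, 0, 0, 1, 0, 0], (.pl 1, 1)), ([1, 0, 0, 0, 0, 0, 1, 0], (.ev, 0))], [1, 0, 1, 1, 1, 0, 0, 1]⟩,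
   ⟨[14, 14, 14, 13, 13, 13, 8, 3], 2, [([4, 4, 4, 4, 4, 4, 2, 2], (.ev, 0)), ([3, 2, 3, 2, 3, 3, 2, 1], (.pl 4, 4)), ([4, 4, 3, 3, 2, 2, 0, 0], (.ev, 0)), ([2, 0, 4, 0, 4, 2, 0, 0], (.ev, 0)), ([0, 4, 0, 4, 0, 1, 1, 0], (.ev, 0)), ([0, 0, 0, 0, 0, 0, 2, 0], (.pl 4, 5)), ([0, 0, 0, 0, 0, 1, 0, 0], (.pl 1, 1)), ([1, 0, 0, 0, 0, 0, 1, 0], (.ev, 0))], [1, 0, 1, 1, 1, 0, 0, 1]⟩,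
   ⟨[14, 14, 14, 13, 13, 13, 8, 2], 2, [([4, 4, 4, 4, 4, 4, 2, 2], (.ev, 0)), ([3, 2, 3, 2, 3, 3, 2, 0], (.pl 4, 5)), ([4, 4, 3, 3, 2, 2, 0, 0], (.ev, 0)), ([2, 0, 4, 0, 4, 2, 0, 0], (.ev, 0)), ([0, 4, 0, 4, 0, 1, 1, 0], (.ev, 0)), ([0, 0, 0, 0, 0, 0, 2, 0], (.pl 4, 5)), ([0, 0, 0, 0, 0, 1, 0, 0], (.pl 1, 1)), ([1, 0, 0, 0, 0, 0, 1, 0], (.ev, 0))], [1, 0, 1, 1, 1, 0, 0, 1]⟩,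
   ⟨[14, 14, 14, 13, 13, 13, 7], 2, [([4, 4, 4, 4, 2, 2, 0], (.ev, 8)), ([3, 4, 4, 4, 2, 1, 2], (.pl 4, 3)), ([3, 3, 2, 2, 4, 4, 0], (.ev, 0)), ([4, 2, 4, 2, 0, 0, 0], (.ev, 0)), ([0, 1, 0, 0, 4, 4, 1], (.ev, 0)), ([0, 0, 0, 0, 0, 2, 2], (.pl 4, 3)), ([0, 0, 0, 0, 1, 0, 1], (.pl 1, 0)), ([0, 0, 0, 1, 0, 0, 1], (.ev, 0))], [2, 1, 1, 1, 1, 0, 0, 1]⟩,
   ⟨[14, 14, 14, 13, 13, 13, 6], 2, [([4, 4, 4, 4, 2, 2, 0], (.ev, 8)), ([3, 4, 4, 4, 2, 1, 2], (.pl 4, 3)), ([3, 3, 2, 2, 4, 4, 0], (.ev, 0)), ([4, 2, 4, 2, 0, 0, 0], (.ev, 0)), ([0, 1, 0, 0, 4, 4, 1], (.ev, 0)), ([0, 0, 0, 0, 0, 2, 2], (.pl 4, 3)), ([0, 0, 0, 0, 1, 0, 0], (.pl 1, 1)), ([0, 0, 0, 1, 0, 0, 1], (.ev, 0))], [2, 0, 1, 1, 1, 0, 1, 1]⟩,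
   ⟨[14, 14, 14, 13, 13, 13, 5], 2, [([4, 4, 4, 4, 2, 2, 0], (.ev, 8)), ([3, 3, 4, 4, 2, 2, 2], (.pl 4, 3)), ([3, 3, 2, 2, 4, 4, 0], (.ev, 0)), ([4, 2, 4, 2, 0, 0, 0], (.ev, 0)), ([0, 1, 0, 1, 4, 4, 0], (.ev, 0)), ([0, 0, 0, 0, 0, 1, 2], (.pl 4, 4)), ([0, 0, 0, 0, 1, 0, 0], (.pl 1, 1)), ([0, 1, 0, 0, 0, 0, 1], (.ev, 0))], [2, 0, 1, 1, 1, 0, 1, 1]⟩,
   ⟨[14, 14, 14, 13, 13, 13, 4], 2, [([4, 4, 4, 4, 2, 2, 0], (.ev, 8)), ([3, 3, 3, 4, 3, 1, 2], (.pl 4, 4)), ([3, 3, 2, 2, 4, 4, 0], (.ev, 0)), ([4, 2, 4, 2, 0, 0, 0], (.ev, 0)), ([0, 1, 0, 1, 4, 4, 0], (.ev, 0)), ([0, 0, 0, 0, 0, 1, 2], (.pl 4, 4)), ([0, 0, 0, 0, 0, 1, 0], (.pl 1, 1)), ([0, 1, 1, 0, 0, 0, 0], (.ev, 0))], [2, 0, 1, 1, 1, 0, 1, 1]⟩,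
   ⟨[14, 14, 14, 13, 13, 13, 3], 2, [([4, 4, 4, 4, 2, 2, 0], (.ev, 8)), ([3, 3, 3, 4, 3, 1, 2], (.pl 4, 4)), ([3, 3, 2, 2, 4, 4, 0], (.ev, 0)), ([4, 2, 4, 2, 0, 0, 0], (.ev, 0)), ([0, 1, 0, 1, 4, 4, 0], (.ev, 0)), ([0, 0, 0, 0, 0, 1, 1], (.pl 4, 5)), ([0, 0, 0, 0, 0, 1, 0], (.pl 1, 1)), ([0, 1, 1, 0, 0, 0, 0], (.ev, 0))], [2, 0, 1, 1, 1, 0, 1, 1]⟩,
   ⟨[14, 14, 14, 13, 13, 12], 2, [([4, 4, 4, 4, 2, 2], (.ev, 8)), ([2, 3, 4, 4, 3, 3], (.pl 4, 4)), ([4, 3, 3, 2, 4, 2], (.ev, 0)), ([0, 4, 2, 2, 0, 4], (.ev, 0)), ([4, 0, 0, 0, 4, 0], (.ev, 2)), ([0, 0, 0, 1, 0, 1], (.pl 4, 5)), ([0, 0, 1, 0, 0, 0], (.pl 1, 1)), ([0, 0, 0, 0, 0, 0], (.ev, 2))], [1, 0, 1, 1, 1, 0, 0, 1]⟩,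
   ⟨[14, 14, 14, 13, 13, 11], 2, [([4, 4, 4, 4, 2, 2], (.ev, 8)), ([2, 3, 3, 4, 4, 1], (.pl 4, 6)), ([4, 3, 3, 2, 4, 2], (.ev, 0)), ([0, 4, 4, 2, 2, 0], (.ev, 0)), ([4, 0, 0, 1, 1, 4], (.ev, 0)), ([0, 0, 0, 0, 0, 1], (.pl 4, 6)), ([0, 0, 0, 0, 0, 1], (.pl 1, 1)), ([0, 0, 0, 0, 0, 0], (.ev, 2))], [1, 0, 1, 1, 1, 0, 0, 1]⟩,
   ⟨[14, 14, 14, 13, 13, 10], 2, [([4, 4, 4, 4, 2, 2], (.ev, 8)), ([2, 3, 3, 3, 3, 2], (.pl 4, 7)), ([4, 3, 3, 2, 4, 2], (.ev, 0)), ([0, 4, 4, 2, 2, 0], (.ev, 0)), ([4, 0, 0, 1, 1, 4], (.ev, 0)), ([0, 0, 0, 0, 0, 0], (.pl 4, 7)), ([0, 0, 0, 0, 0, 0], (.pl 1, 2)), ([0, 0, 0, 1, 1, 0], (.ev, 0))], [1, 0, 1, 1, 1, 0, 0, 1]⟩,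
   ⟨[14, 14, 14, 13, 13, 9], 2, [([4, 4, 4, 4, 2, 2], (.ev, 8)), ([2, 3, 3, 1, 3, 3], (.pl 4, 8)), ([4, 3, 3, 2, 4, 2], (.ev, 0)), ([0, 4, 4, 2, 2, 0], (.ev, 0)), ([4, 0, 0, 4, 1, 1], (.ev, 0)), ([0, 0, 0, 0, 0, 0], (.pl 4, 7)), ([0, 0, 0, 0, 0, 0], (.pl 1, 2)), ([0, 0, 0, 0, 1, 1], (.ev, 0))], [1, 0, 1, 1, 1, 0, 0, 1]⟩,
   ⟨[14, 14, 14, 13, 13, 8], 2, [([4, 4, 4, 4, 2, 2], (.ev, 8)), ([2, 2, 3, 1, 3, 3], (.pl 4, 9)), ([4, 3, 3, 2, 4, 2], (.ev, 0)), ([0, 4, 4, 2, 2, 0], (.ev, 0)), ([4, 0, 0, 4, 1, 1], (.ev, 0)), ([0, 0, 0, 0, 0, 0], (.pl 4, 7)), ([0, 0, 0, 0, 0, 0], (.pl 1, 2)), ([0, 1, 0, 0, 1, 0], (.ev, 0))], [1, 0, 1, 1, 1, 0, 0, 1]⟩,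
   ⟨[14, 14, 14, 13, 13, 7], 2, [([4, 4, 4, 4, 2, 2], (.ev, 8)), ([2, 2, 2, 1, 3, 3], (.pl 4, 10)), ([4, 3, 3, 2, 4, 2], (.ev, 0)), ([0, 4, 4, 2, 2, 0], (.ev, 0)), ([4, 1, 0, 4, 1, 0], (.ev, 0)), ([0, 0, 0, 0, 0, 0], (.pl 4, 7)), ([0, 0, 0, 0, 0, 0], (.pl 1, 2)), ([0, 0, 1, 0, 1, 0], (.ev, 0))], [1, 0, 1, 1, 1, 0, 0, 1]⟩,
   ⟨[14, 14, 14, 13, 13, 6], 2, [([4, 4, 4, 4, 2, 2], (.ev, 8)), ([2, 2, 2, 1, 3, 2], (.pl 4, 11)), ([4, 3, 3, 2, 4, 2], (.ev, 0)), ([0, 4, 4, 2, 2, 0], (.ev, 0)), ([4, 1, 0, 4, 1, 0], (.ev, 0)), ([0, 0, 0, 0, 0, 0], (.pl 4, 7)), ([0, 0, 0, 0, 0, 0], (.pl 1, 2)), ([0, 0, 1, 0, 1, 0], (.ev, 0))], [1, 0, 1, 1, 1, 0, 0, 1]⟩,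
   ⟨[14, 14, 14, 13, 13, 5], 2, [([4, 4, 4, 4, 2, 2], (.ev, 8)), ([2, 2, 2, 1, 3, 1], (.pl 4, 12)), ([4, 3, 3, 2, 4, 2], (.ev, 0)), ([0, 4, 4, 2, 2, 0], (.ev, 0)), ([4, 1, 0, 4, 1, 0], (.ev, 0)), ([0, 0, 0, 0, 0, 0], (.pl 4, 7)), ([0, 0, 0, 0, 0, 0], (.pl 1, 2)), ([0, 0, 1, 0, 1, 0], (.ev, 0))], [1, 0, 1, 1, 1, 0, 0, 1]⟩,
   ⟨[14, 14, 14, 13, 13, 4], 2, [([4, 4, 4, 4, 2, 2], (.ev, 8)), ([2, 2, 2, 1, 3, 0], (.pl 4, 13)), ([4, 3, 3, 2, 4, 2], (.ev, 0)), ([0, 4, 4, 2, 2, 0], (.ev, 0)), ([4, 1, 0, 4, 1, 0], (.ev, 0)), ([0, 0, 0, 0, 0, 0], (.pl 4, 7)), ([0, 0, 0, 0, 0, 0], (.pl 1, 2)), ([0, 0, 1, 0, 1, 0], (.ev, 0))], [1, 0, 1, 1, 1, 0, 0, 1]⟩,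
   ⟨[14, 14, 14, 13, 12, 12], 2, [([4, 4, 4, 4, 2, 2], (.ev, 8)), ([2, 2, 3, 4, 4, 3], (.pl 4, 5)), ([4, 4, 3, 2, 3, 2], (.ev, 0)), ([0, 0, 4, 2, 2, 4], (.ev, 0)), ([4, 4, 0, 0, 0, 0], (.ev, 2)), ([0, 0, 0, 0, 1, 1], (.pl 4, 5)), ([0, 0, 0, 1, 0, 0], (.pl 1, 1)), ([0, 0, 0, 0, 0, 0], (.ev, 2))], [1, 0, 1, 1, 1, 0, 0, 1]⟩,
   ⟨[14, 14, 14, 13, 12, 11], 2, [([4, 4, 4, 4, 2, 2], (.ev, 8)), ([2, 2, 3, 3, 4, 3], (.pl 4, 6)), ([4, 4, 3, 2, 3, 2], (.ev, 0)), ([0, 0, 4, 4, 2, 2], (.ev, 0)), ([4, 4, 0, 0, 1, 1], (.ev, 0)), ([0, 0, 0, 0, 0, 0], (.pl 4, 7)), ([0, 0, 0, 0, 0, 1], (.pl 1, 1)), ([0, 0, 0, 0, 0, 0], (.ev, 2))], [1, 0, 1, 1, 1, 0, 0, 1]⟩,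
   ⟨[14, 14, 14, 13, 12, 10], 2, [([4, 4, 4, 4, 2, 2], (.ev, 8)), ([2, 2, 3, 3, 3, 2], (.pl 4, 8)), ([4, 4, 3, 2, 3, 2], (.ev, 0)), ([2, 0, 4, 4, 2, 0], (.ev, 0)), ([1, 4, 0, 0, 1, 4], (.ev, 0)), ([0, 0, 0, 0, 0, 0], (.pl 4, 7)), ([0, 0, 0, 0, 0, 0], (.pl 1, 2)), ([1, 0, 0, 0, 1, 0], (.ev, 0))], [1, 0, 1, 1, 1, 0, 0, 1]⟩,
   ⟨[14, 14, 14, 13, 12, 9], 2, [([4, 4, 4, 4, 2, 2], (.ev, 8)), ([2, 2, 3, 3, 1, 3], (.pl 4, 9)), ([4, 4, 3, 2, 3, 2], (.ev, 0)), ([2, 0, 4, 4, 2, 0], (.ev, 0)), ([1, 4, 0, 0, 4, 1], (.ev, 0)), ([0, 0, 0, 0, 0, 0], (.pl 4, 7)), ([0, 0, 0, 0, 0, 0], (.pl 1, 2)), ([1, 0, 0, 0, 0, 1], (.ev, 0))], [1, 0, 1, 1, 1, 0, 0, 1]⟩,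
   ⟨[14, 14, 14, 13, 12, 8], 2, [([4, 4, 4, 4, 2, 2], (.ev, 8)), ([2, 2, 2, 3, 1, 3], (.pl 4, 10)), ([4, 4, 3, 2, 3, 2], (.ev, 0)), ([2, 0, 4, 4, 2, 0], (.ev, 0)), ([1, 4, 0, 0, 4, 1], (.ev, 0)), ([0, 0, 0, 0, 0, 0], (.pl 4, 7)), ([0, 0, 0, 0, 0, 0], (.pl 1, 2)), ([1, 0, 1, 0, 0, 0], (.ev, 0))], [1, 0, 1, 1, 1, 0, 0, 1]⟩,
   ⟨[14, 14, 14, 13, 12, 7], 2, [([4, 4, 4, 4, 2, 2], (.ev, 8)), ([2, 2, 2, 2, 1, 3], (.pl 4, 11)), ([4, 4, 3, 2, 3, 2], (.ev, 0)), ([2, 0, 4, 4, 2, 0], (.ev, 0)), ([1, 4, 1, 0, 4, 0], (.ev, 0)), ([0, 0, 0, 0, 0, 0], (.pl 4, 7)), ([0, 0, 0, 0, 0, 0], (.pl 1, 2)), ([1, 0, 0, 1, 0, 0], (.ev, 0))], [1, 0, 1, 1, 1, 0, 0, 1]⟩,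
   ⟨[14, 14, 14, 13, 12, 6], 2, [([4, 4, 4, 4, 2, 2], (.ev, 8)), ([2, 2, 2, 2, 1, 2], (.pl 4, 12)), ([4, 4, 3, 2, 3, 2], (.ev, 0)), ([2, 0, 4, 4, 2, 0], (.ev, 0)), ([1, 4, 1, 0, 4, 0], (.ev, 0)), ([0, 0, 0, 0, 0, 0], (.pl 4, 7)), ([0, 0, 0, 0, 0, 0], (.pl 1, 2)), ([1, 0, 0, 1, 0, 0], (.ev, 0))], [1, 0, 1, 1, 1, 0, 0, 1]⟩,
   ⟨[14, 14, 14, 13, 12, 5], 2, [([4, 4, 4, 4, 2, 2], (.ev, 8)), ([2, 2, 2, 2, 1, 1], (.pl 4, 13)), ([4, 4, 3, 2, 3, 2], (.ev, 0)), ([2, 0, 4, 4, 2, 0], (.ev, 0)), ([1, 4, 1, 0, 4, 0], (.ev, 0)), ([0, 0, 0, 0, 0, 0], (.pl 4, 7)), ([0, 0, 0, 0, 0, 0], (.pl 1, 2)), ([1, 0, 0, 1, 0, 0], (.ev, 0))], [1, 0, 1, 1, 1, 0, 0, 1]⟩,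
   ⟨[14, 14, 14, 13, 12, 4], 2, [([4, 4, 4, 4, 2, 2], (.ev, 8)), ([2, 2, 2, 2, 1, 0], (.pl 4, 14)), ([4, 4, 3, 2, 3, 2], (.ev, 0)), ([2, 0, 4, 4, 2, 0], (.ev, 0)), ([1, 4, 1, 0, 4, 0], (.ev, 0)), ([0, 0, 0, 0, 0, 0], (.pl 4, 7)), ([0, 0, 0, 0, 0, 0], (.pl 1, 2)), ([1, 0, 0, 1, 0, 0], (.ev, 0))], [1, 0, 1, 1, 1, 0, 0, 1]⟩,
   ⟨[14, 14, 14, 13, 11, 11], 2, [([4, 4, 4, 4, 2, 2], (.ev, 8)), ([3, 2, 3, 2, 3, 3], (.pl 4, 7)), ([4, 4, 3, 3, 2, 2], (.ev, 0)), ([2, 0, 4, 0, 4, 2], (.ev, 0)), ([1, 4, 0, 4, 0, 1], (.ev, 0)), ([0, 0, 0, 0, 0, 0], (.pl 4, 7)), ([0, 0, 0, 0, 0, 1], (.pl 1, 1)), ([0, 0, 0, 0, 0, 0], (.ev, 2))], [1, 0, 1, 1, 1, 0, 0, 1]⟩,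
   ⟨[14, 14, 14, 13, 11, 10], 2, [([4, 4, 4, 4, 2, 2], (.ev, 8)), ([2, 2, 3, 2, 3, 2], (.pl 4, 9)), ([4, 4, 3, 3, 2, 2], (.ev, 0)), ([2, 2, 4, 0, 4, 0], (.ev, 0)), ([1, 1, 0, 4, 0, 4], (.ev, 0)), ([0, 0, 0, 0, 0, 0], (.pl 4, 7)), ([0, 0, 0, 0, 0, 0], (.pl 1, 2)), ([1, 1, 0, 0, 0, 0], (.ev, 0))], [2, 0, 1, 1, 1, 1, 0, 1]⟩,
   ⟨[14, 14, 14, 13, 11, 9], 2, [([4, 4, 4, 4, 2, 2], (.ev, 8)), ([2, 2, 3, 2, 3, 1], (.pl 4, 10)), ([4, 4, 3, 3, 2, 2], (.ev, 0)), ([2, 2, 4, 0, 4, 0], (.ev, 0)), ([1, 1, 0, 4, 0, 4], (.ev, 0)), ([0, 0, 0, 0, 0, 0], (.pl 4, 7)), ([0, 0, 0, 0, 0, 0], (.pl 1, 2)), ([1, 1, 0, 0, 0, 0], (.ev, 0))], [1, 0, 1, 1, 1, 0, 0, 1]⟩,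
   ⟨[14, 14, 14, 13, 11, 8], 2, [([4, 4, 4, 4, 2, 2], (.ev, 8)), ([0, 2, 2, 2, 3, 3], (.pl 4, 11)), ([4, 4, 3, 3, 2, 2], (.ev, 0)), ([2, 2, 4, 0, 4, 0], (.ev, 0)), ([4, 1, 0, 4, 0, 1], (.ev, 0)), ([0, 0, 0, 0, 0, 0], (.pl 4, 7)), ([0, 0, 0, 0, 0, 0], (.pl 1, 2)), ([0, 1, 1, 0, 0, 0], (.ev, 0))], [1, 0, 1, 1, 1, 0, 0, 1]⟩,
   ⟨[14, 14, 14, 13, 11, 7], 2, [([4, 4, 4, 4, 2, 2], (.ev, 8)), ([0, 2, 2, 2, 2, 3], (.pl 4, 12)), ([4, 4, 3, 3, 2, 2], (.ev, 0)), ([2, 2, 4, 0, 4, 0], (.ev, 0)), ([4, 1, 1, 4, 0, 0], (.ev, 0)), ([0, 0, 0, 0, 0, 0], (.pl 4, 7)), ([0, 0, 0, 0, 0, 0], (.pl 1, 2)), ([0, 1, 0, 0, 1, 0], (.ev, 0))], [1, 0, 1, 1, 1, 0, 0, 1]⟩,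
   ⟨[14, 14, 14, 13, 11, 6], 2, [([4, 4, 4, 4, 2, 2], (.ev, 8)), ([0, 2, 2, 2, 2, 2], (.pl 4, 13)), ([4, 4, 3, 3, 2, 2], (.ev, 0)), ([2, 2, 4, 0, 4, 0], (.ev, 0)), ([4, 1, 1, 4, 0, 0], (.ev, 0)), ([0, 0, 0, 0, 0, 0], (.pl 4, 7)), ([0, 0, 0, 0, 0, 0], (.pl 1, 2)), ([0, 1, 0, 0, 1, 0], (.ev, 0))], [1, 0, 1, 1, 1, 0, 0, 1]⟩,
   ⟨[14, 14, 14, 13, 11, 5], 2, [([4, 4, 4, 4, 2, 2], (.ev, 8)), ([0, 2, 2, 2, 2, 1], (.pl 4, 14)), ([4, 4, 3, 3, 2, 2], (.ev, 0)), ([2, 2, 4, 0, 4, 0], (.ev, 0)), ([4, 1, 1, 4, 0, 0], (.ev, 0)), ([0, 0, 0, 0, 0, 0], (.pl 4, 7)), ([0, 0, 0, 0, 0, 0], (.pl 1, 2)), ([0, 1, 0, 0, 1, 0], (.ev, 0))], [1, 0, 1, 1, 1, 0, 0, 1]⟩,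
   ⟨[14, 14, 14, 13, 11, 4], 2, [([4, 4, 4, 4, 2, 2], (.ev, 8)), ([0, 2, 2, 2, 2, 0], (.pl 4, 15)), ([4, 4, 3, 3, 2, 2], (.ev, 0)), ([2, 2, 4, 0, 4, 0], (.ev, 0)), ([4, 1, 1, 4, 0, 0], (.ev, 0)), ([0, 0, 0, 0, 0, 0], (.pl 4, 7)), ([0, 0, 0, 0, 0, 0], (.pl 1, 2)), ([0, 1, 0, 0, 1, 0], (.ev, 0))], [1, 0, 1, 1, 1, 0, 0, 1]⟩,
   ⟨[14, 14, 14, 13, 10], 2, [([4, 4, 2, 2, 0], (.ev, 16)), ([4, 2, 4, 3, 3], (.pl 4, 7)), ([2, 2, 4, 4, 0], (.ev, 6)), ([4, 2, 2, 0, 4], (.ev, 0)), ([0, 4, 1, 4, 1], (.ev, 0)), ([0, 0, 0, 0, 0], (.pl 4, 7)), ([0, 0, 0, 0, 1], (.pl 1, 1)), ([0, 0, 1, 0, 1], (.ev, 0))], [4, 2, 3, 1, 1, 2, 1, 1]⟩,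
   ⟨[14, 14, 14, 13, 9], 2, [([4, 4, 2, 2, 0], (.ev, 16)), ([3, 2, 4, 3, 4], (.pl 4, 7)), ([2, 2, 4, 4, 0], (.ev, 6)), ([4, 2, 2, 0, 4], (.ev, 0)), ([0, 4, 1, 4, 1], (.ev, 0)), ([0, 0, 0, 0, 0], (.pl 4, 7)), ([0, 0, 0, 0, 0], (.pl 1, 2)), ([1, 0, 1, 0, 0], (.ev, 0))], [4, 2, 1, 1, 1, 1, 0, 1]⟩,
   ⟨[14, 14, 14, 13, 8], 2, [([4, 4, 2, 2, 0], (.ev, 16)), ([3, 3, 2, 3, 4], (.pl 4, 8)), ([2, 2, 4, 4, 0], (.ev, 6)), ([4, 4, 2, 0, 2], (.ev, 0)), ([1, 0, 4, 4, 1], (.ev, 0)), ([0, 0, 0, 0, 0], (.pl 4, 7)), ([0, 0, 0, 0, 0], (.pl 1, 2)), ([0, 1, 0, 0, 1], (.ev, 0))], [4, 1, 1, 1, 1, 2, 0, 1]⟩,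
   ⟨[14, 14, 14, 13, 7], 2, [([4, 4, 2, 2, 0], (.ev, 16)), ([3, 3, 2, 3, 3], (.pl 4, 9)), ([2, 2, 4, 4, 0], (.ev, 6)), ([4, 4, 2, 2, 0], (.ev, 0)), ([1, 0, 4, 1, 4], (.ev, 0)), ([0, 0, 0, 0, 0], (.pl 4, 7)), ([0, 0, 0, 0, 0], (.pl 1, 2)), ([0, 1, 0, 1, 0], (.ev, 0))], [3, 1, 1, 1, 1, 1, 0, 1]⟩,
   ⟨[14, 14, 14, 13, 6], 2, [([4, 4, 2, 2, 0], (.ev, 16)), ([3, 3, 2, 3, 2], (.pl 4, 10)), ([2, 2, 4, 4, 0], (.ev, 6)), ([4, 4, 2, 2, 0], (.ev, 0)), ([1, 0, 4, 1, 4], (.ev, 0)), ([0, 0, 0, 0, 0], (.pl 4, 7)), ([0, 0, 0, 0, 0], (.pl 1, 2)), ([0, 1, 0, 1, 0], (.ev, 0))], [3, 1, 1, 1, 1, 1, 0, 1]⟩,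
   ⟨[14, 14, 14, 13, 5], 2, [([4, 4, 2, 2, 0], (.ev, 16)), ([3, 3, 2, 1, 3], (.pl 4, 11)), ([2, 2, 4, 4, 0], (.ev, 6)), ([4, 4, 2, 2, 0], (.ev, 0)), ([1, 0, 4, 4, 1], (.ev, 0)), ([0, 0, 0, 0, 0], (.pl 4, 7)), ([0, 0, 0, 0, 0], (.pl 1, 2)), ([0, 1, 0, 0, 1], (.ev, 0))], [2, 0, 1, 1, 1, 1, 0, 1]⟩,
   ⟨[14, 14, 14, 12], 2, [([4, 4, 2, 2], (.ev, 16)), ([0, 4, 4, 2], (.pl 4, 13)), ([4, 2, 4, 2], (.ev, 6)), ([2, 4, 4, 2], (.ev, 0)), ([4, 0, 0, 4], (.ev, 2)), ([0, 0, 0, 0], (.pl 4, 7)), ([0, 0, 0, 0], (.pl 1, 2)), ([0, 0, 0, 0], (.ev, 2))], [4, 0, 1, 1, 1, 3, 0, 1]⟩,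
   ⟨[14, 14, 14, 11], 2, [([4, 4, 2, 2], (.ev, 16)), ([0, 3, 3, 1], (.pl 4, 16)), ([4, 2, 4, 2], (.ev, 6)), ([2, 4, 4, 2], (.ev, 0)), ([4, 1, 1, 4], (.ev, 0)), ([0, 0, 0, 0], (.pl 4, 7)), ([0, 0, 0, 0], (.pl 1, 2)), ([0, 0, 0, 0], (.ev, 2))], [4, 0, 1, 1, 1, 3, 0, 1]⟩,
   ⟨[14, 14, 14, 10], 2, [([4, 4, 2, 2], (.ev, 16)), ([0, 0, 2, 2], (.pl 4, 19)), ([4, 2, 4, 2], (.ev, 6)), ([2, 4, 4, 2], (.ev, 0)), ([4, 4, 1, 1], (.ev, 0)), ([0, 0, 0, 0], (.pl 4, 7)), ([0, 0, 0, 0], (.pl 1, 2)), ([0, 0, 1, 1], (.ev, 0))], [4, 0, 1, 1, 1, 3, 0, 1]⟩,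
   ⟨[14, 14, 14, 9], 2, [([4, 4, 2, 2], (.ev, 16)), ([0, 0, 2, 1], (.pl 4, 20)), ([4, 2, 4, 2], (.ev, 6)), ([2, 4, 4, 2], (.ev, 0)), ([4, 4, 1, 1], (.ev, 0)), ([0, 0, 0, 0], (.pl 4, 7)), ([0, 0, 0, 0], (.pl 1, 2)), ([0, 0, 1, 1], (.ev, 0))], [3, 0, 1, 1, 1, 2, 0, 1]⟩,
   ⟨[14, 14, 14, 8], 2, [([4, 4, 2, 2], (.ev, 16)), ([0, 0, 2, 0], (.pl 4, 21)), ([4, 2, 4, 2], (.ev, 6)), ([2, 4, 4, 2], (.ev, 0)), ([4, 4, 1, 1], (.ev, 0)), ([0, 0, 0, 0], (.pl 4, 7)), ([0, 0, 0, 0], (.pl 1, 2)), ([0, 0, 1, 1], (.ev, 0))], [3, 1, 1, 1, 1, 1, 0, 1]⟩,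
   ⟨[14, 14, 14, 7], 2, [([4, 4, 2, 2], (.ev, 16)), ([0, 0, 3, 0], (.pl 4, 20)), ([4, 2, 4, 2], (.ev, 6)), ([2, 4, 4, 2], (.ev, 0)), ([4, 4, 1, 1], (.ev, 0)), ([0, 0, 0, 0], (.pl 4, 7)), ([0, 0, 0, 0], (.pl 1, 2)), ([0, 0, 0, 0], (.ev, 2))], [2, 0, 1, 1, 1, 1, 0, 1]⟩,
   ⟨[14, 14, 14, 6], 2, [([4, 4, 2, 2], (.ev, 16)), ([0, 0, 4, 0], (.pl 4, 19)), ([4, 2, 4, 2], (.ev, 6)), ([2, 4, 4, 2], (.ev, 0)), ([4, 4, 0, 0], (.ev, 2)), ([0, 0, 0, 0], (.pl 4, 7)), ([0, 0, 0, 0], (.pl 1, 2)), ([0, 0, 0, 0], (.ev, 2))], [2, 0, 1, 1, 1, 1, 0, 1]⟩,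
   ⟨[14, 14, 13, 13], 2, [([4, 4, 2, 2], (.ev, 16)), ([3, 3, 4, 4], (.pl 4, 9)), ([2, 2, 4, 4], (.ev, 6)), ([4, 4, 1, 1], (.ev, 2)), ([1, 1, 1, 1], (.ev, 6)), ([0, 0, 0, 1], (.pl 4, 6)), ([0, 0, 1, 0], (.pl 1, 1)), ([0, 0, 0, 0], (.ev, 2))], [4, 1, 2, 1, 2, 3, 1, 1]⟩,
   ⟨[14, 14, 13, 12], 2, [([4, 4, 2, 2], (.ev, 16)), ([0, 4, 1, 4], (.pl 4, 14)), ([4, 2, 4, 2], (.ev, 6)), ([2, 4, 2, 4], (.ev, 0)), ([4, 0, 4, 0], (.ev, 2)), ([0, 0, 0, 0], (.pl 4, 7)), ([0, 0, 0, 0], (.pl 1, 2)), ([0, 0, 0, 0], (.ev, 2))], [4, 0, 1, 1, 1, 3, 0, 1]⟩,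
   ⟨[14, 14, 13, 11], 2, [([4, 4, 2, 2], (.ev, 16)), ([0, 3, 2, 1], (.pl 4, 17)), ([4, 2, 4, 2], (.ev, 6)), ([2, 4, 4, 2], (.ev, 0)), ([4, 1, 1, 4], (.ev, 0)), ([0, 0, 0, 0], (.pl 4, 7)), ([0, 0, 0, 0], (.pl 1, 2)), ([0, 0, 0, 0], (.ev, 2))], [4, 0, 1, 1, 1, 3, 0, 1]⟩,
   ⟨[14, 14, 13, 10], 2, [([4, 4, 2, 2], (.ev, 16)), ([0, 0, 1, 2], (.pl 4, 20)), ([4, 2, 4, 2], (.ev, 6)), ([2, 4, 4, 2], (.ev, 0)), ([4, 4, 1, 1], (.ev, 0)), ([0, 0, 0, 0], (.pl 4, 7)), ([0, 0, 0, 0], (.pl 1, 2)), ([0, 0, 1, 1], (.ev, 0))], [4, 0, 1, 1, 1, 3, 0, 1]⟩,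
   ⟨[14, 14, 13, 9], 2, [([4, 4, 2, 2], (.ev, 16)), ([0, 0, 1, 1], (.pl 4, 21)), ([4, 2, 4, 2], (.ev, 6)), ([2, 4, 4, 2], (.ev, 0)), ([4, 4, 1, 1], (.ev, 0)), ([0, 0, 0, 0], (.pl 4, 7)), ([0, 0, 0, 0], (.pl 1, 2)), ([0, 0, 1, 1], (.ev, 0))], [3, 0, 1, 1, 1, 2, 0, 1]⟩,
   ⟨[14, 14, 13, 8], 2, [([4, 4, 2, 2], (.ev, 16)), ([0, 0, 1, 0], (.pl 4, 22)), ([4, 2, 4, 2], (.ev, 6)), ([2, 4, 4, 2], (.ev, 0)), ([4, 4, 1, 1], (.ev, 0)), ([0, 0, 0, 0], (.pl 4, 7)), ([0, 0, 0, 0], (.pl 1, 2)), ([0, 0, 1, 1], (.ev, 0))], [2, 0, 1, 1, 1, 1, 0, 1]⟩,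
   ⟨[14, 14, 13, 7], 2, [([4, 4, 2, 2], (.ev, 16)), ([0, 0, 2, 0], (.pl 4, 21)), ([4, 2, 4, 2], (.ev, 6)), ([2, 4, 4, 2], (.ev, 0)), ([4, 4, 1, 1], (.ev, 0)), ([0, 0, 0, 0], (.pl 4, 7)), ([0, 0, 0, 0], (.pl 1, 2)), ([0, 0, 0, 0], (.ev, 2))], [2, 0, 1, 1, 1, 1, 0, 1]⟩,
   ⟨[14, 14, 13, 6], 2, [([4, 4, 2, 2], (.ev, 16)), ([0, 0, 3, 0], (.pl 4, 20)), ([4, 2, 4, 2], (.ev, 6)), ([2, 4, 4, 2], (.ev, 0)), ([4, 4, 0, 0], (.ev, 2)), ([0, 0, 0, 0], (.pl 4, 7)), ([0, 0, 0, 0], (.pl 1, 2)), ([0, 0, 0, 0], (.ev, 2))], [2, 0, 1, 1, 1, 1, 0, 1]⟩,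
   ⟨[14, 14, 12, 12], 2, [([4, 4, 2, 2], (.ev, 16)), ([0, 0, 4, 4], (.pl 4, 15)), ([4, 4, 2, 2], (.ev, 6)), ([2, 2, 4, 4], (.ev, 0)), ([4, 4, 0, 0], (.ev, 2)), ([0, 0, 0, 0], (.pl 4, 7)), ([0, 0, 0, 0], (.pl 1, 2)), ([0, 0, 0, 0], (.ev, 2))], [4, 0, 1, 1, 1, 3, 0, 1]⟩,
   ⟨[14, 14, 12, 11], 2, [([4, 4, 2, 2], (.ev, 16)), ([0, 0, 3, 2], (.pl 4, 18)), ([4, 4, 2, 2], (.ev, 6)), ([2, 2, 4, 4], (.ev, 0)), ([4, 4, 1, 1], (.ev, 0)), ([0, 0, 0, 0], (.pl 4, 7)), ([0, 0, 0, 0], (.pl 1, 2)), ([0, 0, 0, 0], (.ev, 2))], [4, 0, 1, 1, 1, 3, 0, 1]⟩,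
   ⟨[14, 14, 12, 10], 2, [([4, 4, 2, 2], (.ev, 16)), ([0, 0, 0, 2], (.pl 4, 21)), ([4, 4, 2, 2], (.ev, 6)), ([4, 2, 4, 2], (.ev, 0)), ([1, 4, 4, 1], (.ev, 0)), ([0, 0, 0, 0], (.pl 4, 7)), ([0, 0, 0, 0], (.pl 1, 2)), ([1, 0, 0, 1], (.ev, 0))], [4, 0, 1, 1, 1, 3, 0, 1]⟩,
   ⟨[14, 14, 12, 9], 2, [([4, 4, 2, 2], (.ev, 16)), ([0, 0, 0, 1], (.pl 4, 22)), ([4, 4, 2, 2], (.ev, 6)), ([4, 2, 4, 2], (.ev, 0)), ([1, 4, 4, 1], (.ev, 0)), ([0, 0, 0, 0], (.pl 4, 7)), ([0, 0, 0, 0], (.pl 1, 2)), ([1, 0, 0, 1], (.ev, 0))], [3, 0, 1, 1, 1, 2, 0, 1]⟩,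
   ⟨[14, 14, 12, 8], 2, [([4, 4, 2, 2], (.ev, 16)), ([0, 0, 0, 0], (.pl 4, 23)), ([4, 4, 2, 2], (.ev, 6)), ([4, 2, 4, 2], (.ev, 0)), ([1, 4, 4, 1], (.ev, 0)), ([0, 0, 0, 0], (.pl 4, 7)), ([0, 0, 0, 0], (.pl 1, 2)), ([1, 0, 0, 1], (.ev, 0))], [2, 0, 1, 1, 1, 1, 0, 1]⟩,
   ⟨[14, 14, 12, 7], 2, [([4, 4, 2, 2], (.ev, 16)), ([1, 0, 0, 0], (.pl 4, 22)), ([4, 4, 2, 2], (.ev, 6)), ([4, 2, 4, 2], (.ev, 0)), ([1, 4, 4, 1], (.ev, 0)), ([0, 0, 0, 0], (.pl 4, 7)), ([0, 0, 0, 0], (.pl 1, 2)), ([0, 0, 0, 0], (.ev, 2))], [2, 0, 1, 1, 1, 1, 0, 1]⟩,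
   ⟨[14, 14, 12, 6], 2, [([4, 4, 2, 2], (.ev, 16)), ([2, 0, 0, 0], (.pl 4, 21)), ([4, 4, 2, 2], (.ev, 6)), ([4, 2, 4, 2], (.ev, 0)), ([0, 4, 4, 0], (.ev, 2)), ([0, 0, 0, 0], (.pl 4, 7)), ([0, 0, 0, 0], (.pl 1, 2)), ([0, 0, 0, 0], (.ev, 2))], [2, 0, 1, 1, 1, 1, 0, 1]⟩,
   ⟨[14, 14, 11], 2, [([2, 2, 0], (.ev, 24)), ([4, 4, 3], (.pl 4, 12)), ([2, 2, 0], (.ev, 14)), ([4, 0, 4], (.ev, 4)), ([0, 4, 4], (.ev, 2)), ([0, 1, 0], (.pl 4, 6)), ([1, 0, 0], (.pl 1, 1)), ([1, 1, 0], (.ev, 0))], [4, 2, 3, 1, 1, 2, 1, 1]⟩,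
   ⟨[14, 14, 10], 2, [([2, 2, 0], (.ev, 24)), ([2, 4, 4], (.pl 4, 13)), ([2, 2, 0], (.ev, 14)), ([4, 4, 0], (.ev, 4)), ([4, 0, 4], (.ev, 2)), ([0, 0, 1], (.pl 4, 6)), ([0, 1, 0], (.pl 1, 1)), ([0, 1, 1], (.ev, 0))], [4, 2, 3, 1, 1, 2, 1, 1]⟩,
   ⟨[14, 14, 9], 2, [([2, 2, 0], (.ev, 24)), ([2, 4, 4], (.pl 4, 13)), ([2, 2, 0], (.ev, 14)), ([4, 4, 0], (.ev, 4)), ([4, 0, 4], (.ev, 2)), ([0, 0, 0], (.pl 4, 7)), ([0, 1, 0], (.pl 1, 1)), ([0, 1, 1], (.ev, 0))], [4, 1, 2, 1, 1, 2, 1, 1]⟩,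
   ⟨[14, 14, 8], 2, [([2, 2, 0], (.ev, 24)), ([2, 4, 3], (.pl 4, 14)), ([2, 2, 0], (.ev, 14)), ([4, 4, 0], (.ev, 4)), ([4, 0, 4], (.ev, 2)), ([0, 0, 0], (.pl 4, 7)), ([0, 1, 0], (.pl 1, 1)), ([0, 1, 1], (.ev, 0))], [3, 1, 2, 1, 1, 1, 1, 1]⟩,
   ⟨[14, 14, 7], 2, [([2, 2, 0], (.ev, 24)), ([2, 4, 2], (.pl 4, 15)), ([2, 2, 0], (.ev, 14)), ([4, 4, 0], (.ev, 4)), ([4, 0, 4], (.ev, 2)), ([0, 0, 0], (.pl 4, 7)), ([0, 1, 0], (.pl 1, 1)), ([0, 1, 1], (.ev, 0))], [3, 1, 2, 1, 1, 1, 1, 1]⟩,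
   ⟨[14, 13], 2, [([2, 2], (.ev, 24)), ([4, 4], (.pl 4, 15)), ([2, 2], (.ev, 14)), ([3, 3], (.ev, 6)), ([2, 2], (.ev, 6)), ([0, 0], (.pl 4, 7)), ([1, 0], (.pl 1, 1)), ([0, 0], (.ev, 2))], [4, 1, 3, 1, 1, 3, 1, 1]⟩,
   ⟨[14, 12], 2, [([2, 2], (.ev, 24)), ([3, 1], (.pl 4, 19)), ([2, 2], (.ev, 14)), ([4, 4], (.ev, 4)), ([3, 3], (.ev, 4)), ([0, 0], (.pl 4, 7)), ([0, 0], (.pl 1, 2)), ([0, 0], (.ev, 2))], [4, 1, 2, 1, 1, 3, 0, 1]⟩,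
   ⟨[14, 11], 2, [([2, 2], (.ev, 24)), ([3, 0], (.pl 4, 20)), ([2, 2], (.ev, 14)), ([4, 4], (.ev, 4)), ([3, 3], (.ev, 4)), ([0, 0], (.pl 4, 7)), ([0, 0], (.pl 1, 2)), ([0, 0], (.ev, 2))], [4, 1, 2, 1, 1, 3, 0, 1]⟩,
   ⟨[14, 10], 2, [([2, 2], (.ev, 24)), ([4, 0], (.pl 4, 19)), ([2, 2], (.ev, 14)), ([4, 4], (.ev, 4)), ([2, 2], (.ev, 6)), ([0, 0], (.pl 4, 7)), ([0, 0], (.pl 1, 2)), ([0, 0], (.ev, 2))], [3, 1, 2, 1, 1, 2, 0, 1]⟩,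
   ⟨[14, 9], 2, [([2, 2], (.ev, 24)), ([4, 0], (.pl 4, 19)), ([2, 2], (.ev, 14)), ([4, 4], (.ev, 4)), ([1, 1], (.ev, 8)), ([0, 0], (.pl 4, 7)), ([1, 0], (.pl 1, 1)), ([0, 0], (.ev, 2))], [3, 1, 2, 1, 1, 1, 1, 1]⟩,
   ⟨[14, 8], 2, [([2, 2], (.ev, 24)), ([4, 0], (.pl 4, 19)), ([2, 2], (.ev, 14)), ([4, 4], (.ev, 4)), ([0, 0], (.ev, 10)), ([1, 0], (.pl 4, 6)), ([1, 0], (.pl 1, 1)), ([0, 0], (.ev, 2))], [3, 1, 2, 1, 1, 1, 1, 1]⟩,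
   ⟨[14, 7], 2, [([2, 2], (.ev, 24)), ([4, 0], (.pl 4, 19)), ([2, 2], (.ev, 14)), ([3, 3], (.ev, 6)), ([0, 0], (.ev, 10)), ([2, 0], (.pl 4, 5)), ([1, 0], (.pl 1, 1)), ([0, 0], (.ev, 2))], [3, 1, 2, 1, 1, 1, 1, 1]⟩,
   ⟨[13, 13], 1, [([2, 2], (.ev, 24)), ([2, 2], (.pl 4, 19)), ([1, 1], (.pl 1, 8)), ([1, 1], (.pl 1, 6)), ([4, 4], (.ev, 4)), ([3, 3], (.ev, 4)), ([0, 0], (.pl 4, 7)), ([0, 0], (.pl 1, 2)), ([0, 0], (.ev, 2))], [4, 0, 0, 0, 1, 1, 3, 0, 1]⟩,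
   ⟨[13, 12], 2, [([2, 2], (.ev, 24)), ([4, 4], (.pl 4, 15)), ([2, 2], (.ev, 14)), ([4, 4], (.ev, 4)), ([0, 0], (.ev, 10)), ([0, 0], (.pl 4, 7)), ([1, 0], (.pl 1, 1)), ([0, 0], (.ev, 2))], [4, 2, 3, 1, 2, 3, 1, 1]⟩,
   ⟨[13, 11], 2, [([2, 2], (.ev, 24)), ([2, 0], (.pl 4, 21)), ([2, 2], (.ev, 14)), ([4, 4], (.ev, 4)), ([3, 3], (.ev, 4)), ([0, 0], (.pl 4, 7)), ([0, 0], (.pl 1, 2)), ([0, 0], (.ev, 2))], [4, 1, 2, 1, 1, 3, 0, 1]⟩,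
   ⟨[13, 10], 2, [([2, 2], (.ev, 24)), ([3, 0], (.pl 4, 20)), ([2, 2], (.ev, 14)), ([4, 4], (.ev, 4)), ([2, 2], (.ev, 6)), ([0, 0], (.pl 4, 7)), ([0, 0], (.pl 1, 2)), ([0, 0], (.ev, 2))], [3, 1, 2, 1, 1, 2, 0, 1]⟩,
   ⟨[12, 12], 2, [([2, 2], (.ev, 24)), ([2, 2], (.pl 4, 19)), ([2, 2], (.ev, 14)), ([4, 4], (.ev, 4)), ([2, 2], (.ev, 6)), ([0, 0], (.pl 4, 7)), ([0, 0], (.pl 1, 2)), ([0, 0], (.ev, 2))], [4, 1, 2, 1, 1, 3, 0, 1]⟩,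
   ⟨[12, 11], 2, [([2, 2], (.ev, 24)), ([1, 0], (.pl 4, 22)), ([2, 2], (.ev, 14)), ([4, 4], (.ev, 4)), ([3, 3], (.ev, 4)), ([0, 0], (.pl 4, 7)), ([0, 0], (.pl 1, 2)), ([0, 0], (.ev, 2))], [4, 1, 2, 1, 1, 3, 0, 1]⟩,
   ⟨[12, 10], 2, [([2, 2], (.ev, 24)), ([2, 0], (.pl 4, 21)), ([2, 2], (.ev, 14)), ([4, 4], (.ev, 4)), ([2, 2], (.ev, 6)), ([0, 0], (.pl 4, 7)), ([0, 0], (.pl 1, 2)), ([0, 0], (.ev, 2))], [3, 1, 2, 1, 1, 2, 0, 1]⟩,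
   ⟨[11, 11], 2, [([2, 2], (.ev, 24)), ([0, 0], (.pl 4, 23)), ([2, 2], (.ev, 14)), ([4, 4], (.ev, 4)), ([3, 3], (.ev, 4)), ([0, 0], (.pl 4, 7)), ([0, 0], (.pl 1, 2)), ([0, 0], (.ev, 2))], [4, 1, 2, 1, 1, 3, 0, 1]⟩,
   ⟨[11, 10], 2, [([2, 2], (.ev, 24)), ([1, 0], (.pl 4, 22)), ([2, 2], (.ev, 14)), ([4, 4], (.ev, 4)), ([2, 2], (.ev, 6)), ([0, 0], (.pl 4, 7)), ([0, 0], (.pl 1, 2)), ([0, 0], (.ev, 2))], [4, 1, 2, 1, 1, 3, 0, 1]⟩,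
   ⟨[10, 10], 2, [([2, 2], (.ev, 24)), ([0, 0], (.pl 4, 23)), ([2, 2], (.ev, 14)), ([4, 4], (.ev, 4)), ([2, 2], (.ev, 6)), ([0, 0], (.pl 4, 7)), ([0, 0], (.pl 1, 2)), ([0, 0], (.ev, 2))], [3, 1, 2, 1, 1, 2, 0, 1]⟩]

def cmC_15_12_10_8_6_3 : List (List ℕ × List (ℕ × ℕ)) :=
  [([21, 7], [(14, 1), (21, 4), (17, 4), (7, 1), (4, 1), (4, 1), (4, 4), (1, 1), (2, 1)]),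
   ([20, 8], [(14, 1), (21, 4), (17, 4), (7, 1), (4, 1), (2, 1), (6, 4), (1, 1), (2, 1)]),
   ([20, 7], [(14, 1), (21, 4), (17, 4), (7, 1), (4, 1), (4, 1), (5, 4), (1, 1), (2, 1)]),
   ([19, 9], [(26, 3), (19, 4), (9, 1), (7, 1), (4, 1), (4, 1), (3, 3), (0, 1), (2, 1)]),
   ([19, 8], [(25, 2), (19, 4), (9, 1), (7, 1), (4, 1), (6, 1), (3, 4), (0, 1), (2, 1)]),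
   ([19, 7], [(14, 1), (21, 4), (17, 4), (7, 1), (4, 1), (4, 1), (6, 4), (1, 1), (2, 1)]),
   ([14, 14, 14, 14, 14, 14, 11, 1], [(6, 1), (0, 4), (0, 1), (0, 1), (0, 1), (0, 4), (0, 1), (0, 1)]),
   ([14, 14, 14, 14, 14, 14, 10, 2], [(0, 1), (3, 4), (0, 1), (0, 1), (0, 1), (3, 4), (0, 1), (0, 1)]),
   ([14, 14, 14, 14, 14, 14, 10, 1], [(6, 1), (0, 4), (0, 1), (0, 1), (0, 1), (1, 4), (0, 1), (0, 1)]),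
   ([14, 14, 14, 14, 14, 14, 9, 3], [(0, 1), (3, 4), (0, 1), (0, 1), (0, 1), (3, 4), (0, 1), (0, 1)]),
   ([14, 14, 14, 14, 14, 14, 9, 2], [(0, 1), (3, 4), (0, 1), (0, 1), (0, 1), (3, 4), (1, 1), (0, 1)]),
   ([14, 14, 14, 14, 14, 14, 8, 4], [(0, 1), (3, 4), (0, 1), (0, 1), (0, 1), (3, 4), (0, 1), (0, 1)]),
   ([14, 14, 14, 14, 14, 14, 8, 3], [(0, 1), (3, 4), (0, 1), (0, 1), (0, 1), (3, 4), (1, 1), (0, 1)]),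
   ([14, 14, 14, 14, 14, 14, 8, 2], [(0, 1), (3, 4), (0, 1), (0, 1), (0, 1), (4, 4), (1, 1), (0, 1)]),
   ([14, 14, 14, 14, 14, 14, 7, 5], [(0, 1), (3, 4), (0, 1), (0, 1), (0, 1), (3, 4), (0, 1), (0, 1)]),
   ([14, 14, 14, 14, 14, 14, 7, 4], [(0, 1), (3, 4), (0, 1), (0, 1), (0, 1), (3, 4), (1, 1), (0, 1)]),
   ([14, 14, 14, 14, 14, 14, 7, 3], [(0, 1), (3, 4), (0, 1), (0, 1), (0, 1), (4, 4), (1, 1), (0, 1)]),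
   ([14, 14, 14, 14, 14, 14, 7, 2], [(0, 1), (4, 4), (0, 1), (0, 1), (0, 1), (4, 4), (1, 1), (0, 1)]),
   ([14, 14, 14, 14, 14, 14, 6, 6], [(0, 1), (3, 4), (0, 1), (0, 1), (0, 1), (3, 4), (0, 1), (0, 1)]),
   ([14, 14, 14, 14, 14, 14, 6, 5], [(0, 1), (3, 4), (0, 1), (0, 1), (0, 1), (3, 4), (1, 1), (0, 1)]),
   ([14, 14, 14, 14, 14, 14, 6, 4], [(0, 1), (3, 4), (0, 1), (0, 1), (0, 1), (4, 4), (1, 1), (0, 1)]),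
   ([14, 14, 14, 14, 14, 14, 6, 3], [(0, 1), (4, 4), (0, 1), (0, 1), (0, 1), (4, 4), (1, 1), (0, 1)]),
   ([14, 14, 14, 14, 14, 14, 6, 2], [(0, 1), (4, 4), (0, 1), (0, 1), (0, 1), (5, 4), (1, 1), (0, 1)]),
   ([14, 14, 14, 14, 14, 14, 5], [(9, 2), (1, 3), (0, 1), (0, 1), (0, 1), (3, 4), (0, 1), (0, 1)]),
   ([14, 14, 14, 14, 14, 14, 4], [(9, 2), (2, 3), (0, 1), (0, 1), (0, 1), (3, 4), (0, 1), (0, 1)]),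
   ([14, 14, 14, 14, 14, 14, 3], [(9, 2), (3, 4), (0, 1), (0, 1), (0, 1), (3, 4), (0, 1), (0, 1)]),
   ([14, 14, 14, 14, 14, 13, 12, 1], [(6, 1), (0, 4), (0, 1), (0, 1), (0, 1), (0, 4), (0, 1), (0, 1)]),
   ([14, 14, 14, 14, 14, 13, 11, 2], [(0, 1), (3, 4), (0, 1), (0, 1), (0, 1), (3, 4), (0, 1), (0, 1)]),
   ([14, 14, 14, 14, 14, 13, 11, 1], [(6, 1), (0, 4), (0, 1), (0, 1), (0, 1), (1, 4), (0, 1), (0, 1)]),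
   ([14, 14, 14, 14, 14, 13, 10, 3], [(0, 1), (3, 4), (0, 1), (0, 1), (0, 1), (3, 4), (0, 1), (0, 1)]),
   ([14, 14, 14, 14, 14, 13, 10, 2], [(0, 1), (3, 4), (0, 1), (0, 1), (0, 1), (3, 4), (1, 1), (0, 1)]),
   ([14, 14, 14, 14, 14, 13, 9, 4], [(0, 1), (3, 4), (0, 1), (0, 1), (0, 1), (3, 4), (0, 1), (0, 1)]),
   ([14, 14, 14, 14, 14, 13, 9, 3], [(0, 1), (3, 4), (0, 1), (0, 1), (0, 1), (3, 4), (1, 1), (0, 1)]),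
   ([14, 14, 14, 14, 14, 13, 9, 2], [(0, 1), (3, 4), (0, 1), (0, 1), (0, 1), (4, 4), (1, 1), (0, 1)]),
   ([14, 14, 14, 14, 14, 13, 8, 5], [(0, 1), (3, 4), (0, 1), (0, 1), (0, 1), (3, 4), (0, 1), (0, 1)]),
   ([14, 14, 14, 14, 14, 13, 8, 4], [(0, 1), (3, 4), (0, 1), (0, 1), (0, 1), (3, 4), (1, 1), (0, 1)]),
   ([14, 14, 14, 14, 14, 13, 8, 3], [(0, 1), (3, 4), (0, 1), (0, 1), (0, 1), (4, 4), (1, 1), (0, 1)]),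
   ([14, 14, 14, 14, 14, 13, 8, 2], [(0, 1), (4, 4), (0, 1), (0, 1), (0, 1), (4, 4), (1, 1), (0, 1)]),
   ([14, 14, 14, 14, 14, 13, 7, 6], [(0, 1), (3, 4), (0, 1), (0, 1), (0, 1), (3, 4), (0, 1), (0, 1)]),
   ([14, 14, 14, 14, 14, 13, 7, 5], [(0, 1), (3, 4), (0, 1), (0, 1), (0, 1), (3, 4), (1, 1), (0, 1)]),
   ([14, 14, 14, 14, 14, 13, 7, 4], [(0, 1), (3, 4), (0, 1), (0, 1), (0, 1), (4, 4), (1, 1), (0, 1)]),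
   ([14, 14, 14, 14, 14, 13, 7, 3], [(0, 1), (4, 4), (0, 1), (0, 1), (0, 1), (4, 4), (1, 1), (0, 1)]),
   ([14, 14, 14, 14, 14, 13, 7, 2], [(0, 1), (4, 4), (0, 1), (0, 1), (0, 1), (5, 4), (1, 1), (0, 1)]),
   ([14, 14, 14, 14, 14, 13, 6], [(9, 2), (1, 3), (0, 1), (0, 1), (0, 1), (3, 4), (0, 1), (0, 1)]),
   ([14, 14, 14, 14, 14, 13, 5], [(9, 2), (2, 3), (0, 1), (0, 1), (0, 1), (3, 4), (0, 1), (0, 1)]),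
   ([14, 14, 14, 14, 14, 13, 4], [(9, 2), (3, 4), (0, 1), (0, 1), (0, 1), (3, 4), (0, 1), (0, 1)]),
   ([14, 14, 14, 14, 14, 13, 3], [(9, 2), (3, 4), (0, 1), (0, 1), (0, 1), (4, 4), (0, 1), (0, 1)]),
   ([14, 14, 14, 14, 14, 12, 12, 2], [(0, 1), (3, 4), (0, 1), (0, 1), (0, 1), (3, 4), (0, 1), (0, 1)]),
   ([14, 14, 14, 14, 14, 12, 12, 1], [(6, 1), (0, 4), (0, 1), (0, 1), (0, 1), (1, 4), (0, 1), (0, 1)]),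
   ([14, 14, 14, 14, 14, 12, 11, 3], [(0, 1), (3, 4), (0, 1), (0, 1), (0, 1), (3, 4), (0, 1), (0, 1)]),
   ([14, 14, 14, 14, 14, 12, 11, 2], [(0, 1), (3, 4), (0, 1), (0, 1), (0, 1), (3, 4), (1, 1), (0, 1)]),
   ([14, 14, 14, 14, 14, 12, 10, 4], [(0, 1), (3, 4), (0, 1), (0, 1), (0, 1), (3, 4), (0, 1), (0, 1)]),
   ([14, 14, 14, 14, 14, 12, 10, 3], [(0, 1), (3, 4), (0, 1), (0, 1), (0, 1), (3, 4), (1, 1), (0, 1)]),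
   ([14, 14, 14, 14, 14, 12, 10, 2], [(0, 1), (3, 4), (0, 1), (0, 1), (0, 1), (4, 4), (1, 1), (0, 1)]),
   ([14, 14, 14, 14, 14, 12, 9, 5], [(0, 1), (3, 4), (0, 1), (0, 1), (0, 1), (3, 4), (0, 1), (0, 1)]),
   ([14, 14, 14, 14, 14, 12, 9, 4], [(0, 1), (3, 4), (0, 1), (0, 1), (0, 1), (3, 4), (1, 1), (0, 1)]),
   ([14, 14, 14, 14, 14, 12, 9, 3], [(0, 1), (3, 4), (0, 1), (0, 1), (0, 1), (4, 4), (1, 1), (0, 1)]),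
   ([14, 14, 14, 14, 14, 12, 9, 2], [(0, 1), (4, 4), (0, 1), (0, 1), (0, 1), (4, 4), (1, 1), (0, 1)]),
   ([14, 14, 14, 14, 14, 12, 8, 6], [(0, 1), (3, 4), (0, 1), (0, 1), (0, 1), (3, 4), (0, 1), (0, 1)]),
   ([14, 14, 14, 14, 14, 12, 8, 5], [(0, 1), (3, 4), (0, 1), (0, 1), (0, 1), (3, 4), (1, 1), (0, 1)]),
   ([14, 14, 14, 14, 14, 12, 8, 4], [(0, 1), (3, 4), (0, 1), (0, 1), (0, 1), (4, 4), (1, 1), (0, 1)]),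
   ([14, 14, 14, 14, 14, 12, 8, 3], [(0, 1), (4, 4), (0, 1), (0, 1), (0, 1), (4, 4), (1, 1), (0, 1)]),
   ([14, 14, 14, 14, 14, 12, 8, 2], [(0, 1), (4, 4), (0, 1), (0, 1), (0, 1), (5, 4), (1, 1), (0, 1)]),
   ([14, 14, 14, 14, 14, 12, 7, 7], [(0, 1), (3, 4), (0, 1), (0, 1), (0, 1), (3, 4), (0, 1), (0, 1)]),
   ([14, 14, 14, 14, 14, 12, 7, 6], [(0, 1), (3, 4), (0, 1), (0, 1), (0, 1), (3, 4), (1, 1), (0, 1)]),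
   ([14, 14, 14, 14, 14, 12, 7, 5], [(0, 1), (3, 4), (0, 1), (0, 1), (0, 1), (4, 4), (1, 1), (0, 1)]),
   ([14, 14, 14, 14, 14, 12, 7, 4], [(0, 1), (4, 4), (0, 1), (0, 1), (0, 1), (4, 4), (1, 1), (0, 1)]),
   ([14, 14, 14, 14, 14, 12, 7, 3], [(0, 1), (4, 4), (0, 1), (0, 1), (0, 1), (5, 4), (1, 1), (0, 1)]),
   ([14, 14, 14, 14, 14, 12, 7, 2], [(0, 1), (5, 4), (0, 1), (0, 1), (0, 1), (5, 4), (1, 1), (0, 1)]),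
   ([14, 14, 14, 14, 14, 12, 6], [(9, 2), (2, 3), (0, 1), (0, 1), (0, 1), (3, 4), (0, 1), (0, 1)]),
   ([14, 14, 14, 14, 14, 12, 5], [(9, 2), (3, 4), (0, 1), (0, 1), (0, 1), (3, 4), (0, 1), (0, 1)]),
   ([14, 14, 14, 14, 14, 12, 4], [(9, 2), (3, 4), (0, 1), (0, 1), (0, 1), (4, 4), (0, 1), (0, 1)]),
   ([14, 14, 14, 14, 14, 12, 3], [(9, 2), (4, 4), (0, 1), (0, 1), (0, 1), (4, 4), (0, 1), (0, 1)]),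
   ([14, 14, 14, 14, 14, 11], [(8, 1), (5, 4), (0, 1), (0, 1), (0, 1), (5, 4), (1, 1), (2, 1)]),
   ([14, 14, 14, 14, 14, 10], [(8, 1), (6, 4), (0, 1), (0, 1), (0, 1), (7, 4), (1, 1), (0, 1)]),
   ([14, 14, 14, 14, 14, 9], [(8, 1), (7, 4), (0, 1), (0, 1), (0, 1), (7, 4), (1, 1), (0, 1)]),
   ([14, 14, 14, 14, 14, 8], [(8, 1), (7, 4), (0, 1), (0, 1), (0, 1), (7, 4), (2, 1), (0, 1)]),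
   ([14, 14, 14, 14, 14, 7], [(8, 1), (8, 4), (0, 1), (0, 1), (0, 1), (7, 4), (2, 1), (0, 1)]),
   ([14, 14, 14, 14, 14, 6], [(8, 1), (9, 4), (0, 1), (0, 1), (0, 1), (7, 4), (2, 1), (0, 1)]),
   ([14, 14, 14, 14, 14, 5], [(8, 1), (10, 4), (0, 1), (0, 1), (0, 1), (7, 4), (2, 1), (0, 1)]),
   ([14, 14, 14, 14, 14, 4], [(8, 1), (11, 4), (0, 1), (0, 1), (0, 1), (7, 4), (2, 1), (0, 1)]),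
   ([14, 14, 14, 14, 13, 13, 13, 1], [(6, 1), (0, 4), (0, 1), (0, 1), (0, 1), (0, 4), (0, 1), (0, 1)]),
   ([14, 14, 14, 14, 13, 13, 12, 2], [(0, 1), (3, 4), (0, 1), (0, 1), (0, 1), (3, 4), (0, 1), (0, 1)]),
   ([14, 14, 14, 14, 13, 13, 12, 1], [(6, 1), (0, 4), (0, 1), (0, 1), (0, 1), (1, 4), (0, 1), (0, 1)]),
   ([14, 14, 14, 14, 13, 13, 11, 3], [(0, 1), (3, 4), (0, 1), (0, 1), (0, 1), (3, 4), (0, 1), (0, 1)]),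
   ([14, 14, 14, 14, 13, 13, 11, 2], [(0, 1), (3, 4), (0, 1), (0, 1), (0, 1), (3, 4), (1, 1), (0, 1)]),
   ([14, 14, 14, 14, 13, 13, 10, 4], [(0, 1), (3, 4), (0, 1), (0, 1), (0, 1), (3, 4), (0, 1), (0, 1)]),
   ([14, 14, 14, 14, 13, 13, 10, 3], [(0, 1), (3, 4), (0, 1), (0, 1), (0, 1), (3, 4), (1, 1), (0, 1)]),
   ([14, 14, 14, 14, 13, 13, 10, 2], [(0, 1), (3, 4), (0, 1), (0, 1), (0, 1), (4, 4), (1, 1), (0, 1)]),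
   ([14, 14, 14, 14, 13, 13, 9, 5], [(0, 1), (3, 4), (0, 1), (0, 1), (0, 1), (3, 4), (0, 1), (0, 1)]),
   ([14, 14, 14, 14, 13, 13, 9, 4], [(0, 1), (3, 4), (0, 1), (0, 1), (0, 1), (3, 4), (1, 1), (0, 1)]),
   ([14, 14, 14, 14, 13, 13, 9, 3], [(0, 1), (3, 4), (0, 1), (0, 1), (0, 1), (4, 4), (1, 1), (0, 1)]),
   ([14, 14, 14, 14, 13, 13, 9, 2], [(0, 1), (4, 4), (0, 1), (0, 1), (0, 1), (4, 4), (1, 1), (0, 1)]),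
   ([14, 14, 14, 14, 13, 13, 8, 6], [(0, 1), (3, 4), (0, 1), (0, 1), (0, 1), (3, 4), (0, 1), (0, 1)]),
   ([14, 14, 14, 14, 13, 13, 8, 5], [(0, 1), (3, 4), (0, 1), (0, 1), (0, 1), (3, 4), (1, 1), (0, 1)]),
   ([14, 14, 14, 14, 13, 13, 8, 4], [(0, 1), (3, 4), (0, 1), (0, 1), (0, 1), (4, 4), (1, 1), (0, 1)]),
   ([14, 14, 14, 14, 13, 13, 8, 3], [(0, 1), (4, 4), (0, 1), (0, 1), (0, 1), (4, 4), (1, 1), (0, 1)]),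
   ([14, 14, 14, 14, 13, 13, 8, 2], [(0, 1), (4, 4), (0, 1), (0, 1), (0, 1), (5, 4), (1, 1), (0, 1)]),
   ([14, 14, 14, 14, 13, 13, 7, 7], [(0, 1), (3, 4), (0, 1), (0, 1), (0, 1), (3, 4), (0, 1), (0, 1)]),
   ([14, 14, 14, 14, 13, 13, 7, 6], [(0, 1), (3, 4), (0, 1), (0, 1), (0, 1), (3, 4), (1, 1), (0, 1)]),
   ([14, 14, 14, 14, 13, 13, 7, 5], [(0, 1), (3, 4), (0, 1), (0, 1), (0, 1), (4, 4), (1, 1), (0, 1)]),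
   ([14, 14, 14, 14, 13, 13, 7, 4], [(0, 1), (4, 4), (0, 1), (0, 1), (0, 1), (4, 4), (1, 1), (0, 1)]),
   ([14, 14, 14, 14, 13, 13, 7, 3], [(0, 1), (4, 4), (0, 1), (0, 1), (0, 1), (5, 4), (1, 1), (0, 1)]),
   ([14, 14, 14, 14, 13, 13, 7, 2], [(0, 1), (5, 4), (0, 1), (0, 1), (0, 1), (5, 4), (1, 1), (0, 1)]),
   ([14, 14, 14, 14, 13, 13, 6], [(9, 2), (2, 3), (0, 1), (0, 1), (0, 1), (3, 4), (0, 1), (0, 1)]),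
   ([14, 14, 14, 14, 13, 13, 5], [(9, 2), (3, 4), (0, 1), (0, 1), (0, 1), (3, 4), (0, 1), (0, 1)]),
   ([14, 14, 14, 14, 13, 13, 4], [(9, 2), (3, 4), (0, 1), (0, 1), (0, 1), (4, 4), (0, 1), (0, 1)]),
   ([14, 14, 14, 14, 13, 13, 3], [(9, 2), (4, 4), (0, 1), (0, 1), (0, 1), (4, 4), (0, 1), (0, 1)]),
   ([14, 14, 14, 14, 13, 12], [(8, 1), (4, 4), (0, 1), (0, 1), (2, 1), (4, 4), (1, 1), (2, 1)]),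
   ([14, 14, 14, 14, 13, 11], [(8, 1), (5, 4), (0, 1), (0, 1), (0, 1), (6, 4), (1, 1), (2, 1)]),
   ([14, 14, 14, 14, 13, 10], [(8, 1), (7, 4), (0, 1), (0, 1), (0, 1), (7, 4), (1, 1), (0, 1)]),
   ([14, 14, 14, 14, 13, 9], [(8, 1), (7, 4), (0, 1), (0, 1), (0, 1), (7, 4), (2, 1), (0, 1)]),
   ([14, 14, 14, 14, 13, 8], [(8, 1), (8, 4), (0, 1), (0, 1), (0, 1), (7, 4), (2, 1), (0, 1)]),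
   ([14, 14, 14, 14, 13, 7], [(8, 1), (9, 4), (0, 1), (0, 1), (0, 1), (7, 4), (2, 1), (0, 1)]),
   ([14, 14, 14, 14, 13, 6], [(8, 1), (10, 4), (0, 1), (0, 1), (0, 1), (7, 4), (2, 1), (0, 1)]),
   ([14, 14, 14, 14, 13, 5], [(8, 1), (11, 4), (0, 1), (0, 1), (0, 1), (7, 4), (2, 1), (0, 1)]),
   ([14, 14, 14, 14, 13, 4], [(8, 1), (12, 4), (0, 1), (0, 1), (0, 1), (7, 4), (2, 1), (0, 1)]),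
   ([14, 14, 14, 14, 12, 12], [(8, 1), (4, 4), (0, 1), (0, 1), (2, 1), (5, 4), (1, 1), (2, 1)]),
   ([14, 14, 14, 14, 12, 11], [(8, 1), (6, 4), (0, 1), (0, 1), (0, 1), (6, 4), (1, 1), (2, 1)]),
   ([14, 14, 14, 14, 12, 10], [(8, 1), (7, 4), (0, 1), (0, 1), (0, 1), (7, 4), (2, 1), (0, 1)]),
   ([14, 14, 14, 14, 12, 9], [(8, 1), (8, 4), (0, 1), (0, 1), (0, 1), (7, 4), (2, 1), (0, 1)]),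
   ([14, 14, 14, 14, 12, 8], [(8, 1), (9, 4), (0, 1), (0, 1), (0, 1), (7, 4), (2, 1), (0, 1)]),
   ([14, 14, 14, 14, 12, 7], [(8, 1), (10, 4), (0, 1), (0, 1), (0, 1), (7, 4), (2, 1), (0, 1)]),
   ([14, 14, 14, 14, 12, 6], [(8, 1), (11, 4), (0, 1), (0, 1), (0, 1), (7, 4), (2, 1), (0, 1)]),
   ([14, 14, 14, 14, 12, 5], [(8, 1), (12, 4), (0, 1), (0, 1), (0, 1), (7, 4), (2, 1), (0, 1)]),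
   ([14, 14, 14, 14, 12, 4], [(8, 1), (13, 4), (0, 1), (0, 1), (0, 1), (7, 4), (2, 1), (0, 1)]),
   ([14, 14, 14, 14, 11, 11], [(8, 1), (6, 4), (0, 1), (0, 1), (0, 1), (7, 4), (1, 1), (2, 1)]),
   ([14, 14, 14, 14, 11, 10], [(8, 1), (8, 4), (0, 1), (0, 1), (0, 1), (7, 4), (2, 1), (0, 1)]),
   ([14, 14, 14, 14, 11, 9], [(8, 1), (9, 4), (0, 1), (0, 1), (0, 1), (7, 4), (2, 1), (0, 1)]),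
   ([14, 14, 14, 14, 11, 8], [(8, 1), (10, 4), (0, 1), (0, 1), (0, 1), (7, 4), (2, 1), (0, 1)]),
   ([14, 14, 14, 14, 11, 7], [(8, 1), (11, 4), (0, 1), (0, 1), (0, 1), (7, 4), (2, 1), (0, 1)]),
   ([14, 14, 14, 14, 11, 6], [(8, 1), (12, 4), (0, 1), (0, 1), (0, 1), (7, 4), (2, 1), (0, 1)]),
   ([14, 14, 14, 14, 11, 5], [(8, 1), (13, 4), (0, 1), (0, 1), (0, 1), (7, 4), (2, 1), (0, 1)]),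
   ([14, 14, 14, 14, 11, 4], [(8, 1), (14, 4), (0, 1), (0, 1), (0, 1), (7, 4), (2, 1), (0, 1)]),
   ([14, 14, 14, 14, 10, 10], [(9, 2), (9, 4), (0, 1), (0, 1), (0, 1), (6, 3), (2, 1), (0, 1)]),
   ([14, 14, 14, 14, 10, 9], [(8, 1), (10, 4), (0, 1), (0, 1), (0, 1), (7, 4), (2, 1), (0, 1)]),
   ([14, 14, 14, 14, 10, 8], [(8, 1), (11, 4), (0, 1), (0, 1), (0, 1), (7, 4), (2, 1), (0, 1)]),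
   ([14, 14, 14, 14, 10, 7], [(8, 1), (12, 4), (0, 1), (0, 1), (0, 1), (7, 4), (2, 1), (0, 1)]),
   ([14, 14, 14, 14, 10, 6], [(8, 1), (13, 4), (0, 1), (0, 1), (0, 1), (7, 4), (2, 1), (0, 1)]),
   ([14, 14, 14, 14, 10, 5], [(8, 1), (14, 4), (0, 1), (0, 1), (0, 1), (7, 4), (2, 1), (0, 1)]),
   ([14, 14, 14, 14, 10, 4], [(8, 1), (15, 4), (0, 1), (0, 1), (0, 1), (7, 4), (2, 1), (0, 1)]),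
   ([14, 14, 14, 14, 9], [(19, 4), (6, 3), (6, 1), (0, 1), (0, 1), (6, 3), (0, 1), (0, 1)]),
   ([14, 14, 14, 14, 8], [(19, 4), (5, 2), (6, 1), (0, 1), (0, 1), (6, 3), (2, 1), (0, 1)]),
   ([14, 14, 14, 14, 7], [(18, 3), (7, 3), (6, 1), (0, 1), (0, 1), (6, 3), (2, 1), (0, 1)]),
   ([14, 14, 14, 14, 6], [(18, 3), (8, 3), (6, 1), (0, 1), (0, 1), (6, 3), (2, 1), (0, 1)]),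
   ([14, 14, 14, 14, 5], [(17, 2), (10, 4), (6, 1), (0, 1), (0, 1), (6, 3), (2, 1), (0, 1)]),
   ([14, 14, 14, 13, 13, 13, 13, 2], [(0, 1), (3, 4), (0, 1), (0, 1), (0, 1), (3, 4), (0, 1), (0, 1)]),
   ([14, 14, 14, 13, 13, 13, 13, 1], [(6, 1), (0, 4), (0, 1), (0, 1), (0, 1), (1, 4), (0, 1), (0, 1)]),
   ([14, 14, 14, 13, 13, 13, 12, 3], [(0, 1), (3, 4), (0, 1), (0, 1), (0, 1), (3, 4), (0, 1), (0, 1)]),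
   ([14, 14, 14, 13, 13, 13, 12, 2], [(0, 1), (3, 4), (0, 1), (0, 1), (0, 1), (3, 4), (1, 1), (0, 1)]),
   ([14, 14, 14, 13, 13, 13, 11, 4], [(0, 1), (3, 4), (0, 1), (0, 1), (0, 1), (3, 4), (0, 1), (0, 1)]),
   ([14, 14, 14, 13, 13, 13, 11, 3], [(0, 1), (3, 4), (0, 1), (0, 1), (0, 1), (3, 4), (1, 1), (0, 1)]),
   ([14, 14, 14, 13, 13, 13, 11, 2], [(0, 1), (3, 4), (0, 1), (0, 1), (0, 1), (4, 4), (1, 1), (0, 1)]),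
   ([14, 14, 14, 13, 13, 13, 10, 5], [(0, 1), (3, 4), (0, 1), (0, 1), (0, 1), (3, 4), (0, 1), (0, 1)]),
   ([14, 14, 14, 13, 13, 13, 10, 4], [(0, 1), (3, 4), (0, 1), (0, 1), (0, 1), (3, 4), (1, 1), (0, 1)]),
   ([14, 14, 14, 13, 13, 13, 10, 3], [(0, 1), (3, 4), (0, 1), (0, 1), (0, 1), (4, 4), (1, 1), (0, 1)]),
   ([14, 14, 14, 13, 13, 13, 10, 2], [(0, 1), (4, 4), (0, 1), (0, 1), (0, 1), (4, 4), (1, 1), (0, 1)]),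
   ([14, 14, 14, 13, 13, 13, 9, 6], [(0, 1), (3, 4), (0, 1), (0, 1), (0, 1), (3, 4), (0, 1), (0, 1)]),
   ([14, 14, 14, 13, 13, 13, 9, 5], [(0, 1), (3, 4), (0, 1), (0, 1), (0, 1), (3, 4), (1, 1), (0, 1)]),
   ([14, 14, 14, 13, 13, 13, 9, 4], [(0, 1), (3, 4), (0, 1), (0, 1), (0, 1), (4, 4), (1, 1), (0, 1)]),
   ([14, 14, 14, 13, 13, 13, 9, 3], [(0, 1), (4, 4), (0, 1), (0, 1), (0, 1), (4, 4), (1, 1), (0, 1)]),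
   ([14, 14, 14, 13, 13, 13, 9, 2], [(0, 1), (4, 4), (0, 1), (0, 1), (0, 1), (5, 4), (1, 1), (0, 1)]),
   ([14, 14, 14, 13, 13, 13, 8, 7], [(0, 1), (3, 4), (0, 1), (0, 1), (0, 1), (3, 4), (0, 1), (0, 1)]),
   ([14, 14, 14, 13, 13, 13, 8, 6], [(0, 1), (3, 4), (0, 1), (0, 1), (0, 1), (3, 4), (1, 1), (0, 1)]),
   ([14, 14, 14, 13, 13, 13, 8, 5], [(0, 1), (3, 4), (0, 1), (0, 1), (0, 1), (4, 4), (1, 1), (0, 1)]),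
   ([14, 14, 14, 13, 13, 13, 8, 4], [(0, 1), (4, 4), (0, 1), (0, 1), (0, 1), (4, 4), (1, 1), (0, 1)]),
   ([14, 14, 14, 13, 13, 13, 8, 3], [(0, 1), (4, 4), (0, 1), (0, 1), (0, 1), (5, 4), (1, 1), (0, 1)]),
   ([14, 14, 14, 13, 13, 13, 8, 2], [(0, 1), (5, 4), (0, 1), (0, 1), (0, 1), (5, 4), (1, 1), (0, 1)]),
   ([14, 14, 14, 13, 13, 13, 7], [(9, 2), (2, 3), (0, 1), (0, 1), (0, 1), (3, 4), (0, 1), (0, 1)]),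
   ([14, 14, 14, 13, 13, 13, 6], [(9, 2), (3, 4), (0, 1), (0, 1), (0, 1), (3, 4), (0, 1), (0, 1)]),
   ([14, 14, 14, 13, 13, 13, 5], [(9, 2), (3, 4), (0, 1), (0, 1), (0, 1), (4, 4), (0, 1), (0, 1)]),
   ([14, 14, 14, 13, 13, 13, 4], [(9, 2), (4, 4), (0, 1), (0, 1), (0, 1), (4, 4), (0, 1), (0, 1)]),
   ([14, 14, 14, 13, 13, 13, 3], [(9, 2), (4, 4), (0, 1), (0, 1), (0, 1), (5, 4), (0, 1), (0, 1)]),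
   ([14, 14, 14, 13, 13, 12], [(8, 1), (4, 4), (0, 1), (0, 1), (2, 1), (5, 4), (1, 1), (2, 1)]),
   ([14, 14, 14, 13, 13, 11], [(8, 1), (6, 4), (0, 1), (0, 1), (0, 1), (6, 4), (1, 1), (2, 1)]),
   ([14, 14, 14, 13, 13, 10], [(8, 1), (7, 4), (0, 1), (0, 1), (0, 1), (7, 4), (2, 1), (0, 1)]),
   ([14, 14, 14, 13, 13, 9], [(8, 1), (8, 4), (0, 1), (0, 1), (0, 1), (7, 4), (2, 1), (0, 1)]),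
   ([14, 14, 14, 13, 13, 8], [(8, 1), (9, 4), (0, 1), (0, 1), (0, 1), (7, 4), (2, 1), (0, 1)]),
   ([14, 14, 14, 13, 13, 7], [(8, 1), (10, 4), (0, 1), (0, 1), (0, 1), (7, 4), (2, 1), (0, 1)]),
   ([14, 14, 14, 13, 13, 6], [(8, 1), (11, 4), (0, 1), (0, 1), (0, 1), (7, 4), (2, 1), (0, 1)]),
   ([14, 14, 14, 13, 13, 5], [(8, 1), (12, 4), (0, 1), (0, 1), (0, 1), (7, 4), (2, 1), (0, 1)]),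
   ([14, 14, 14, 13, 13, 4], [(8, 1), (13, 4), (0, 1), (0, 1), (0, 1), (7, 4), (2, 1), (0, 1)]),
   ([14, 14, 14, 13, 12, 12], [(8, 1), (5, 4), (0, 1), (0, 1), (2, 1), (5, 4), (1, 1), (2, 1)]),
   ([14, 14, 14, 13, 12, 11], [(8, 1), (6, 4), (0, 1), (0, 1), (0, 1), (7, 4), (1, 1), (2, 1)]),
   ([14, 14, 14, 13, 12, 10], [(8, 1), (8, 4), (0, 1), (0, 1), (0, 1), (7, 4), (2, 1), (0, 1)]),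
   ([14, 14, 14, 13, 12, 9], [(8, 1), (9, 4), (0, 1), (0, 1), (0, 1), (7, 4), (2, 1), (0, 1)]),
   ([14, 14, 14, 13, 12, 8], [(8, 1), (10, 4), (0, 1), (0, 1), (0, 1), (7, 4), (2, 1), (0, 1)]),
   ([14, 14, 14, 13, 12, 7], [(8, 1), (11, 4), (0, 1), (0, 1), (0, 1), (7, 4), (2, 1), (0, 1)]),
   ([14, 14, 14, 13, 12, 6], [(8, 1), (12, 4), (0, 1), (0, 1), (0, 1), (7, 4), (2, 1), (0, 1)]),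
   ([14, 14, 14, 13, 12, 5], [(8, 1), (13, 4), (0, 1), (0, 1), (0, 1), (7, 4), (2, 1), (0, 1)]),
   ([14, 14, 14, 13, 12, 4], [(8, 1), (14, 4), (0, 1), (0, 1), (0, 1), (7, 4), (2, 1), (0, 1)]),
   ([14, 14, 14, 13, 11, 11], [(8, 1), (7, 4), (0, 1), (0, 1), (0, 1), (7, 4), (1, 1), (2, 1)]),
   ([14, 14, 14, 13, 11, 10], [(9, 2), (9, 4), (0, 1), (0, 1), (0, 1), (6, 3), (2, 1), (0, 1)]),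
   ([14, 14, 14, 13, 11, 9], [(8, 1), (10, 4), (0, 1), (0, 1), (0, 1), (7, 4), (2, 1), (0, 1)]),
   ([14, 14, 14, 13, 11, 8], [(8, 1), (11, 4), (0, 1), (0, 1), (0, 1), (7, 4), (2, 1), (0, 1)]),
   ([14, 14, 14, 13, 11, 7], [(8, 1), (12, 4), (0, 1), (0, 1), (0, 1), (7, 4), (2, 1), (0, 1)]),
   ([14, 14, 14, 13, 11, 6], [(8, 1), (13, 4), (0, 1), (0, 1), (0, 1), (7, 4), (2, 1), (0, 1)]),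
   ([14, 14, 14, 13, 11, 5], [(8, 1), (14, 4), (0, 1), (0, 1), (0, 1), (7, 4), (2, 1), (0, 1)]),
   ([14, 14, 14, 13, 11, 4], [(8, 1), (15, 4), (0, 1), (0, 1), (0, 1), (7, 4), (2, 1), (0, 1)]),
   ([14, 14, 14, 13, 10], [(19, 4), (5, 2), (8, 3), (0, 1), (0, 1), (5, 2), (0, 1), (0, 1)]),
   ([14, 14, 14, 13, 9], [(19, 4), (5, 2), (6, 1), (0, 1), (0, 1), (6, 3), (2, 1), (0, 1)]),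
   ([14, 14, 14, 13, 8], [(19, 4), (7, 3), (6, 1), (0, 1), (0, 1), (5, 2), (2, 1), (0, 1)]),
   ([14, 14, 14, 13, 7], [(18, 3), (8, 3), (6, 1), (0, 1), (0, 1), (6, 3), (2, 1), (0, 1)]),
   ([14, 14, 14, 13, 6], [(18, 3), (9, 3), (6, 1), (0, 1), (0, 1), (6, 3), (2, 1), (0, 1)]),
   ([14, 14, 14, 13, 5], [(17, 2), (11, 4), (6, 1), (0, 1), (0, 1), (6, 3), (2, 1), (0, 1)]),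
   ([14, 14, 14, 12], [(19, 4), (13, 4), (6, 1), (0, 1), (2, 1), (4, 1), (2, 1), (2, 1)]),
   ([14, 14, 14, 11], [(19, 4), (16, 4), (6, 1), (0, 1), (0, 1), (4, 1), (2, 1), (2, 1)]),
   ([14, 14, 14, 10], [(19, 4), (19, 4), (6, 1), (0, 1), (0, 1), (4, 1), (2, 1), (0, 1)]),
   ([14, 14, 14, 9], [(18, 3), (20, 4), (6, 1), (0, 1), (0, 1), (5, 2), (2, 1), (0, 1)]),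
   ([14, 14, 14, 8], [(18, 3), (20, 3), (6, 1), (0, 1), (0, 1), (6, 3), (2, 1), (0, 1)]),
   ([14, 14, 14, 7], [(17, 2), (20, 4), (6, 1), (0, 1), (0, 1), (6, 3), (2, 1), (2, 1)]),
   ([14, 14, 14, 6], [(17, 2), (19, 4), (6, 1), (0, 1), (2, 1), (6, 3), (2, 1), (2, 1)]),
   ([14, 14, 13, 13], [(19, 4), (8, 3), (7, 2), (2, 1), (7, 2), (3, 1), (0, 1), (2, 1)]),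
   ([14, 14, 13, 12], [(19, 4), (14, 4), (6, 1), (0, 1), (2, 1), (4, 1), (2, 1), (2, 1)]),
   ([14, 14, 13, 11], [(19, 4), (17, 4), (6, 1), (0, 1), (0, 1), (4, 1), (2, 1), (2, 1)]),
   ([14, 14, 13, 10], [(19, 4), (20, 4), (6, 1), (0, 1), (0, 1), (4, 1), (2, 1), (0, 1)]),
   ([14, 14, 13, 9], [(18, 3), (21, 4), (6, 1), (0, 1), (0, 1), (5, 2), (2, 1), (0, 1)]),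
   ([14, 14, 13, 8], [(17, 2), (22, 4), (6, 1), (0, 1), (0, 1), (6, 3), (2, 1), (0, 1)]),
   ([14, 14, 13, 7], [(17, 2), (21, 4), (6, 1), (0, 1), (0, 1), (6, 3), (2, 1), (2, 1)]),
   ([14, 14, 13, 6], [(17, 2), (20, 4), (6, 1), (0, 1), (2, 1), (6, 3), (2, 1), (2, 1)]),
   ([14, 14, 12, 12], [(19, 4), (15, 4), (6, 1), (0, 1), (2, 1), (4, 1), (2, 1), (2, 1)]),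
   ([14, 14, 12, 11], [(19, 4), (18, 4), (6, 1), (0, 1), (0, 1), (4, 1), (2, 1), (2, 1)]),
   ([14, 14, 12, 10], [(19, 4), (21, 4), (6, 1), (0, 1), (0, 1), (4, 1), (2, 1), (0, 1)]),
   ([14, 14, 12, 9], [(18, 3), (22, 4), (6, 1), (0, 1), (0, 1), (5, 2), (2, 1), (0, 1)]),
   ([14, 14, 12, 8], [(17, 2), (23, 4), (6, 1), (0, 1), (0, 1), (6, 3), (2, 1), (0, 1)]),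
   ([14, 14, 12, 7], [(17, 2), (22, 4), (6, 1), (0, 1), (0, 1), (6, 3), (2, 1), (2, 1)]),
   ([14, 14, 12, 6], [(17, 2), (21, 4), (6, 1), (0, 1), (2, 1), (6, 3), (2, 1), (2, 1)]),
   ([14, 14, 11], [(27, 4), (10, 2), (16, 3), (4, 1), (2, 1), (4, 2), (0, 1), (0, 1)]),
   ([14, 14, 10], [(27, 4), (11, 2), (16, 3), (4, 1), (2, 1), (4, 2), (0, 1), (0, 1)]),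
   ([14, 14, 9], [(27, 4), (12, 3), (15, 2), (4, 1), (2, 1), (5, 2), (0, 1), (0, 1)]),
   ([14, 14, 8], [(26, 3), (13, 3), (15, 2), (4, 1), (2, 1), (6, 3), (0, 1), (0, 1)]),
   ([14, 14, 7], [(26, 3), (14, 3), (15, 2), (4, 1), (2, 1), (6, 3), (0, 1), (0, 1)]),
   ([14, 13], [(27, 4), (14, 3), (16, 3), (6, 1), (6, 1), (4, 1), (0, 1), (2, 1)]),
   ([14, 12], [(27, 4), (18, 3), (15, 2), (4, 1), (4, 1), (4, 1), (2, 1), (2, 1)]),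
   ([14, 11], [(27, 4), (19, 3), (15, 2), (4, 1), (4, 1), (4, 1), (2, 1), (2, 1)]),
   ([14, 10], [(26, 3), (18, 3), (15, 2), (4, 1), (6, 1), (5, 2), (2, 1), (2, 1)]),
   ([14, 9], [(26, 3), (18, 3), (15, 2), (4, 1), (8, 1), (6, 3), (0, 1), (2, 1)]),
   ([14, 8], [(26, 3), (18, 3), (15, 2), (4, 1), (10, 1), (5, 3), (0, 1), (2, 1)]),
   ([14, 7], [(26, 3), (18, 3), (15, 2), (6, 1), (10, 1), (4, 3), (0, 1), (2, 1)]),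
   ([13, 13], [(27, 4), (19, 4), (8, 1), (6, 1), (4, 1), (4, 1), (4, 1), (2, 1), (2, 1)]),
   ([13, 12], [(27, 4), (13, 2), (16, 3), (4, 1), (11, 2), (4, 1), (0, 1), (2, 1)]),
   ([13, 11], [(27, 4), (20, 3), (15, 2), (4, 1), (4, 1), (4, 1), (2, 1), (2, 1)]),
   ([13, 10], [(26, 3), (19, 3), (15, 2), (4, 1), (6, 1), (5, 2), (2, 1), (2, 1)]),
   ([12, 12], [(27, 4), (18, 3), (15, 2), (4, 1), (6, 1), (4, 1), (2, 1), (2, 1)]),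
   ([12, 11], [(27, 4), (21, 3), (15, 2), (4, 1), (4, 1), (4, 1), (2, 1), (2, 1)]),
   ([12, 10], [(26, 3), (20, 3), (15, 2), (4, 1), (6, 1), (5, 2), (2, 1), (2, 1)]),
   ([11, 11], [(27, 4), (22, 3), (15, 2), (4, 1), (4, 1), (4, 1), (2, 1), (2, 1)]),
   ([11, 10], [(27, 4), (21, 3), (15, 2), (4, 1), (6, 1), (4, 1), (2, 1), (2, 1)]),
   ([10, 10], [(26, 3), (22, 3), (15, 2), (4, 1), (6, 1), (5, 2), (2, 1), (2, 1)])]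

set_option Elab.async false in
theorem covH_15_12_10_8_6_3 : CovH [15, 12, 10, 8, 6, 3] :=
  covH_of_tree (by decide) ls_15_12_10_8_6_3 sp_15_12_10_8_6_3 cm_15_12_10_8_6_3 spC_15_12_10_8_6_3 cmC_15_12_10_8_6_3 99 (by decide +kernel) (by decide +kernel)
    (by decide +kernel) (by decide +kernel) (by decide +kernel) (by decide +kernel)

theorem covT_hV_12_1 : CovH (hV 12 1) := covH_15_12_10_8_6_3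

end Crest.Agent.R195
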