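import Crest.Agent.R195.TreeFin

set_option autoImplicit false

namespace Crest.Agent.R195

/-! hook list [17, 14, 12, 10, 8, 6, 3], n = 133: 198 nodes, 9 commitments -/

def ls_17_14_12_10_8_6_3 : List (List Pc) :=
  [[.gap 17, .pair 14, .pair 12, .rect 9 1, .dup 7, .dup 6, .pair 5, .pair 3, .dup 1],
   [.rect 17 1, .pair 15, .pair 13, .gap 11, .dup 7, .dup 6, .pair 5, .pair 3, .dup 1],
   [.rect 17 1, .pair 15, .pair 13, .rect 11 1, .rect 9 1, .dup 7, .dup 6, .pair 5, .pair 3, .dup 1]]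

def sp_17_14_12_10_8_6_3 : List (ℕ × List ℕ) :=
  [(0, [3, 0, 0, 0, 2, 2, 3, 3, 1]),
   (0, [4, 0, 2, 0, 2, 1, 3, 3, 1]),
   (1, [0, 0, 0, 3, 2, 2, 3, 3, 1]),
   (2, [0, 0, 0, 0, 0, 4, 3, 2, 3, 1])]

def spC_17_14_12_10_8_6_3 : List (List (ℕ × ℕ)) :=
  [[(36, 3), (27, 4), (23, 4), (9, 1), (15, 2), (13, 2), (6, 1), (2, 1), (2, 1)],
   [(39, 4), (27, 4), (21, 2), (9, 1), (15, 2), (12, 1), (6, 1), (2, 1), (2, 1)],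
   [(17, 1), (29, 4), (25, 4), (24, 3), (15, 2), (13, 2), (6, 1), (2, 1), (2, 1)],
   [(17, 1), (29, 4), (25, 4), (11, 1), (9, 1), (17, 4), (14, 3), (7, 2), (2, 1), (2, 1)]]

def cm_17_14_12_10_8_6_3 : List CM :=
  [⟨[24, 8], 0, [([2, 2], (.ev, 28)), ([4, 0], (.pl 4, 23)), ([4, 0], (.pl 4, 19)), ([1, 0], (.pl 1, 8)), ([4, 4], (.ev, 6)), ([2, 2], (.ev, 8)), ([4, 0], (.pl 4, 5)), ([3, 0], (.pl 4, 2)), ([0, 0], (.ev, 2))], [2, 0, 0, 0, 1, 1, 0, 1, 1]⟩,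
   ⟨[23, 9], 0, [([2, 2], (.ev, 28)), ([4, 0], (.pl 4, 23)), ([4, 0], (.pl 4, 19)), ([1, 0], (.pl 1, 8)), ([4, 4], (.ev, 6)), ([3, 3], (.ev, 6)), ([4, 0], (.pl 4, 5)), ([1, 0], (.pl 4, 4)), ([0, 0], (.ev, 2))], [2, 0, 0, 0, 1, 1, 0, 1, 1]⟩,
   ⟨[23, 8], 0, [([2, 2], (.ev, 28)), ([4, 0], (.pl 4, 23)), ([4, 0], (.pl 4, 19)), ([1, 0], (.pl 1, 8)), ([4, 4], (.ev, 6)), ([2, 2], (.ev, 8)), ([4, 0], (.pl 4, 5)), ([2, 0], (.pl 4, 3)), ([0, 0], (.ev, 2))], [2, 0, 0, 0, 1, 1, 0, 1, 1]⟩,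
   ⟨[16, 16], 0, [([2, 2], (.ev, 28)), ([4, 2], (.pl 4, 21)), ([0, 2], (.pl 4, 21)), ([1, 1], (.pl 1, 7)), ([4, 4], (.ev, 6)), ([4, 4], (.ev, 4)), ([0, 0], (.pl 4, 9)), ([0, 0], (.pl 4, 5)), ([1, 1], (.ev, 0))], [4, 0, 0, 0, 1, 1, 1, 2, 1]⟩,
   ⟨[16, 15], 0, [([2, 2], (.ev, 28)), ([4, 2], (.pl 4, 21)), ([0, 1], (.pl 4, 22)), ([1, 1], (.pl 1, 7)), ([4, 4], (.ev, 6)), ([4, 4], (.ev, 4)), ([0, 0], (.pl 4, 9)), ([0, 0], (.pl 4, 5)), ([1, 1], (.ev, 0))], [4, 1, 0, 0, 1, 1, 1, 1, 1]⟩,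
   ⟨[16, 14], 0, [([2, 2], (.ev, 28)), ([4, 1], (.pl 4, 22)), ([0, 1], (.pl 4, 22)), ([1, 1], (.pl 1, 7)), ([4, 4], (.ev, 6)), ([4, 4], (.ev, 4)), ([0, 0], (.pl 4, 9)), ([0, 0], (.pl 4, 5)), ([1, 1], (.ev, 0))], [4, 1, 0, 0, 1, 1, 1, 1, 1]⟩,
   ⟨[15, 15], 0, [([2, 2], (.ev, 28)), ([3, 2], (.pl 4, 22)), ([0, 1], (.pl 4, 22)), ([1, 1], (.pl 1, 7)), ([4, 4], (.ev, 6)), ([4, 4], (.ev, 4)), ([0, 0], (.pl 4, 9)), ([0, 0], (.pl 4, 5)), ([1, 1], (.ev, 0))], [4, 1, 0, 0, 1, 1, 1, 1, 1]⟩,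
   ⟨[15, 14], 0, [([2, 2], (.ev, 28)), ([3, 2], (.pl 4, 22)), ([0, 0], (.pl 4, 23)), ([1, 1], (.pl 1, 7)), ([4, 4], (.ev, 6)), ([4, 4], (.ev, 4)), ([0, 0], (.pl 4, 9)), ([0, 0], (.pl 4, 5)), ([1, 1], (.ev, 0))], [4, 1, 0, 0, 1, 1, 1, 1, 1]⟩,
   ⟨[14, 14], 0, [([2, 2], (.ev, 28)), ([2, 2], (.pl 4, 23)), ([0, 0], (.pl 4, 23)), ([1, 1], (.pl 1, 7)), ([4, 4], (.ev, 6)), ([4, 4], (.ev, 4)), ([0, 0], (.pl 4, 9)), ([0, 0], (.pl 4, 5)), ([1, 1], (.ev, 0))], [4, 1, 0, 0, 1, 1, 1, 1, 1]⟩]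

def cmC_17_14_12_10_8_6_3 : List (List ℕ × List (ℕ × ℕ)) :=
  [([24, 8], [(29, 2), (23, 4), (19, 4), (8, 1), (6, 1), (8, 1), (5, 4), (1, 3), (2, 1)]),
   ([23, 9], [(29, 2), (23, 4), (19, 4), (8, 1), (6, 1), (6, 1), (5, 4), (3, 3), (2, 1)]),
   ([23, 8], [(29, 2), (23, 4), (19, 4), (8, 1), (6, 1), (8, 1), (5, 4), (2, 3), (2, 1)]),
   ([16, 16], [(31, 4), (21, 4), (21, 4), (7, 1), (6, 1), (4, 1), (8, 3), (3, 2), (0, 1)]),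
   ([16, 15], [(31, 4), (20, 3), (22, 4), (7, 1), (6, 1), (4, 1), (8, 3), (4, 3), (0, 1)]),
   ([16, 14], [(31, 4), (21, 3), (22, 4), (7, 1), (6, 1), (4, 1), (8, 3), (4, 3), (0, 1)]),
   ([15, 15], [(31, 4), (21, 3), (22, 4), (7, 1), (6, 1), (4, 1), (8, 3), (4, 3), (0, 1)]),
   ([15, 14], [(31, 4), (21, 3), (23, 4), (7, 1), (6, 1), (4, 1), (8, 3), (4, 3), (0, 1)]),
   ([14, 14], [(31, 4), (22, 3), (23, 4), (7, 1), (6, 1), (4, 1), (8, 3), (4, 3), (0, 1)])]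

set_option Elab.async false in
theorem covH_17_14_12_10_8_6_3 : CovH [17, 14, 12, 10, 8, 6, 3] :=
  covH_of_tree (by decide) ls_17_14_12_10_8_6_3 sp_17_14_12_10_8_6_3 cm_17_14_12_10_8_6_3 spC_17_14_12_10_8_6_3 cmC_17_14_12_10_8_6_3 99 (by decide +kernel) (by decide +kernel)
    (by decide +kernel) (by decide +kernel) (by decide +kernel) (by decide +kernel)

theorem covT_hV_14_1 : CovH (hV 14 1) := covH_17_14_12_10_8_6_3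

end Crest.Agent.R195
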