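import Crest.Agent.R195.TreeFin

set_option autoImplicit false

namespace Crest.Agent.R195

/-! hook list [19, 16, 14, 12, 10, 8, 6, 3], n = 168: 283 nodes, 12 commitments -/

def ls_19_16_14_12_10_8_6_3 : List (List Pc) :=
  [[.gap 19, .pair 16, .pair 14, .rect 12 1, .rect 10 1, .dup 8, .dup 7, .rect 6 1, .pair 5, .pair 3, .dup 1],
   [.rect 19 1, .pair 17, .pair 15, .pair 13, .rect 10 1, .dup 8, .dup 7, .pair 6, .pair 4, .rect 2 1, .dup 1],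
   [.gap 19, .pair 16, .pair 14, .rect 12 1, .rect 10 1, .dup 8, .dup 7, .pair 6, .pair 4, .rect 2 1, .dup 1],
   [.gap 19, .pair 16, .pair 14, .gap 12, .dup 8, .dup 7, .pair 6, .pair 4, .rect 2 1, .dup 1]]

def sp_19_16_14_12_10_8_6_3 : List (ℕ × List ℕ) :=
  [(0, [3, 0, 0, 0, 0, 2, 2, 0, 3, 3, 1]),
   (1, [0, 0, 0, 0, 0, 4, 3, 2, 3, 0, 1]),
   (0, [4, 0, 2, 0, 0, 2, 1, 0, 3, 3, 1])]

def spC_19_16_14_12_10_8_6_3 : List (List (ℕ × ℕ)) :=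
  [[(40, 3), (31, 4), (27, 4), (12, 1), (10, 1), (17, 2), (15, 2), (6, 1), (6, 1), (2, 1), (2, 1)],
   [(19, 1), (33, 4), (29, 4), (25, 4), (10, 1), (19, 4), (16, 3), (9, 2), (4, 1), (2, 1), (2, 1)],
   [(43, 4), (31, 4), (25, 2), (12, 1), (10, 1), (17, 2), (14, 1), (6, 1), (6, 1), (2, 1), (2, 1)]]

def cm_19_16_14_12_10_8_6_3 : List CM :=
  [⟨[27, 9], 2, [([2, 2], (.ev, 32)), ([4, 0], (.pl 4, 27)), ([4, 0], (.pl 4, 23)), ([1, 0], (.pl 1, 11)), ([1, 0], (.pl 1, 9)), ([4, 4], (.ev, 8)), ([3, 3], (.ev, 8)), ([4, 0], (.pl 4, 7)), ([3, 0], (.pl 4, 4)), ([1, 0], (.pl 1, 1)), ([0, 0], (.ev, 2))], [2, 0, 0, 0, 0, 1, 1, 0, 0, 1, 1]⟩,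
   ⟨[18, 18], 3, [([2, 2], (.ev, 32)), ([4, 3], (.pl 4, 24)), ([1, 2], (.pl 4, 24)), ([2, 2], (.ev, 18)), ([4, 4], (.ev, 8)), ([4, 4], (.ev, 6)), ([0, 0], (.pl 4, 11)), ([0, 0], (.pl 4, 7)), ([0, 0], (.pl 1, 2)), ([1, 1], (.ev, 0))], [4, 0, 0, 3, 1, 1, 2, 3, 0, 1]⟩,
   ⟨[18, 17], 3, [([2, 2], (.ev, 32)), ([4, 3], (.pl 4, 24)), ([1, 1], (.pl 4, 25)), ([2, 2], (.ev, 18)), ([4, 4], (.ev, 8)), ([4, 4], (.ev, 6)), ([0, 0], (.pl 4, 11)), ([0, 0], (.pl 4, 7)), ([0, 0], (.pl 1, 2)), ([1, 1], (.ev, 0))], [4, 0, 0, 2, 1, 1, 2, 2, 0, 1]⟩,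
   ⟨[18, 16], 3, [([2, 2], (.ev, 32)), ([4, 2], (.pl 4, 25)), ([1, 1], (.pl 4, 25)), ([2, 2], (.ev, 18)), ([4, 4], (.ev, 8)), ([4, 4], (.ev, 6)), ([0, 0], (.pl 4, 11)), ([0, 0], (.pl 4, 7)), ([0, 0], (.pl 1, 2)), ([1, 1], (.ev, 0))], [4, 1, 1, 2, 1, 1, 1, 1, 0, 1]⟩,
   ⟨[17, 17], 3, [([2, 2], (.ev, 32)), ([4, 2], (.pl 4, 25)), ([0, 2], (.pl 4, 25)), ([2, 2], (.ev, 18)), ([4, 4], (.ev, 8)), ([4, 4], (.ev, 6)), ([0, 0], (.pl 4, 11)), ([0, 0], (.pl 4, 7)), ([0, 0], (.pl 1, 2)), ([1, 1], (.ev, 0))], [4, 0, 0, 2, 1, 1, 2, 2, 0, 1]⟩,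
   ⟨[17, 16], 3, [([2, 2], (.ev, 32)), ([4, 2], (.pl 4, 25)), ([0, 1], (.pl 4, 26)), ([2, 2], (.ev, 18)), ([4, 4], (.ev, 8)), ([4, 4], (.ev, 6)), ([0, 0], (.pl 4, 11)), ([0, 0], (.pl 4, 7)), ([0, 0], (.pl 1, 2)), ([1, 1], (.ev, 0))], [4, 1, 1, 2, 1, 1, 1, 1, 0, 1]⟩,
   ⟨[17, 15], 3, [([2, 2], (.ev, 32)), ([4, 1], (.pl 4, 26)), ([0, 1], (.pl 4, 26)), ([2, 2], (.ev, 18)), ([4, 4], (.ev, 8)), ([4, 4], (.ev, 6)), ([0, 0], (.pl 4, 11)), ([0, 0], (.pl 4, 7)), ([0, 0], (.pl 1, 2)), ([1, 1], (.ev, 0))], [4, 1, 1, 2, 1, 1, 1, 1, 0, 1]⟩,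
   ⟨[16, 16], 3, [([2, 2], (.ev, 32)), ([3, 2], (.pl 4, 26)), ([0, 1], (.pl 4, 26)), ([2, 2], (.ev, 18)), ([4, 4], (.ev, 8)), ([4, 4], (.ev, 6)), ([0, 0], (.pl 4, 11)), ([0, 0], (.pl 4, 7)), ([0, 0], (.pl 1, 2)), ([1, 1], (.ev, 0))], [4, 1, 1, 2, 1, 1, 1, 1, 0, 1]⟩,
   ⟨[16, 15], 3, [([2, 2], (.ev, 32)), ([3, 2], (.pl 4, 26)), ([0, 0], (.pl 4, 27)), ([2, 2], (.ev, 18)), ([4, 4], (.ev, 8)), ([4, 4], (.ev, 6)), ([0, 0], (.pl 4, 11)), ([0, 0], (.pl 4, 7)), ([0, 0], (.pl 1, 2)), ([1, 1], (.ev, 0))], [4, 1, 1, 2, 1, 1, 1, 1, 0, 1]⟩,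
   ⟨[15, 15], 3, [([2, 2], (.ev, 32)), ([2, 2], (.pl 4, 27)), ([0, 0], (.pl 4, 27)), ([2, 2], (.ev, 18)), ([4, 4], (.ev, 8)), ([4, 4], (.ev, 6)), ([0, 0], (.pl 4, 11)), ([0, 0], (.pl 4, 7)), ([0, 0], (.pl 1, 2)), ([1, 1], (.ev, 0))], [4, 1, 1, 2, 1, 1, 1, 1, 0, 1]⟩,
   ⟨[14, 14], 3, [([2, 2], (.ev, 32)), ([1, 1], (.pl 4, 29)), ([0, 0], (.pl 4, 27)), ([2, 2], (.ev, 18)), ([4, 4], (.ev, 8)), ([4, 4], (.ev, 6)), ([0, 0], (.pl 4, 11)), ([0, 0], (.pl 4, 7)), ([0, 0], (.pl 1, 2)), ([1, 1], (.ev, 0))], [4, 1, 1, 2, 1, 1, 1, 1, 0, 1]⟩,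
   ⟨[13, 13], 3, [([2, 2], (.ev, 32)), ([0, 0], (.pl 4, 31)), ([0, 0], (.pl 4, 27)), ([2, 2], (.ev, 18)), ([4, 4], (.ev, 8)), ([4, 4], (.ev, 6)), ([0, 0], (.pl 4, 11)), ([0, 0], (.pl 4, 7)), ([0, 0], (.pl 1, 2)), ([1, 1], (.ev, 0))], [4, 1, 1, 2, 1, 1, 1, 1, 0, 1]⟩]

def cmC_19_16_14_12_10_8_6_3 : List (List ℕ × List (ℕ × ℕ)) :=
  [([27, 9], [(33, 2), (27, 4), (23, 4), (11, 1), (9, 1), (8, 1), (8, 1), (7, 4), (4, 4), (0, 1), (2, 1)]),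
   ([18, 18], [(35, 4), (24, 4), (24, 4), (20, 3), (8, 1), (6, 1), (9, 2), (4, 1), (2, 1), (0, 1)]),
   ([18, 17], [(35, 4), (24, 4), (25, 4), (19, 2), (8, 1), (6, 1), (9, 2), (5, 2), (2, 1), (0, 1)]),
   ([18, 16], [(35, 4), (24, 3), (24, 3), (19, 2), (8, 1), (6, 1), (10, 3), (6, 3), (2, 1), (0, 1)]),
   ([17, 17], [(35, 4), (25, 4), (25, 4), (19, 2), (8, 1), (6, 1), (9, 2), (5, 2), (2, 1), (0, 1)]),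
   ([17, 16], [(35, 4), (24, 3), (25, 3), (19, 2), (8, 1), (6, 1), (10, 3), (6, 3), (2, 1), (0, 1)]),
   ([17, 15], [(35, 4), (25, 3), (25, 3), (19, 2), (8, 1), (6, 1), (10, 3), (6, 3), (2, 1), (0, 1)]),
   ([16, 16], [(35, 4), (25, 3), (25, 3), (19, 2), (8, 1), (6, 1), (10, 3), (6, 3), (2, 1), (0, 1)]),
   ([16, 15], [(35, 4), (25, 3), (26, 3), (19, 2), (8, 1), (6, 1), (10, 3), (6, 3), (2, 1), (0, 1)]),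
   ([15, 15], [(35, 4), (26, 3), (26, 3), (19, 2), (8, 1), (6, 1), (10, 3), (6, 3), (2, 1), (0, 1)]),
   ([14, 14], [(35, 4), (28, 3), (26, 3), (19, 2), (8, 1), (6, 1), (10, 3), (6, 3), (2, 1), (0, 1)]),
   ([13, 13], [(35, 4), (30, 3), (26, 3), (19, 2), (8, 1), (6, 1), (10, 3), (6, 3), (2, 1), (0, 1)])]

set_option Elab.async false in
theorem covH_19_16_14_12_10_8_6_3 : CovH [19, 16, 14, 12, 10, 8, 6, 3] :=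
  covH_of_tree (by decide) ls_19_16_14_12_10_8_6_3 sp_19_16_14_12_10_8_6_3 cm_19_16_14_12_10_8_6_3 spC_19_16_14_12_10_8_6_3 cmC_19_16_14_12_10_8_6_3 99 (by decide +kernel) (by decide +kernel)
    (by decide +kernel) (by decide +kernel) (by decide +kernel) (by decide +kernel)

theorem covT_hV_16_1 : CovH (hV 16 1) := covH_19_16_14_12_10_8_6_3

end Crest.Agent.R195
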