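import Crest.Agent.R195.S298Fam
import Crest.Agent.R195.S298Base
import Crest.Agent.R195.CovAll
import Crest.Agent.R195.TreeC11
import Crest.Agent.R195.TreeV10
import Crest.Agent.R195.TreeV12
import Crest.Agent.R195.TreeV14
import Crest.Agent.R195.TreeV16

/-! Row 195, S0298 (helper545).  Final assembly: for every `n ≠ 0, 2, 4, 9` there is a self-conjugate
shape with `n` cells whose tensor square contains everything. -/

set_option autoImplicit false

namespace Crest.Agent.R195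

open Finset

theorem FullH.congr' {a b : List ℕ} (hb : FullH b) (h : a = b) : FullH a := by
  rw [h]; exact hb

theorem fA_step (M e : ℕ) (he : 1 ≤ e) (h : 2 * e ≤ M) : CovH (hA M e) ∨ FullH (hA M e) := by
  by_cases h1 : 7 ≤ M ∧ (e = 1 → 10 ≤ M)
  · exact Or.inl (covA_all M e h1.1 h1.2 he h)
  · by_cases h7 : 7 ≤ M
    · have he1 : e = 1 := by
        by_contra hne; exact h1 ⟨h7, fun h => absurd h hne⟩
      subst he1
      have h9 : M ≤ 9 := by
        by_contra hne; exact h1 ⟨h7, fun _ => by omega⟩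
      have hM : M = 7 ∨ M = 8 ∨ M = 9 := by omega
      rcases hM with rfl | rfl | rfl
      · exact Or.inr (b_8_5_3_1.congr' (by decide))
      · exact Or.inl covT_hA_8_1
      · exact Or.inr (b_10_7_5_3_1.congr' (by decide))
    · right
      have hM : (M = 2 ∧ e = 1) ∨ (M = 3 ∧ e = 1) ∨ (M = 4 ∧ e = 1) ∨ (M = 4 ∧ e = 2) ∨
        (M = 5 ∧ e = 1) ∨ (M = 5 ∧ e = 2) ∨ (M = 6 ∧ e = 1) ∨ (M = 6 ∧ e = 2) ∨
        (M = 6 ∧ e = 3) := by omega
      rcases hM with ⟨rfl, rfl⟩ | ⟨rfl, rfl⟩ | ⟨rfl, rfl⟩ | ⟨rfl, rfl⟩ | ⟨rfl, rfl⟩ | ⟨rfl, rfl⟩ |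
        ⟨rfl, rfl⟩ | ⟨rfl, rfl⟩ | ⟨rfl, rfl⟩
      · exact b_3.congr' (by decide)
      · exact b_4_1.congr' (by decide)
      · exact b_5_2.congr' (by decide)
      · exact b_5_3.congr' (by decide)
      · exact b_6_3_1.congr' (by decide)
      · exact b_6_4_1.congr' (by decide)
      · exact b_7_4_2.congr' (by decide)
      · exact b_7_5_2.congr' (by decide)
      · exact b_7_5_3.congr' (by decide)

/-- family A -/
theorem fA (M e : ℕ) (h : 2 * e ≤ M) : FullH (hA M e) := fullA_of fA_step M e h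

theorem fB_step (M e : ℕ) (h0 : M % 2 = 0) (h4 : 4 ≤ M) (h : 2 * e + 2 ≤ M) :
    (6 ≤ M ∧ CovH (hB M e)) ∨ FullH (hB M e) := by
  by_cases h1 : 10 ≤ M ∧ (e = 1 → 12 ≤ M)
  · exact Or.inl ⟨by omega, covB_all _ e h0 h1.1 h1.2 h⟩
  · by_cases h5 : 10 ≤ M
    · have he1 : e = 1 := by
        by_contra hne; exact h1 ⟨h5, fun h => absurd h hne⟩
      subst he1
      have h6 : M = 10 := by
        by_contra hne; exact h1 ⟨h5, fun _ => by omega⟩
      subst h6
      exact Or.inl ⟨by omega, covT_hB_10_1⟩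
    · have hM : (M = 4 ∧ e = 0) ∨ (M = 4 ∧ e = 1) ∨ (M = 6 ∧ e = 0) ∨ (M = 6 ∧ e = 1) ∨
        (M = 6 ∧ e = 2) ∨ (M = 8 ∧ e = 0) ∨ (M = 8 ∧ e = 1) ∨ (M = 8 ∧ e = 2) ∨
        (M = 8 ∧ e = 3) := by omega
      rcases hM with ⟨rfl, rfl⟩ | ⟨rfl, rfl⟩ | ⟨rfl, rfl⟩ | ⟨rfl, rfl⟩ | ⟨rfl, rfl⟩ | ⟨rfl, rfl⟩ |
        ⟨rfl, rfl⟩ | ⟨rfl, rfl⟩ | ⟨rfl, rfl⟩
      · exact Or.inr (b_4_2_1.congr' (by decide))
      · exact Or.inr (b_5_2_1.congr' (by decide))
      · exact Or.inr (b_6_4_2_1.congr' (by decide))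
      · exact Or.inr (b_7_4_2_1.congr' (by decide))
      · exact Or.inr (b_7_5_2_1.congr' (by decide))
      · exact Or.inl ⟨by omega, MergeS.covB_8_0 0 (by omega) (by omega)⟩
      · exact Or.inr (b_9_6_4_2_1.congr' (by decide))
      · exact Or.inl ⟨by omega, covT_hB_8_2⟩
      · exact Or.inl ⟨by omega, MergeS.covB_8_3 3 (by omega) (by omega)⟩

/-- family B -/
theorem fB (M e : ℕ) (h0 : M % 2 = 0) (h4 : 4 ≤ M) (h : 2 * e + 2 ≤ M) : FullH (hB M e) :=
  fullB_of fB_step M e h0 h4 h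

theorem fC_step (M e : ℕ) (h1 : M % 2 = 1) (h : 2 * e + 3 ≤ M) :
    (5 ≤ M ∧ CovH (hC M e)) ∨ FullH (hC M e) := by
  by_cases h2 : 9 ≤ M ∧ (e = 1 → 13 ≤ M)
  · exact Or.inl ⟨by omega, covC_all _ e h1 h2.1 h2.2 h⟩
  · by_cases h4 : 9 ≤ M
    · have he1 : e = 1 := by
        by_contra hne; exact h2 ⟨h4, fun h => absurd h hne⟩
      subst he1
      have h5 : M < 13 := by
        by_contra hne; exact h2 ⟨h4, fun _ => by omega⟩
      have hM : M = 9 ∨ M = 11 := by omega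
      rcases hM with rfl | rfl
      · exact Or.inr (b_10_7_5_3.congr' (by decide))
      · exact Or.inl ⟨by omega, covT_hC_11_1⟩
    · right
      have hM : (M = 3 ∧ e = 0) ∨ (M = 5 ∧ e = 0) ∨ (M = 5 ∧ e = 1) ∨ (M = 7 ∧ e = 0) ∨
        (M = 7 ∧ e = 1) ∨ (M = 7 ∧ e = 2) := by omega
      rcases hM with ⟨rfl, rfl⟩ | ⟨rfl, rfl⟩ | ⟨rfl, rfl⟩ | ⟨rfl, rfl⟩ | ⟨rfl, rfl⟩ | ⟨rfl, rfl⟩
      · exact b_3.congr' (by decide)
      · exact b_5_3.congr' (by decide)
      · exact b_6_3.congr' (by decide)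
      · exact b_7_5_3.congr' (by decide)
      · exact b_8_5_3.congr' (by decide)
      · exact b_8_6_3.congr' (by decide)

/-- family C -/
theorem fC (M e : ℕ) (h1 : M % 2 = 1) (h : 2 * e + 3 ≤ M) : FullH (hC M e) :=
  fullC_of fC_step M e h1 h

theorem fV1 (P : ℕ) (hP : P % 2 = 0) (h : 10 ≤ P) : FullH (hV P 1) := by
  refine fullV hP (by omega) (fC _ _ (by omega) (by omega)) ?_
  by_cases h18 : 18 ≤ P
  · exact covV1_all P hP h18
  · have hk : P = 10 ∨ P = 12 ∨ P = 14 ∨ P = 16 := by omega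
    rcases hk with rfl | rfl | rfl | rfl
    · exact covT_hV_10_1
    · exact covT_hV_12_1
    · exact covT_hV_14_1
    · exact covT_hV_16_1

theorem fV2 (P : ℕ) (hP : P % 2 = 0) (h : 10 ≤ P) : FullH (hV P 2) :=
  fullV2 hP (by omega) (fV1 P hP h) (covV2_all P hP h)

theorem full_of_large {n : ℕ} (M r : ℕ) (hr : r ≤ M) (hn : 2 * n = M * (M + 1) + 2 * r)
    (hM : 10 ≤ M) (h77 : n ≠ 77) : ∃ ps, ValidH ps ∧ hsize ps = n ∧ FullH ps := by
  rcases Nat.mod_two_eq_zero_or_one r with h0 | h0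
  · refine ⟨hA M (r / 2), validH_hA (by omega), ?_, fA _ _ (by omega)⟩
    have := hsize_hA (M := M) (e := r / 2) (by omega)
    omega
  · rcases Nat.mod_two_eq_zero_or_one M with h1 | h1
    · refine ⟨hB M (r / 2), validH_hB h1 (by omega), ?_, fB _ _ h1 (by omega) (by omega)⟩
      have := hsize_hB (M := M) (e := r / 2) h1 (by omega)
      omega
    · rcases Nat.lt_or_ge (r + 2) M with h2 | h2
      · refine ⟨hC M ((r + 1) / 2), validH_hC (by omega), ?_, fC _ _ h1 (by omega)⟩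
        have := hsize_hC (M := M) (e := (r + 1) / 2) h1 (by omega)
        omega
      · rcases Nat.lt_or_ge r M with h3 | h3
        · refine ⟨hV (M - 1) 1, validH_hV (by omega) (by omega), ?_, fV1 _ (by omega) (by omega)⟩
          have := hsize_hV1 (P := M - 1) (by omega) (by omega)
          rw [show M - 1 + 2 = M + 1 by omega, show M - 1 + 3 = M + 2 by omega] at this
          have h4 : r + 2 = M := by omega
          nlinarith
        · have h4 : r = M := by omega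
          have h5 : M ≠ 11 := by
            rintro rfl
            subst h4
            exact h77 (by omega)
          refine ⟨hV (M - 3) 2, validH_hV (by omega) (by omega), ?_, fV2 _ (by omega) (by omega)⟩
          have := hsize_hV2 (P := M - 3) (by omega) (by omega)
          rw [show M - 3 + 4 = M + 1 by omega, show M - 3 + 5 = M + 2 by omega] at this
          nlinarith

theorem full_of_small {n : ℕ} (h0 : 0 < n) (h2 : n ≠ 2) (h4 : n ≠ 4) (h9 : n ≠ 9) (h : n < 55) :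
    ∃ ps, ValidH ps ∧ hsize ps = n ∧ FullH ps := by
  interval_cases n
  · exact ⟨[1], by decide, by decide, b_1⟩
  · exact absurd rfl h2
  · exact ⟨[2], by decide, by decide, b_2⟩
  · exact absurd rfl h4
  · exact ⟨[3], by decide, by decide, b_3⟩
  · exact ⟨[3, 1], by decide, by decide, b_3_1⟩
  · exact ⟨[4], by decide, by decide, b_4⟩
  · exact ⟨[4, 1], by decide, by decide, b_4_1⟩
  · exact absurd rfl h9
  · exact ⟨[4, 2], by decide, by decide, b_4_2⟩
  · exact ⟨[4, 2, 1], by decide, by decide, b_4_2_1⟩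
  · exact ⟨[5, 2], by decide, by decide, b_5_2⟩
  · exact ⟨[5, 2, 1], by decide, by decide, b_5_2_1⟩
  · exact ⟨[5, 3], by decide, by decide, b_5_3⟩
  · exact ⟨[5, 3, 1], by decide, by decide, b_5_3_1⟩
  · exact ⟨[6, 3], by decide, by decide, b_6_3⟩
  · exact ⟨[6, 3, 1], by decide, by decide, b_6_3_1⟩
  · exact ⟨[6, 4], by decide, by decide, b_6_4⟩
  · exact ⟨[6, 4, 1], by decide, by decide, b_6_4_1⟩
  · exact ⟨[5, 4, 2, 1], by decide, by decide, fullH_5_4_2_1⟩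
  · exact ⟨[6, 4, 2], by decide, by decide, b_6_4_2⟩
  · exact ⟨[6, 4, 2, 1], by decide, by decide, b_6_4_2_1⟩
  · exact ⟨[7, 4, 2], by decide, by decide, b_7_4_2⟩
  · exact ⟨[7, 4, 2, 1], by decide, by decide, b_7_4_2_1⟩
  · exact ⟨[7, 5, 2], by decide, by decide, b_7_5_2⟩
  · exact ⟨[7, 5, 2, 1], by decide, by decide, b_7_5_2_1⟩
  · exact ⟨[7, 5, 3], by decide, by decide, b_7_5_3⟩
  · exact ⟨[7, 5, 3, 1], by decide, by decide, b_7_5_3_1⟩
  · exact ⟨[8, 5, 3], by decide, by decide, b_8_5_3⟩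
  · exact ⟨[8, 5, 3, 1], by decide, by decide, b_8_5_3_1⟩
  · exact ⟨[8, 6, 3], by decide, by decide, b_8_6_3⟩
  · exact ⟨hA 7 2, by decide, by decide, fA 7 2 (by omega)⟩
  · exact ⟨[7, 5, 4, 2, 1], by decide, by decide, fullH_7_5_4_2_1⟩
  · exact ⟨hA 7 3, by decide, by decide, fA 7 3 (by omega)⟩
  · exact ⟨[8, 5, 4, 2, 1], by decide, by decide, fullH_8_5_4_2_1⟩
  · exact ⟨hA 8 0, by decide, by decide, fA 8 0 (by omega)⟩
  · exact ⟨hB 8 0, by decide, by decide, fB 8 0 rfl (by omega) (by omega)⟩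
  · exact ⟨hA 8 1, by decide, by decide, fA 8 1 (by omega)⟩
  · exact ⟨hB 8 1, by decide, by decide, fB 8 1 rfl (by omega) (by omega)⟩
  · exact ⟨hA 8 2, by decide, by decide, fA 8 2 (by omega)⟩
  · exact ⟨hB 8 2, by decide, by decide, fB 8 2 rfl (by omega) (by omega)⟩
  · exact ⟨hA 8 3, by decide, by decide, fA 8 3 (by omega)⟩
  · exact ⟨hB 8 3, by decide, by decide, fB 8 3 rfl (by omega) (by omega)⟩
  · exact ⟨hA 8 4, by decide, by decide, fA 8 4 (by omega)⟩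
  · exact ⟨hA 9 0, by decide, by decide, fA 9 0 (by omega)⟩
  · exact ⟨hC 9 1, by decide, by decide, fC 9 1 rfl (by omega)⟩
  · exact ⟨hA 9 1, by decide, by decide, fA 9 1 (by omega)⟩
  · exact ⟨hC 9 2, by decide, by decide, fC 9 2 rfl (by omega)⟩
  · exact ⟨hA 9 2, by decide, by decide, fA 9 2 (by omega)⟩
  · exact ⟨hC 9 3, by decide, by decide, fC 9 3 rfl (by omega)⟩
  · exact ⟨hA 9 3, by decide, by decide, fA 9 3 (by omega)⟩
  · exact ⟨[11, 9, 5, 3], by decide, by decide, b_52⟩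
  · exact ⟨hA 9 4, by decide, by decide, fA 9 4 (by omega)⟩
  · exact ⟨[10, 8, 5, 4, 2, 1], by decide, by decide, b_54⟩

/-- every `n ≠ 0, 2, 4, 9` -/
theorem full_all {n : ℕ} (h0 : 0 < n) (h2 : n ≠ 2) (h4 : n ≠ 4) (h9 : n ≠ 9) :
    ∃ ps, ValidH ps ∧ hsize ps = n ∧ FullH ps := by
  rcases Nat.lt_or_ge n 55 with h | h
  · exact full_of_small h0 h2 h4 h9 h
  · by_cases h7 : n = 77
    · rw [h7]; exact ⟨[12, 10, 8, 5, 4, 2, 1], by decide, by decide, b_77⟩
    · obtain ⟨M, r, hr, hn⟩ := exists_tri n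
      refine full_of_large M r hr hn ?_ h7
      by_contra hM
      have : M ≤ 9 := by omega
      interval_cases M <;> omega

theorem good298_all {n : ℕ} (h0 : 0 < n) (h2 : n ≠ 2) (h4 : n ≠ 4) (h9 : n ≠ 9) : Good298 n := by
  obtain ⟨ps, h, hn, hf⟩ := full_all h0 h2 h4 h9
  exact good_of_fullH ps h hn hf

end Crest.Agent.R195
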