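import Crest.Agent.R195.CovTools
import Crest.Agent.R195.RegionL

/-! Row 195, S0298 (helper346).  States with `w'` nonzero columns, removal of `dup` and `gap` pieces
(the latter may kill columns), exact deficits of runs. -/

set_option autoImplicit false
set_option linter.unusedSectionVars false
set_option linter.unusedDecidableInType false

namespace Crest.Agent.R195

open Finset

/-- State of the column heights `H` (on `range w`) during the removal of pieces: as `St`, but only
`w'` columns have to be nonempty; all columns are at most `A`. -/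
structure StW (B B2 A w w' N Q : ℕ) (H : ℕ → ℕ) : Prop where
  ord : ∀ i, 2 * i + 1 < w → H (2 * i + 1) ≤ H (2 * i)
  cnt : w' ≤ ((range w).filter fun j => H j ≠ 0).card
  odd : ∀ i, 2 * i + 1 < w → H (2 * i + 1) ≤ B
  two : ∀ i j, i < w → j < w → i ≠ j → H i + H j ≤ B2
  top : ∀ j, j < w → H j ≤ A
  sum : ∑ j ∈ range w, H j = N
  mass : Q ≤ ∑ i ∈ range (w / 2), (H (2 * i + 1) - 1)

variable {B B2 A w w' N Q : ℕ} {H : ℕ → ℕ}

/-- the number of killed columns -/
theorem cnt_sub {y : ℕ → ℕ} {K : ℕ} (hord : ∀ i, 2 * i + 1 < w → H (2 * i + 1) ≤ H (2 * i))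
    (hy : ∀ i, 2 * i + 1 < w → y i ≤ H (2 * i + 1)) (h0 : ∀ i, w ≤ 2 * i + 1 → y i = 0)
    (hK : ∑ i ∈ range (w / 2), (y i - (H (2 * i + 1) - 1)) ≤ K) :
    ((range w).filter fun j => H j ≠ 0).card ≤
      ((range w).filter fun j => H j - y (j / 2) ≠ 0).card + 2 * K := by
  rw [card_filter, card_filter]
  have h1 : ∑ j ∈ range w, (y (j / 2) - (H (2 * (j / 2) + 1) - 1)) =
      2 * ∑ i ∈ range (w / 2), (y i - (H (2 * i + 1) - 1)) := by
    rw [← sum_half_fin w (fun i => y i - (H (2 * i + 1) - 1)) (fun i hi => by rw [h0 i hi]; simp),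
      Fin.sum_univ_eq_sum_range (fun j => y (j / 2) - (H (2 * (j / 2) + 1) - 1)) w]
  have h2 : ∑ j ∈ range w, (if H j ≠ 0 then 1 else 0) ≤
      ∑ j ∈ range w, ((if H j - y (j / 2) ≠ 0 then 1 else 0) +
        (y (j / 2) - (H (2 * (j / 2) + 1) - 1))) := by
    refine sum_le_sum fun j hj => ?_
    rw [mem_range] at hj
    by_cases h3 : H j = 0
    · rw [if_neg (by simpa using h3)]; exact Nat.zero_le _
    · rw [if_pos h3]
      by_cases h4 : H j - y (j / 2) ≠ 0
      · rw [if_pos h4]; omega
      · rw [if_neg h4]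
        have h5 : y (j / 2) ≠ 0 := by omega
        have h6 : 2 * (j / 2) + 1 < w := by
          by_contra hcon
          exact h5 (h0 _ (by omega))
        have h7 := hy _ h6
        have h8 := hord _ h6
        rcases Nat.mod_two_eq_zero_or_one j with h9 | h9
        · have e : 2 * (j / 2) = j := by omega
          rw [e] at h7 h8 h6 ⊢
          omega
        · have e : 2 * (j / 2) + 1 = j := by omega
          rw [e] at h7 ⊢
          omega
  rw [sum_add_distrib, h1] at h2
  omega

/-- removal of an even row -/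
theorem StW.sub {c K : ℕ} (h : StW B B2 A w w' N Q H) {y : ℕ → ℕ}
    (hy : ∀ i, 2 * i + 1 < w → y i ≤ H (2 * i + 1)) (h0 : ∀ i, w ≤ 2 * i + 1 → y i = 0)
    (hle : ∀ j, y (j / 2) ≤ H j) (hs : ∑ i ∈ range (w / 2), y i = c)
    (hK : ∑ i ∈ range (w / 2), (y i - (H (2 * i + 1) - 1)) ≤ K) :
    StW B B2 A w (w' - 2 * K) (N - 2 * c) (Q - c) fun j => H j - y (j / 2) where
  ord i hi := by
    have e1 : (2 * i + 1) / 2 = i := by omega
    have e2 : 2 * i / 2 = i := by omega
    simp only [e1, e2]
    exact Nat.sub_le_sub_right (h.ord i hi) _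
  cnt := by
    have h1 := cnt_sub h.ord hy h0 hK
    have h2 := h.cnt
    omega
  odd i hi := (Nat.sub_le _ _).trans (h.odd i hi)
  two i j hi hj hij := by
    have := h.two i j hi hj hij
    omega
  top j hj := (Nat.sub_le _ _).trans (h.top j hj)
  sum := by
    have h1 := sum_sub_half h0 hle
    rw [hs, h.sum] at h1
    omega
  mass := by
    have h1 : ∑ i ∈ range (w / 2), (H (2 * i + 1) - 1) ≤
        ∑ i ∈ range (w / 2), (H (2 * i + 1) - y ((2 * i + 1) / 2) - 1) +
        ∑ i ∈ range (w / 2), y i := by
      rw [← sum_add_distrib]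
      refine sum_le_sum fun i hi => ?_
      rw [show (2 * i + 1) / 2 = i by omega]
      omega
    have h2 := h.mass
    rw [hs] at h1
    omega

/-- capacity of a row which kills no column -/
theorem StW.cap (h : StW B B2 A w w' N Q H) (hB : 5 ≤ B) :
    4 * Q ≤ (B - 1) * ∑ i ∈ range (w / 2), min 4 (H (2 * i + 1) - 1) := by
  have h1 : 4 * ∑ i ∈ range (w / 2), (H (2 * i + 1) - 1) ≤
      (B - 1) * ∑ i ∈ range (w / 2), min 4 (H (2 * i + 1) - 1) := by
    rw [mul_sum, mul_sum]
    refine sum_le_sum fun i hi => ?_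
    have h2 : 2 * i + 1 < w := by rw [mem_range] at hi; omega
    have h3 := h.odd i h2
    rcases le_total 4 (H (2 * i + 1) - 1) with h4 | h4
    · rw [min_eq_left h4, mul_comm]
      exact Nat.mul_le_mul_right _ (by omega)
    · rw [min_eq_right h4]
      exact Nat.mul_le_mul_right _ (by omega)
  have h2 := h.mass
  omega

theorem StW.le_cap (h : StW B B2 A w w' N Q H) (hB : 5 ≤ B) {c : ℕ}
    (hc : (B - 1) * c < 4 * Q + (B - 1)) :
    c ≤ ∑ i ∈ range (w / 2), min 4 (H (2 * i + 1) - 1) := by
  by_contra hcon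
  push Not at hcon
  have h1 := h.cap hB
  have h2 := Nat.mul_le_mul_left (B - 1) (show ∑ i ∈ range (w / 2), min 4 (H (2 * i + 1) - 1) + 1 ≤ c
    from hcon)
  rw [mul_add, mul_one] at h2
  omega

/-- **Removal of a `dup` piece** without killing columns. -/
theorem StW.dup {c : ℕ} (h : StW B B2 A w w' N Q H) (hB : 5 ≤ B)
    (hc : (B - 1) * c < 4 * Q + (B - 1)) :
    ∃ H' : ℕ → ℕ, StW B B2 A w w' (N - 2 * c) (Q - c) H' ∧
      ∀ L : List Pc, Decomp L (fun j : Fin w => H' j) → Decomp (.dup c :: L) fun j : Fin w => H j := by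
  have hcap := h.le_cap hB hc
  obtain ⟨y, hy1, hy2, hy3, hy4, hy5⟩ := exists_dup (w := w) (c := c) (H := H) (fun _ => 0)
    (fun i => min 4 (H (2 * i + 1) - 1)) (fun i _ => Nat.zero_le _) (fun i _ => min_le_left _ _)
    (fun i hi => by
      have h1 := h.ord i hi
      have h2 : min 4 (H (2 * i + 1) - 1) ≤ H (2 * i + 1) - 1 := min_le_right _ _
      omega) (by simp) hcap
  refine ⟨fun j => H j - y (j / 2), ?_, hy5⟩
  have := h.sub (K := 0) (fun i hi => ((hy1 i hi).2.trans (min_le_right _ _)).trans (Nat.sub_le _ _))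
    hy2 hy3 hy4 (by
      rw [Nat.le_zero, sum_eq_zero_iff]
      intro i hi
      have h1 := (hy1 i (by rw [mem_range] at hi; omega)).2.trans (min_le_right _ _)
      omega)
  simpa using this

/-- there is an odd column with at least three cells -/
theorem StW.exists_three (h : StW B B2 A w w' N Q H) (hw : w < 2 * Q) :
    ∃ i, 2 * i + 1 < w ∧ 3 ≤ H (2 * i + 1) := by
  by_contra hcon
  push Not at hcon
  have h1 := h.mass
  have h2 : ∑ i ∈ range (w / 2), (H (2 * i + 1) - 1) ≤ ∑ _i ∈ range (w / 2), 1 := by
    refine sum_le_sum fun i hi => ?_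
    have := hcon i (by rw [mem_range] at hi; omega)
    omega
  rw [sum_const, card_range, smul_eq_mul, mul_one] at h2
  omega

/-- **Removal of a `gap` piece**; at most `K` pairs of columns are killed. -/
theorem StW.gapK {c K : ℕ} (h : StW B B2 A w w' N Q H) (hB : 5 ≤ B) (hc3 : 3 ≤ c)
    (hw : w < 2 * Q) (hc : (B - 1) * (c + 1 - K) < 4 * Q + (B - 1))
    (hU : K = 0 ∨ c + 1 ≤ ∑ i ∈ range (w / 2), min 4 (H (2 * i + 1))) :
    ∃ H' : ℕ → ℕ, StW B B2 A w (w' - 2 * K) (N - 2 * (c - 1)) (Q - (c - 1)) H' ∧
      ∀ L : List Pc, Decomp L (fun j : Fin w => H' j) → Decomp (.gap c :: L) fun j : Fin w => H j := by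
  obtain ⟨i₀, hi₀, h3⟩ := h.exists_three hw
  have hi₀' : i₀ ∈ range (w / 2) := by rw [mem_range]; omega
  have hcap := h.le_cap hB hc
  -- lower capacity
  set l : ℕ → ℕ := fun i => if i = i₀ then 2 else min 4 (H (2 * i + 1) - 1) with hl
  have hl0 : l i₀ = 2 := by simp [hl]
  have hlsum : c - 1 - K ≤ ∑ i ∈ range (w / 2), l i := by
    have e1 := Finset.add_sum_erase (range (w / 2)) l hi₀'
    have e2 := Finset.add_sum_erase (range (w / 2)) (fun i => min 4 (H (2 * i + 1) - 1)) hi₀'
    have e3 : ∑ i ∈ (range (w / 2)).erase i₀, l i =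
        ∑ i ∈ (range (w / 2)).erase i₀, min 4 (H (2 * i + 1) - 1) := by
      refine sum_congr rfl fun i hi => ?_
      simp only [hl]
      rw [if_neg (ne_of_mem_erase hi)]
    have e4 : min 4 (H (2 * i₀ + 1) - 1) ≤ 4 := min_le_left _ _
    omega
  have hllt : ∀ i, 2 * i + 1 < w → l i ≤ H (2 * i + 1) - 1 := by
    intro i hi
    simp only [hl]
    split_ifs with h1
    · subst h1; omega
    · exact min_le_right _ _
  have hl4 : ∀ i, l i ≤ 4 := by
    intro i
    simp only [hl]
    split_ifs
    · omega
    · exact min_le_left _ _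
  rcases Nat.lt_or_ge (∑ i ∈ range (w / 2), l i) (c - 1) with hlt | hge
  · -- some pairs are killed
    have hU' : c + 1 ≤ ∑ i ∈ range (w / 2), min 4 (H (2 * i + 1)) := by
      rcases hU with h1 | h1
      · omega
      · exact h1
    set u : ℕ → ℕ := fun i => if i = i₀ then 2 else min 4 (H (2 * i + 1)) with hu
    have hu0 : u i₀ = 2 := by simp [hu]
    have husum : c - 1 ≤ ∑ i ∈ range (w / 2), u i := by
      have e1 := Finset.add_sum_erase (range (w / 2)) u hi₀'
      have e2 := Finset.add_sum_erase (range (w / 2)) (fun i => min 4 (H (2 * i + 1))) hi₀'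
      have e3 : ∑ i ∈ (range (w / 2)).erase i₀, u i =
          ∑ i ∈ (range (w / 2)).erase i₀, min 4 (H (2 * i + 1)) := by
        refine sum_congr rfl fun i hi => ?_
        simp only [hu]
        rw [if_neg (ne_of_mem_erase hi)]
      have e4 : min 4 (H (2 * i₀ + 1)) ≤ 4 := min_le_left _ _
      omega
    have huH : ∀ i, 2 * i + 1 < w → u i ≤ H (2 * i + 1) := by
      intro i hi
      simp only [hu]
      split_ifs with h1
      · subst h1; omega
      · exact min_le_right _ _
    obtain ⟨y, hy1, hy2, hy3, hy4, hy5⟩ := exists_gap (w := w) (c := c) (H := H) l u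
      (fun i hi => by
        simp only [hl, hu]
        split_ifs
        · omega
        · exact min_le_min_left _ (Nat.sub_le _ _))
      (fun i _ => by
        simp only [hu]
        split_ifs
        · omega
        · exact min_le_left _ _)
      (fun i hi => ⟨(huH i hi).trans (h.ord i hi), huH i hi⟩) i₀ hi₀ hl0 hu0 hlt.le husum
    refine ⟨fun j => H j - y (j / 2), ?_, hy5⟩
    refine h.sub (fun i hi => (hy1 i hi).2.trans (huH i hi)) hy2 hy3 hy4 ?_
    have e1 : ∑ i ∈ range (w / 2), (y i - (H (2 * i + 1) - 1)) + ∑ i ∈ range (w / 2), l i ≤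
        ∑ i ∈ range (w / 2), y i := by
      rw [← sum_add_distrib]
      refine sum_le_sum fun i hi => ?_
      have h1 : 2 * i + 1 < w := by rw [mem_range] at hi; omega
      have h2 := (hy1 i h1).1
      have h3 := hllt i h1
      omega
    rw [hy4] at e1
    omega
  · obtain ⟨y, hy1, hy2, hy3, hy4, hy5⟩ := exists_gap (w := w) (c := c) (H := H)
      (fun i => if i = i₀ then 2 else 0) l
      (fun i hi => by
        simp only [hl]
        split_ifs
        · omega
        · exact Nat.zero_le _)
      (fun i _ => hl4 i)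
      (fun i hi => by
        have h1 := hllt i hi
        have h2 := h.ord i hi
        omega) i₀ hi₀ (by simp) hl0 (by
          rw [Finset.sum_ite_eq' (range (w / 2)) i₀ (fun _ => 2), if_pos hi₀']
          omega) hge
    refine ⟨fun j => H j - y (j / 2), ?_, hy5⟩
    have h9 := h.sub (K := 0) (fun i hi => ((hy1 i hi).2.trans (hllt i hi)).trans (Nat.sub_le _ _))
      hy2 hy3 hy4 (by
        rw [Nat.le_zero, sum_eq_zero_iff]
        intro i hi
        have h1 := (hy1 i (by rw [mem_range] at hi; omega)).2.trans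
          (hllt i (by rw [mem_range] at hi; omega))
        omega)
    exact { h9 with cnt := (Nat.sub_le _ _).trans (by simpa using h9.cnt) }

/-- the initial state -/
theorem StW.of_region {n M w₂ : ℕ} (h : Region n M w w₂ H) (hB : H 1 ≤ B) (hB2 : H 0 + H 1 ≤ B2)
    (hA : H 0 ≤ A) (hQ : 2 * Q + H 0 + w ≤ n + 1) : StW B B2 A w w n Q H where
  ord i _ := h.anti (by omega)
  cnt := by
    have : (range w).filter (fun j => H j ≠ 0) = range w := by
      refine filter_true_of_mem fun j hj => ?_
      have := (h.pos j).1 (mem_range.1 hj)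
      omega
    rw [this, card_range]
  odd i _ := (h.anti (show 1 ≤ 2 * i + 1 by omega)).trans hB
  two i j _ _ hij := by
    rcases Nat.lt_or_gt_of_ne hij with h1 | h1
    · have h2 := h.anti (Nat.zero_le i)
      have h3 := h.anti (show 1 ≤ j by omega)
      omega
    · have h2 := h.anti (Nat.zero_le j)
      have h3 := h.anti (show 1 ≤ i by omega)
      omega
  top j _ := (h.anti (Nat.zero_le j)).trans hA
  sum := h.sum
  mass := by
    have h1 := sum_odd h.anti w
    rw [h.sum] at h1
    have h2 : ∑ i ∈ range (w / 2), H (2 * i + 1) =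
        ∑ i ∈ range (w / 2), (H (2 * i + 1) - 1) + w / 2 := by
      have : ∑ i ∈ range (w / 2), H (2 * i + 1) =
          ∑ i ∈ range (w / 2), ((H (2 * i + 1) - 1) + 1) := by
        refine sum_congr rfl fun i hi => ?_
        have h3 : 2 * i + 1 < w := by rw [mem_range] at hi; omega
        have := (h.pos _).1 h3
        omega
      rw [this, sum_add_distrib, sum_const, card_range, smul_eq_mul, mul_one]
    omega

/-- final step: free pieces -/
theorem StW.free (h : StW B B2 A w w' N Q H) (L : List Pc) (hL : ∀ p ∈ L, p.free)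
    (hN : N = (L.map Pc.size).sum) (J₁ : ℕ) (h1 : A ≤ FL L 1)
    (hJ : J₁ * B2 ≤ 2 * FL L J₁)
    (hfree : ∀ J, J₁ < J → (L.map Pc.size).sum ≤ FL L J + (w' - J)) :
    Decomp L fun j : Fin w => H j :=
  decomp_crit2 L hL w H (h.sum.trans hN) B2 J₁ w' h.two (fun j hj => (h.top j hj).trans h1) hJ h.cnt
    hfree

/-- exact deficit of a run -/
theorem size_add_tri_le (m k J : ℕ) :
    ((runP m k).map Pc.size).sum + tri (m - 2 * k - 2 * J) ≤
      FL (runP m k) J + tri (m - 2 * J) := by
  induction k generalizing m with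
  | zero => simp [runP_zero, FL_nil]
  | succ k ih =>
    rw [runP_succ, List.map_cons, List.sum_cons, FL_cons]
    have h1 := ih (m - 2)
    rw [show m - 2 - 2 * k - 2 * J = m - 2 * (k + 1) - 2 * J by omega] at h1
    simp only [Pc.size, Pc.cap]
    rcases Nat.lt_or_ge (2 * J + 2) m with h | h
    · obtain ⟨r, hr⟩ : ∃ r, m - 2 * J = r + 2 := ⟨m - 2 * J - 2, by omega⟩
      have h2 : m - 2 - 2 * J = r := by omega
      rw [h2] at h1
      rw [hr, tri_succ_succ, min_eq_right (by omega)]
      omega
    · have h2 : m - 2 - 2 * J = 0 := by omega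
      have h2' : m - 2 * (k + 1) - 2 * J = 0 := by omega
      rw [h2', tri_zero] at h1 ⊢
      rw [h2, tri_zero] at h1
      rcases Nat.lt_or_ge (2 * J + 1) m with h3 | h3
      · have h4 : m = 2 * J + 2 := by omega
        have h5 : m - 2 * J = 2 := by omega
        rw [h5, tri_two, min_eq_right (by omega)]
        omega
      · rcases Nat.lt_or_ge (2 * J) m with h4 | h4
        · have h5 : m = 2 * J + 1 := by omega
          have h6 : m - 2 * J = 1 := by omega
          rw [h6, tri_one, min_eq_right (by omega)]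
          omega
        · rw [min_eq_left (by omega)]
          omega

/-! ### Runs with a single column at the end -/

/-- `r` consecutive columns `a, a-1, …` -/
def runS (a r : ℕ) : List Pc := runP a (r / 2) ++ if r % 2 = 1 then [.rect (a + 1 - r) 1] else []

theorem runS_append (a r : ℕ) (L : List Pc) :
    runS a r ++ L = runP a (r / 2) ++ ((if r % 2 = 1 then [.rect (a + 1 - r) 1] else []) ++ L) := by
  rw [runS, List.append_assoc]

theorem getD_runS_append (a r : ℕ) (L : List Pc) (s : ℕ) :
    (colsP (runS a r ++ L)).getD s 0 = if s < r then a - s else (colsP L).getD (s - r) 0 := by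
  rw [runS_append, getD_runP_append]
  rcases Nat.mod_two_eq_zero_or_one r with h | h
  · rw [if_neg (show ¬ r % 2 = 1 by omega), List.nil_append, show 2 * (r / 2) = r by omega]
  · rw [if_pos h, List.singleton_append, getD_rect_cons]
    split_ifs
    · rfl
    · omega
    · omega
    · omega
    · omega
    · congr 1; omega

theorem validP_runS_append {a r : ℕ} {L : List Pc} (h : r ≤ a) (hL : validP L)
    (htop : ∀ q ∈ L, q.top ≤ a - r) : validP (runS a r ++ L) := by
  rw [runS_append]
  refine validP_runP_append (by omega) ?_ ?_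
  · split_ifs
    · refine ⟨by simp only [Pc.low, Pc.top]; omega, fun q hq => ?_, hL⟩
      have := htop q hq
      simp only [Pc.next]; omega
    · exact hL
  · intro q hq
    rcases List.mem_append.1 hq with h1 | h1
    · split_ifs at h1
      · rw [List.mem_singleton] at h1
        subst h1
        simp only [Pc.top]; omega
      · simp at h1
    · have := htop q h1
      omega

theorem free_runS {a r : ℕ} : ∀ p ∈ runS a r, p.free := by
  intro p hp
  rcases List.mem_append.1 hp with h | h
  · exact free_runP p h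
  · split_ifs at h
    · rw [List.mem_singleton] at h; subst h; trivial
    · simp at h

theorem top_runS {a r : ℕ} : ∀ p ∈ runS a r, p.top ≤ a := by
  intro p hp
  rcases List.mem_append.1 hp with h | h
  · exact top_runP p h
  · split_ifs at h with h1
    · rw [List.mem_singleton] at h; subst h; simp only [Pc.top]; omega
    · simp at h

/-- deficit of a run with a single column -/
theorem size_runS_le (a r J : ℕ) :
    ((runS a r).map Pc.size).sum + tri (a - 2 * (r / 2) - 2 * J) ≤
      FL (runS a r) J + tri (a - 2 * J) + if r % 2 = 1 then a + 1 - r - J else 0 := by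
  have h := size_add_tri_le a (r / 2) J
  rw [runS, List.map_append, List.sum_append, FL_append]
  split_ifs with h1
  · simp only [List.map_cons, List.map_nil, List.sum_cons, List.sum_nil, FL_cons, FL_nil, Pc.size,
      Pc.cap, mul_one, one_mul, Nat.add_zero]
    omega
  · simp only [List.map_nil, List.sum_nil, FL_nil, Nat.add_zero]
    omega

theorem FL_one_runS {a r : ℕ} (h : r ≤ a) :
    4 * (r / 2) + r % 2 ≤ FL (runS a r) 1 + if a = r ∧ r % 2 = 0 then 3 else 0 := by
  rw [runS, FL_append]
  rcases Nat.mod_two_eq_zero_or_one r with h1 | h1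
  · rw [if_neg (by omega), FL_nil]
    split_ifs with h2
    · have := FL_one_runP' (m := a) (k := r / 2) (by omega)
      omega
    · rw [FL_one_runP (by omega)]
      omega
  · rw [if_pos h1, FL_cons, FL_nil, FL_one_runP (by omega)]
    simp only [Pc.size, Pc.cap, mul_one, Nat.add_zero]
    have : min (a + 1 - r) 1 = 1 := min_eq_right (by omega)
    rw [this]
    omega

end Crest.Agent.R195
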