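import Crest.Agent.R195.Cert
import Crest.Agent.R195.Hit1

/-! Row 195.  Tableau criterion for hit operators and the split lemma.

`TopJust r d`: rows `r`, columns `d`; in every column the rows are `0, 1, …, h - 1`, once each. -/

set_option autoImplicit false
set_option linter.unusedSectionVars false
set_option linter.unusedDecidableInType false

namespace Crest.Agent.R195

open Finset Function Equiv

section sym

variable {T : Type*} [Fintype T] [DecidableEq T]
variable {U : Type*} [AddCommGroup U] [Module ℂ U]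

/-- symmetrizer of the Young subgroup of the colouring `c` with a sign character -/
noncomputable def chiSym (χ : Perm T →* ℤˣ) (ρ : Representation ℂ (Perm T) U) (c : T → ℕ) :
    U →ₗ[ℂ] U :=
  ∑ σ ∈ Finset.univ.filter (fun σ : Perm T => ∀ t, c (σ t) = c t), (((χ σ : ℤˣ) : ℤ) : ℂ) • ρ σ

lemma chiSym_apply (χ : Perm T →* ℤˣ) (ρ : Representation ℂ (Perm T) U) (c : T → ℕ) (w : U) :
    chiSym χ ρ c w = ∑ σ ∈ Finset.univ.filter (fun σ : Perm T => ∀ t, c (σ t) = c t),
      (((χ σ : ℤˣ) : ℤ) : ℂ) • ρ σ w := by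
  simp [chiSym, LinearMap.sum_apply]

lemma chiSym_one (ρ : Representation ℂ (Perm T) U) (c : T → ℕ) : chiSym 1 ρ c = rowSym ρ c := by
  ext w
  rw [chiSym_apply, rowSym_apply]
  simp

lemma chiSym_sign (ρ : Representation ℂ (Perm T) U) (c : T → ℕ) :
    chiSym Perm.sign ρ c = colAsym ρ c := by
  ext w
  rw [chiSym_apply, colAsym_apply]

lemma unit_mul_self_C (a : ℤˣ) : ((a : ℤ) : ℂ) * ((a : ℤ) : ℂ) = 1 := by
  rcases Int.units_eq_one_or a with h | h <;> simp [h]

lemma conj_unit_C (a : ℤˣ) : (starRingEnd ℂ) ((a : ℤ) : ℂ) = ((a : ℤ) : ℂ) := by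
  rcases Int.units_eq_one_or a with h | h <;> simp [h]

lemma chiSym_left (χ : Perm T →* ℤˣ) (ρ : Representation ℂ (Perm T) U) (c : T → ℕ) (w : U)
    (k : Perm T) (hk : ∀ t, c (k t) = c t) :
    ρ k (chiSym χ ρ c w) = (((χ k : ℤˣ) : ℤ) : ℂ) • chiSym χ ρ c w := by
  rw [chiSym_apply, map_sum, Finset.smul_sum]
  refine Finset.sum_bij' (fun σ _ => k * σ) (fun σ _ => k⁻¹ * σ) ?_ ?_ ?_ ?_ ?_
  · intro σ hσ
    simp only [Finset.mem_filter, Finset.mem_univ, true_and] at hσ ⊢
    intro t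
    rw [Perm.mul_apply, hk, hσ]
  · intro σ hσ
    simp only [Finset.mem_filter, Finset.mem_univ, true_and] at hσ ⊢
    intro t
    rw [Perm.mul_apply, cert_inv_fix c k hk, hσ]
  · intro σ _; simp
  · intro σ _; simp
  · intro σ _
    have h1 : χ (k * σ) = χ k * χ σ := map_mul χ k σ
    rw [map_smul, rho_mul, smul_smul, h1]
    congr 1
    push_cast
    rw [← mul_assoc, unit_mul_self_C, one_mul]

/-- **Positivity.** If `y` transforms by `χ₁` under the Young subgroup of `c₁` and
`e₂ y ≠ 0`, then `e₁ e₂ y ≠ 0`. -/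
theorem chiSym_chiSym_ne (χ₁ χ₂ : Perm T →* ℤˣ) (ρ : Representation ℂ (Perm T) U) (c₁ c₂ : T → ℕ)
    (y : U) (hy : ∀ k : Perm T, (∀ t, c₁ (k t) = c₁ t) → ρ k y = (((χ₁ k : ℤˣ) : ℤ) : ℂ) • y)
    (h : chiSym χ₂ ρ c₂ y ≠ 0) : chiSym χ₁ ρ c₁ (chiSym χ₂ ρ c₂ y) ≠ 0 := by
  classical
  intro h0
  set z := chiSym χ₂ ρ c₂ y with hz
  obtain ⟨ℓ, hℓ⟩ : ∃ ℓ : Module.Dual ℂ U, ℓ z ≠ 0 := by
    by_contra hcon
    push Not at hcon
    exact h ((Module.forall_dual_apply_eq_zero_iff ℂ _).mp hcon)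
  let S₁ := Finset.univ.filter (fun σ : Perm T => ∀ t, c₁ (σ t) = c₁ t)
  let S₂ := Finset.univ.filter (fun σ : Perm T => ∀ t, c₂ (σ t) = c₂ t)
  let B : ℂ := ∑ g : Perm T, ℓ (ρ g y) * (starRingEnd ℂ) (ℓ (ρ g z))
  have hB : (S₁.card : ℂ) * B = 0 := by
    have h1 : ∀ s ∈ S₁, B = ∑ g : Perm T, ℓ (ρ g y) *
        (starRingEnd ℂ) (ℓ (ρ g ((((χ₁ s : ℤˣ) : ℤ) : ℂ) • ρ s z))) := by
      intro s hs
      have hs' : ∀ t, c₁ (s t) = c₁ t := (Finset.mem_filter.1 hs).2
      change ∑ g : Perm T, ℓ (ρ g y) * (starRingEnd ℂ) (ℓ (ρ g z)) = _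
      rw [← Equiv.sum_comp (Equiv.mulRight s)]
      refine Finset.sum_congr rfl fun g _ => ?_
      change ℓ (ρ (g * s) y) * (starRingEnd ℂ) (ℓ (ρ (g * s) z)) = _
      have e1 : ρ (g * s) y = (((χ₁ s : ℤˣ) : ℤ) : ℂ) • ρ g y := by
        rw [← rho_mul, hy s hs', map_smul]
      have e2 : ρ (g * s) z = ρ g (ρ s z) := (rho_mul ρ g s z).symm
      rw [e1, e2, map_smul, map_smul, map_smul, smul_eq_mul, smul_eq_mul, map_mul, conj_unit_C]
      ring
    have h3 : (S₁.card : ℂ) * B = ∑ s ∈ S₁, B := by rw [Finset.sum_const, nsmul_eq_mul]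
    rw [h3, Finset.sum_congr rfl h1, Finset.sum_comm]
    refine Finset.sum_eq_zero fun g _ => ?_
    rw [← Finset.mul_sum, ← map_sum, ← map_sum, ← map_sum]
    have h4 : ∑ s ∈ S₁, (((χ₁ s : ℤˣ) : ℤ) : ℂ) • ρ s z = 0 := by
      rw [← chiSym_apply]; exact h0
    rw [h4]
    simp
  have hB0 : B = 0 := by
    rcases mul_eq_zero.1 hB with h1 | h1
    · exfalso
      have : S₁.card ≠ 0 := Finset.card_ne_zero.mpr ⟨1, by simp [S₁]⟩
      exact this (by exact_mod_cast h1)
    · exact h1
  have hN : ∑ g : Perm T, ℓ (ρ g z) * (starRingEnd ℂ) (ℓ (ρ g z)) = (S₂.card : ℂ) * B := by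
    have h1 : ∀ g : Perm T, ℓ (ρ g z) * (starRingEnd ℂ) (ℓ (ρ g z)) =
        ∑ k ∈ S₂, (((χ₂ k : ℤˣ) : ℤ) : ℂ) * (ℓ (ρ (g * k) y) * (starRingEnd ℂ) (ℓ (ρ g z))) := by
      intro g
      have e1 : ℓ (ρ g z) = ∑ k ∈ S₂, (((χ₂ k : ℤˣ) : ℤ) : ℂ) * ℓ (ρ (g * k) y) := by
        rw [hz, chiSym_apply, map_sum, map_sum]
        refine Finset.sum_congr rfl fun k _ => ?_
        rw [map_smul, map_smul, rho_mul, smul_eq_mul]
      generalize (starRingEnd ℂ) (ℓ (ρ g z)) = q
      rw [e1, Finset.sum_mul]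
      refine Finset.sum_congr rfl fun k _ => ?_
      ring
    simp only [h1]
    rw [Finset.sum_comm]
    have h2 : ∀ k ∈ S₂, ∑ g : Perm T, (((χ₂ k : ℤˣ) : ℤ) : ℂ) *
        (ℓ (ρ (g * k) y) * (starRingEnd ℂ) (ℓ (ρ g z))) = B := by
      intro k hk
      have hk' : ∀ t, c₂ (k t) = c₂ t := (Finset.mem_filter.1 hk).2
      change _ = ∑ g : Perm T, ℓ (ρ g y) * (starRingEnd ℂ) (ℓ (ρ g z))
      rw [← Equiv.sum_comp (Equiv.mulRight k)
        (fun g : Perm T => ℓ (ρ g y) * (starRingEnd ℂ) (ℓ (ρ g z)))]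
      refine Finset.sum_congr rfl fun g _ => ?_
      change _ = ℓ (ρ (g * k) y) * (starRingEnd ℂ) (ℓ (ρ (g * k) z))
      have e1 : ρ (g * k) z = (((χ₂ k : ℤˣ) : ℤ) : ℂ) • ρ g z := by
        rw [← rho_mul, hz, chiSym_left χ₂ ρ c₂ y k hk', map_smul]
      rw [e1, map_smul, smul_eq_mul, map_mul (starRingEnd ℂ), conj_unit_C]
      ring
    rw [Finset.sum_congr rfl h2, Finset.sum_const, nsmul_eq_mul]
  rw [hB0, mul_zero] at hN
  have h5 : ∀ g : Perm T, ℓ (ρ g z) * (starRingEnd ℂ) (ℓ (ρ g z)) =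
      ((Complex.normSq (ℓ (ρ g z)) : ℝ) : ℂ) := fun g => Complex.mul_conj _
  simp only [h5] at hN
  have h6 : ∑ g : Perm T, Complex.normSq (ℓ (ρ g z)) = 0 := by exact_mod_cast hN
  have h7 := (Finset.sum_eq_zero_iff_of_nonneg fun g _ => Complex.normSq_nonneg _).mp h6 1
    (Finset.mem_univ _)
  apply hℓ
  have h8 := Complex.normSq_eq_zero.mp h7
  simpa using h8

theorem tab_rowSym_colAsym_ne {ρ : Representation ℂ (Perm T) U} {r d : T → ℕ} {y : U}
    (hy : SwapFixed ρ r y) (h : colAsym ρ d y ≠ 0) : rowSym ρ r (colAsym ρ d y) ≠ 0 := by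
  rw [← chiSym_one, ← chiSym_sign]
  refine chiSym_chiSym_ne 1 Perm.sign ρ r d y (fun k hk => ?_) (by rw [chiSym_sign]; exact h)
  rw [hy.perm k hk]
  simp

theorem colAsym_rowSym_ne {ρ : Representation ℂ (Perm T) U} {c d : T → ℕ} {y : U}
    (hy : SwapAlt ρ d y) (h : rowSym ρ c y ≠ 0) : colAsym ρ d (rowSym ρ c y) ≠ 0 := by
  rw [← chiSym_one, ← chiSym_sign]
  refine chiSym_chiSym_ne Perm.sign 1 ρ d c y (fun k hk => ?_) (by rw [chiSym_one]; exact h)
  exact hy.perm k hk

lemma rowSym_fixed (ρ : Representation ℂ (Perm T) U) (c : T → ℕ) (w : U) :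
    SwapFixed ρ c (rowSym ρ c w) := by
  intro a b hab
  have hsw : ∀ t, c (swap a b t) = c t := by
    intro t
    by_cases h1 : t = a
    · rw [h1, swap_apply_left, hab]
    · by_cases h2 : t = b
      · rw [h2, swap_apply_right, hab]
      · rw [swap_apply_of_ne_of_ne h1 h2]
  rw [← chiSym_one, chiSym_left 1 ρ c w _ hsw]
  simp

end sym

/-- top-justified arrangement: in every column the rows are `0, …, h-1`, once each -/
structure TopJust {T : Type*} (r d : T → ℕ) : Prop where
  inj : ∀ s t, r s = r t → d s = d t → s = t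
  low : ∀ t a, a < r t → ∃ s, r s = a ∧ d s = d t

section james

variable {T : Type*} [Fintype T] [DecidableEq T]

theorem TopJust.image {r d : T → ℕ} (h : TopJust r d) (j : ℕ) :
    (univ.filter fun t => d t = j).image r = range (univ.filter fun t => d t = j).card := by
  classical
  set C := univ.filter fun t => d t = j with hC
  have hmem : ∀ t, t ∈ C ↔ d t = j := fun t => by simp [C]
  have hcard : (C.image r).card = C.card :=
    Finset.card_image_of_injOn fun a ha b hb hab => h.inj a b hab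
      (((hmem a).1 ha).trans ((hmem b).1 hb).symm)
  have hlow : ∀ x ∈ C.image r, ∀ y, y < x → y ∈ C.image r := by
    intro x hx y hy
    obtain ⟨t, ht, rfl⟩ := Finset.mem_image.mp hx
    obtain ⟨s, hs1, hs2⟩ := h.low t y hy
    exact Finset.mem_image.mpr ⟨s, (hmem s).2 (hs2.trans ((hmem t).1 ht)), hs1⟩
  by_contra hne
  rw [← hcard] at hne
  obtain ⟨x, hx, hx2⟩ : ∃ x ∈ C.image r, (C.image r).card ≤ x := by
    by_contra hcon
    push Not at hcon
    apply hne
    apply Finset.eq_of_subset_of_card_le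
    · intro x hx
      rw [mem_range]
      exact hcon x hx
    · rw [card_range]
  have hsub : range (x + 1) ⊆ C.image r := by
    intro y hy
    rw [mem_range] at hy
    rcases Nat.lt_succ_iff_lt_or_eq.mp hy with h1 | h1
    · exact hlow x hx y h1
    · rw [h1]; exact hx
  have := Finset.card_le_card hsub
  rw [card_range] at this
  omega

/-- James's lemma for top-justified arrangements. -/
theorem james_top {r d : T → ℕ} (htj : TopJust r d) (g : Perm T)
    (h : ∀ a b, d a = d b → r (g a) = r (g b) → a = b) :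
    ∃ k : Perm T, (∀ t, d (k t) = d t) ∧ ∀ t, r (k t) = r (g t) := by
  classical
  let C : ℕ → Finset T := fun j => univ.filter fun t => d t = j
  have hCmem : ∀ j t, t ∈ C j ↔ d t = j := fun j t => by simp [C]
  let S : ℕ → Finset ℕ := fun j => (C j).image fun t => r (g t)
  have hScard : ∀ j, (S j).card = (C j).card := by
    intro j
    apply Finset.card_image_of_injOn
    intro a ha b hb hab
    rw [Finset.mem_coe, hCmem] at ha hb
    exact h a b (ha.trans hb.symm) hab
  have hSsum : ∀ j, ∑ x ∈ S j, x = ∑ t ∈ C j, r (g t) := by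
    intro j
    apply Finset.sum_image
    intro a ha b hb hab
    rw [Finset.mem_coe, hCmem] at ha hb
    exact h a b (ha.trans hb.symm) hab
  have hCrange : ∀ j, (C j).image r = range (C j).card := fun j => htj.image j
  have hCsum : ∀ j, ∑ t ∈ C j, r t = ∑ x ∈ range (C j).card, x := by
    intro j
    rw [← hCrange j, Finset.sum_image]
    intro a ha b hb hab
    rw [Finset.mem_coe, hCmem] at ha hb
    exact htj.inj a b hab (ha.trans hb.symm)
  have hfib : ∀ f : T → ℕ, ∑ t, f t = ∑ j ∈ univ.image d, ∑ t ∈ C j, f t := by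
    intro f
    rw [Finset.sum_fiberwise_of_maps_to (fun t _ => Finset.mem_image_of_mem d (mem_univ t))]
  have htot : ∑ j ∈ univ.image d, ∑ t ∈ C j, r (g t) = ∑ j ∈ univ.image d, ∑ t ∈ C j, r t := by
    rw [← hfib, ← hfib (fun t => r t)]
    exact Equiv.sum_comp g r
  have hle : ∀ j ∈ univ.image d, ∑ t ∈ C j, r t ≤ ∑ t ∈ C j, r (g t) := by
    intro j _
    rw [hCsum, ← hSsum, ← hScard]
    exact sum_range_le_sum (S j)
  have heq : ∀ j ∈ univ.image d, ∑ t ∈ C j, r t = ∑ t ∈ C j, r (g t) :=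
    (Finset.sum_eq_sum_iff_of_le hle).mp htot.symm
  have hSrange : ∀ j ∈ univ.image d, S j = range (C j).card := by
    intro j hj
    by_contra hne
    rw [← hScard] at hne
    have := sum_range_lt_of_ne (S j) hne
    rw [hSsum, ← heq j hj, hCsum, hScard] at this
    exact lt_irrefl _ this
  have hcell : ∀ t, ∃ s, r s = r (g t) ∧ d s = d t := by
    intro t
    have h1 : r (g t) ∈ S (d t) := Finset.mem_image_of_mem _ ((hCmem _ _).mpr rfl)
    rw [hSrange _ (Finset.mem_image_of_mem d (mem_univ t)), ← hCrange] at h1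
    obtain ⟨s, hs, hs2⟩ := Finset.mem_image.mp h1
    rw [hCmem] at hs
    exact ⟨s, hs2, hs⟩
  choose k0 hk1 hk2 using hcell
  have hk0 : Function.Injective k0 := by
    intro a b hab
    refine h a b ?_ ?_
    · rw [← hk2 a, ← hk2 b, hab]
    · rw [← hk1 a, ← hk1 b, hab]
  exact ⟨Equiv.ofBijective k0 ((Finite.injective_iff_bijective).mp hk0), hk2, hk1⟩

variable {U : Type*} [AddCommGroup U] [Module ℂ U]

/-- `R ρ(h) κ = 0` unless `h ∈ R C`. -/
theorem sum_rowSym_colAsym {r d : T → ℕ} (htj : TopJust r d)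
    (ρ : Representation ℂ (Perm T) U) (y : U) (q : Perm T → ℂ) :
    rowSym ρ r (∑ h : Perm T, q h • ρ h (colAsym ρ d y)) =
      (∑ s ∈ univ.filter (fun s : Perm T => ∀ t, r (s t) = r t),
        ∑ k ∈ univ.filter (fun k : Perm T => ∀ t, d (k t) = d t),
          q (s * k) * (((Perm.sign k : ℤˣ) : ℤ) : ℂ)) • rowSym ρ r (colAsym ρ d y) := by
  classical
  set z := colAsym ρ d y with hz
  have halt : SwapAlt ρ d z := colAsym_alt ρ d y
  let R := Finset.univ.filter (fun σ : Perm T => ∀ t, r (σ t) = r t)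
  let C := Finset.univ.filter (fun σ : Perm T => ∀ t, d (σ t) = d t)
  have hR : ∀ s, s ∈ R ↔ ∀ t, r (s t) = r t := fun s => by simp [R]
  have hC : ∀ s, s ∈ C ↔ ∀ t, d (s t) = d t := fun s => by simp [C]
  let F : Perm T → U := fun g => rowSym ρ r (q g • ρ g z)
  have hzero : ∀ g, (¬ ∃ s ∈ R, ∃ k ∈ C, g = s * k) → F g = 0 := by
    intro g hg
    have hex : ∃ a b, a ≠ b ∧ d a = d b ∧ r (g a) = r (g b) := by
      by_contra hcon
      push Not at hcon
      apply hg
      obtain ⟨k, hk1, hk2⟩ := james_top htj g (fun a b hab hab2 => by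
        by_contra hne
        exact hcon a b hne hab hab2)
      refine ⟨g * k⁻¹, ?_, k, (hC k).mpr hk1, by simp⟩
      rw [hR]
      intro t
      rw [Perm.mul_apply]
      have := hk2 (k⁻¹ t)
      rw [cert_apply_inv] at this
      exact this.symm
    obtain ⟨a, b, hab, hc, hr⟩ := hex
    have h1 : rowSym ρ r (ρ g z) = - rowSym ρ r (ρ g z) := by
      have h2 : ρ g z = - ρ g (ρ (swap a b) z) := by
        rw [halt a b hab hc, map_neg, neg_neg]
      conv_lhs => rw [h2]
      rw [rho_mul, swap_conj, ← rho_mul, map_neg, rowSym_mul_right]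
      intro t
      by_cases h1 : t = g a
      · rw [h1, swap_apply_left, hr]
      · by_cases h2 : t = g b
        · rw [h2, swap_apply_right, hr]
        · rw [swap_apply_of_ne_of_ne h1 h2]
    have h2 : (2 : ℂ) • rowSym ρ r (ρ g z) = 0 := by
      rw [two_smul]
      nth_rewrite 2 [h1]
      rw [add_neg_cancel]
    have h3 := (smul_eq_zero.mp h2).resolve_left two_ne_zero
    change rowSym ρ r (q g • ρ g z) = 0
    rw [map_smul, h3, smul_zero]
  have hterm : ∀ s ∈ R, ∀ k ∈ C, F (s * k) =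
      (q (s * k) * (((Perm.sign k : ℤˣ) : ℤ) : ℂ)) • rowSym ρ r z := by
    intro s hs k hk
    rw [hR] at hs
    rw [hC] at hk
    change rowSym ρ r (q (s * k) • ρ (s * k) z) = _
    rw [map_smul, ← rho_mul, rowSym_mul_right ρ r _ s hs, halt.perm k hk, map_smul, smul_smul]
  have hinj : ∀ p ∈ R ×ˢ C, ∀ p' ∈ R ×ˢ C, p.1 * p.2 = p'.1 * p'.2 → p = p' := by
    rintro ⟨s, k⟩ hp ⟨s', k'⟩ hq heq
    rw [Finset.mem_product, hR, hC] at hp hq
    simp only at hp hq heq
    have hk : k = k' := by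
      ext t
      have h1 : r (k t) = r (k' t) := by
        rw [← hp.1 (k t), ← hq.1 (k' t)]
        exact congrArg r (congrArg (fun g : Perm T => g t) heq)
      have h2 : d (k t) = d (k' t) := by rw [hp.2, hq.2]
      exact htj.inj _ _ h1 h2
    subst hk
    have := mul_right_cancel heq
    rw [this]
  have hsum : ∑ g : Perm T, F g = ∑ p ∈ R ×ˢ C, F (p.1 * p.2) := by
    rw [← Finset.sum_image (s := R ×ˢ C) (g := fun p : Perm T × Perm T => p.1 * p.2) (f := F)
      (fun p hp q hq h => hinj p hp q hq h)]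
    symm
    apply Finset.sum_subset (Finset.subset_univ _)
    intro g _ hg
    apply hzero
    rintro ⟨s, hs, k, hk, rfl⟩
    exact hg (Finset.mem_image.mpr ⟨(s, k), Finset.mem_product.mpr ⟨hs, hk⟩, rfl⟩)
  rw [map_sum]
  change ∑ g : Perm T, F g = _
  rw [hsum, Finset.sum_product, Finset.sum_smul]
  refine Finset.sum_congr rfl fun s hs => ?_
  rw [Finset.sum_smul]
  exact Finset.sum_congr rfl fun k hk => hterm s hs k hk

/-- **Tableau criterion** for hit operators. -/
theorem hit_tab {r d : T → ℕ} (htj : TopJust r d) (ρ : Representation ℂ (Perm T) U) {y : U}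
    (hy : SwapFixed ρ r y) (hκ : colAsym ρ d y ≠ 0) (G : (T → ℕ × ℕ) → ℂ) (u : T → ℕ × ℕ)
    (hG : ∑ k ∈ univ.filter (fun k : Perm T => ∀ t, d (k t) = d t),
      ∑ s ∈ univ.filter (fun s : Perm T => ∀ t, r (s t) = r t),
        (((Perm.sign k : ℤˣ) : ℤ) : ℂ) * G (u ∘ k ∘ s) ≠ 0) :
    ∃ h : Perm T, hitOp ρ G (u ∘ h) y ≠ 0 := by
  classical
  have h1 : hitOp ρ G u (colAsym ρ d y) ≠ 0 := by
    intro h0
    have h2 : hitOp ρ G u (colAsym ρ d y) = ∑ h : Perm T, G (u ∘ ⇑h⁻¹) • ρ h (colAsym ρ d y) := by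
      rw [hitOp_apply, ← Equiv.sum_comp (Equiv.inv (Perm T))]
      refine Finset.sum_congr rfl fun g _ => ?_
      simp
    have h3 := sum_rowSym_colAsym htj ρ y (fun h => G (u ∘ ⇑h⁻¹))
    rw [← h2, h0, map_zero] at h3
    have h4 := smul_eq_zero.1 h3.symm
    rcases h4 with h4 | h4
    · apply hG
      rw [← h4, Finset.sum_comm]
      refine Finset.sum_bij' (fun s _ => s⁻¹) (fun s _ => s⁻¹) ?_ ?_ ?_ ?_ ?_
      · intro s hs
        simp only [Finset.mem_filter, Finset.mem_univ, true_and] at hs ⊢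
        exact fun t => cert_inv_fix r s hs t
      · intro s hs
        simp only [Finset.mem_filter, Finset.mem_univ, true_and] at hs ⊢
        exact fun t => cert_inv_fix r s hs t
      · intro s _; simp
      · intro s _; simp
      · intro s _
        refine Finset.sum_bij' (fun s _ => s⁻¹) (fun s _ => s⁻¹) ?_ ?_ ?_ ?_ ?_
        · intro s hs
          simp only [Finset.mem_filter, Finset.mem_univ, true_and] at hs ⊢
          exact fun t => cert_inv_fix d s hs t
        · intro s hs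
          simp only [Finset.mem_filter, Finset.mem_univ, true_and] at hs ⊢
          exact fun t => cert_inv_fix d s hs t
        · intro s _; simp
        · intro s _; simp
        · intro k _
          rw [Perm.sign_inv, mul_comm]
          rfl
    · exact tab_rowSym_colAsym_ne hy hκ h4
  by_contra hcon
  push Not at hcon
  apply h1
  rw [colAsym_apply, map_sum]
  refine Finset.sum_eq_zero fun k _ => ?_
  rw [map_smul, ← hitOp_comp, hcon k, smul_zero]

end james

section split

variable {T : Type*} [Fintype T] [DecidableEq T]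
variable {U : Type*} [AddCommGroup U] [Module ℂ U]

/-- block Vandermonde -/
theorem block_vandermonde_ne {r d : T → ℕ} (htj : TopJust r d) (n : T → ℂ)
    (hn : ∀ s t, d s = d t → n s = n t → s = t) :
    ∑ k ∈ univ.filter (fun k : Perm T => ∀ t, d (k t) = d t),
      (((Perm.sign k : ℤˣ) : ℤ) : ℂ) * ∏ t, n t ^ r (k t) ≠ 0 := by
  classical
  let M : Matrix T T ℂ := fun t s => if d t = d s then n t ^ r s else 0
  have hdet : M.det = ∑ k ∈ univ.filter (fun k : Perm T => ∀ t, d (k t) = d t),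
      (((Perm.sign k : ℤˣ) : ℤ) : ℂ) * ∏ t, n t ^ r (k t) := by
    rw [← Matrix.det_transpose, Matrix.det_apply', Finset.sum_filter]
    refine Finset.sum_congr rfl fun k _ => ?_
    simp only [Matrix.transpose_apply, M]
    split_ifs with hk
    · congr 1
      exact Finset.prod_congr rfl fun t _ => by rw [if_pos (hk t).symm]
    · push Not at hk
      obtain ⟨t, ht⟩ := hk
      rw [Finset.prod_eq_zero (mem_univ t) (by rw [if_neg (fun h => ht h.symm)]), mul_zero]
  rw [← hdet]
  intro h0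
  obtain ⟨v, hv, hMv⟩ := Matrix.exists_mulVec_eq_zero_iff.2 h0
  apply hv
  funext s₀
  -- the polynomial of the column of `s₀`
  let C := univ.filter fun t => d t = d s₀
  let P : Polynomial ℂ := ∑ s ∈ C, Polynomial.monomial (r s) (v s)
  have hP : ∀ t ∈ C, P.eval (n t) = 0 := by
    intro t ht
    have ht' : d t = d s₀ := (mem_filter.1 ht).2
    have h1 := congrFun hMv t
    simp only [Matrix.mulVec, dotProduct, M, Pi.zero_apply] at h1
    rw [← h1]
    simp only [P, Polynomial.eval_finsetSum, Polynomial.eval_monomial]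
    rw [Finset.sum_filter]
    refine Finset.sum_congr rfl fun s _ => ?_
    by_cases h2 : d s = d s₀
    · rw [if_pos h2, if_pos (ht'.trans h2.symm)]; ring
    · rw [if_neg h2, if_neg (fun h => h2 (h.symm.trans ht')), zero_mul]
  have hdeg : P.degree < C.card := by
    refine (Polynomial.degree_sum_le _ _).trans_lt ?_
    rw [Finset.sup_lt_iff]
    · intro s hs
      refine (Polynomial.degree_monomial_le _ _).trans_lt ?_
      have h1 : r s ∈ C.image r := mem_image_of_mem _ hs
      have h2 := htj.image (d s₀)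
      change C.image r = range C.card at h2
      rw [h2, mem_range] at h1
      exact_mod_cast h1
    · exact WithBot.bot_lt_coe _
  have hP0 : P = 0 := by
    refine Polynomial.eq_zero_of_degree_lt_of_eval_index_eq_zero C (v := n) ?_ hdeg hP
    intro a ha b hb hab
    exact hn a b (((mem_filter.1 ha).2).trans ((mem_filter.1 hb).2).symm) hab
  have h3 : P.coeff (r s₀) = v s₀ := by
    simp only [P, Polynomial.finsetSum_coeff, Polynomial.coeff_monomial]
    rw [Finset.sum_eq_single s₀]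
    · simp
    · intro s hs hne
      rw [if_neg]
      intro h
      exact hne (htj.inj s s₀ h ((mem_filter.1 hs).2))
    · intro h; exact absurd (by simp [C]) h
  rw [← h3, hP0]
  simp

/-- the symmetrization of `κ w` over a colouring that is injective on the columns is nonzero -/
theorem rowSym_distinct_ne {r d : T → ℕ} (htj : TopJust r d) {ρ : Representation ℂ (Perm T) U}
    {w : U} (hw : SwapFixed ρ r w) (hκ : colAsym ρ d w ≠ 0) (c : T → ℕ)
    (hc : ∀ s t, d s = d t → c s = c t → s = t) : rowSym ρ c (colAsym ρ d w) ≠ 0 := by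
  classical
  set z := colAsym ρ d w with hz
  have h1 : rowSym ρ r z ≠ 0 := tab_rowSym_colAsym_ne hw hκ
  obtain ⟨ℓ, hℓ⟩ : ∃ ℓ : Module.Dual ℂ U, ℓ (rowSym ρ r z) ≠ 0 := by
    by_contra hcon
    push Not at hcon
    exact h1 ((Module.forall_dual_apply_eq_zero_iff ℂ _).mp hcon)
  let n : T → ℂ := fun t => (c t : ℂ)
  let Λ : U → ℂ := fun x => ∑ g : Perm T, (∏ t, n t ^ r (g t)) * ℓ (rowSym ρ r (ρ g x))
  -- `Λ` is invariant under the Young subgroup of `c`
  have hinv : ∀ (h : Perm T), (∀ t, c (h t) = c t) → ∀ x, Λ (ρ h x) = Λ x := by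
    intro h hh x
    simp only [Λ]
    rw [← Equiv.sum_comp (Equiv.mulRight h) (fun g => (∏ t, n t ^ r (g t)) *
      ℓ (rowSym ρ r (ρ g x)))]
    refine Finset.sum_congr rfl fun g _ => ?_
    change _ = (∏ t, n t ^ r ((g * h) t)) * ℓ (rowSym ρ r (ρ (g * h) x))
    rw [rho_mul]
    congr 1
    rw [← Equiv.prod_comp h (fun t => n t ^ r (g t))]
    refine Finset.prod_congr rfl fun t _ => ?_
    simp only [n, hh t]
    rfl
  have hsumL : ∀ (S : Finset (Perm T)) (f : Perm T → U),
      Λ (∑ s ∈ S, f s) = ∑ s ∈ S, Λ (f s) := by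
    intro S f
    simp only [Λ, map_sum, Finset.mul_sum]
    rw [Finset.sum_comm]
  have hΛz : Λ z ≠ 0 := by
    have h2 : Λ z = ℓ (rowSym ρ r (∑ h : Perm T, (∏ t, n t ^ r (h t)) • ρ h z)) := by
      simp only [Λ]
      rw [map_sum, map_sum]
      refine Finset.sum_congr rfl fun g _ => ?_
      rw [map_smul, map_smul, smul_eq_mul]
    rw [h2, hz, sum_rowSym_colAsym htj ρ w, ← hz, map_smul, smul_eq_mul]
    refine mul_ne_zero ?_ hℓ
    have h3 : ∀ s ∈ univ.filter (fun s : Perm T => ∀ t, r (s t) = r t),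
        ∑ k ∈ univ.filter (fun k : Perm T => ∀ t, d (k t) = d t),
          (∏ t, n t ^ r ((s * k) t)) * (((Perm.sign k : ℤˣ) : ℤ) : ℂ) =
        ∑ k ∈ univ.filter (fun k : Perm T => ∀ t, d (k t) = d t),
          (((Perm.sign k : ℤˣ) : ℤ) : ℂ) * ∏ t, n t ^ r (k t) := by
      intro s hs
      refine Finset.sum_congr rfl fun k _ => ?_
      rw [mul_comm]
      congr 1
      refine Finset.prod_congr rfl fun t _ => ?_
      rw [Perm.mul_apply, (mem_filter.1 hs).2]
    rw [Finset.sum_congr rfl h3, Finset.sum_const, nsmul_eq_mul]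
    refine mul_ne_zero ?_ (block_vandermonde_ne htj n fun s t hd h => hc s t hd ?_)
    · have : (univ.filter (fun s : Perm T => ∀ t, r (s t) = r t)).card ≠ 0 :=
        Finset.card_ne_zero.mpr ⟨1, by simp⟩
      exact_mod_cast this
    · simp only [n] at h
      exact_mod_cast h
  intro h0
  have h4 : Λ (rowSym ρ c z) = ((univ.filter (fun s : Perm T => ∀ t, c (s t) = c t)).card : ℂ) * Λ z := by
    rw [rowSym_apply, hsumL, Finset.sum_congr rfl (fun s hs => hinv s (mem_filter.1 hs).2 z),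
      Finset.sum_const, nsmul_eq_mul]
  rw [h0] at h4
  have h5 : Λ 0 = 0 := by simp [Λ]
  rw [h5] at h4
  have h6 : (univ.filter (fun s : Perm T => ∀ t, c (s t) = c t)).card ≠ 0 :=
    Finset.card_ne_zero.mpr ⟨1, by simp⟩
  rcases mul_eq_zero.1 h4.symm with h7 | h7
  · exact h6 (by exact_mod_cast h7)
  · exact hΛz h7

/-- **Split lemma.** `c` injective on the columns, `d'` finer than the columns: there is a vector
fixed by the Young subgroup of `c` on which the antisymmetrizer of `d'` does not vanish. -/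
theorem exists_split {r d : T → ℕ} (htj : TopJust r d) {ρ : Representation ℂ (Perm T) U}
    {w : U} (hw : SwapFixed ρ r w) (hκ : colAsym ρ d w ≠ 0) (c d' : T → ℕ)
    (hc : ∀ s t, d s = d t → c s = c t → s = t) (hd' : ∀ s t, d' s = d' t → d s = d t) :
    ∃ x : U, SwapFixed ρ c x ∧ colAsym ρ d' x ≠ 0 := by
  refine ⟨rowSym ρ c (colAsym ρ d w), rowSym_fixed ρ c _, colAsym_rowSym_ne ?_
    (rowSym_distinct_ne htj hw hκ c hc)⟩
  intro a b hab h
  exact colAsym_alt ρ d w a b hab (hd' a b h)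

end split

end Crest.Agent.R195
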