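import Crest.Agent.R195.TreeDec
import Crest.Agent.R195.Fam

/-! Row 195, S0298 (helper958).  Kernel-evaluated coverage check for a single hook list: pruned search over
the prefixes of the sequence of column heights. -/

set_option autoImplicit false

namespace Crest.Agent.R195

open Finset Function

section defs

/-- prefix sums fit -/
def preOK (ML : List (ℕ × ℕ)) : List ℕ → ℕ → ℕ → Bool
  | [], _, _ => true
  | x :: pre, J, s => Nat.ble (s + x) (fsum ML (J + 1)) && preOK ML pre (J + 1) (s + x)

/-- all completions fit: total `n`, further columns at most `h`, at least `nlb` columns -/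
def restOK (ML : List (ℕ × ℕ)) (n h nlb : ℕ) : ℕ → ℕ → ℕ → Bool
  | 0, _, _ => false
  | f + 1, J, s =>
    Nat.ble n (fsum ML (J + 1)) ||
      ((Nat.ble (s + h) (fsum ML (J + 1)) ||
          (Nat.ble (J + 1) nlb && Nat.ble n (fsum ML (J + 1) + (nlb - (J + 1))))) &&
        restOK ML n h nlb f (J + 1) (s + h))

def bmax (a b : ℕ) : ℕ := cond (Nat.ble a b) b a

def bmin (a b : ℕ) : ℕ := cond (Nat.ble a b) a b

theorem bmax_eq (a b : ℕ) : bmax a b = max a b := by
  unfold bmax
  by_cases h : a ≤ b
  · rw [Nat.ble_eq_true_of_le h, cond_true, max_eq_right h]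
  · rw [show Nat.ble a b = false from by
      rw [Bool.eq_false_iff]; exact fun hh => h (Nat.le_of_ble_eq_true hh), cond_false,
      max_eq_left (by omega)]

theorem bmin_eq (a b : ℕ) : bmin a b = min a b := by
  unfold bmin
  by_cases h : a ≤ b
  · rw [Nat.ble_eq_true_of_le h, cond_true, min_eq_left h]
  · rw [show Nat.ble a b = false from by
      rw [Bool.eq_false_iff]; exact fun hh => h (Nat.le_of_ble_eq_true hh), cond_false,
      min_eq_right (by omega)]

/-- lower bound for the number of columns -/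
def lbN (pre : List ℕ) (rem h : ℕ) : ℕ :=
  bmax (pre.headD 0) (pre.length + (rem + h - 1) / h)

/-- number of entries at least 2 -/
def cnt2 : List ℕ → ℕ
  | [] => 0
  | x :: pre => cond (Nat.ble 2 x) 1 0 + cnt2 pre

/-- sum of `min 2 x` -/
def sum2 : List ℕ → ℕ
  | [] => 0
  | x :: pre => bmin 2 x + sum2 pre

/-- the completions are outside of the region -/
def outB (B : ℕ) (pre : List ℕ) (rem h : ℕ) : Bool :=
  Nat.blt (pre.length + rem) (pre.headD 0) || Nat.blt (2 * B) (lbN pre rem h + cnt2 pre) ||
    Nat.blt (2 * B) (sum2 pre + (2 * rem + bmax h 2 - 1) / bmax h 2)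

/-- `P` holds for `1, …, x` -/
def allUp (P : ℕ → Bool) : ℕ → Bool
  | 0 => true
  | x + 1 => P (x + 1) && allUp P x

def beqL : List ℕ → List ℕ → Bool
  | [], [] => true
  | x :: a, y :: b => Nat.beq x y && beqL a b
  | _, _ => false

theorem beqL_eq : ∀ {a b : List ℕ}, beqL a b = true → a = b
  | [], [], _ => rfl
  | x :: a, y :: b, h => by
    simp only [beqL, Bool.and_eq_true, Nat.beq_eq] at h
    rw [h.1, beqL_eq h.2]
  | [], _ :: _, h => absurd h (by simp [beqL])
  | _ :: _, [], h => absurd h (by simp [beqL])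

/-- bound for the next column -/
def hcap (B : ℕ) (pre : List ℕ) (h : ℕ) : ℕ :=
  match pre with
  | [a] => bmin h (2 * B - a)
  | _ => h

/-- committed prefixes which survive the next column -/
def advC (x : ℕ) : List (List ℕ × List (ℕ × ℕ)) → List (List ℕ × List (ℕ × ℕ))
  | [] => []
  | ([], _) :: L => advC x L
  | (y :: ys, m) :: L => cond (Nat.beq y x) ((ys, m) :: advC x L) (advC x L)

/-- the check -/
def tchk (n B : ℕ) (sp : List (List (ℕ × ℕ))) (ex : List (List ℕ)) :
    ℕ → List (List ℕ × List (ℕ × ℕ)) → List ℕ → ℕ → ℕ → Bool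
  | 0, _, _, _, _ => false
  | f + 1, cm, pre, rem, h =>
    outB B pre rem h ||
    (sp.any fun ML => preOK ML pre 0 0 &&
      restOK ML n h (lbN pre rem h) 99 pre.length pre.sum) ||
    (cm.any fun c => c.1.isEmpty && restOK c.2 rem h (lbN pre rem h - pre.length) 99 0 0) ||
    (cond (Nat.ble 1 rem) (allUp (fun x => tchk n B sp ex f (advC x cm) (pre ++ [x]) (rem - x) x)
      (hcap B pre (bmin h rem))) (ex.any fun q => beqL q pre))

end defs

section sound

theorem preOK_sound {ML : List (ℕ × ℕ)} {H : ℕ → ℕ} :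
    ∀ (pre : List ℕ) (J s : ℕ), preOK ML pre J s = true → (∀ i, i < pre.length → pre.getD i 0 = H (J + i)) →
      s = ∑ j ∈ range J, H j → ∀ J', J < J' → J' ≤ J + pre.length → ∑ j ∈ range J', H j ≤ fsum ML J'
  | [], J, s, _, _, _, J', h1, h2 => by simp only [List.length_nil] at h2; omega
  | x :: pre, J, s, h, hp, hs, J', h1, h2 => by
    simp only [preOK, Bool.and_eq_true, Nat.ble_eq] at h
    have hx : x = H J := by simpa using hp 0 (by simp)
    have hs' : s + x = ∑ j ∈ range (J + 1), H j := by rw [sum_range_succ, hs, hx]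
    rcases Nat.eq_or_lt_of_le (Nat.succ_le_of_lt h1) with h3 | h3
    · rw [← h3, Nat.succ_eq_add_one, ← hs']; exact h.1
    · refine preOK_sound pre (J + 1) (s + x) h.2 (fun i hi => ?_) hs' J' h3 ?_
      · have h4 := hp (i + 1) (by simp only [List.length_cons]; omega)
        rw [List.getD_cons_succ] at h4
        rw [h4]; congr 1; omega
      · simp only [List.length_cons] at h2; omega

theorem restOK_sound {ML : List (ℕ × ℕ)} {n h nlb : ℕ} {G : ℕ → ℕ}
    (hn : ∀ J, ∑ j ∈ range J, G j ≤ n)
    (hlb : ∀ J, J ≤ nlb → ∑ j ∈ range J, G j + (nlb - J) ≤ n) :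
    ∀ (f J s : ℕ), restOK ML n h nlb f J s = true → ∑ j ∈ range J, G j ≤ s → (∀ i, J ≤ i → G i ≤ h) →
      ∀ J', J < J' → ∑ j ∈ range J', G j ≤ fsum ML J'
  | 0, _, _, h0, _, _, _, _ => absurd h0 (by simp [restOK])
  | f + 1, J, s, h0, hs, hG, J', h1 => by
    simp only [restOK, Bool.or_eq_true, Bool.and_eq_true, Nat.ble_eq] at h0
    have h2 : fsum ML (J + 1) ≤ fsum ML J' := fsum_mono ML h1
    rcases h0 with h0 | ⟨h3, h4⟩
    · exact (hn J').trans (h0.trans h2)
    · have h5 : ∑ j ∈ range (J + 1), G j ≤ s + h := by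
        rw [sum_range_succ]
        have := hG J le_rfl
        omega
      rcases Nat.eq_or_lt_of_le (Nat.succ_le_of_lt h1) with h6 | h6
      · rw [← h6, Nat.succ_eq_add_one]
        rcases h3 with h3 | ⟨h3, h3'⟩
        · omega
        · have := hlb (J + 1) h3
          omega
      · exact restOK_sound hn hlb f (J + 1) (s + h) h4 h5 (fun i hi => hG i (by omega)) J' h6

theorem allUp_sound {P : ℕ → Bool} : ∀ {x : ℕ}, allUp P x = true → ∀ y, 1 ≤ y → y ≤ x → P y = true
  | 0, _, y, h1, h2 => by omega
  | x + 1, h, y, h1, h2 => by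
    simp only [allUp, Bool.and_eq_true] at h
    rcases Nat.eq_or_lt_of_le h2 with h3 | h3
    · rw [h3]; exact h.1
    · exact allUp_sound h.2 y h1 (by omega)

variable {n B w w₂ : ℕ} {H : ℕ → ℕ}

theorem Region.tc_sum_le (R : Region n B w w₂ H) (J : ℕ) : ∑ j ∈ range J, H j ≤ n := by
  rcases le_total J w with h | h
  · rw [← R.sum]; exact sum_le_sum_of_subset (range_mono h)
  · rw [← R.sum, ← sum_range_add_sum_Ico _ h, sum_eq_zero (s := Ico w J), add_zero]
    intro j hj
    have h1 := (mem_Ico.1 hj).1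
    by_contra hne
    have := (R.pos j).2 (Nat.pos_of_ne_zero hne)
    omega

theorem Region.tc_sum_lb (R : Region n B w w₂ H) {J : ℕ} (hJ : J ≤ w) :
    ∑ j ∈ range J, H j + (w - J) ≤ n := by
  rw [← R.sum, ← sum_range_add_sum_Ico _ hJ]
  have h1 : ∑ _j ∈ Ico J w, 1 ≤ ∑ j ∈ Ico J w, H j :=
    sum_le_sum fun j hj => (R.pos j).1 (mem_Ico.1 hj).2
  rw [sum_const, Nat.card_Ico, smul_eq_mul, mul_one] at h1
  omega

theorem Region.tc_rest_le (R : Region n B w w₂ H) {t h : ℕ} (ht : t ≤ w) (hh : H t ≤ h) :
    n - ∑ j ∈ range t, H j ≤ h * (w - t) := by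
  have h0 := sum_range_add_sum_Ico H ht
  rw [R.sum] at h0
  have h1 : ∑ j ∈ Ico t w, H j ≤ ∑ _j ∈ Ico t w, h :=
    sum_le_sum fun j hj => (R.anti (mem_Ico.1 hj).1).trans hh
  rw [sum_const, Nat.card_Ico, smul_eq_mul, mul_comm] at h1
  omega

theorem cdiv_le {a h m : ℕ} (hle : a ≤ h * m) : (a + h - 1) / h ≤ m := by
  rcases Nat.eq_zero_or_pos h with h0 | h0
  · subst h0; simp
  · rw [← Nat.lt_succ_iff, Nat.div_lt_iff_lt_mul h0, Nat.succ_eq_add_one, add_mul, one_mul,
      mul_comm m h]
    omega

theorem Region.tc_lbN_le (R : Region n B w w₂ H) {t h : ℕ} (ht : t ≤ w) (hh : H t ≤ h) :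
    lbN ((List.range t).map H) (n - ∑ j ∈ range t, H j) h ≤ w := by
  rw [lbN, bmax_eq, List.length_map, List.length_range]
  refine max_le ?_ ?_
  · rcases Nat.eq_zero_or_pos t with h0 | h0
    · subst h0; simp
    · obtain ⟨s, rfl⟩ := Nat.exists_eq_add_of_lt h0
      rw [Nat.zero_add, List.range_succ_eq_map]
      simpa using R.wlog
  · have h1 := cdiv_le (R.tc_rest_le ht hh)
    omega

theorem cnt2_eq (a : List ℕ) : cnt2 a = (a.filter fun x => decide (2 ≤ x)).length := by
  induction a with
  | nil => rfl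
  | cons x a ih =>
    rw [cnt2, ih, List.filter_cons]
    by_cases h : 2 ≤ x
    · rw [Nat.ble_eq_true_of_le h, cond_true, if_pos (decide_eq_true h), List.length_cons]; omega
    · rw [show Nat.ble 2 x = false from by
        rw [Bool.eq_false_iff]; exact fun hh => h (Nat.le_of_ble_eq_true hh), cond_false,
        if_neg (by simpa using h)]; omega

theorem sum2_eq (a : List ℕ) : sum2 a = (a.map fun x => min 2 x).sum := by
  induction a with
  | nil => rfl
  | cons x a ih => rw [sum2, ih, List.map_cons, List.sum_cons, bmin_eq]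

theorem Region.tc_cnt2_le (R : Region n B w w₂ H) (t : ℕ) : cnt2 ((List.range t).map H) ≤ w₂ := by
  induction t with
  | zero => simp [cnt2]
  | succ t ih =>
    rw [cnt2_eq] at ih ⊢
    rw [List.range_succ, List.map_append, List.filter_append, List.length_append]
    by_cases h : 2 ≤ H t
    · have h1 := (R.two t).2 h
      have h2 : ((List.filter (fun x => decide (2 ≤ x)) (List.map H (List.range t)))).length ≤ t :=
        (List.length_filter_le _ _).trans (by simp)
      have h3 : (List.filter (fun x => decide (2 ≤ x)) (List.map H [t])).length ≤ 1 :=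
        (List.length_filter_le _ _).trans (by simp)
      omega
    · have h3 : List.filter (fun x => decide (2 ≤ x)) (List.map H [t]) = [] := by
        simp; omega
      rw [h3, List.length_nil]; omega

theorem Region.tc_sum_min_two (R : Region n B w w₂ H) : ∑ j ∈ range w, min 2 (H j) = w + w₂ := by
  have h2 : w₂ ≤ w := by
    by_contra hcon
    have := (R.two w).1 (by omega)
    have := (R.pos w).2 (by omega)
    omega
  have h3 : ∀ j ∈ range w, min 2 (H j) = 1 + if j < w₂ then 1 else 0 := by
    intro j hj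
    have h4 := (R.pos j).1 (mem_range.1 hj)
    by_cases h5 : j < w₂
    · have := (R.two j).1 h5
      rw [if_pos h5]; omega
    · have : ¬ 1 < H j := fun h6 => h5 ((R.two j).2 h6)
      rw [if_neg h5]; omega
  rw [sum_congr rfl h3, sum_add_distrib, sum_const, card_range, smul_eq_mul, mul_one, ← card_filter]
  congr 1
  rw [show (range w).filter (fun j => j < w₂) = range w₂ from by
    ext j; simp only [mem_filter, mem_range]; omega, card_range]

theorem Region.tc_sum2_le (R : Region n B w w₂ H) {t h : ℕ} (ht : t ≤ w) (hh : H t ≤ h) :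
    sum2 ((List.range t).map H) + (2 * (n - ∑ j ∈ range t, H j) + bmax h 2 - 1) / bmax h 2
      ≤ w + w₂ := by
  rw [← R.tc_sum_min_two, ← sum_range_add_sum_Ico _ ht, sum2_eq, List.map_map]
  have h1 : ((List.range t).map ((fun x => min 2 x) ∘ H)).sum = ∑ j ∈ range t, min 2 (H j) := by
    rw [← List.sum_toFinset _ (List.nodup_range)]
    rw [List.toFinset_range]
    rfl
  rw [h1]
  refine Nat.add_le_add_left (cdiv_le ?_) _
  rw [bmax_eq, mul_sum]
  have h0 := sum_range_add_sum_Ico H ht
  rw [R.sum] at h0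
  rw [show n - ∑ j ∈ range t, H j = ∑ j ∈ Ico t w, H j by omega, mul_sum]
  refine sum_le_sum fun j hj => ?_
  have h2 := (R.anti (mem_Ico.1 hj).1).trans hh
  rcases Nat.lt_or_ge (H j) 2 with h3 | h3
  · rw [min_eq_right (by omega)]
    exact Nat.mul_le_mul_right _ (le_max_right _ _)
  · rw [min_eq_left h3, mul_comm]
    exact Nat.mul_le_mul_right _ (h2.trans (le_max_left _ _))

theorem Region.tc_not_out (R : Region n B w w₂ H) {t h : ℕ} (ht : t ≤ w) (hh : H t ≤ h) :
    outB B ((List.range t).map H) (n - ∑ j ∈ range t, H j) h = false := by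
  rw [Bool.eq_false_iff]
  intro hcon
  simp only [outB, Bool.or_eq_true, Nat.blt_eq] at hcon
  have h0 := R.tc_sum_lb ht
  have h0' : ((List.range t).map H).headD 0 ≤ w := by
    rcases Nat.eq_zero_or_pos t with h | h
    · subst h; simp
    · obtain ⟨s, rfl⟩ := Nat.exists_eq_add_of_lt h
      rw [Nat.zero_add, List.range_succ_eq_map]
      simpa using R.wlog
  have hlen : ((List.range t).map H).length = t := by simp
  rw [hlen] at hcon
  have h1 := R.tc_lbN_le ht hh
  have h2 := R.tc_cnt2_le t
  have h3 := R.tc_sum2_le ht hh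
  have h4 := R.row
  omega

theorem mem_advC {x : ℕ} {cm : List (List ℕ × List (ℕ × ℕ))} {c : List ℕ × List (ℕ × ℕ)}
    (h : c ∈ advC x cm) : (x :: c.1, c.2) ∈ cm := by
  induction cm with
  | nil => exact absurd h (by simp [advC])
  | cons d cm ih =>
    obtain ⟨a, m⟩ := d
    cases a with
    | nil => exact List.mem_cons_of_mem _ (ih h)
    | cons y ys =>
      rw [advC] at h
      by_cases hy : y = x
      · rw [show Nat.beq y x = true from by rw [Nat.beq_eq]; exact hy, cond_true, List.mem_cons] at h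
        rcases h with rfl | h
        · rw [hy]; exact List.mem_cons_self
        · exact List.mem_cons_of_mem _ (ih h)
      · rw [show Nat.beq y x = false from by
          rw [Bool.eq_false_iff]; exact fun hh => hy (by rwa [Nat.beq_eq] at hh), cond_false] at h
        exact List.mem_cons_of_mem _ (ih h)

end sound

end Crest.Agent.R195
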