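import Crest.Agent.R195.TreeRow2
import Crest.Agent.R195.Rules

/-! Row 195, S0298 (helper958).  Criterion for modified pieces and the commit lemma. -/

set_option autoImplicit false

namespace Crest.Agent.R195

open Finset Function

section crit

/-- rows of the modified pieces -/
def RowM {w : ℕ} (p : (RK × ℕ) × ℕ) (z : Fin w → ℕ) : Prop :=
  (∀ j, z j ≤ modK p.1.1 p.2) ∧ ∑ j, z j = modS p.1.1 p.1.2 p.2

theorem decR_of_mod_aux {w : ℕ} (L : List ((RK × ℕ) × ℕ))
    (hok : ∀ p ∈ L, modOK p.1.1 p.1.2 p.2 = true) (zs : List (Fin w → ℕ))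
    (hz : List.Forall₂ RowM L zs) :
    ∃ E : Fin w → ℕ, ∑ j, E j = (L.map fun p => modN p.1.1 p.2).sum ∧
      ∀ A : Fin w → ℕ, ∑ j, A j = (L.map fun p => modG p.1.1 p.2).sum →
        ∃ xs : List (Fin w → ℕ), List.Forall₂ (fun p x => RowR p.1 p.2 x) (L.map Prod.fst) xs ∧
          ∀ j, (xs.map fun x => x j).sum + E j = (zs.map fun z => z j).sum + A j := by
  induction hz with
  | nil =>
    refine ⟨fun _ => 0, by simp, fun A hA => ⟨[], List.Forall₂.nil, fun j => ?_⟩⟩
    simp only [List.map_nil, List.sum_nil] at hA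
    have h1 : A j ≤ ∑ j, A j := single_le_sum (fun _ _ => Nat.zero_le _) (mem_univ j)
    simp only [List.map_nil, List.sum_nil]
    omega
  | @cons p z L zs hpz _ ih =>
    obtain ⟨E₂, hE₂, Φ₂⟩ := ih fun q hq => hok q (List.mem_cons_of_mem _ hq)
    obtain ⟨x, E₁, h1, h2, h3⟩ := row_of_mod (hok p List.mem_cons_self) z hpz.1 hpz.2
    refine ⟨fun j => E₁ j + E₂ j, ?_, fun A hA => ?_⟩
    · rw [sum_add_distrib, h2, hE₂, List.map_cons, List.sum_cons]
    · rw [List.map_cons, List.sum_cons] at hA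
      obtain ⟨A₁, -, hA1, hA2⟩ := exists_between_sum (l := fun _ => 0) (u := A)
        (fun _ => Nat.zero_le _) (S := modG p.1.1 p.2) (by simp) (by omega)
      obtain ⟨xs, h4, h5⟩ := Φ₂ (fun j => A j - A₁ j) (by
        rw [sum_tsub_distrib _ fun j _ => hA1 j, hA, hA2]; omega)
      refine ⟨(fun j => x j + A₁ j) :: xs, List.Forall₂.cons (h3 A₁ hA2) h4, fun j => ?_⟩
      have h6 := h5 j
      have h7 := h1 j
      have h8 := hA1 j
      simp only [List.map_cons, List.sum_cons] at h6 ⊢
      omega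

theorem decR_of_mod {w : ℕ} (L : List ((RK × ℕ) × ℕ))
    (hok : ∀ p ∈ L, modOK p.1.1 p.1.2 p.2 = true)
    (hbal : (L.map fun p => modN p.1.1 p.2).sum = (L.map fun p => modG p.1.1 p.2).sum)
    {zs : List (Fin w → ℕ)} (hz : List.Forall₂ RowM L zs) {H : Fin w → ℕ}
    (hs : ∀ j, (zs.map fun z => z j).sum = H j) : DecR (L.map Prod.fst) H := by
  obtain ⟨E, hE, Φ⟩ := decR_of_mod_aux L hok zs hz
  obtain ⟨xs, h1, h2⟩ := Φ E (hE.trans hbal)
  refine ⟨xs, h1, fun j => ?_⟩
  have h3 := h2 j
  rw [hs j] at h3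
  omega

/-- what a list of (size, capacity) can take from `J` columns -/
def fsum : List (ℕ × ℕ) → ℕ → ℕ
  | [], _ => 0
  | p :: L, J => cond (Nat.ble p.1 (p.2 * J)) p.1 (p.2 * J) + fsum L J

theorem fsum_eq (L : List (ℕ × ℕ)) (J : ℕ) : fsum L J = (L.map fun p => min p.1 (p.2 * J)).sum := by
  induction L with
  | nil => rfl
  | cons p L ih =>
    rw [fsum, ih, List.map_cons, List.sum_cons]
    congr 1
    by_cases h : p.1 ≤ p.2 * J
    · rw [Nat.ble_eq_true_of_le h, cond_true, min_eq_left h]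
    · rw [show Nat.ble p.1 (p.2 * J) = false from by
        rw [Bool.eq_false_iff]; exact fun hh => h (Nat.le_of_ble_eq_true hh), cond_false,
        min_eq_right (by omega)]

theorem fsum_mono (L : List (ℕ × ℕ)) {J J' : ℕ} (h : J ≤ J') : fsum L J ≤ fsum L J' := by
  rw [fsum_eq, fsum_eq]
  refine List.sum_le_sum fun p _ => ?_
  exact min_le_min le_rfl (Nat.mul_le_mul_left _ h)

/-- the list (size, capacity) of the modified pieces -/
def mlist (L : List ((RK × ℕ) × ℕ)) : List (ℕ × ℕ) :=
  L.map fun p => (modS p.1.1 p.1.2 p.2, modK p.1.1 p.2)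

theorem decR_crit {w : ℕ} (L : List ((RK × ℕ) × ℕ))
    (hok : ∀ p ∈ L, modOK p.1.1 p.1.2 p.2 = true)
    (hbal : (L.map fun p => modN p.1.1 p.2).sum = (L.map fun p => modG p.1.1 p.2).sum)
    {H : ℕ → ℕ} (hanti : Antitone H)
    (htot : ∑ j ∈ range w, H j = (L.map fun p => modS p.1.1 p.1.2 p.2).sum)
    (hcrit : ∀ J, J ≤ w → ∑ j ∈ range J, H j ≤ fsum (mlist L) J) :
    DecR (L.map Prod.fst) fun j : Fin w => H j := by
  have hF : ∀ J, ∑ g : Fin L.length, min (modS L[g].1.1 L[g].1.2 L[g].2) (modK L[g].1.1 L[g].2 * J)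
      = fsum (mlist L) J := by
    intro J
    rw [fsum_eq, mlist, List.map_map, ← Fin.sum_univ_fun_getElem]
    rfl
  obtain ⟨h, hh1, hh2, -, hh4⟩ := exists_matrix (ι := Fin L.length)
    (fun g => modS L[g].1.1 L[g].1.2 L[g].2) (fun g => modK L[g].1.1 L[g].2)
    (fun g => modK_pos (hok _ (List.getElem_mem g.2))) w H
    (by rw [htot, ← Fin.sum_univ_fun_getElem]; rfl)
    (by
      intro J hJ
      rw [hF]
      refine (sum_le_sum_range_of_antitone hanti J).trans (hcrit _ ?_)
      simpa using card_le_card hJ)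
  refine decR_of_mod L hok hbal (zs := List.ofFn fun g => fun j : Fin w => h g j) ?_ fun j => ?_
  · rw [List.forall₂_iff_get]
    refine ⟨by simp, fun i h1 h2 => ?_⟩
    simp only [List.get_eq_getElem, List.getElem_ofFn]
    refine ⟨fun j => hh1 ⟨i, h1⟩ j, ?_⟩
    have h6 := hh2 ⟨i, h1⟩
    rw [← Fin.sum_univ_eq_sum_range (fun j => h ⟨i, h1⟩ j) w] at h6
    exact h6
  · rw [← hh4 j j.2, List.map_ofFn, List.sum_ofFn]
    rfl

end crit

section commit

/-- every value 1..4 occurs an even number of times -/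
def evL (a : List ℕ) : Bool :=
  Nat.beq (a.count 1 % 2) 0 && Nat.beq (a.count 2 % 2) 0 && Nat.beq (a.count 3 % 2) 0 &&
    Nat.beq (a.count 4 % 2) 0

/-- all entries at most `k` -/
def leL (k : ℕ) : List ℕ → Bool
  | [] => true
  | x :: a => Nat.ble x k && leL k a

theorem leL_iff {k : ℕ} {a : List ℕ} : leL k a = true ↔ ∀ x ∈ a, x ≤ k := by
  induction a with
  | nil => simp [leL]
  | cons x a ih => simp [leL, ih, Nat.ble_eq]

/-- the piece `p` may be split into the entries `a` on the first columns and the residual piece -/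
def comOK : (RK × ℕ) → (List ℕ × (RK × ℕ)) → Bool
  | (.pl k, S), (a, (.pl k', S')) => Nat.beq k k' && leL k a && Nat.beq (a.sum + S') S
  | (.ev, S), (a, (.ev, S')) => leL 4 a && evL a && Nat.beq (a.sum + S') S
  | (.gp, S), (a, (.ev, S')) => leL 4 a && evL a && Nat.beq (a.sum + S') S && a.contains 2
  | (.gp, S), (a, (.gp, S')) => leL 1 a && evL a && Nat.beq (a.sum + S') S
  | _, _ => false

/-- entries on the first columns -/
def preF (t : ℕ) (a : List ℕ) : Fin t → ℕ := fun j => a.getD j 0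

theorem sum_preF {t : ℕ} {a : List ℕ} (h : a.length = t) : ∑ j, preF t a j = a.sum := by
  subst h
  rw [← Fin.sum_univ_getElem]
  refine sum_congr rfl fun j _ => ?_
  simp [preF]

theorem preF_le {t k : ℕ} {a : List ℕ} (h : ∀ x ∈ a, x ≤ k) (j : Fin t) : preF t a j ≤ k := by
  unfold preF
  rw [List.getD_eq_getElem?_getD]
  by_cases hj : (j : ℕ) < a.length
  · rw [List.getElem?_eq_getElem hj]
    exact h _ (List.getElem_mem hj)
  · rw [List.getElem?_eq_none (not_lt.mp hj)]
    exact Nat.zero_le _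

theorem card_preF {t v : ℕ} {a : List ℕ} (h : a.length = t) :
    (univ.filter fun j => preF t a j = v).card = a.count v := by
  subst h
  rw [card_filter]
  have h1 : ∀ b : List ℕ, ∑ j : Fin b.length, (if preF b.length b j = v then 1 else 0) = b.count v := by
    intro b
    induction b with
    | nil => simp
    | cons x b ih =>
      rw [List.count_cons, ← ih, List.length_cons, Fin.sum_univ_succ, add_comm]
      congr 1
      · simp [preF]
  exact h1 a

theorem evenC_addCases {t m : ℕ} {a : List ℕ} (ha : a.length = t) (h4 : ∀ x ∈ a, x ≤ 4)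
    (hev : evL a = true) {x : Fin m → ℕ} (hx : EvenC x) :
    EvenC (Fin.addCases (motive := fun _ => ℕ) (preF t a) x) := by
  intro v hv
  rw [card_filter, Fin.sum_univ_add]
  simp only [Fin.addCases_left, Fin.addCases_right]
  rw [← card_filter, ← card_filter, card_preF ha]
  refine Even.add ?_ (hx v hv)
  simp only [evL, Bool.and_eq_true, Nat.beq_eq] at hev
  rw [Nat.even_iff]
  rcases Nat.lt_or_ge 4 v with h | h
  · rw [List.count_eq_zero_of_not_mem fun hm => absurd (h4 v hm) (by omega)]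
  · interval_cases v
    · exact hev.1.1.1
    · exact hev.1.1.2
    · exact hev.1.2
    · exact hev.2

theorem rowR_commit {t m : ℕ} {p : RK × ℕ} {c : List ℕ × (RK × ℕ)} (h : comOK p c = true)
    (hl : c.1.length = t) {x : Fin m → ℕ} (hx : RowR c.2.1 c.2.2 x) :
    RowR p.1 p.2 (Fin.addCases (motive := fun _ => ℕ) (preF t c.1) x) := by
  obtain ⟨q, S⟩ := p
  obtain ⟨a, q', S'⟩ := c
  have hsum : ∑ j, (Fin.addCases (motive := fun _ => ℕ) (preF t a) x) j = a.sum + S' := by
    rw [Fin.sum_univ_add]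
    simp only [Fin.addCases_left, Fin.addCases_right]
    rw [sum_preF hl, hx.sum_eq]
  have hle : ∀ k, (∀ y ∈ a, y ≤ k) → (∀ j, x j ≤ k) → ∀ j,
      (Fin.addCases (motive := fun _ => ℕ) (preF t a) x) j ≤ k := by
    intro k h1 h2 j
    refine Fin.addCases (fun i => ?_) (fun i => ?_) j
    · rw [Fin.addCases_left]; exact preF_le h1 i
    · rw [Fin.addCases_right]; exact h2 i
  cases q with
  | pl k =>
    cases q' with
    | pl k' =>
      simp only [comOK, Bool.and_eq_true, Nat.beq_eq, leL_iff] at h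
      obtain ⟨⟨h1, h2⟩, h3⟩ := h
      subst h1
      exact ⟨hle k h2 hx.1, by rw [hsum, h3]⟩
    | ev => exact absurd h (by simp [comOK])
    | gp => exact absurd h (by simp [comOK])
  | ev =>
    cases q' with
    | pl k' => exact absurd h (by simp [comOK])
    | ev =>
      simp only [comOK, Bool.and_eq_true, Nat.beq_eq, leL_iff] at h
      obtain ⟨⟨h1, h2⟩, h3⟩ := h
      exact ⟨by rw [hsum, h3], hle 4 h1 hx.2.1, evenC_addCases hl h1 h2 hx.2.2⟩
    | gp => exact absurd h (by simp [comOK])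
  | gp =>
    cases q' with
    | pl k' => exact absurd h (by simp [comOK])
    | ev =>
      simp only [comOK, Bool.and_eq_true, Nat.beq_eq, leL_iff] at h
      obtain ⟨⟨⟨h1, h2⟩, h3⟩, h4⟩ := h
      refine ⟨by rw [hsum, h3], Or.inl ⟨hle 4 h1 hx.2.1, evenC_addCases hl h1 h2 hx.2.2, ?_⟩⟩
      rw [List.contains_iff_mem] at h4
      obtain ⟨i, hi, hi2⟩ := List.getElem_of_mem h4
      have hit : i < t := by simpa [← hl] using hi
      refine ⟨Fin.castAdd m ⟨i, hit⟩, ?_⟩
      rw [Fin.addCases_left]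
      simp [preF, hi2, List.getD_eq_getElem?_getD, List.getElem?_eq_getElem hi]
    | gp =>
      simp only [comOK, Bool.and_eq_true, Nat.beq_eq, leL_iff] at h
      obtain ⟨⟨h1, h2⟩, h3⟩ := h
      refine ⟨by rw [hsum, h3], ?_⟩
      rcases hx.2 with ⟨h5, h6, j, hj⟩ | h5
      · refine Or.inl ⟨hle 4 (fun y hy => (h1 y hy).trans (by omega)) h5,
          evenC_addCases hl (fun y hy => (h1 y hy).trans (by omega)) h2 h6, Fin.natAdd t j, ?_⟩
        rw [Fin.addCases_right]; exact hj
      · exact Or.inr (hle 1 h1 h5)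

/-- sum of the entries of column `j` -/
def colSum (cs : List (List ℕ × (RK × ℕ))) (j : ℕ) : ℕ :=
  match cs with
  | [] => 0
  | c :: cs => c.1.getD j 0 + colSum cs j

theorem decR_commit {t m : ℕ} {L : List (RK × ℕ)} {cs : List (List ℕ × (RK × ℕ))}
    (h : List.Forall₂ (fun p c => comOK p c = true ∧ c.1.length = t) L cs)
    {H : ℕ → ℕ} (hcol : ∀ j, j < t → colSum cs j = H j)
    (hrest : DecR (cs.map Prod.snd) fun j : Fin m => H (t + j)) :
    DecR L fun j : Fin (t + m) => H j := by
  obtain ⟨xs, h1, h2⟩ := hrest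
  have key : ∀ (L : List (RK × ℕ)) (cs : List (List ℕ × (RK × ℕ))) (xs : List (Fin m → ℕ)),
      List.Forall₂ (fun p c => comOK p c = true ∧ c.1.length = t) L cs →
      List.Forall₂ (fun p x => RowR p.1 p.2 x) (cs.map Prod.snd) xs →
      ∃ ys : List (Fin (t + m) → ℕ), List.Forall₂ (fun p x => RowR p.1 p.2 x) L ys ∧
        ∀ j, (ys.map fun y => y j).sum =
          (Fin.addCases (motive := fun _ => ℕ) (fun i : Fin t => colSum cs i)
            fun i => (xs.map fun x => x i).sum) j := by
    intro L cs xs h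
    induction h generalizing xs with
    | nil =>
      intro h1
      cases h1
      refine ⟨[], List.Forall₂.nil, fun j => ?_⟩
      refine Fin.addCases (fun i => ?_) (fun i => ?_) j
      · rw [Fin.addCases_left]; rfl
      · rw [Fin.addCases_right]; rfl
    | @cons p c L cs hpc _ ih =>
      intro h1
      rw [List.map_cons] at h1
      cases h1 with
      | @cons _ x _ xs hx hxs =>
        obtain ⟨ys, h3, h4⟩ := ih xs hxs
        refine ⟨Fin.addCases (motive := fun _ => ℕ) (preF t c.1) x :: ys,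
          List.Forall₂.cons (rowR_commit hpc.1 hpc.2 hx) h3, fun j => ?_⟩
        have h5 := h4 j
        revert h5
        refine Fin.addCases (fun i => ?_) (fun i => ?_) j
        · intro h5
          rw [List.map_cons, List.sum_cons, h5]
          simp only [Fin.addCases_left]
          rfl
        · intro h5
          rw [List.map_cons, List.sum_cons, h5]
          simp only [Fin.addCases_right, List.map_cons, List.sum_cons]
  obtain ⟨ys, h3, h4⟩ := key L cs xs h h1
  refine ⟨ys, h3, fun j => ?_⟩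
  rw [h4 j]
  refine Fin.addCases (fun i => ?_) (fun i => ?_) j
  · rw [Fin.addCases_left]
    simpa using hcol i i.2
  · rw [Fin.addCases_right]
    simpa using h2 i

end commit

end Crest.Agent.R195
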