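import Crest.Agent.R195.TreeCov

/-! Row 195, S0298 (helper958).  Soundness of the tree check: `covH_of_tree`. -/

set_option autoImplicit false

namespace Crest.Agent.R195

open Finset Function

section convert

/-- residual piece of a piece -/
def toRK : Pc → RK × ℕ
  | .pair c => (.pl 4, 2 * c - 1)
  | .rect c k => (.pl 1, c * k)
  | .dup c => (.ev, 2 * c)
  | .gap c => (.gp, 2 * c - 2)

/-- a gap piece may be replaced by two single columns -/
def variants : List Pc → List (List Pc)
  | [] => [[]]
  | .gap c :: L => ((variants L).map fun v => .gap c :: v) ++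
      (variants L).map fun v => .rect c 1 :: .rect (c - 2) 1 :: v
  | .pair c :: L => (variants L).map fun v => .pair c :: v
  | .rect c k :: L => (variants L).map fun v => .rect c k :: v
  | .dup c :: L => (variants L).map fun v => .dup c :: v

def gapOK : Pc → Bool
  | .gap c => Nat.ble 2 c
  | _ => true

theorem decomp_of_decR_aux {ι : Type*} [Fintype ι] [DecidableEq ι] : ∀ (L : List Pc)
    (xs : List (ι → ℕ)), (∀ p ∈ L, gapOK p = true) →
    List.Forall₂ (fun p x => RowR p.1 p.2 x) (L.map toRK) xs →
    ∃ L' ∈ variants L, ∃ ys : List (ι → ℕ), List.Forall₂ RowOK L' ys ∧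
      ∀ j, (ys.map fun y => y j).sum = (xs.map fun x => x j).sum
  | [], xs, _, h => by
    rw [List.map_nil] at h
    cases h
    exact ⟨[], by simp [variants], [], List.Forall₂.nil, fun _ => rfl⟩
  | p :: L, xs, hg, h => by
    rw [List.map_cons] at h
    cases h with
    | @cons _ x _ xs hx h =>
      obtain ⟨L', h1, ys, h2, h3⟩ := decomp_of_decR_aux L xs
        (fun q hq => hg q (List.mem_cons_of_mem _ hq)) h
      cases p with
      | pair c =>
        refine ⟨_, List.mem_map_of_mem h1, x :: ys, List.Forall₂.cons hx h2, fun j => ?_⟩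
        simp only [List.map_cons, List.sum_cons, h3]
      | rect c k =>
        refine ⟨_, List.mem_map_of_mem h1, x :: ys, List.Forall₂.cons hx h2, fun j => ?_⟩
        simp only [List.map_cons, List.sum_cons, h3]
      | dup c =>
        obtain ⟨a1, a2, a3⟩ := hx
        obtain ⟨σ, s1, s2, s3, -⟩ := invol_of_evenC a3
        refine ⟨_, List.mem_map_of_mem h1, x :: ys,
          List.Forall₂.cons (show RowOK (.dup c) x from ⟨a2, a1, σ, s1, s2, s3⟩) h2, fun j => ?_⟩
        simp only [List.map_cons, List.sum_cons, h3]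
      | gap c =>
        obtain ⟨a1, a2⟩ := hx
        change ∑ j, x j = 2 * c - 2 at a1
        have hc : 2 ≤ c := Nat.le_of_ble_eq_true (hg _ List.mem_cons_self)
        rcases a2 with ⟨a2, a3, a4⟩ | a2
        · obtain ⟨σ, s1, s2, s3, -⟩ := invol_of_evenC a3
          refine ⟨_, List.mem_append_left _ (List.mem_map_of_mem h1), x :: ys,
            List.Forall₂.cons (show RowOK (.gap c) x from ⟨a2, a1, ⟨σ, s1, s2, s3⟩, a4⟩) h2,
            fun j => ?_⟩
          simp only [List.map_cons, List.sum_cons, h3]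
        · obtain ⟨y, -, hy1, hy2⟩ := exists_between_sum (l := fun _ => 0) (u := x)
            (fun _ => Nat.zero_le _) (S := c) (by simp) (by omega)
          refine ⟨_, List.mem_append_right _ (List.mem_map_of_mem h1),
            y :: (fun j => x j - y j) :: ys, List.Forall₂.cons
              (show RowOK (.rect c 1) y from ⟨fun j => (hy1 j).trans (a2 j), by rw [hy2, mul_one]⟩)
              (List.Forall₂.cons (show RowOK (.rect (c - 2) 1) fun j => x j - y j from
                ⟨fun j => (Nat.sub_le _ _).trans (a2 j), ?_⟩) h2), fun j => ?_⟩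
          · rw [sum_tsub_distrib _ fun j _ => hy1 j, a1, hy2]; omega
          · have := hy1 j
            simp only [List.map_cons, List.sum_cons, h3]
            omega

theorem decomp_of_decR {ι : Type*} [Fintype ι] [DecidableEq ι] {L : List Pc} {H : ι → ℕ}
    (hg : ∀ p ∈ L, gapOK p = true) (h : DecR (L.map toRK) H) : ∃ L' ∈ variants L, Decomp L' H := by
  obtain ⟨xs, h1, h2⟩ := h
  obtain ⟨L', h3, ys, h4, h5⟩ := decomp_of_decR_aux L xs hg h1
  exact ⟨L', h3, ys, h4, fun j => by rw [h5, h2]⟩

end convert

section node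

variable {n B w w₂ : ℕ} {H : ℕ → ℕ}

/-- admissible modification with total `n` -/
def okMP (L : List ((RK × ℕ) × ℕ)) (n : ℕ) : Bool :=
  (L.all fun p => modOK p.1.1 p.1.2 p.2) &&
    Nat.beq ((L.map fun p => modN p.1.1 p.2).sum) ((L.map fun p => modG p.1.1 p.2).sum) &&
      Nat.beq ((L.map fun p => modS p.1.1 p.1.2 p.2).sum) n

theorem node_crit (R : Region n B w w₂ H) {t h : ℕ} (ht : t ≤ w) (hh : H t ≤ h)
    {L : List ((RK × ℕ) × ℕ)} (hok : okMP L n = true)
    (h1 : preOK (mlist L) ((List.range t).map H) 0 0 = true)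
    (h2 : restOK (mlist L) n h (lbN ((List.range t).map H) (n - ∑ j ∈ range t, H j) h) 99
      ((List.range t).map H).length ((List.range t).map H).sum = true) :
    DecR (L.map Prod.fst) fun j : Fin w => H j := by
  simp only [okMP, Bool.and_eq_true, List.all_eq_true, Nat.beq_eq] at hok
  obtain ⟨⟨h3, h4⟩, h5⟩ := hok
  refine decR_crit L h3 h4 R.anti (by rw [R.sum, h5]) fun J hJ => ?_
  rcases Nat.eq_zero_or_pos J with h0 | h0
  · subst h0; simp
  rcases Nat.lt_or_ge t J with h6 | h6
  · have hlen : ((List.range t).map H).length = t := by simp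
    rw [hlen] at h2
    have hsum : ((List.range t).map H).sum = ∑ j ∈ range t, H j := by
      rw [← List.sum_toFinset _ List.nodup_range, List.toFinset_range]
    rw [hsum] at h2
    refine restOK_sound R.tc_sum_le (fun K hK => ?_) 99 t _ h2 le_rfl
      (fun i hi => (R.anti hi).trans hh) J h6
    have h7 := R.tc_lbN_le ht hh
    have h8 := R.tc_sum_lb (hK.trans h7)
    omega
  · refine preOK_sound _ 0 0 h1 (fun i hi => ?_) (by simp) J h0 (by simpa using h6)
    have hi' : i < t := by simpa using hi
    rw [Nat.zero_add, List.getD_eq_getElem?_getD, List.getElem?_map,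
      List.getElem?_range hi']
    rfl

/-- data of a commit node -/
structure CM where
  pre : List ℕ
  i : ℕ
  cs : List (List ℕ × (RK × ℕ))
  as : List ℕ

/-- the commitment is admissible -/
def comAll (t : ℕ) : List (RK × ℕ) → List (List ℕ × (RK × ℕ)) → Bool
  | [], [] => true
  | p :: L, c :: cs => comOK p c && Nat.beq c.1.length t && comAll t L cs
  | _, _ => false

theorem comAll_sound {t : ℕ} : ∀ {L : List (RK × ℕ)} {cs : List (List ℕ × (RK × ℕ))},
    comAll t L cs = true → List.Forall₂ (fun p c => comOK p c = true ∧ c.1.length = t) L cs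
  | [], [], _ => List.Forall₂.nil
  | p :: L, c :: cs, h => by
    simp only [comAll, Bool.and_eq_true, Nat.beq_eq] at h
    exact List.Forall₂.cons ⟨h.1.1, h.1.2⟩ (comAll_sound h.2)
  | [], _ :: _, h => absurd h (by simp [comAll])
  | _ :: _, [], h => absurd h (by simp [comAll])

/-- column sums of the commitment -/
def colChk (cs : List (List ℕ × (RK × ℕ))) (pre : List ℕ) : ℕ → Bool
  | 0 => true
  | j + 1 => Nat.beq (colSum cs j) (pre.getD j 0) && colChk cs pre j

theorem colChk_sound {cs : List (List ℕ × (RK × ℕ))} {pre : List ℕ} : ∀ {t : ℕ},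
    colChk cs pre t = true → ∀ j, j < t → colSum cs j = pre.getD j 0
  | 0, _, j, hj => by omega
  | t + 1, h, j, hj => by
    simp only [colChk, Bool.and_eq_true, Nat.beq_eq] at h
    rcases Nat.eq_or_lt_of_le (Nat.lt_succ_iff.1 hj) with h1 | h1
    · rw [h1]; exact h.1
    · exact colChk_sound h.2 j h1

theorem node_commit (R : Region n B w w₂ H) {t h : ℕ} (ht : t ≤ w) (hh : H t ≤ h)
    {L : List (RK × ℕ)} {cs : List (List ℕ × (RK × ℕ))} {as : List ℕ}
    (hlen : as.length = cs.length)
    (hc : comAll t L cs = true) (hcol : colChk cs ((List.range t).map H) t = true)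
    (hok : okMP ((cs.map Prod.snd).zip as) (n - ∑ j ∈ range t, H j) = true)
    (h2 : restOK (mlist ((cs.map Prod.snd).zip as)) (n - ∑ j ∈ range t, H j) h
      (lbN ((List.range t).map H) (n - ∑ j ∈ range t, H j) h - ((List.range t).map H).length)
      99 0 0 = true) :
    DecR L fun j : Fin w => H j := by
  obtain ⟨m, rfl⟩ := Nat.exists_eq_add_of_le ht
  simp only [okMP, Bool.and_eq_true, List.all_eq_true, Nat.beq_eq] at hok
  obtain ⟨⟨h3, h4⟩, h5⟩ := hok
  have hP : ∀ J, ∑ j ∈ range t, H j + ∑ j ∈ range J, H (t + j) = ∑ j ∈ range (t + J), H j :=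
    fun J => (sum_range_add _ _ _).symm
  have hrest : DecR (((cs.map Prod.snd).zip as).map Prod.fst) fun j : Fin m => H (t + j) := by
    refine decR_crit (H := fun j => H (t + j)) _ h3 h4 (fun a b hab => R.anti (by omega)) ?_
      fun J hJ => ?_
    · rw [h5]
      have h6 := hP m
      rw [R.sum] at h6
      omega
    · rcases Nat.eq_zero_or_pos J with h0 | h0
      · subst h0; simp
      have hl2 : ((List.range t).map H).length = t := by simp
      rw [hl2] at h2
      refine restOK_sound (G := fun j => H (t + j)) (fun K => ?_) (fun K hK => ?_) 99 0 0 h2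
        (by simp) (fun i _ => (R.anti (by omega)).trans hh) J h0
      · have h6 := hP K
        have h7 := R.tc_sum_le (t + K)
        omega
      · have h7 := R.tc_lbN_le ht hh
        have h6 := hP K
        have h9 := R.tc_sum_le t
        have h10 : t + K ≤ t + m := by omega
        have h8 := R.tc_sum_lb h10
        omega
  rw [List.map_fst_zip (by rw [List.length_map]; omega)] at hrest
  refine decR_commit (comAll_sound hc) (fun j hj => ?_) hrest
  rw [colChk_sound hcol j hj, List.getD_eq_getElem?_getD, List.getElem?_map,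
    List.getElem?_range hj]
  rfl

end node

section main

/-- the list of pieces number `i` -/
def lsAt (Ls : List (List Pc)) (i : ℕ) : List (RK × ℕ) := (Ls.getD i []).map toRK

/-- check of the data of a criterion -/
def okSp (Ls : List (List Pc)) (n : ℕ) (s : ℕ × List ℕ) : Bool :=
  Nat.blt s.1 Ls.length && Nat.beq s.2.length (lsAt Ls s.1).length && okMP ((lsAt Ls s.1).zip s.2) n

/-- check of the data of a commitment -/
def okCM (Ls : List (List Pc)) (n : ℕ) (c : CM) : Bool :=
  Nat.blt c.i Ls.length && Nat.beq c.as.length c.cs.length && comAll c.pre.length (lsAt Ls c.i) c.cs &&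
    colChk c.cs c.pre c.pre.length && okMP ((c.cs.map Prod.snd).zip c.as) (n - c.pre.sum)

/-- compiled data -/
def cpSp (Ls : List (List Pc)) (s : ℕ × List ℕ) : List (ℕ × ℕ) := mlist ((lsAt Ls s.1).zip s.2)

def cpCM (c : CM) : List ℕ × List (ℕ × ℕ) := (c.pre, mlist ((c.cs.map Prod.snd).zip c.as))

theorem tchk_sound {n B w w₂ : ℕ} {H : ℕ → ℕ} (R : Region n B w w₂ H) (Ls : List (List Pc))
    {sp : List (ℕ × List ℕ)} {cm : List CM} {ex : List (List ℕ)} (hsp : ∀ s ∈ sp, okSp Ls n s = true)
    (hcm : ∀ c ∈ cm, okCM Ls n c = true) : ∀ (f t h : ℕ) (cur : List (List ℕ × List (ℕ × ℕ))),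
    t ≤ w → H t ≤ h →
    (∀ c ∈ cur, ∃ c' ∈ cm, c'.pre = (List.range t).map H ++ c.1 ∧ (cpCM c').2 = c.2) →
    tchk n B (sp.map (cpSp Ls)) ex f cur ((List.range t).map H) (n - ∑ j ∈ range t, H j) h = true →
    (∃ i, i < Ls.length ∧ DecR (lsAt Ls i) fun j : Fin w => H j) ∨ (List.range w).map H ∈ ex
  | 0, _, _, _, _, _, _, h0 => absurd h0 (by simp [tchk])
  | f + 1, t, h, cur, ht, hh, hcur, h0 => by
    rw [tchk, R.tc_not_out ht hh, Bool.false_or, Bool.or_eq_true, Bool.or_eq_true] at h0
    rcases h0 with (h0 | h0) | h0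
    · left
      rw [List.any_eq_true] at h0
      obtain ⟨ML, hML, h1⟩ := h0
      obtain ⟨s, hs, rfl⟩ := List.mem_map.1 hML
      rw [Bool.and_eq_true] at h1
      have h2 := hsp s hs
      simp only [okSp, Bool.and_eq_true, Nat.blt_eq, Nat.beq_eq] at h2
      refine ⟨s.1, h2.1.1, ?_⟩
      have h3 := node_crit R ht hh h2.2 h1.1 h1.2
      rwa [List.map_fst_zip (by omega)] at h3
    · left
      rw [List.any_eq_true] at h0
      obtain ⟨c', hc', h1⟩ := h0
      obtain ⟨c, hc, hpre, hc2⟩ := hcur c' hc'
      rw [Bool.and_eq_true, List.isEmpty_iff] at h1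
      rw [h1.1, List.append_nil] at hpre
      rw [← hc2] at h1
      have h2 := hcm c hc
      simp only [okCM, Bool.and_eq_true, Nat.blt_eq, Nat.beq_eq] at h2
      obtain ⟨⟨⟨⟨q1, q2⟩, q3⟩, q4⟩, q5⟩ := h2
      rw [hpre] at q3 q4 q5
      have hlen : ((List.range t).map H).length = t := by simp
      have hsum : ((List.range t).map H).sum = ∑ j ∈ range t, H j := by
        rw [← List.sum_toFinset _ List.nodup_range, List.toFinset_range]
      rw [hlen] at q3 q4
      rw [hsum] at q5
      exact ⟨c.i, q1, node_commit R ht hh q2 q3 q4 q5 h1.2⟩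
    · by_cases h1 : 1 ≤ n - ∑ j ∈ range t, H j
      · rw [Nat.ble_eq_true_of_le h1, cond_true] at h0
        have htw : t < w := by
          by_contra hcon
          have h3 : t = w := by omega
          rw [h3, R.sum] at h1
          omega
        have hpos := (R.pos t).1 htw
        have hrem : H t ≤ n - ∑ j ∈ range t, H j := by
          have h3 := R.tc_sum_le (t + 1)
          rw [sum_range_succ] at h3
          omega
        have hcap2 : H t ≤ hcap B ((List.range t).map H) (bmin h (n - ∑ j ∈ range t, H j)) := by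
          have h3 : H t ≤ bmin h (n - ∑ j ∈ range t, H j) := by
            rw [bmin_eq]; exact le_min hh hrem
          rcases t with _ | _ | t
          · exact h3
          · change H 1 ≤ bmin (bmin h _) (2 * B - H 0)
            rw [bmin_eq]
            refine le_min h3 ?_
            have := R.col
            omega
          · rw [List.range_succ_eq_map, List.range_succ_eq_map]
            exact h3
        have h4 := allUp_sound h0 (H t) hpos hcap2
        have h5 : (List.range t).map H ++ [H t] = (List.range (t + 1)).map H := by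
          rw [List.range_succ, List.map_append]; rfl
        have h6 : n - ∑ j ∈ range t, H j - H t = n - ∑ j ∈ range (t + 1), H j := by
          rw [sum_range_succ]; omega
        rw [h5, h6] at h4
        refine tchk_sound R Ls hsp hcm f (t + 1) (H t) (advC (H t) cur) (by omega)
          (R.anti (Nat.le_succ t)) (fun c hc => ?_) h4
        obtain ⟨c', q1, q2, q3⟩ := hcur _ (mem_advC hc)
        refine ⟨c', q1, ?_, q3⟩
        rw [q2, ← h5, List.append_assoc]
        rfl
      · right
        rw [show Nat.ble 1 (n - ∑ j ∈ range t, H j) = false from by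
          rw [Bool.eq_false_iff]; exact fun hh => h1 (Nat.le_of_ble_eq_true hh), cond_false,
          List.any_eq_true] at h0
        obtain ⟨q, hq, h2⟩ := h0
        have htw : t = w := by
          by_contra hcon
          have h3 := R.tc_sum_lb ht
          have h4 := R.tc_sum_le t
          omega
        rw [← htw, ← beqL_eq h2]
        exact hq

def validPbT : List Pc → Bool
  | [] => true
  | g :: L => Nat.ble g.low g.top && (L.all fun h => Nat.ble h.top g.next) && validPbT L

theorem validPbT_sound : ∀ {L : List Pc}, validPbT L = true → validP L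
  | [], _ => trivial
  | g :: L, h => by
    simp only [validPbT, Bool.and_eq_true, Nat.ble_eq, List.all_eq_true] at h
    exact ⟨h.1.1, h.1.2, validPbT_sound h.2⟩

/-- the columns of the pieces are those of the hook list -/
def colsEq (ps : List ℕ) (cs : List ℕ) : ℕ → Bool
  | 0 => true
  | s + 1 => Nat.beq (cs.getD s 0) (cl ps s) && colsEq ps cs s

theorem colsEq_sound {ps cs : List ℕ} : ∀ {t : ℕ}, colsEq ps cs t = true → ∀ s, s < t →
    cs.getD s 0 = cl ps s
  | 0, _, s, hs => by omega
  | t + 1, h, s, hs => by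
    simp only [colsEq, Bool.and_eq_true, Nat.beq_eq] at h
    rcases Nat.eq_or_lt_of_le (Nat.lt_succ_iff.1 hs) with h1 | h1
    · rw [h1]; exact h.1
    · exact colsEq_sound h.2 s h1

def okShape (ps : List ℕ) (L : List Pc) : Bool :=
  validPbT L && Nat.beq (colsP L).length (ps.headD 0) && colsEq ps (colsP L) (ps.headD 0)

theorem okShape_sound {ps : List ℕ} (hv : ValidH ps) {L : List Pc} (h : okShape ps L = true) :
    validP L ∧ ∀ s, (colsP L).getD s 0 = cl ps s := by
  simp only [okShape, Bool.and_eq_true, Nat.beq_eq] at h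
  obtain ⟨⟨h1, h2⟩, h3⟩ := h
  refine ⟨validPbT_sound h1, fun s => ?_⟩
  rcases Nat.lt_or_ge s (ps.headD 0) with hs | hs
  · exact colsEq_sound h3 s hs
  · rw [cl_eq_zero hv (by rw [cl_zero]; exact hs), List.getD_eq_getElem?_getD,
      List.getElem?_eq_none (by omega)]
    rfl

theorem tree_main {ps : List ℕ} (Ls : List (List Pc)) (sp : List (ℕ × List ℕ))
    (cm : List CM) (ex : List (List ℕ)) (spC : List (List (ℕ × ℕ)))
    (cmC : List (List ℕ × List (ℕ × ℕ))) (f : ℕ) (hv : ValidH ps)
    (h1 : (Ls.all fun L => L.all gapOK && (variants L).all (okShape ps)) = true)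
    (h2 : (sp.all (okSp Ls (hsize ps))) = true) (h2' : spC = sp.map (cpSp Ls))
    (h3 : (cm.all (okCM Ls (hsize ps))) = true) (h3' : cmC = cm.map cpCM)
    (h4 : tchk (hsize ps) (ps.headD 0 - 1) spC ex f cmC [] (hsize ps) (2 * (ps.headD 0 - 1)) = true)
    {H : ℕ → ℕ} {w w₂ : ℕ} (R : Region (hsize ps) (ps.headD 0 - 1) w w₂ H) :
    (∃ L : List Pc, validP L ∧ (∀ s, (colsP L).getD s 0 = cl ps s) ∧ Decomp L fun j : Fin w => H j) ∨
      (List.range w).map H ∈ ex := by
  rw [List.all_eq_true] at h2 h3
  subst h2' h3'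
  rcases tchk_sound R Ls h2 h3 f 0 (2 * (ps.headD 0 - 1)) (cm.map cpCM) (Nat.zero_le _)
    (by have := R.col; omega) (fun c hc => by
      obtain ⟨c', q1, q2⟩ := List.mem_map.1 hc
      exact ⟨c', q1, by rw [← q2]; rfl, by rw [← q2]⟩) (by simpa using h4) with ⟨i, hi, hD⟩ | hD
  · left
    have hmem : Ls.getD i [] ∈ Ls := by
      rw [List.getD_eq_getElem?_getD, List.getElem?_eq_getElem hi]
      exact List.getElem_mem hi
    rw [List.all_eq_true] at h1
    have h5 := h1 _ hmem
    rw [Bool.and_eq_true, List.all_eq_true, List.all_eq_true] at h5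
    obtain ⟨L', hL', hdec⟩ := decomp_of_decR h5.1 hD
    obtain ⟨q1, q2⟩ := okShape_sound hv (h5.2 L' hL')
    exact ⟨L', q1, q2, hdec⟩
  · exact Or.inr hD

/-- **tree check** -/
theorem covH_of_tree {ps : List ℕ} (hv : ValidH ps) (Ls : List (List Pc)) (sp : List (ℕ × List ℕ))
    (cm : List CM) (spC : List (List (ℕ × ℕ))) (cmC : List (List ℕ × List (ℕ × ℕ))) (f : ℕ)
    (h1 : (Ls.all fun L => L.all gapOK && (variants L).all (okShape ps)) = true)
    (h2 : (sp.all (okSp Ls (hsize ps))) = true) (h2' : spC = sp.map (cpSp Ls))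
    (h3 : (cm.all (okCM Ls (hsize ps))) = true) (h3' : cmC = cm.map cpCM)
    (h4 : tchk (hsize ps) (ps.headD 0 - 1) spC [] f cmC [] (hsize ps) (2 * (ps.headD 0 - 1)) = true) :
    CovH ps := by
  intro H w w₂ R
  rcases tree_main Ls sp cm [] spC cmC f hv h1 h2 h2' h3 h3' h4 R with h | h
  · exact h
  · exact absurd h (by simp)

/-- **tree check with exceptions** -/
theorem fullH_of_tree {p : ℕ} {ps : List ℕ} (hv : ValidH (p :: ps)) (hc : HC p ps) (hf : FullH ps)
    (Ls : List (List Pc)) (sp : List (ℕ × List ℕ))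
    (cm : List CM) (ex : List (List ℕ)) (spC : List (List (ℕ × ℕ)))
    (cmC : List (List ℕ × List (ℕ × ℕ))) (f : ℕ)
    (hexc : ∀ q ∈ ex, ∀ μ : YoungDiagram, μ.card = hsize (p :: ps) →
      (List.range (μ.rowLen 0)).map μ.colLen = q → OccSh (hk (p :: ps)) (hk (p :: ps)) μ)
    (h1 : (Ls.all fun L => L.all gapOK && (variants L).all (okShape (p :: ps))) = true)
    (h2 : (sp.all (okSp Ls (hsize (p :: ps)))) = true) (h2' : spC = sp.map (cpSp Ls))
    (h3 : (cm.all (okCM Ls (hsize (p :: ps)))) = true) (h3' : cmC = cm.map cpCM)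
    (h4 : tchk (hsize (p :: ps)) (p - 1) spC ex f cmC [] (hsize (p :: ps)) (2 * (p - 1)) = true) :
    FullH (p :: ps) := by
  refine rule1 hv hc hf fun μ hn hr => ?_
  rcases tree_main Ls sp cm ex spC cmC f hv h1 h2 h2' h3 h3' h4 hr with ⟨L, q1, q2, q3⟩ | h
  · rw [← colS_eq_hk hv q2]
    exact occSh_of_decompP L q1 q3
  · exact hexc _ h μ hn rfl

end main

end Crest.Agent.R195
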