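import Crest.Agent.R195.Merge

/-! Row 195, S0298 (helper958).  Rows of even type through parities of multiplicities (`EvenC`), residual
pieces, and the extraction of even rows from rows with entries at most `r`. -/

set_option autoImplicit false

namespace Crest.Agent.R195

open Finset Function

section evenC

variable {ι : Type*} [Fintype ι]

/-- every nonzero value is taken an even number of times -/
def EvenC (x : ι → ℕ) : Prop := ∀ v, 1 ≤ v → Even (univ.filter fun j => x j = v).card

theorem evenC_of_invol {x : ι → ℕ} (σ : Equiv.Perm ι) (h1 : ∀ j, σ (σ j) = j)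
    (h2 : ∀ j, x j ≠ 0 → σ j ≠ j) (h3 : ∀ j, x (σ j) = x j) : EvenC x := by
  classical
  intro v hv
  have h : ∑ _j ∈ univ.filter (fun j => x j = v), (1 : ZMod 2) = 0 := by
    refine Finset.sum_involution (fun j _ => σ j) ?_ ?_ ?_ ?_
    · intro j _; decide
    · intro j hj _
      rw [mem_filter] at hj
      exact h2 j (by omega)
    · intro j hj
      rw [mem_filter] at hj ⊢
      exact ⟨mem_univ _, by rw [h3]; exact hj.2⟩
    · intro j _; exact h1 j
  rw [Finset.sum_const, nsmul_eq_mul, mul_one] at h
  exact (ZMod.natCast_eq_zero_iff_even).1 h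

/-- an even row carries a fixed point free matching of its support -/
theorem invol_of_evenC [DecidableEq ι] {x : ι → ℕ} (h : EvenC x) :
    ∃ σ : Equiv.Perm ι, (∀ j, σ (σ j) = j) ∧ (∀ j, x j ≠ 0 → σ j ≠ j) ∧ (∀ j, x (σ j) = x j) ∧
      ∀ j, x j = 0 → σ j = j := by
  induction hn : (univ.filter fun j => x j ≠ 0).card using Nat.strong_induction_on generalizing x with
  | _ n ih =>
    by_cases h0 : ∀ j, x j = 0
    · exact ⟨1, fun _ => rfl, fun j hj => absurd (h0 j) hj, fun _ => rfl, fun _ _ => rfl⟩
    push Not at h0
    obtain ⟨a, ha⟩ := h0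
    have hev := h (x a) (by omega)
    have hmem : a ∈ univ.filter fun j => x j = x a := by simp
    obtain ⟨b, hb, hba⟩ : ∃ b ∈ univ.filter (fun j => x j = x a), b ≠ a := by
      by_contra hcon
      push Not at hcon
      have h1 : univ.filter (fun j => x j = x a) = {a} :=
        Finset.eq_singleton_iff_unique_mem.2 ⟨hmem, hcon⟩
      rw [h1, Finset.card_singleton] at hev
      exact absurd hev (by decide)
    have hxb : x b = x a := (mem_filter.1 hb).2
    let y : ι → ℕ := fun j => if j = a ∨ j = b then 0 else x j
    have hya : y a = 0 := by simp [y]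
    have hyb : y b = 0 := by simp [y]
    have hy : ∀ j, j ≠ a → j ≠ b → y j = x j := fun j h1 h2 => by simp [y, h1, h2]
    have hyE : EvenC y := by
      intro v hv
      by_cases hva : v = x a
      · have h1 : univ.filter (fun j => x j = v) = insert a (insert b (univ.filter fun j => y j = v)) := by
          ext j
          simp only [mem_filter, mem_univ, true_and, mem_insert]
          by_cases hja : j = a
          · subst hja; simp [hva]
          · by_cases hjb : j = b
            · subst hjb; simp [hva, hxb]
            · rw [hy j hja hjb]; simp [hja, hjb]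
        have h2 := h v hv
        rw [h1, card_insert_of_notMem, card_insert_of_notMem] at h2
        · rw [Nat.even_iff] at h2 ⊢; omega
        · simp only [mem_filter, mem_univ, true_and, hyb]; omega
        · simp only [mem_insert, mem_filter, mem_univ, true_and, hya]
          rintro (h3 | h3)
          · exact hba h3.symm
          · omega
      · have h1 : univ.filter (fun j => y j = v) = univ.filter fun j => x j = v := by
          ext j
          simp only [mem_filter, mem_univ, true_and]
          by_cases hja : j = a
          · subst hja; rw [hya]; constructor <;> intro h3 <;> omega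
          · by_cases hjb : j = b
            · subst hjb; rw [hyb, hxb]; constructor <;> intro h3 <;> omega
            · rw [hy j hja hjb]
        rw [h1]; exact h v hv
    have hlt : (univ.filter fun j => y j ≠ 0).card < n := by
      rw [← hn]
      apply Finset.card_lt_card
      refine ⟨fun j hj => ?_, fun hcon => ?_⟩
      · rw [mem_filter] at hj ⊢
        refine ⟨mem_univ _, fun h3 => hj.2 ?_⟩
        simp only [y, h3, ite_self]
      · have h3 := hcon (mem_filter.2 ⟨mem_univ a, ha⟩)
        rw [mem_filter] at h3
        exact h3.2 hya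
    obtain ⟨τ, t1, t2, t3, t4⟩ := ih _ hlt hyE rfl
    have hτa : τ a = a := t4 a hya
    have hτb : τ b = b := t4 b hyb
    have hτn : ∀ j, j ≠ a → τ j ≠ a := fun j hj h3 => hj (τ.injective (by rw [h3, hτa]))
    have hτm : ∀ j, j ≠ b → τ j ≠ b := fun j hj h3 => hj (τ.injective (by rw [h3, hτb]))
    have hs : ∀ j, j ≠ a → j ≠ b → (Equiv.swap a b) j = j := fun j h3 h4 =>
      Equiv.swap_apply_of_ne_of_ne h3 h4
    refine ⟨τ * Equiv.swap a b, fun j => ?_, fun j hj => ?_, fun j => ?_, fun j hj => ?_⟩
    · by_cases hja : j = a
      · subst hja; simp [hτb, hτa]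
      · by_cases hjb : j = b
        · subst hjb; simp [hτb, hτa]
        · simp only [Equiv.Perm.mul_apply]
          rw [hs j hja hjb, hs _ (hτn j hja) (hτm j hjb), t1]
    · by_cases hja : j = a
      · subst hja; simpa [hτb] using hba
      · by_cases hjb : j = b
        · subst hjb; simpa [hτa] using (Ne.symm hja)
        · simp only [Equiv.Perm.mul_apply]
          rw [hs j hja hjb]
          exact t2 j (by rw [hy j hja hjb]; exact hj)
    · by_cases hja : j = a
      · subst hja; simp [hτb, hxb]
      · by_cases hjb : j = b
        · subst hjb; simp [hτa, hxb]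
        · simp only [Equiv.Perm.mul_apply]
          rw [hs j hja hjb]
          have h3 := t3 j
          rwa [hy _ (hτn j hja) (hτm j hjb), hy j hja hjb] at h3
    · have hja : j ≠ a := fun h3 => ha (h3 ▸ hj)
      have hjb : j ≠ b := fun h3 => ha (by rw [← hxb, ← h3]; exact hj)
      simp only [Equiv.Perm.mul_apply]
      rw [hs j hja hjb]
      exact t4 j (by rw [hy j hja hjb]; exact hj)

theorem EvenC.even_sum {x : ι → ℕ} (h : EvenC x) : Even (∑ j, x j) := by
  classical
  obtain ⟨σ, h1, h2, h3, -⟩ := invol_of_evenC h
  have h4 : ∑ j, ((x j : ℕ) : ZMod 2) = 0 := by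
    refine Finset.sum_involution (fun j _ => σ j) ?_ ?_ ?_ ?_
    · intro j _; rw [h3]; exact CharTwo.add_self_eq_zero _
    · intro j _ hj
      exact h2 j (by rintro h5; rw [h5] at hj; exact hj Nat.cast_zero)
    · intro j _; exact mem_univ _
    · intro j _; exact h1 j
  rw [← Nat.cast_sum] at h4
  exact (ZMod.natCast_eq_zero_iff_even).1 h4

end evenC

end Crest.Agent.R195
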