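import Crest.Agent.R195.TreeRow

/-! Row 195, S0298 (helper958).  Residual pieces and the modification lemma (rows of even type from rows
with entries at most `r` and a few extra cells, absorbed by the plain pieces). -/

set_option autoImplicit false

namespace Crest.Agent.R195

open Finset Function

/-- kinds of residual pieces -/
inductive RK
  | pl (k : ℕ)
  | ev
  | gp
  deriving DecidableEq

/-- allowed rows of a residual piece of size `S` -/
def RowR {ι : Type*} [Fintype ι] : RK → ℕ → (ι → ℕ) → Prop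
  | .pl k, S, x => (∀ j, x j ≤ k) ∧ ∑ j, x j = S
  | .ev, S, x => ∑ j, x j = S ∧ (∀ j, x j ≤ 4) ∧ EvenC x
  | .gp, S, x => ∑ j, x j = S ∧ (((∀ j, x j ≤ 4) ∧ EvenC x ∧ ∃ j, x j = 2) ∨ ∀ j, x j ≤ 1)

theorem RowR.sum_eq {ι : Type*} [Fintype ι] {p : RK} {S : ℕ} {x : ι → ℕ} (h : RowR p S x) :
    ∑ j, x j = S := by
  cases p with
  | pl k => exact h.2
  | ev => exact h.1
  | gp => exact h.1

/-- decomposition for residual pieces -/
def DecR {ι : Type*} [Fintype ι] (L : List (RK × ℕ)) (H : ι → ℕ) : Prop :=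
  ∃ xs : List (ι → ℕ), List.Forall₂ (fun p x => RowR p.1 p.2 x) L xs ∧
    ∀ j, (xs.map fun x => x j).sum = H j

section extract

theorem exists_even_row' {w c r S : ℕ} (z : Fin w → ℕ) (hr : ∀ j, z j ≤ r) (hr4 : r ≤ 4)
    (hS : ∑ j, z j = S) (hc : 2 * c + r ≤ S + 1) :
    ∃ x : Fin w → ℕ, RowR .ev (2 * c) x ∧ ∀ j, x j ≤ z j := by
  obtain ⟨e, f, hf, hfe, hf0⟩ := exists_sort_fin z
  have hfr : ∀ i, f i ≤ r := fun i => by
    by_cases hi : i < w
    · rw [hfe ⟨i, hi⟩]; exact hr _
    · rw [hf0 i (not_lt.mp hi)]; omega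
  have hsum : ∑ j ∈ range w, f j = S := by
    rw [← Fin.sum_univ_eq_sum_range f w, ← hS, ← Equiv.sum_comp e z]
    exact sum_congr rfl fun j _ => hfe j
  have h1 := sum_le_double_odd' hf w
  have h2 := hfr 0
  obtain ⟨y, -, hy2, hy3, hy4⟩ := exists_pick (w / 2) c (fun _ => 0) (fun i => f (2 * i + 1))
    (fun _ _ => Nat.zero_le _) (by simp) (by omega)
  have h0 : ∀ i, w ≤ 2 * i + 1 → y i = 0 := fun i hi => hy3 i (by omega)
  have hyf : ∀ j, j < w → y (j / 2) ≤ f j := by
    intro j hj
    by_cases hj2 : j / 2 < w / 2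
    · exact (hy2 _ hj2).trans (hf (by omega))
    · rw [hy3 _ (not_lt.mp hj2)]; exact Nat.zero_le _
  have hrow : RowOK (.dup c) fun j : Fin w => y (j / 2) :=
    rowOK_dup (fun i => by
      by_cases hi : i < w / 2
      · exact (hy2 i hi).trans ((hfr _).trans hr4)
      · rw [hy3 i (not_lt.mp hi)]; omega) h0 hy4
  have hrow2 := hrow.comp e.symm
  obtain ⟨q1, q2, σ, q3, q4, q5⟩ := hrow2
  refine ⟨(fun j : Fin w => y (j / 2)) ∘ e.symm, ⟨q2, q1, evenC_of_invol σ q3 q4 q5⟩, fun j => ?_⟩
  have h5 := hyf (e.symm j) (e.symm j).2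
  rw [hfe, e.apply_symm_apply] at h5
  exact h5

theorem exists_gp_row' {w r S : ℕ} (z : Fin w → ℕ) (hr : ∀ j, z j ≤ r) (hr2 : 2 ≤ r) (hr4 : r ≤ 4)
    (hS : ∑ j, z j = S + 3 * r - 5) (hev : Even S) :
    ∃ x : Fin w → ℕ, RowR .gp S x ∧ ∀ j, x j ≤ z j := by
  by_cases hcase : S ≤ ∑ j, min 1 (z j)
  · obtain ⟨x, -, hx2, hx3⟩ := exists_between_sum (l := fun _ => 0) (u := fun j => min 1 (z j))
      (fun _ => Nat.zero_le _) (S := S) (by simp) hcase
    exact ⟨x, ⟨hx3, Or.inr fun j => (hx2 j).trans (min_le_left _ _)⟩,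
      fun j => (hx2 j).trans (min_le_right _ _)⟩
  obtain ⟨e, f, hf, hfe, hf0⟩ := exists_sort_fin z
  have hfr : ∀ i, f i ≤ r := fun i => by
    by_cases hi : i < w
    · rw [hfe ⟨i, hi⟩]; exact hr _
    · rw [hf0 i (not_lt.mp hi)]; omega
  have hsum : ∑ j ∈ range w, f j = S + 3 * r - 5 := by
    rw [← Fin.sum_univ_eq_sum_range f w, ← hS, ← Equiv.sum_comp e z]
    exact sum_congr rfl fun j _ => hfe j
  have hsup : ∑ j ∈ range w, min 1 (f j) < S := by
    rw [← Fin.sum_univ_eq_sum_range (fun j => min 1 (f j)) w]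
    rw [← Equiv.sum_comp e (fun j => min 1 (z j))] at hcase
    have : ∑ j : Fin w, min 1 (f j) = ∑ j, min 1 (z (e j)) :=
      sum_congr rfl fun j _ => by rw [hfe j]
    omega
  have h1 := sum_le_double_odd' hf w
  have h2 := hfr 0
  have hw1 : 1 < w := by
    by_contra hcon
    have h3 : ∑ j ∈ range w, f j ≤ ∑ j ∈ range 1, f j :=
      sum_le_sum_of_subset (range_mono (by omega))
    rw [sum_range_one, hsum] at h3
    have h4 : f 0 ≤ r * min 1 (f 0) := by
      rcases Nat.eq_zero_or_pos (f 0) with h | h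
      · rw [h]; simp
      · rw [min_eq_left h]; omega
    have h5 : min 1 (f 0) ≤ ∑ j ∈ range w, min 1 (f j) ∨ w = 0 := by
      rcases Nat.eq_zero_or_pos w with h | h
      · exact Or.inr h
      · exact Or.inl (single_le_sum (f := fun j => min 1 (f j)) (fun _ _ => Nat.zero_le _)
          (mem_range.2 h))
    rcases h5 with h5 | h5
    · obtain ⟨m, rfl⟩ := hev
      omega
    · subst h5
      simp at hsum hsup
      omega
  have hf1 : 2 ≤ f 1 := by
    by_contra hcon
    have h3 : ∀ j ∈ range w, f j ≤ min 1 (f j) + if j = 0 then r - 1 else 0 := by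
      intro j _
      by_cases hj : j = 0
      · rw [hj, if_pos rfl]
        rcases Nat.eq_zero_or_pos (f 0) with h | h
        · omega
        · rw [min_eq_left h]; omega
      · rw [if_neg hj]
        have := hf (show 1 ≤ j by omega)
        rcases Nat.eq_zero_or_pos (f j) with h | h
        · omega
        · rw [min_eq_left h]; omega
    have h5 := sum_le_sum h3
    rw [sum_add_distrib, hsum] at h5
    have h6 : ∑ j ∈ range w, (if j = 0 then r - 1 else 0) ≤ r - 1 := by
      rw [sum_ite_eq']; split_ifs <;> omega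
    omega
  have hS4 : 4 ≤ S := by
    have h3 : ∑ j ∈ range 2, min 1 (f j) ≤ ∑ j ∈ range w, min 1 (f j) :=
      sum_le_sum_of_subset (range_mono (by omega))
    have h4 : f 1 ≤ f 0 := hf (by omega)
    rw [sum_range_succ, sum_range_one, min_eq_left (by omega), min_eq_left (by omega)] at h3
    obtain ⟨m, rfl⟩ := hev
    omega
  set U := ∑ i ∈ range (w / 2), f (2 * i + 1) with hU
  have hU2 : f 1 + ∑ i ∈ range (w / 2 - 1), f (2 * (i + 1) + 1) = U := by
    rw [hU, show w / 2 = (w / 2 - 1) + 1 by omega, sum_range_succ']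
    simp only [Nat.add_sub_cancel, Nat.mul_zero, Nat.zero_add]
    omega
  have hul : ∀ g : ℕ → ℕ, ∑ i ∈ range (w / 2), (if i = 0 then 2 else g i) =
      2 + ∑ i ∈ range (w / 2 - 1), g (i + 1) := by
    intro g
    rw [show w / 2 = (w / 2 - 1) + 1 by omega, sum_range_succ']
    simp only [Nat.add_sub_cancel]
    simp
    omega
  obtain ⟨c, rfl⟩ := hev
  obtain ⟨y, hy1, hy2, hy3, hy4⟩ := exists_pick (w / 2) c
    (fun i => if i = 0 then 2 else 0) (fun i => if i = 0 then 2 else f (2 * i + 1))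
    (fun i _ => by by_cases hi : i = 0 <;> simp [hi])
    (by rw [hul fun _ => 0]; simp; omega)
    (by
      rw [hul fun i => f (2 * i + 1)]
      have h7 := hfr 1
      have h8 : f 1 ≤ f 0 := hf (by omega)
      omega)
  have h0 : ∀ i, w ≤ 2 * i + 1 → y i = 0 := fun i hi => hy3 i (by omega)
  have hyf' : ∀ i, i < w / 2 → y i ≤ f (2 * i + 1) := by
    intro i hi
    have h7 := hy2 i hi
    by_cases hi0 : i = 0
    · subst hi0; simp only [if_true] at h7; simpa using h7.trans hf1
    · rw [if_neg hi0] at h7; exact h7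
  have hyf : ∀ j, j < w → y (j / 2) ≤ f j := by
    intro j hj
    by_cases hj2 : j / 2 < w / 2
    · exact (hyf' _ hj2).trans (hf (by omega))
    · rw [hy3 _ (not_lt.mp hj2)]; exact Nat.zero_le _
  have hrow : RowOK (.dup c) fun j : Fin w => y (j / 2) :=
    rowOK_dup (fun i => by
      by_cases hi : i < w / 2
      · exact (hyf' i hi).trans ((hfr _).trans hr4)
      · rw [hy3 i (not_lt.mp hi)]; omega) h0 hy4
  have hrow2 := hrow.comp e.symm
  obtain ⟨q1, q2, σ, q3, q4, q5⟩ := hrow2
  have hy0 : y 0 = 2 := by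
    have h8 := hy1 0 (by omega)
    have h9 := hy2 0 (by omega)
    simp only [if_true] at h8 h9
    omega
  refine ⟨(fun j : Fin w => y (j / 2)) ∘ e.symm,
    ⟨by rw [q2]; ring, Or.inl ⟨q1, evenC_of_invol σ q3 q4 q5, e ⟨0, by omega⟩, ?_⟩⟩, fun j => ?_⟩
  · simp [hy0]
  · have h5 := hyf (e.symm j) (e.symm j).2
    rw [hfe, e.apply_symm_apply] at h5
    exact h5

end extract

section modify

/-- size of the modified piece (parameter `a`) -/
def modS : RK → ℕ → ℕ → ℕ
  | .pl _, S, a => S - a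
  | .ev, S, a => S + a - 1
  | .gp, S, a => if a ≤ 1 then S else S + 3 * a - 5

/-- capacity of the modified piece -/
def modK : RK → ℕ → ℕ
  | .pl k, a => max (k - a) 1
  | .ev, a => a
  | .gp, a => a

/-- cells needed from the other pieces -/
def modN : RK → ℕ → ℕ
  | .pl _, _ => 0
  | .ev, a => a - 1
  | .gp, a => if a ≤ 1 then 0 else 3 * a - 5

/-- cells given to the other pieces -/
def modG : RK → ℕ → ℕ
  | .pl _, a => a
  | .ev, _ => 0
  | .gp, _ => 0

/-- validity of the parameter -/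
def modOK : RK → ℕ → ℕ → Bool
  | .pl k, S, a => Nat.ble a S && (Nat.blt a k || (Nat.beq a S && Nat.ble a k))
  | .ev, S, a => Nat.ble 1 a && Nat.ble a 4 && Nat.beq (S % 2) 0
  | .gp, S, a => Nat.ble 1 a && Nat.ble a 4 && Nat.beq (S % 2) 0

theorem modK_pos {p : RK} {S a : ℕ} (h : modOK p S a = true) : 0 < modK p a := by
  cases p with
  | pl k => simp [modK]
  | ev =>
    simp only [modOK, Bool.and_eq_true, Nat.ble_eq] at h
    exact h.1.1
  | gp =>
    simp only [modOK, Bool.and_eq_true, Nat.ble_eq] at h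
    exact h.1.1

/-- from a row of the modified piece: a row of the piece (`pl`: up to the absorbed cells) and the
released cells -/
theorem row_of_mod {w : ℕ} {p : RK} {S a : ℕ} (h : modOK p S a = true) (z : Fin w → ℕ)
    (hz : ∀ j, z j ≤ modK p a) (hs : ∑ j, z j = modS p S a) :
    ∃ x E : Fin w → ℕ, (∀ j, x j + E j = z j) ∧ ∑ j, E j = modN p a ∧
      ∀ A : Fin w → ℕ, ∑ j, A j = modG p a → RowR p S fun j => x j + A j := by
  cases p with
  | pl k =>
    refine ⟨z, fun _ => 0, fun _ => rfl, by simp [modN], fun A hA => ?_⟩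
    simp only [modOK, Bool.and_eq_true, Bool.or_eq_true, Nat.ble_eq, Nat.blt_eq, Nat.beq_eq] at h
    simp only [modG] at hA
    simp only [modS] at hs
    refine ⟨fun j => ?_, by rw [sum_add_distrib, hs, hA]; omega⟩
    have h1 : A j ≤ a := by
      rw [← hA]; exact single_le_sum (fun _ _ => Nat.zero_le _) (mem_univ j)
    change z j + A j ≤ k
    rcases h.2 with h2 | h2
    · have h3 := hz j
      simp only [modK] at h3
      rw [max_eq_left (by omega)] at h3
      omega
    · have h3 : z j ≤ ∑ j, z j := single_le_sum (fun _ _ => Nat.zero_le _) (mem_univ j)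
      omega
  | ev =>
    simp only [modOK, Bool.and_eq_true, Nat.ble_eq, Nat.beq_eq] at h
    simp only [modS] at hs
    obtain ⟨c, hc⟩ : ∃ c, S = 2 * c := ⟨S / 2, by omega⟩
    obtain ⟨x, hx, hle⟩ := exists_even_row' (c := c) (r := a) z hz h.1.2 hs (by omega)
    refine ⟨x, fun j => z j - x j, fun j => Nat.add_sub_cancel' (hle j), ?_, fun A hA => ?_⟩
    · rw [sum_tsub_distrib _ fun j _ => hle j, hs, hx.sum_eq]
      simp only [modN]; omega
    · simp only [modG] at hA
      have hA0 : ∀ j, A j = 0 := fun j => by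
        have h1 : A j ≤ ∑ j, A j := single_le_sum (fun _ _ => Nat.zero_le _) (mem_univ j)
        omega
      simp only [hA0, add_zero]
      rw [hc]; exact hx
  | gp =>
    simp only [modOK, Bool.and_eq_true, Nat.ble_eq, Nat.beq_eq] at h
    have key : ∃ x : Fin w → ℕ, RowR .gp S x ∧ ∀ j, x j ≤ z j := by
      by_cases ha : a ≤ 1
      · simp only [modS, if_pos ha] at hs
        exact ⟨z, ⟨hs, Or.inr fun j => (hz j).trans ha⟩, fun _ => le_rfl⟩
      · simp only [modS, if_neg ha] at hs
        exact exists_gp_row' (r := a) z hz (by omega) h.1.2 hs (Nat.even_iff.2 h.2)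
    obtain ⟨x, hx, hle⟩ := key
    refine ⟨x, fun j => z j - x j, fun j => Nat.add_sub_cancel' (hle j), ?_, fun A hA => ?_⟩
    · rw [sum_tsub_distrib _ fun j _ => hle j, hs, hx.sum_eq]
      simp only [modS, modN]
      split_ifs <;> omega
    · simp only [modG] at hA
      have hA0 : ∀ j, A j = 0 := fun j => by
        have h1 : A j ≤ ∑ j, A j := single_le_sum (fun _ _ => Nat.zero_le _) (mem_univ j)
        omega
      simp only [hA0, add_zero]
      exact hx

end modify

end Crest.Agent.R195
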