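import Crest.Agent.R195.TreeFin

set_option autoImplicit false

namespace Crest.Agent.R195

/-! hook list [11, 9, 6, 3], n = 54: 117 nodes, 17 commitments -/

def ls_11_9_6_3 : List (List Pc) :=
  [[.pair 11, .rect 8 1, .rect 6 1, .dup 4, .dup 3, .dup 2, .rect 1 1],
   [.pair 11, .gap 8, .dup 4, .dup 3, .dup 2, .rect 1 1]]

def sp_11_9_6_3 : List (ℕ × List ℕ) :=
  [(0, [0, 0, 0, 2, 1, 1, 1])]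

def spC_11_9_6_3 : List (List (ℕ × ℕ)) :=
  [[(21, 4), (8, 1), (6, 1), (9, 2), (6, 1), (4, 1), (0, 1)]]

def cm_11_9_6_3 : List CM :=
  [⟨[15, 5, 5], 1, [([4, 0, 0], (.pl 4, 17)), ([2, 2, 0], (.ev, 10)), ([4, 0, 4], (.ev, 0)), ([3, 3, 0], (.ev, 0)), ([1, 0, 1], (.ev, 2)), ([1, 0, 0], (.pl 1, 0))], [0, 1, 1, 1, 1, 0]⟩,
   ⟨[14, 6, 6], 1, [([3, 1, 0], (.pl 4, 17)), ([2, 2, 0], (.ev, 10)), ([4, 0, 4], (.ev, 0)), ([3, 3, 0], (.ev, 0)), ([2, 0, 2], (.ev, 0)), ([0, 0, 0], (.pl 1, 1))], [0, 2, 1, 1, 1, 1]⟩,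
   ⟨[14, 6, 5], 1, [([4, 0, 1], (.pl 4, 16)), ([2, 2, 0], (.ev, 10)), ([4, 0, 4], (.ev, 0)), ([3, 3, 0], (.ev, 0)), ([1, 1, 0], (.ev, 2)), ([0, 0, 0], (.pl 1, 1))], [0, 1, 1, 1, 1, 0]⟩,
   ⟨[14, 5, 5], 1, [([4, 0, 0], (.pl 4, 17)), ([2, 2, 0], (.ev, 10)), ([4, 0, 4], (.ev, 0)), ([3, 3, 0], (.ev, 0)), ([1, 0, 1], (.ev, 2)), ([0, 0, 0], (.pl 1, 1))], [0, 1, 1, 1, 1, 0]⟩,
   ⟨[13, 7], 0, [([4, 0], (.pl 4, 17)), ([1, 0], (.pl 1, 7)), ([1, 0], (.pl 1, 5)), ([4, 4], (.ev, 0)), ([3, 3], (.ev, 0)), ([0, 0], (.ev, 4)), ([0, 0], (.pl 1, 1))], [0, 0, 0, 1, 1, 1, 0]⟩,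
   ⟨[13, 6], 0, [([4, 0], (.pl 4, 17)), ([1, 0], (.pl 1, 7)), ([1, 0], (.pl 1, 5)), ([4, 4], (.ev, 0)), ([2, 2], (.ev, 2)), ([0, 0], (.ev, 4)), ([1, 0], (.pl 1, 0))], [0, 0, 0, 1, 1, 1, 0]⟩,
   ⟨[13, 5, 5], 1, [([3, 0, 0], (.pl 4, 18)), ([2, 2, 0], (.ev, 10)), ([4, 0, 4], (.ev, 0)), ([3, 3, 0], (.ev, 0)), ([1, 0, 1], (.ev, 2)), ([0, 0, 0], (.pl 1, 1))], [0, 1, 1, 1, 1, 0]⟩,
   ⟨[12, 8], 1, [([4, 0], (.pl 4, 17)), ([2, 2], (.ev, 10)), ([3, 3], (.ev, 2)), ([2, 2], (.ev, 2)), ([1, 1], (.ev, 2)), ([0, 0], (.pl 1, 1))], [0, 2, 1, 1, 1, 1]⟩,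
   ⟨[12, 7], 1, [([4, 0], (.pl 4, 17)), ([2, 2], (.ev, 10)), ([4, 4], (.ev, 0)), ([1, 1], (.ev, 4)), ([0, 0], (.ev, 4)), ([1, 0], (.pl 1, 0))], [0, 1, 1, 1, 1, 0]⟩,
   ⟨[12, 6], 0, [([4, 0], (.pl 4, 17)), ([1, 0], (.pl 1, 7)), ([1, 0], (.pl 1, 5)), ([4, 4], (.ev, 0)), ([2, 2], (.ev, 2)), ([0, 0], (.ev, 4)), ([0, 0], (.pl 1, 1))], [0, 0, 0, 1, 1, 1, 0]⟩,
   ⟨[12, 5], 0, [([4, 0], (.pl 4, 17)), ([1, 0], (.pl 1, 7)), ([1, 0], (.pl 1, 5)), ([4, 4], (.ev, 0)), ([1, 1], (.ev, 4)), ([0, 0], (.ev, 4)), ([1, 0], (.pl 1, 0))], [0, 0, 0, 1, 1, 1, 0]⟩,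
   ⟨[11, 9], 0, [([4, 2], (.pl 4, 15)), ([1, 1], (.pl 1, 6)), ([1, 1], (.pl 1, 4)), ([3, 3], (.ev, 2)), ([2, 2], (.ev, 2)), ([0, 0], (.ev, 4)), ([0, 0], (.pl 1, 1))], [0, 0, 0, 1, 1, 2, 1]⟩,
   ⟨[11, 8], 1, [([4, 1], (.pl 4, 16)), ([2, 2], (.ev, 10)), ([4, 4], (.ev, 0)), ([1, 1], (.ev, 4)), ([0, 0], (.ev, 4)), ([0, 0], (.pl 1, 1))], [0, 2, 1, 1, 1, 1]⟩,
   ⟨[11, 7], 1, [([4, 0], (.pl 4, 17)), ([2, 2], (.ev, 10)), ([4, 4], (.ev, 0)), ([1, 1], (.ev, 4)), ([0, 0], (.ev, 4)), ([0, 0], (.pl 1, 1))], [0, 2, 1, 1, 1, 1]⟩,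
   ⟨[11, 6], 1, [([4, 0], (.pl 4, 17)), ([2, 2], (.ev, 10)), ([4, 4], (.ev, 0)), ([0, 0], (.ev, 6)), ([0, 0], (.ev, 4)), ([1, 0], (.pl 1, 0))], [1, 2, 1, 1, 1, 0]⟩,
   ⟨[11, 5], 0, [([4, 0], (.pl 4, 17)), ([1, 0], (.pl 1, 7)), ([1, 0], (.pl 1, 5)), ([4, 4], (.ev, 0)), ([1, 1], (.ev, 4)), ([0, 0], (.ev, 4)), ([0, 0], (.pl 1, 1))], [0, 0, 0, 1, 1, 1, 0]⟩,
   ⟨[10, 10, 10, 10], 1, [([4, 4, 4, 4], (.pl 4, 5)), ([4, 4, 2, 2], (.ev, 2)), ([0, 0, 3, 3], (.ev, 2)), ([2, 2, 0, 0], (.ev, 2)), ([0, 0, 1, 1], (.ev, 2)), ([0, 0, 0, 0], (.pl 1, 1))], [0, 1, 1, 1, 1, 0]⟩]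

def cmC_11_9_6_3 : List (List ℕ × List (ℕ × ℕ)) :=
  [([15, 5, 5], [(17, 4), (10, 1), (0, 1), (0, 1), (2, 1), (0, 1)]),
   ([14, 6, 6], [(17, 4), (11, 2), (0, 1), (0, 1), (0, 1), (0, 1)]),
   ([14, 6, 5], [(16, 4), (10, 1), (0, 1), (0, 1), (2, 1), (1, 1)]),
   ([14, 5, 5], [(17, 4), (10, 1), (0, 1), (0, 1), (2, 1), (1, 1)]),
   ([13, 7], [(17, 4), (7, 1), (5, 1), (0, 1), (0, 1), (4, 1), (1, 1)]),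
   ([13, 6], [(17, 4), (7, 1), (5, 1), (0, 1), (2, 1), (4, 1), (0, 1)]),
   ([13, 5, 5], [(18, 4), (10, 1), (0, 1), (0, 1), (2, 1), (1, 1)]),
   ([12, 8], [(17, 4), (11, 2), (2, 1), (2, 1), (2, 1), (0, 1)]),
   ([12, 7], [(17, 4), (10, 1), (0, 1), (4, 1), (4, 1), (0, 1)]),
   ([12, 6], [(17, 4), (7, 1), (5, 1), (0, 1), (2, 1), (4, 1), (1, 1)]),
   ([12, 5], [(17, 4), (7, 1), (5, 1), (0, 1), (4, 1), (4, 1), (0, 1)]),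
   ([11, 9], [(15, 4), (6, 1), (4, 1), (2, 1), (2, 1), (5, 2), (0, 1)]),
   ([11, 8], [(16, 4), (11, 2), (0, 1), (4, 1), (4, 1), (0, 1)]),
   ([11, 7], [(17, 4), (11, 2), (0, 1), (4, 1), (4, 1), (0, 1)]),
   ([11, 6], [(16, 3), (11, 2), (0, 1), (6, 1), (4, 1), (0, 1)]),
   ([11, 5], [(17, 4), (7, 1), (5, 1), (0, 1), (4, 1), (4, 1), (1, 1)]),
   ([10, 10, 10, 10], [(5, 4), (2, 1), (2, 1), (2, 1), (2, 1), (1, 1)])]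

set_option Elab.async false in
theorem covH_11_9_6_3 : CovH [11, 9, 6, 3] :=
  covH_of_tree (by decide) ls_11_9_6_3 sp_11_9_6_3 cm_11_9_6_3 spC_11_9_6_3 cmC_11_9_6_3 99 (by decide +kernel) (by decide +kernel)
    (by decide +kernel) (by decide +kernel) (by decide +kernel) (by decide +kernel)

theorem covT_hV_6_2 : CovH (hV 6 2) := covH_11_9_6_3

end Crest.Agent.R195
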