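import Crest.Agent.R195.TreeFin

set_option autoImplicit false
set_option maxHeartbeats 2000000

namespace Crest.Agent.R195

/-! hook list [11, 8, 6, 3], n = 52: 2407 nodes, 959 commitments -/

def ls_11_8_6_3 : List (List Pc) :=
  [[.rect 11 1, .pair 9, .rect 6 1, .dup 4, .dup 3, .rect 2 1, .dup 1],
   [.gap 11, .gap 8, .dup 4, .dup 3, .rect 2 1, .dup 1],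
   [.gap 11, .rect 8 1, .rect 6 1, .dup 4, .dup 3, .rect 2 1, .dup 1]]

def sp_11_8_6_3 : List (ℕ × List ℕ) :=
  [(0, [0, 1, 0, 2, 1, 0, 1])]

def spC_11_8_6_3 : List (List (ℕ × ℕ)) :=
  [[(11, 1), (16, 3), (6, 1), (9, 2), (6, 1), (2, 1), (2, 1)]]

def cm_11_8_6_3_0 : List CM :=
  [⟨[15, 5, 5], 0, [([1, 1, 1], (.pl 1, 8)), ([4, 0, 0], (.pl 4, 13)), ([1, 0, 0], (.pl 1, 5)), ([4, 4, 0], (.ev, 0)), ([3, 0, 3], (.ev, 0)), ([1, 0, 0], (.pl 1, 1)), ([1, 0, 1], (.ev, 0))], [0, 0, 0, 1, 1, 0, 1]⟩,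
   ⟨[15, 5, 4], 0, [([1, 0, 1], (.pl 1, 9)), ([4, 0, 0], (.pl 4, 13)), ([1, 0, 0], (.pl 1, 5)), ([4, 4, 0], (.ev, 0)), ([3, 0, 3], (.ev, 0)), ([1, 0, 0], (.pl 1, 1)), ([1, 1, 0], (.ev, 0))], [0, 0, 0, 1, 1, 0, 1]⟩,
   ⟨[14, 6, 6], 0, [([1, 1, 1], (.pl 1, 8)), ([4, 0, 0], (.pl 4, 13)), ([1, 1, 1], (.pl 1, 3)), ([4, 4, 0], (.ev, 0)), ([3, 0, 3], (.ev, 0)), ([0, 0, 0], (.pl 1, 2)), ([1, 0, 1], (.ev, 0))], [0, 0, 0, 1, 1, 0, 1]⟩,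
   ⟨[14, 6, 5], 0, [([1, 1, 1], (.pl 1, 8)), ([4, 0, 0], (.pl 4, 13)), ([1, 0, 1], (.pl 1, 4)), ([4, 4, 0], (.ev, 0)), ([3, 0, 3], (.ev, 0)), ([0, 0, 0], (.pl 1, 2)), ([1, 1, 0], (.ev, 0))], [0, 0, 0, 1, 1, 0, 1]⟩,
   ⟨[14, 6, 4], 0, [([1, 1, 1], (.pl 1, 8)), ([4, 0, 0], (.pl 4, 13)), ([1, 0, 0], (.pl 1, 5)), ([4, 4, 0], (.ev, 0)), ([3, 0, 3], (.ev, 0)), ([0, 0, 0], (.pl 1, 2)), ([1, 1, 0], (.ev, 0))], [0, 0, 0, 1, 1, 0, 1]⟩,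
   ⟨[14, 5, 5], 0, [([1, 1, 1], (.pl 1, 8)), ([4, 0, 0], (.pl 4, 13)), ([1, 0, 0], (.pl 1, 5)), ([4, 4, 0], (.ev, 0)), ([3, 0, 3], (.ev, 0)), ([0, 0, 0], (.pl 1, 2)), ([1, 0, 1], (.ev, 0))], [0, 0, 0, 1, 1, 0, 1]⟩,
   ⟨[13, 7], 0, [([1, 0], (.pl 1, 10)), ([4, 0], (.pl 4, 13)), ([1, 0], (.pl 1, 5)), ([4, 4], (.ev, 0)), ([3, 3], (.ev, 0)), ([0, 0], (.pl 1, 2)), ([0, 0], (.ev, 2))], [0, 0, 0, 1, 1, 0, 1]⟩,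
   ⟨[13, 6], 0, [([1, 0], (.pl 1, 10)), ([4, 0], (.pl 4, 13)), ([1, 0], (.pl 1, 5)), ([4, 4], (.ev, 0)), ([2, 2], (.ev, 2)), ([1, 0], (.pl 1, 1)), ([0, 0], (.ev, 2))], [0, 0, 0, 1, 1, 0, 1]⟩,
   ⟨[13, 5, 5], 0, [([1, 1, 1], (.pl 1, 8)), ([3, 0, 0], (.pl 4, 14)), ([1, 0, 0], (.pl 1, 5)), ([4, 4, 0], (.ev, 0)), ([3, 0, 3], (.ev, 0)), ([0, 0, 0], (.pl 1, 2)), ([1, 0, 1], (.ev, 0))], [0, 0, 0, 1, 1, 0, 1]⟩,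
   ⟨[12, 8], 0, [([1, 1], (.pl 1, 9)), ([4, 0], (.pl 4, 13)), ([1, 1], (.pl 1, 4)), ([4, 4], (.ev, 0)), ([2, 2], (.ev, 2)), ([0, 0], (.pl 1, 2)), ([0, 0], (.ev, 2))], [0, 0, 0, 1, 1, 0, 1]⟩,
   ⟨[12, 7], 0, [([1, 1], (.pl 1, 9)), ([4, 0], (.pl 4, 13)), ([1, 0], (.pl 1, 5)), ([4, 4], (.ev, 0)), ([2, 2], (.ev, 2)), ([0, 0], (.pl 1, 2)), ([0, 0], (.ev, 2))], [0, 0, 0, 1, 1, 0, 1]⟩,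
   ⟨[12, 6], 0, [([1, 0], (.pl 1, 10)), ([4, 0], (.pl 4, 13)), ([1, 0], (.pl 1, 5)), ([4, 4], (.ev, 0)), ([2, 2], (.ev, 2)), ([0, 0], (.pl 1, 2)), ([0, 0], (.ev, 2))], [0, 0, 0, 1, 1, 0, 1]⟩,
   ⟨[12, 5], 0, [([1, 0], (.pl 1, 10)), ([4, 0], (.pl 4, 13)), ([1, 0], (.pl 1, 5)), ([4, 4], (.ev, 0)), ([1, 1], (.ev, 4)), ([1, 0], (.pl 1, 1)), ([0, 0], (.ev, 2))], [0, 0, 0, 1, 1, 0, 1]⟩,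
   ⟨[11, 9, 9, 9, 7], 0, [([1, 1, 1, 1, 1], (.pl 1, 6)), ([4, 3, 3, 4, 3], (.pl 4, 0)), ([1, 1, 1, 1, 1], (.pl 1, 1)), ([4, 4, 0, 0, 0], (.ev, 0)), ([0, 0, 3, 3, 0], (.ev, 0)), ([0, 0, 1, 0, 1], (.pl 1, 0)), ([1, 0, 0, 0, 1], (.ev, 0))], [0, 0, 0, 1, 1, 0, 1]⟩,
   ⟨[11, 9, 9, 9, 6], 0, [([1, 1, 1, 1, 1], (.pl 1, 6)), ([4, 3, 3, 3, 3], (.pl 4, 1)), ([1, 1, 1, 1, 1], (.pl 1, 1)), ([4, 4, 0, 0, 0], (.ev, 0)), ([0, 0, 3, 3, 0], (.ev, 0)), ([0, 0, 0, 1, 1], (.pl 1, 0)), ([1, 0, 1, 0, 0], (.ev, 0))], [0, 0, 0, 1, 1, 0, 1]⟩,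
   ⟨[11, 9, 9, 9, 5], 0, [([1, 1, 1, 1, 1], (.pl 1, 6)), ([4, 3, 3, 3, 2], (.pl 4, 2)), ([1, 1, 1, 1, 1], (.pl 1, 1)), ([4, 4, 0, 0, 0], (.ev, 0)), ([0, 0, 3, 3, 0], (.ev, 0)), ([0, 0, 0, 1, 1], (.pl 1, 0)), ([1, 0, 1, 0, 0], (.ev, 0))], [0, 0, 0, 1, 1, 0, 1]⟩,
   ⟨[11, 9, 9, 9, 4], 0, [([1, 1, 1, 1, 1], (.pl 1, 6)), ([4, 3, 3, 3, 1], (.pl 4, 3)), ([1, 1, 1, 1, 1], (.pl 1, 1)), ([4, 4, 0, 0, 0], (.ev, 0)), ([0, 0, 3, 3, 0], (.ev, 0)), ([0, 0, 0, 1, 1], (.pl 1, 0)), ([1, 0, 1, 0, 0], (.ev, 0))], [0, 0, 0, 1, 1, 0, 1]⟩,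
   ⟨[11, 9, 9, 9, 3], 1, [([4, 4, 2, 2, 0], (.ev, 8)), ([4, 2, 4, 2, 0], (.ev, 2)), ([3, 1, 1, 3, 0], (.ev, 0)), ([0, 2, 1, 1, 2], (.ev, 0)), ([0, 0, 0, 0, 1], (.pl 1, 1)), ([0, 0, 1, 1, 0], (.ev, 0))], [2, 1, 1, 1, 1, 1]⟩,
   ⟨[11, 9, 9, 8, 8], 0, [([1, 1, 1, 1, 1], (.pl 1, 6)), ([4, 3, 3, 3, 4], (.pl 4, 0)), ([1, 1, 1, 1, 1], (.pl 1, 1)), ([4, 4, 0, 0, 0], (.ev, 0)), ([0, 0, 3, 3, 0], (.ev, 0)), ([0, 0, 1, 0, 1], (.pl 1, 0)), ([1, 0, 0, 0, 1], (.ev, 0))], [0, 0, 0, 1, 1, 0, 1]⟩,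
   ⟨[11, 9, 9, 8, 7], 0, [([1, 1, 1, 1, 1], (.pl 1, 6)), ([4, 3, 3, 3, 3], (.pl 4, 1)), ([1, 1, 1, 1, 1], (.pl 1, 1)), ([4, 4, 0, 0, 0], (.ev, 0)), ([0, 0, 3, 3, 0], (.ev, 0)), ([0, 0, 1, 0, 1], (.pl 1, 0)), ([1, 0, 0, 0, 1], (.ev, 0))], [0, 0, 0, 1, 1, 0, 1]⟩,
   ⟨[11, 9, 9, 8, 6], 0, [([1, 1, 1, 1, 1], (.pl 1, 6)), ([4, 3, 3, 2, 3], (.pl 4, 2)), ([1, 1, 1, 1, 1], (.pl 1, 1)), ([4, 4, 0, 0, 0], (.ev, 0)), ([0, 0, 3, 3, 0], (.ev, 0)), ([0, 0, 0, 1, 1], (.pl 1, 0)), ([1, 0, 1, 0, 0], (.ev, 0))], [0, 0, 0, 1, 1, 0, 1]⟩,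
   ⟨[11, 9, 9, 8, 5], 0, [([1, 1, 1, 1, 1], (.pl 1, 6)), ([4, 3, 3, 2, 2], (.pl 4, 3)), ([1, 1, 1, 1, 1], (.pl 1, 1)), ([4, 4, 0, 0, 0], (.ev, 0)), ([0, 0, 3, 3, 0], (.ev, 0)), ([0, 0, 0, 1, 1], (.pl 1, 0)), ([1, 0, 1, 0, 0], (.ev, 0))], [0, 0, 0, 1, 1, 0, 1]⟩,
   ⟨[11, 9, 9, 8, 4], 0, [([1, 1, 1, 1, 1], (.pl 1, 6)), ([4, 3, 3, 2, 2], (.pl 4, 3)), ([1, 1, 1, 1, 1], (.pl 1, 1)), ([4, 4, 0, 0, 0], (.ev, 0)), ([0, 0, 3, 3, 0], (.ev, 0)), ([0, 0, 0, 1, 0], (.pl 1, 1)), ([1, 0, 1, 0, 0], (.ev, 0))], [0, 0, 0, 1, 1, 0, 1]⟩,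
   ⟨[11, 9, 9, 8, 3], 2, [([4, 4, 2, 2, 0], (.ev, 8)), ([1, 1, 1, 1, 1], (.pl 1, 3)), ([1, 1, 1, 1, 1], (.pl 1, 1)), ([4, 0, 4, 0, 0], (.ev, 0)), ([0, 3, 0, 3, 0], (.ev, 0)), ([0, 0, 0, 1, 1], (.pl 1, 0)), ([1, 0, 1, 0, 0], (.ev, 0))], [2, 0, 1, 1, 1, 0, 1]⟩,
   ⟨[11, 9, 9, 7], 0, [([1, 1, 1, 1], (.pl 1, 7)), ([2, 3, 3, 3], (.pl 4, 6)), ([1, 1, 1, 1], (.pl 1, 2)), ([4, 4, 0, 0], (.ev, 0)), ([3, 0, 3, 0], (.ev, 0)), ([0, 0, 0, 1], (.pl 1, 1)), ([0, 0, 1, 1], (.ev, 0))], [0, 0, 0, 1, 1, 0, 1]⟩,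
   ⟨[11, 9, 9, 6], 1, [([4, 4, 2, 2], (.ev, 8)), ([4, 2, 4, 2], (.ev, 2)), ([3, 3, 0, 0], (.ev, 2)), ([0, 0, 2, 2], (.ev, 2)), ([0, 0, 1, 0], (.pl 1, 1)), ([0, 0, 0, 0], (.ev, 2))], [2, 1, 1, 1, 1, 1]⟩,
   ⟨[11, 9, 9, 5], 2, [([4, 4, 2, 2], (.ev, 8)), ([1, 1, 1, 1], (.pl 1, 4)), ([0, 1, 1, 1], (.pl 1, 3)), ([4, 0, 4, 0], (.ev, 0)), ([2, 2, 1, 1], (.ev, 0)), ([0, 1, 0, 0], (.pl 1, 1)), ([0, 0, 0, 0], (.ev, 2))], [2, 0, 0, 1, 1, 1, 1]⟩,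
   ⟨[11, 9, 9, 4], 1, [([4, 4, 2, 2], (.ev, 8)), ([4, 2, 4, 2], (.ev, 2)), ([2, 2, 0, 0], (.ev, 4)), ([1, 0, 1, 0], (.ev, 4)), ([0, 0, 1, 0], (.pl 1, 1)), ([0, 1, 1, 0], (.ev, 0))], [2, 1, 1, 1, 1, 1]⟩,
   ⟨[11, 9, 8], 0, [([1, 1, 1], (.pl 1, 8)), ([2, 3, 3], (.pl 4, 9)), ([1, 1, 1], (.pl 1, 3)), ([4, 4, 0], (.ev, 0)), ([3, 0, 3], (.ev, 0)), ([0, 0, 0], (.pl 1, 2)), ([0, 0, 0], (.ev, 2))], [0, 0, 0, 1, 1, 0, 1]⟩,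
   ⟨[11, 9, 7], 0, [([1, 1, 1], (.pl 1, 8)), ([1, 2, 2], (.pl 4, 12)), ([1, 1, 1], (.pl 1, 3)), ([4, 4, 0], (.ev, 0)), ([3, 0, 3], (.ev, 0)), ([0, 0, 0], (.pl 1, 2)), ([1, 1, 0], (.ev, 0))], [0, 0, 0, 1, 1, 0, 1]⟩,
   ⟨[11, 9, 6], 0, [([1, 1, 1], (.pl 1, 8)), ([1, 2, 1], (.pl 4, 13)), ([1, 1, 1], (.pl 1, 3)), ([4, 4, 0], (.ev, 0)), ([3, 0, 3], (.ev, 0)), ([0, 0, 0], (.pl 1, 2)), ([1, 1, 0], (.ev, 0))], [0, 0, 0, 1, 1, 0, 1]⟩,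
   ⟨[11, 9, 5], 0, [([1, 1, 1], (.pl 1, 8)), ([1, 0, 2], (.pl 4, 14)), ([1, 1, 1], (.pl 1, 3)), ([4, 4, 0], (.ev, 0)), ([3, 3, 0], (.ev, 0)), ([0, 0, 0], (.pl 1, 2)), ([1, 0, 1], (.ev, 0))], [0, 0, 0, 1, 1, 0, 1]⟩,
   ⟨[11, 9, 4], 0, [([1, 1, 1], (.pl 1, 8)), ([1, 0, 1], (.pl 4, 15)), ([1, 1, 1], (.pl 1, 3)), ([4, 4, 0], (.ev, 0)), ([3, 3, 0], (.ev, 0)), ([0, 0, 0], (.pl 1, 2)), ([1, 0, 1], (.ev, 0))], [0, 0, 0, 1, 1, 0, 1]⟩,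
   ⟨[11, 8], 0, [([1, 1], (.pl 1, 9)), ([3, 0], (.pl 4, 14)), ([1, 1], (.pl 1, 4)), ([4, 4], (.ev, 0)), ([2, 2], (.ev, 2)), ([0, 0], (.pl 1, 2)), ([0, 0], (.ev, 2))], [0, 0, 0, 1, 1, 0, 1]⟩,
   ⟨[11, 7], 0, [([1, 1], (.pl 1, 9)), ([3, 0], (.pl 4, 14)), ([1, 0], (.pl 1, 5)), ([4, 4], (.ev, 0)), ([2, 2], (.ev, 2)), ([0, 0], (.pl 1, 2)), ([0, 0], (.ev, 2))], [0, 0, 0, 1, 1, 0, 1]⟩,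
   ⟨[11, 6], 0, [([1, 1], (.pl 1, 9)), ([4, 0], (.pl 4, 13)), ([1, 0], (.pl 1, 5)), ([4, 4], (.ev, 0)), ([1, 1], (.ev, 4)), ([0, 0], (.pl 1, 2)), ([0, 0], (.ev, 2))], [0, 0, 0, 1, 1, 0, 1]⟩,
   ⟨[11, 5], 0, [([1, 1], (.pl 1, 9)), ([4, 0], (.pl 4, 13)), ([1, 0], (.pl 1, 5)), ([4, 4], (.ev, 0)), ([0, 0], (.ev, 6)), ([1, 0], (.pl 1, 1)), ([0, 0], (.ev, 2))], [0, 0, 0, 1, 1, 0, 1]⟩,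
   ⟨[10, 10, 10, 10, 6, 2], 1, [([4, 4, 4, 4, 2, 2], (.ev, 0)), ([4, 4, 2, 2, 0, 0], (.ev, 2)), ([0, 0, 4, 4, 0, 0], (.ev, 0)), ([2, 0, 0, 0, 2, 0], (.ev, 2)), ([0, 1, 0, 0, 1, 0], (.pl 1, 0)), ([0, 1, 0, 0, 1, 0], (.ev, 0))], [1, 1, 1, 1, 0, 1]⟩,
   ⟨[10, 10, 10, 10, 5, 3], 1, [([4, 4, 4, 4, 2, 2], (.ev, 0)), ([4, 4, 2, 2, 1, 1], (.ev, 0)), ([0, 0, 4, 4, 0, 0], (.ev, 0)), ([1, 1, 0, 0, 0, 0], (.ev, 4)), ([0, 1, 0, 0, 1, 0], (.pl 1, 0)), ([1, 0, 0, 0, 1, 0], (.ev, 0))], [1, 1, 1, 1, 0, 1]⟩,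
   ⟨[10, 10, 10, 10, 5, 2], 1, [([4, 4, 4, 4, 2, 2], (.ev, 0)), ([4, 4, 2, 2, 0, 0], (.ev, 2)), ([0, 0, 4, 4, 0, 0], (.ev, 0)), ([2, 0, 0, 0, 2, 0], (.ev, 2)), ([0, 1, 0, 0, 0, 0], (.pl 1, 1)), ([0, 1, 0, 0, 1, 0], (.ev, 0))], [1, 1, 1, 1, 0, 1]⟩,
   ⟨[10, 10, 10, 10, 5, 1], 0, [([1, 1, 1, 1, 1, 1], (.pl 1, 5)), ([4, 4, 3, 3, 3, 0], (.pl 4, 0)), ([1, 1, 1, 1, 1, 0], (.pl 1, 1)), ([4, 4, 0, 0, 0, 0], (.ev, 0)), ([0, 0, 3, 3, 0, 0], (.ev, 0)), ([0, 0, 1, 1, 0, 0], (.pl 1, 0)), ([0, 0, 1, 1, 0, 0], (.ev, 0))], [0, 0, 0, 1, 1, 0, 1]⟩,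
   ⟨[10, 10, 10, 10, 4, 4], 1, [([4, 4, 4, 4, 2, 2], (.ev, 0)), ([4, 4, 2, 2, 1, 1], (.ev, 0)), ([0, 0, 4, 4, 0, 0], (.ev, 0)), ([2, 2, 0, 0, 1, 1], (.ev, 0)), ([0, 0, 0, 0, 0, 0], (.pl 1, 2)), ([0, 0, 0, 0, 0, 0], (.ev, 2))], [1, 1, 1, 1, 0, 1]⟩,
   ⟨[10, 10, 10, 10, 4, 3], 1, [([4, 4, 4, 4, 2, 2], (.ev, 0)), ([4, 4, 2, 2, 1, 1], (.ev, 0)), ([0, 0, 4, 4, 0, 0], (.ev, 0)), ([2, 2, 0, 0, 0, 0], (.ev, 2)), ([0, 0, 0, 0, 1, 0], (.pl 1, 1)), ([0, 0, 0, 0, 0, 0], (.ev, 2))], [1, 1, 1, 1, 0, 1]⟩,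
   ⟨[10, 10, 10, 10, 4, 2], 1, [([4, 4, 4, 4, 2, 2], (.ev, 0)), ([4, 4, 2, 2, 0, 0], (.ev, 2)), ([0, 0, 4, 4, 0, 0], (.ev, 0)), ([1, 1, 0, 0, 0, 0], (.ev, 4)), ([0, 1, 0, 0, 1, 0], (.pl 1, 0)), ([1, 0, 0, 0, 1, 0], (.ev, 0))], [1, 1, 1, 1, 0, 1]⟩,
   ⟨[10, 10, 10, 10, 4, 1], 0, [([1, 1, 1, 1, 1, 1], (.pl 1, 5)), ([4, 4, 3, 3, 2, 0], (.pl 4, 1)), ([1, 1, 1, 1, 1, 0], (.pl 1, 1)), ([4, 4, 0, 0, 0, 0], (.ev, 0)), ([0, 0, 3, 3, 0, 0], (.ev, 0)), ([0, 0, 1, 1, 0, 0], (.pl 1, 0)), ([0, 0, 1, 1, 0, 0], (.ev, 0))], [0, 0, 0, 1, 1, 0, 1]⟩,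
   ⟨[10, 10, 10, 10, 3, 3], 1, [([4, 4, 4, 4, 2, 2], (.ev, 0)), ([4, 4, 2, 2, 1, 1], (.ev, 0)), ([0, 0, 4, 4, 0, 0], (.ev, 0)), ([2, 2, 0, 0, 0, 0], (.ev, 2)), ([0, 0, 0, 0, 0, 0], (.pl 1, 2)), ([0, 0, 0, 0, 0, 0], (.ev, 2))], [1, 1, 1, 1, 0, 1]⟩,
   ⟨[10, 10, 10, 10, 3, 2], 1, [([4, 4, 4, 4, 2, 2], (.ev, 0)), ([4, 4, 2, 2, 0, 0], (.ev, 2)), ([0, 0, 4, 4, 0, 0], (.ev, 0)), ([2, 2, 0, 0, 0, 0], (.ev, 2)), ([0, 0, 0, 0, 1, 0], (.pl 1, 1)), ([0, 0, 0, 0, 0, 0], (.ev, 2))], [1, 1, 1, 1, 0, 1]⟩,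
   ⟨[10, 10, 10, 10, 3, 1], 1, [([4, 4, 2, 2, 1, 1], (.ev, 6)), ([2, 2, 4, 4, 0, 0], (.ev, 2)), ([4, 4, 0, 0, 0, 0], (.ev, 0)), ([0, 0, 3, 3, 0, 0], (.ev, 0)), ([0, 0, 0, 1, 1, 0], (.pl 1, 0)), ([0, 0, 1, 0, 1, 0], (.ev, 0))], [1, 1, 1, 1, 0, 1]⟩,
   ⟨[10, 10, 10, 10, 2, 2], 1, [([4, 4, 4, 4, 2, 2], (.ev, 0)), ([4, 4, 2, 2, 0, 0], (.ev, 2)), ([0, 0, 4, 4, 0, 0], (.ev, 0)), ([2, 2, 0, 0, 0, 0], (.ev, 2)), ([0, 0, 0, 0, 0, 0], (.pl 1, 2)), ([0, 0, 0, 0, 0, 0], (.ev, 2))], [1, 1, 1, 1, 0, 1]⟩,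
   ⟨[10, 10, 10, 10, 2, 1], 1, [([4, 4, 2, 2, 1, 1], (.ev, 6)), ([2, 2, 4, 4, 0, 0], (.ev, 2)), ([4, 4, 0, 0, 0, 0], (.ev, 0)), ([0, 0, 3, 3, 0, 0], (.ev, 0)), ([0, 0, 0, 0, 1, 0], (.pl 1, 1)), ([0, 0, 1, 1, 0, 0], (.ev, 0))], [1, 1, 1, 1, 0, 1]⟩,
   ⟨[10, 10, 10, 10, 1], 1, [([4, 4, 2, 2, 0], (.ev, 8)), ([2, 2, 4, 4, 0], (.ev, 2)), ([4, 4, 0, 0, 0], (.ev, 0)), ([0, 0, 3, 3, 0], (.ev, 0)), ([0, 0, 0, 0, 1], (.pl 1, 1)), ([0, 0, 1, 1, 0], (.ev, 0))], [1, 1, 1, 1, 0, 1]⟩,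
   ⟨[10, 10, 10, 9, 7, 2], 1, [([4, 4, 4, 4, 2, 2], (.ev, 0)), ([4, 4, 2, 2, 0, 0], (.ev, 2)), ([0, 0, 4, 0, 4, 0], (.ev, 0)), ([2, 1, 0, 2, 1, 0], (.ev, 0)), ([0, 0, 0, 0, 0, 0], (.pl 1, 2)), ([0, 1, 0, 1, 0, 0], (.ev, 0))], [1, 1, 1, 1, 0, 1]⟩,
   ⟨[10, 10, 10, 9, 6, 3], 1, [([4, 4, 4, 4, 2, 2], (.ev, 0)), ([4, 4, 2, 2, 1, 1], (.ev, 0)), ([1, 0, 3, 3, 1, 0], (.ev, 0)), ([1, 2, 1, 0, 2, 0], (.ev, 0)), ([0, 0, 0, 0, 0, 0], (.pl 1, 2)), ([0, 0, 0, 0, 0, 0], (.ev, 2))], [1, 1, 1, 1, 0, 1]⟩,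
   ⟨[10, 10, 10, 9, 6, 2], 1, [([4, 4, 4, 4, 2, 2], (.ev, 0)), ([4, 4, 2, 2, 0, 0], (.ev, 2)), ([0, 0, 4, 0, 4, 0], (.ev, 0)), ([2, 0, 0, 2, 0, 0], (.ev, 2)), ([0, 1, 0, 0, 0, 0], (.pl 1, 1)), ([0, 1, 0, 1, 0, 0], (.ev, 0))], [1, 1, 1, 1, 0, 1]⟩,
   ⟨[10, 10, 10, 9, 6, 1], 0, [([1, 1, 1, 1, 1, 1], (.pl 1, 5)), ([3, 4, 3, 4, 3, 0], (.pl 4, 0)), ([1, 1, 1, 1, 1, 0], (.pl 1, 1)), ([4, 4, 0, 0, 0, 0], (.ev, 0)), ([0, 0, 3, 3, 0, 0], (.ev, 0)), ([0, 0, 1, 0, 1, 0], (.pl 1, 0)), ([1, 0, 1, 0, 0, 0], (.ev, 0))], [0, 0, 0, 1, 1, 0, 1]⟩,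
   ⟨[10, 10, 10, 9, 5, 4], 1, [([4, 4, 4, 4, 2, 2], (.ev, 0)), ([4, 4, 2, 2, 1, 1], (.ev, 0)), ([1, 1, 3, 3, 0, 0], (.ev, 0)), ([1, 1, 1, 0, 1, 0], (.ev, 2)), ([0, 0, 0, 0, 0, 0], (.pl 1, 2)), ([0, 0, 0, 0, 1, 1], (.ev, 0))], [1, 1, 1, 1, 0, 1]⟩,
   ⟨[10, 10, 10, 9, 5, 3], 1, [([4, 4, 4, 4, 2, 2], (.ev, 0)), ([4, 4, 2, 2, 1, 1], (.ev, 0)), ([1, 1, 3, 3, 0, 0], (.ev, 0)), ([1, 1, 1, 0, 1, 0], (.ev, 2)), ([0, 0, 0, 0, 1, 0], (.pl 1, 1)), ([0, 0, 0, 0, 0, 0], (.ev, 2))], [1, 1, 1, 1, 0, 1]⟩,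
   ⟨[10, 10, 10, 9, 5, 2], 1, [([4, 4, 4, 4, 2, 2], (.ev, 0)), ([4, 4, 2, 2, 0, 0], (.ev, 2)), ([1, 0, 3, 3, 1, 0], (.ev, 0)), ([1, 2, 1, 0, 2, 0], (.ev, 0)), ([0, 0, 0, 0, 0, 0], (.pl 1, 2)), ([0, 0, 0, 0, 0, 0], (.ev, 2))], [1, 1, 1, 1, 0, 1]⟩,
   ⟨[10, 10, 10, 9, 5, 1], 0, [([1, 1, 1, 1, 1, 1], (.pl 1, 5)), ([3, 4, 3, 4, 2, 0], (.pl 4, 1)), ([1, 1, 1, 1, 1, 0], (.pl 1, 1)), ([4, 4, 0, 0, 0, 0], (.ev, 0)), ([0, 0, 3, 3, 0, 0], (.ev, 0)), ([0, 0, 1, 0, 1, 0], (.pl 1, 0)), ([1, 0, 1, 0, 0, 0], (.ev, 0))], [0, 0, 0, 1, 1, 0, 1]⟩,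
   ⟨[10, 10, 10, 9, 4, 4], 1, [([4, 4, 4, 4, 2, 2], (.ev, 0)), ([4, 4, 2, 2, 1, 1], (.ev, 0)), ([1, 1, 3, 3, 0, 0], (.ev, 0)), ([1, 1, 1, 0, 1, 0], (.ev, 2)), ([0, 0, 0, 0, 0, 1], (.pl 1, 1)), ([0, 0, 0, 0, 0, 0], (.ev, 2))], [1, 1, 1, 1, 0, 1]⟩,
   ⟨[10, 10, 10, 9, 4, 3], 1, [([4, 4, 4, 4, 2, 2], (.ev, 0)), ([4, 4, 2, 2, 1, 1], (.ev, 0)), ([1, 1, 3, 3, 0, 0], (.ev, 0)), ([1, 1, 1, 0, 1, 0], (.ev, 2)), ([0, 0, 0, 0, 0, 0], (.pl 1, 2)), ([0, 0, 0, 0, 0, 0], (.ev, 2))], [1, 1, 1, 1, 0, 1]⟩,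
   ⟨[10, 10, 10, 9, 4, 2], 1, [([4, 4, 4, 4, 2, 2], (.ev, 0)), ([4, 4, 2, 2, 0, 0], (.ev, 2)), ([1, 1, 3, 3, 0, 0], (.ev, 0)), ([1, 1, 1, 0, 1, 0], (.ev, 2)), ([0, 0, 0, 0, 1, 0], (.pl 1, 1)), ([0, 0, 0, 0, 0, 0], (.ev, 2))], [1, 1, 1, 1, 0, 1]⟩,
   ⟨[10, 10, 10, 9, 4, 1], 1, [([4, 4, 2, 2, 1, 1], (.ev, 6)), ([2, 2, 4, 4, 0, 0], (.ev, 2)), ([3, 3, 1, 1, 0, 0], (.ev, 0)), ([0, 0, 3, 0, 3, 0], (.ev, 0)), ([0, 1, 0, 1, 0, 0], (.pl 1, 0)), ([1, 0, 0, 1, 0, 0], (.ev, 0))], [1, 1, 1, 1, 0, 1]⟩,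
   ⟨[10, 10, 10, 9, 3, 3], 1, [([4, 4, 4, 4, 2, 2], (.ev, 0)), ([4, 4, 2, 2, 1, 1], (.ev, 0)), ([1, 1, 3, 3, 0, 0], (.ev, 0)), ([1, 1, 0, 0, 0, 0], (.ev, 4)), ([0, 0, 1, 0, 0, 0], (.pl 1, 1)), ([0, 0, 0, 0, 0, 0], (.ev, 2))], [1, 1, 1, 1, 0, 1]⟩,
   ⟨[10, 10, 10, 9, 3, 2], 1, [([4, 4, 4, 4, 2, 2], (.ev, 0)), ([4, 4, 2, 2, 0, 0], (.ev, 2)), ([1, 1, 3, 3, 0, 0], (.ev, 0)), ([1, 1, 1, 0, 1, 0], (.ev, 2)), ([0, 0, 0, 0, 0, 0], (.pl 1, 2)), ([0, 0, 0, 0, 0, 0], (.ev, 2))], [1, 1, 1, 1, 0, 1]⟩,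
   ⟨[10, 10, 10, 9, 3, 1], 1, [([4, 4, 2, 2, 1, 1], (.ev, 6)), ([2, 2, 4, 4, 0, 0], (.ev, 2)), ([4, 4, 0, 0, 0, 0], (.ev, 0)), ([0, 0, 3, 3, 0, 0], (.ev, 0)), ([0, 0, 0, 0, 1, 0], (.pl 1, 1)), ([0, 0, 1, 0, 1, 0], (.ev, 0))], [1, 1, 1, 1, 0, 1]⟩,
   ⟨[10, 10, 10, 8, 8, 2], 1, [([4, 4, 4, 4, 2, 2], (.ev, 0)), ([4, 4, 2, 0, 2, 0], (.ev, 2)), ([0, 0, 4, 4, 0, 0], (.ev, 0)), ([2, 0, 0, 0, 2, 0], (.ev, 2)), ([0, 1, 0, 0, 1, 0], (.pl 1, 0)), ([0, 1, 0, 0, 1, 0], (.ev, 0))], [1, 1, 1, 1, 0, 1]⟩,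
   ⟨[10, 10, 10, 8, 7, 3], 1, [([4, 4, 4, 4, 2, 2], (.ev, 0)), ([4, 4, 2, 1, 2, 1], (.ev, 0)), ([1, 0, 3, 3, 1, 0], (.ev, 0)), ([1, 2, 1, 0, 2, 0], (.ev, 0)), ([0, 0, 0, 0, 0, 0], (.pl 1, 2)), ([0, 0, 0, 0, 0, 0], (.ev, 2))], [1, 1, 1, 1, 0, 1]⟩,
   ⟨[10, 10, 10, 8, 7, 2], 1, [([4, 4, 4, 4, 2, 2], (.ev, 0)), ([4, 4, 2, 0, 2, 0], (.ev, 2)), ([0, 0, 4, 4, 0, 0], (.ev, 0)), ([2, 0, 0, 0, 2, 0], (.ev, 2)), ([0, 1, 0, 0, 0, 0], (.pl 1, 1)), ([0, 1, 0, 0, 1, 0], (.ev, 0))], [1, 1, 1, 1, 0, 1]⟩,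
   ⟨[10, 10, 10, 8, 7, 1], 0, [([1, 1, 1, 1, 1, 1], (.pl 1, 5)), ([4, 4, 3, 3, 3, 0], (.pl 4, 0)), ([1, 1, 1, 1, 1, 0], (.pl 1, 1)), ([4, 4, 0, 0, 0, 0], (.ev, 0)), ([0, 0, 3, 3, 0, 0], (.ev, 0)), ([0, 0, 1, 0, 1, 0], (.pl 1, 0)), ([0, 0, 1, 0, 1, 0], (.ev, 0))], [0, 0, 0, 1, 1, 0, 1]⟩,
   ⟨[10, 10, 10, 8, 6, 4], 1, [([4, 4, 4, 4, 2, 2], (.ev, 0)), ([4, 4, 2, 2, 1, 1], (.ev, 0)), ([1, 1, 3, 0, 3, 0], (.ev, 0)), ([1, 1, 1, 1, 0, 0], (.ev, 2)), ([0, 0, 0, 0, 0, 0], (.pl 1, 2)), ([0, 0, 0, 1, 0, 1], (.ev, 0))], [1, 1, 1, 1, 0, 1]⟩,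
   ⟨[10, 10, 10, 8, 6, 3], 1, [([4, 4, 4, 4, 2, 2], (.ev, 0)), ([4, 4, 2, 2, 1, 1], (.ev, 0)), ([1, 1, 3, 0, 3, 0], (.ev, 0)), ([1, 1, 1, 1, 0, 0], (.ev, 2)), ([0, 0, 0, 1, 0, 0], (.pl 1, 1)), ([0, 0, 0, 0, 0, 0], (.ev, 2))], [1, 1, 1, 1, 0, 1]⟩,
   ⟨[10, 10, 10, 8, 6, 2], 1, [([4, 4, 4, 4, 2, 2], (.ev, 0)), ([4, 4, 2, 2, 0, 0], (.ev, 2)), ([0, 0, 4, 0, 4, 0], (.ev, 0)), ([1, 1, 0, 0, 0, 0], (.ev, 4)), ([0, 1, 0, 1, 0, 0], (.pl 1, 0)), ([1, 0, 0, 1, 0, 0], (.ev, 0))], [1, 1, 1, 1, 0, 1]⟩,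
   ⟨[10, 10, 10, 8, 6, 1], 0, [([1, 1, 1, 1, 1, 1], (.pl 1, 5)), ([3, 4, 3, 3, 3, 0], (.pl 4, 1)), ([1, 1, 1, 1, 1, 0], (.pl 1, 1)), ([4, 4, 0, 0, 0, 0], (.ev, 0)), ([0, 0, 3, 3, 0, 0], (.ev, 0)), ([0, 0, 1, 0, 1, 0], (.pl 1, 0)), ([1, 0, 1, 0, 0, 0], (.ev, 0))], [0, 0, 0, 1, 1, 0, 1]⟩,
   ⟨[10, 10, 10, 8, 5, 5], 1, [([4, 4, 4, 4, 2, 2], (.ev, 0)), ([4, 4, 2, 2, 1, 1], (.ev, 0)), ([2, 2, 2, 2, 0, 0], (.ev, 0)), ([0, 0, 1, 0, 1, 0], (.ev, 4)), ([0, 0, 0, 0, 1, 1], (.pl 1, 0)), ([0, 0, 1, 0, 0, 1], (.ev, 0))], [1, 1, 1, 1, 0, 1]⟩,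
   ⟨[10, 10, 10, 8, 5, 4], 1, [([4, 4, 4, 4, 2, 2], (.ev, 0)), ([4, 4, 2, 2, 1, 1], (.ev, 0)), ([2, 2, 2, 2, 0, 0], (.ev, 0)), ([0, 0, 2, 0, 2, 0], (.ev, 2)), ([0, 0, 0, 0, 0, 1], (.pl 1, 1)), ([0, 0, 0, 0, 0, 0], (.ev, 2))], [1, 1, 1, 1, 0, 1]⟩,
   ⟨[10, 10, 10, 8, 5, 3], 1, [([4, 4, 4, 4, 2, 2], (.ev, 0)), ([4, 4, 2, 2, 1, 1], (.ev, 0)), ([2, 2, 2, 2, 0, 0], (.ev, 0)), ([0, 0, 2, 0, 2, 0], (.ev, 2)), ([0, 0, 0, 0, 0, 0], (.pl 1, 2)), ([0, 0, 0, 0, 0, 0], (.ev, 2))], [1, 1, 1, 1, 0, 1]⟩,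
   ⟨[10, 10, 10, 8, 5, 2], 1, [([4, 4, 4, 4, 2, 2], (.ev, 0)), ([4, 4, 2, 2, 0, 0], (.ev, 2)), ([1, 1, 3, 0, 3, 0], (.ev, 0)), ([1, 1, 1, 1, 0, 0], (.ev, 2)), ([0, 0, 0, 1, 0, 0], (.pl 1, 1)), ([0, 0, 0, 0, 0, 0], (.ev, 2))], [1, 1, 1, 1, 0, 1]⟩,
   ⟨[10, 10, 10, 8, 5, 1], 1, [([4, 4, 2, 2, 1, 1], (.ev, 6)), ([4, 2, 4, 2, 0, 0], (.ev, 2)), ([0, 4, 4, 0, 0, 0], (.ev, 0)), ([0, 0, 0, 3, 3, 0], (.ev, 0)), ([1, 0, 0, 0, 1, 0], (.pl 1, 0)), ([1, 0, 0, 1, 0, 0], (.ev, 0))], [1, 1, 1, 1, 0, 1]⟩,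
   ⟨[10, 10, 10, 8, 4, 4], 1, [([4, 4, 4, 4, 2, 2], (.ev, 0)), ([4, 4, 2, 2, 1, 1], (.ev, 0)), ([2, 1, 2, 1, 0, 0], (.ev, 2)), ([0, 1, 1, 1, 1, 0], (.ev, 2)), ([0, 0, 0, 0, 0, 0], (.pl 1, 2)), ([0, 0, 1, 0, 0, 1], (.ev, 0))], [1, 1, 1, 1, 0, 1]⟩]

def cmC_11_8_6_3_0 : List (List ℕ × List (ℕ × ℕ)) :=
  [([15, 5, 5], [(8, 1), (13, 4), (5, 1), (0, 1), (0, 1), (1, 1), (0, 1)]),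
   ([15, 5, 4], [(9, 1), (13, 4), (5, 1), (0, 1), (0, 1), (1, 1), (0, 1)]),
   ([14, 6, 6], [(8, 1), (13, 4), (3, 1), (0, 1), (0, 1), (2, 1), (0, 1)]),
   ([14, 6, 5], [(8, 1), (13, 4), (4, 1), (0, 1), (0, 1), (2, 1), (0, 1)]),
   ([14, 6, 4], [(8, 1), (13, 4), (5, 1), (0, 1), (0, 1), (2, 1), (0, 1)]),
   ([14, 5, 5], [(8, 1), (13, 4), (5, 1), (0, 1), (0, 1), (2, 1), (0, 1)]),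
   ([13, 7], [(10, 1), (13, 4), (5, 1), (0, 1), (0, 1), (2, 1), (2, 1)]),
   ([13, 6], [(10, 1), (13, 4), (5, 1), (0, 1), (2, 1), (1, 1), (2, 1)]),
   ([13, 5, 5], [(8, 1), (14, 4), (5, 1), (0, 1), (0, 1), (2, 1), (0, 1)]),
   ([12, 8], [(9, 1), (13, 4), (4, 1), (0, 1), (2, 1), (2, 1), (2, 1)]),
   ([12, 7], [(9, 1), (13, 4), (5, 1), (0, 1), (2, 1), (2, 1), (2, 1)]),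
   ([12, 6], [(10, 1), (13, 4), (5, 1), (0, 1), (2, 1), (2, 1), (2, 1)]),
   ([12, 5], [(10, 1), (13, 4), (5, 1), (0, 1), (4, 1), (1, 1), (2, 1)]),
   ([11, 9, 9, 9, 7], [(6, 1), (0, 4), (1, 1), (0, 1), (0, 1), (0, 1), (0, 1)]),
   ([11, 9, 9, 9, 6], [(6, 1), (1, 4), (1, 1), (0, 1), (0, 1), (0, 1), (0, 1)]),
   ([11, 9, 9, 9, 5], [(6, 1), (2, 4), (1, 1), (0, 1), (0, 1), (0, 1), (0, 1)]),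
   ([11, 9, 9, 9, 4], [(6, 1), (3, 4), (1, 1), (0, 1), (0, 1), (0, 1), (0, 1)]),
   ([11, 9, 9, 9, 3], [(9, 2), (2, 1), (0, 1), (0, 1), (0, 1), (0, 1)]),
   ([11, 9, 9, 8, 8], [(6, 1), (0, 4), (1, 1), (0, 1), (0, 1), (0, 1), (0, 1)]),
   ([11, 9, 9, 8, 7], [(6, 1), (1, 4), (1, 1), (0, 1), (0, 1), (0, 1), (0, 1)]),
   ([11, 9, 9, 8, 6], [(6, 1), (2, 4), (1, 1), (0, 1), (0, 1), (0, 1), (0, 1)]),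
   ([11, 9, 9, 8, 5], [(6, 1), (3, 4), (1, 1), (0, 1), (0, 1), (0, 1), (0, 1)]),
   ([11, 9, 9, 8, 4], [(6, 1), (3, 4), (1, 1), (0, 1), (0, 1), (1, 1), (0, 1)]),
   ([11, 9, 9, 8, 3], [(9, 2), (3, 1), (0, 1), (0, 1), (0, 1), (0, 1), (0, 1)]),
   ([11, 9, 9, 7], [(7, 1), (6, 4), (2, 1), (0, 1), (0, 1), (1, 1), (0, 1)]),
   ([11, 9, 9, 6], [(9, 2), (2, 1), (2, 1), (2, 1), (0, 1), (2, 1)]),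
   ([11, 9, 9, 5], [(9, 2), (4, 1), (3, 1), (0, 1), (0, 1), (0, 1), (2, 1)]),
   ([11, 9, 9, 4], [(9, 2), (2, 1), (4, 1), (4, 1), (0, 1), (0, 1)]),
   ([11, 9, 8], [(8, 1), (9, 4), (3, 1), (0, 1), (0, 1), (2, 1), (2, 1)]),
   ([11, 9, 7], [(8, 1), (12, 4), (3, 1), (0, 1), (0, 1), (2, 1), (0, 1)]),
   ([11, 9, 6], [(8, 1), (13, 4), (3, 1), (0, 1), (0, 1), (2, 1), (0, 1)]),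
   ([11, 9, 5], [(8, 1), (14, 4), (3, 1), (0, 1), (0, 1), (2, 1), (0, 1)]),
   ([11, 9, 4], [(8, 1), (15, 4), (3, 1), (0, 1), (0, 1), (2, 1), (0, 1)]),
   ([11, 8], [(9, 1), (14, 4), (4, 1), (0, 1), (2, 1), (2, 1), (2, 1)]),
   ([11, 7], [(9, 1), (14, 4), (5, 1), (0, 1), (2, 1), (2, 1), (2, 1)]),
   ([11, 6], [(9, 1), (13, 4), (5, 1), (0, 1), (4, 1), (2, 1), (2, 1)]),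
   ([11, 5], [(9, 1), (13, 4), (5, 1), (0, 1), (6, 1), (1, 1), (2, 1)]),
   ([10, 10, 10, 10, 6, 2], [(0, 1), (2, 1), (0, 1), (2, 1), (0, 1), (0, 1)]),
   ([10, 10, 10, 10, 5, 3], [(0, 1), (0, 1), (0, 1), (4, 1), (0, 1), (0, 1)]),
   ([10, 10, 10, 10, 5, 2], [(0, 1), (2, 1), (0, 1), (2, 1), (1, 1), (0, 1)]),
   ([10, 10, 10, 10, 5, 1], [(5, 1), (0, 4), (1, 1), (0, 1), (0, 1), (0, 1), (0, 1)]),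
   ([10, 10, 10, 10, 4, 4], [(0, 1), (0, 1), (0, 1), (0, 1), (2, 1), (2, 1)]),
   ([10, 10, 10, 10, 4, 3], [(0, 1), (0, 1), (0, 1), (2, 1), (1, 1), (2, 1)]),
   ([10, 10, 10, 10, 4, 2], [(0, 1), (2, 1), (0, 1), (4, 1), (0, 1), (0, 1)]),
   ([10, 10, 10, 10, 4, 1], [(5, 1), (1, 4), (1, 1), (0, 1), (0, 1), (0, 1), (0, 1)]),
   ([10, 10, 10, 10, 3, 3], [(0, 1), (0, 1), (0, 1), (2, 1), (2, 1), (2, 1)]),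
   ([10, 10, 10, 10, 3, 2], [(0, 1), (2, 1), (0, 1), (2, 1), (1, 1), (2, 1)]),
   ([10, 10, 10, 10, 3, 1], [(6, 1), (2, 1), (0, 1), (0, 1), (0, 1), (0, 1)]),
   ([10, 10, 10, 10, 2, 2], [(0, 1), (2, 1), (0, 1), (2, 1), (2, 1), (2, 1)]),
   ([10, 10, 10, 10, 2, 1], [(6, 1), (2, 1), (0, 1), (0, 1), (1, 1), (0, 1)]),
   ([10, 10, 10, 10, 1], [(8, 1), (2, 1), (0, 1), (0, 1), (1, 1), (0, 1)]),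
   ([10, 10, 10, 9, 7, 2], [(0, 1), (2, 1), (0, 1), (0, 1), (2, 1), (0, 1)]),
   ([10, 10, 10, 9, 6, 3], [(0, 1), (0, 1), (0, 1), (0, 1), (2, 1), (2, 1)]),
   ([10, 10, 10, 9, 6, 2], [(0, 1), (2, 1), (0, 1), (2, 1), (1, 1), (0, 1)]),
   ([10, 10, 10, 9, 6, 1], [(5, 1), (0, 4), (1, 1), (0, 1), (0, 1), (0, 1), (0, 1)]),
   ([10, 10, 10, 9, 5, 4], [(0, 1), (0, 1), (0, 1), (2, 1), (2, 1), (0, 1)]),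
   ([10, 10, 10, 9, 5, 3], [(0, 1), (0, 1), (0, 1), (2, 1), (1, 1), (2, 1)]),
   ([10, 10, 10, 9, 5, 2], [(0, 1), (2, 1), (0, 1), (0, 1), (2, 1), (2, 1)]),
   ([10, 10, 10, 9, 5, 1], [(5, 1), (1, 4), (1, 1), (0, 1), (0, 1), (0, 1), (0, 1)]),
   ([10, 10, 10, 9, 4, 4], [(0, 1), (0, 1), (0, 1), (2, 1), (1, 1), (2, 1)]),
   ([10, 10, 10, 9, 4, 3], [(0, 1), (0, 1), (0, 1), (2, 1), (2, 1), (2, 1)]),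
   ([10, 10, 10, 9, 4, 2], [(0, 1), (2, 1), (0, 1), (2, 1), (1, 1), (2, 1)]),
   ([10, 10, 10, 9, 4, 1], [(6, 1), (2, 1), (0, 1), (0, 1), (0, 1), (0, 1)]),
   ([10, 10, 10, 9, 3, 3], [(0, 1), (0, 1), (0, 1), (4, 1), (1, 1), (2, 1)]),
   ([10, 10, 10, 9, 3, 2], [(0, 1), (2, 1), (0, 1), (2, 1), (2, 1), (2, 1)]),
   ([10, 10, 10, 9, 3, 1], [(6, 1), (2, 1), (0, 1), (0, 1), (1, 1), (0, 1)]),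
   ([10, 10, 10, 8, 8, 2], [(0, 1), (2, 1), (0, 1), (2, 1), (0, 1), (0, 1)]),
   ([10, 10, 10, 8, 7, 3], [(0, 1), (0, 1), (0, 1), (0, 1), (2, 1), (2, 1)]),
   ([10, 10, 10, 8, 7, 2], [(0, 1), (2, 1), (0, 1), (2, 1), (1, 1), (0, 1)]),
   ([10, 10, 10, 8, 7, 1], [(5, 1), (0, 4), (1, 1), (0, 1), (0, 1), (0, 1), (0, 1)]),
   ([10, 10, 10, 8, 6, 4], [(0, 1), (0, 1), (0, 1), (2, 1), (2, 1), (0, 1)]),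
   ([10, 10, 10, 8, 6, 3], [(0, 1), (0, 1), (0, 1), (2, 1), (1, 1), (2, 1)]),
   ([10, 10, 10, 8, 6, 2], [(0, 1), (2, 1), (0, 1), (4, 1), (0, 1), (0, 1)]),
   ([10, 10, 10, 8, 6, 1], [(5, 1), (1, 4), (1, 1), (0, 1), (0, 1), (0, 1), (0, 1)]),
   ([10, 10, 10, 8, 5, 5], [(0, 1), (0, 1), (0, 1), (4, 1), (0, 1), (0, 1)]),
   ([10, 10, 10, 8, 5, 4], [(0, 1), (0, 1), (0, 1), (2, 1), (1, 1), (2, 1)]),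
   ([10, 10, 10, 8, 5, 3], [(0, 1), (0, 1), (0, 1), (2, 1), (2, 1), (2, 1)]),
   ([10, 10, 10, 8, 5, 2], [(0, 1), (2, 1), (0, 1), (2, 1), (1, 1), (2, 1)]),
   ([10, 10, 10, 8, 5, 1], [(6, 1), (2, 1), (0, 1), (0, 1), (0, 1), (0, 1)]),
   ([10, 10, 10, 8, 4, 4], [(0, 1), (0, 1), (2, 1), (2, 1), (2, 1), (0, 1)])]

def cm_11_8_6_3_1 : List CM :=
  [⟨[10, 10, 10, 8, 4, 3], 1, [([4, 4, 4, 4, 2, 2], (.ev, 0)), ([4, 4, 2, 2, 1, 1], (.ev, 0)), ([2, 2, 2, 2, 0, 0], (.ev, 0)), ([0, 0, 1, 0, 1, 0], (.ev, 4)), ([0, 0, 1, 0, 0, 0], (.pl 1, 1)), ([0, 0, 0, 0, 0, 0], (.ev, 2))], [1, 1, 1, 1, 0, 1]⟩,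
   ⟨[10, 10, 10, 8, 4, 2], 1, [([4, 4, 4, 4, 2, 2], (.ev, 0)), ([4, 4, 2, 2, 0, 0], (.ev, 2)), ([2, 2, 2, 2, 0, 0], (.ev, 0)), ([0, 0, 2, 0, 2, 0], (.ev, 2)), ([0, 0, 0, 0, 0, 0], (.pl 1, 2)), ([0, 0, 0, 0, 0, 0], (.ev, 2))], [1, 1, 1, 1, 0, 1]⟩,
   ⟨[10, 10, 10, 8, 4, 1], 1, [([4, 4, 2, 2, 1, 1], (.ev, 6)), ([4, 2, 4, 2, 0, 0], (.ev, 2)), ([0, 4, 4, 0, 0, 0], (.ev, 0)), ([0, 0, 0, 3, 3, 0], (.ev, 0)), ([1, 0, 0, 0, 0, 0], (.pl 1, 1)), ([1, 0, 0, 1, 0, 0], (.ev, 0))], [1, 1, 1, 1, 0, 1]⟩,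
   ⟨[10, 10, 10, 8, 3, 3], 1, [([4, 4, 4, 4, 2, 2], (.ev, 0)), ([4, 4, 2, 2, 1, 1], (.ev, 0)), ([2, 1, 2, 1, 0, 0], (.ev, 2)), ([0, 1, 1, 0, 0, 0], (.ev, 4)), ([0, 0, 0, 0, 0, 0], (.pl 1, 2)), ([0, 0, 1, 1, 0, 0], (.ev, 0))], [1, 1, 1, 1, 0, 1]⟩,
   ⟨[10, 10, 10, 7, 7, 4], 1, [([4, 4, 4, 4, 2, 2], (.ev, 0)), ([4, 4, 2, 1, 2, 1], (.ev, 0)), ([1, 1, 3, 0, 3, 0], (.ev, 0)), ([1, 1, 1, 1, 0, 0], (.ev, 2)), ([0, 0, 0, 0, 0, 0], (.pl 1, 2)), ([0, 0, 0, 1, 0, 1], (.ev, 0))], [1, 1, 1, 1, 0, 1]⟩,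
   ⟨[10, 10, 10, 7, 7, 3], 1, [([4, 4, 4, 4, 2, 2], (.ev, 0)), ([4, 4, 2, 1, 2, 1], (.ev, 0)), ([1, 1, 3, 0, 3, 0], (.ev, 0)), ([1, 1, 1, 1, 0, 0], (.ev, 2)), ([0, 0, 0, 1, 0, 0], (.pl 1, 1)), ([0, 0, 0, 0, 0, 0], (.ev, 2))], [1, 1, 1, 1, 0, 1]⟩,
   ⟨[10, 10, 10, 7, 7, 2], 1, [([4, 4, 4, 4, 2, 2], (.ev, 0)), ([4, 4, 2, 0, 2, 0], (.ev, 2)), ([1, 0, 3, 3, 1, 0], (.ev, 0)), ([1, 2, 1, 0, 2, 0], (.ev, 0)), ([0, 0, 0, 0, 0, 0], (.pl 1, 2)), ([0, 0, 0, 0, 0, 0], (.ev, 2))], [1, 1, 1, 1, 0, 1]⟩,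
   ⟨[10, 10, 10, 7, 7, 1], 0, [([1, 1, 1, 1, 1, 1], (.pl 1, 5)), ([4, 4, 3, 2, 3, 0], (.pl 4, 1)), ([1, 1, 1, 1, 1, 0], (.pl 1, 1)), ([4, 4, 0, 0, 0, 0], (.ev, 0)), ([0, 0, 3, 3, 0, 0], (.ev, 0)), ([0, 0, 1, 0, 1, 0], (.pl 1, 0)), ([0, 0, 1, 0, 1, 0], (.ev, 0))], [0, 0, 0, 1, 1, 0, 1]⟩,
   ⟨[10, 10, 10, 7, 6, 5], 1, [([4, 4, 4, 4, 2, 2], (.ev, 0)), ([4, 4, 2, 1, 2, 1], (.ev, 0)), ([2, 2, 2, 2, 0, 0], (.ev, 0)), ([0, 0, 1, 0, 1, 0], (.ev, 4)), ([0, 0, 0, 0, 1, 1], (.pl 1, 0)), ([0, 0, 1, 0, 0, 1], (.ev, 0))], [1, 1, 1, 1, 0, 1]⟩,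
   ⟨[10, 10, 10, 7, 6, 4], 1, [([4, 4, 4, 4, 2, 2], (.ev, 0)), ([4, 4, 2, 1, 2, 1], (.ev, 0)), ([2, 2, 2, 2, 0, 0], (.ev, 0)), ([0, 0, 2, 0, 2, 0], (.ev, 2)), ([0, 0, 0, 0, 0, 1], (.pl 1, 1)), ([0, 0, 0, 0, 0, 0], (.ev, 2))], [1, 1, 1, 1, 0, 1]⟩,
   ⟨[10, 10, 10, 7, 6, 3], 1, [([4, 4, 4, 4, 2, 2], (.ev, 0)), ([4, 4, 2, 1, 2, 1], (.ev, 0)), ([2, 2, 2, 2, 0, 0], (.ev, 0)), ([0, 0, 2, 0, 2, 0], (.ev, 2)), ([0, 0, 0, 0, 0, 0], (.pl 1, 2)), ([0, 0, 0, 0, 0, 0], (.ev, 2))], [1, 1, 1, 1, 0, 1]⟩,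
   ⟨[10, 10, 10, 7, 6, 2], 1, [([4, 4, 4, 4, 2, 2], (.ev, 0)), ([4, 4, 2, 0, 2, 0], (.ev, 2)), ([1, 1, 3, 3, 0, 0], (.ev, 0)), ([1, 1, 1, 0, 1, 0], (.ev, 2)), ([0, 0, 0, 0, 1, 0], (.pl 1, 1)), ([0, 0, 0, 0, 0, 0], (.ev, 2))], [1, 1, 1, 1, 0, 1]⟩,
   ⟨[10, 10, 10, 7, 6, 1], 1, [([4, 4, 2, 2, 1, 1], (.ev, 6)), ([4, 2, 4, 2, 0, 0], (.ev, 2)), ([0, 4, 0, 0, 4, 0], (.ev, 0)), ([0, 0, 3, 3, 0, 0], (.ev, 0)), ([1, 0, 0, 0, 1, 0], (.pl 1, 0)), ([1, 0, 1, 0, 0, 0], (.ev, 0))], [1, 1, 1, 1, 0, 1]⟩,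
   ⟨[10, 10, 10, 7, 5, 5], 1, [([4, 4, 4, 4, 2, 2], (.ev, 0)), ([4, 4, 2, 2, 1, 1], (.ev, 0)), ([2, 2, 2, 0, 2, 0], (.ev, 0)), ([0, 0, 2, 0, 0, 2], (.ev, 2)), ([0, 0, 0, 1, 0, 0], (.pl 1, 1)), ([0, 0, 0, 0, 0, 0], (.ev, 2))], [1, 1, 1, 1, 0, 1]⟩,
   ⟨[10, 10, 10, 7, 5, 4], 1, [([4, 4, 4, 4, 2, 2], (.ev, 0)), ([4, 4, 2, 2, 1, 1], (.ev, 0)), ([2, 1, 2, 0, 1, 0], (.ev, 2)), ([0, 1, 1, 1, 1, 0], (.ev, 2)), ([0, 0, 0, 0, 0, 0], (.pl 1, 2)), ([0, 0, 1, 0, 0, 1], (.ev, 0))], [1, 1, 1, 1, 0, 1]⟩,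
   ⟨[10, 10, 10, 7, 5, 3], 1, [([4, 4, 4, 4, 2, 2], (.ev, 0)), ([4, 4, 2, 2, 1, 1], (.ev, 0)), ([2, 2, 2, 0, 2, 0], (.ev, 0)), ([0, 0, 1, 1, 0, 0], (.ev, 4)), ([0, 0, 1, 0, 0, 0], (.pl 1, 1)), ([0, 0, 0, 0, 0, 0], (.ev, 2))], [1, 1, 1, 1, 0, 1]⟩,
   ⟨[10, 10, 10, 7, 5, 2], 1, [([4, 4, 4, 4, 2, 2], (.ev, 0)), ([4, 4, 2, 2, 0, 0], (.ev, 2)), ([1, 1, 3, 0, 3, 0], (.ev, 0)), ([1, 1, 1, 1, 0, 0], (.ev, 2)), ([0, 0, 0, 0, 0, 0], (.pl 1, 2)), ([0, 0, 0, 0, 0, 0], (.ev, 2))], [1, 1, 1, 1, 0, 1]⟩,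
   ⟨[10, 10, 10, 7, 5, 1], 1, [([4, 4, 2, 2, 1, 1], (.ev, 6)), ([4, 2, 4, 2, 0, 0], (.ev, 2)), ([0, 4, 4, 0, 0, 0], (.ev, 0)), ([0, 0, 0, 3, 3, 0], (.ev, 0)), ([1, 0, 0, 0, 0, 0], (.pl 1, 1)), ([1, 0, 0, 0, 1, 0], (.ev, 0))], [1, 1, 1, 1, 0, 1]⟩,
   ⟨[10, 10, 10, 7, 4, 4], 1, [([4, 4, 4, 4, 2, 2], (.ev, 0)), ([4, 4, 2, 2, 1, 1], (.ev, 0)), ([2, 1, 2, 1, 0, 0], (.ev, 2)), ([0, 1, 1, 0, 1, 1], (.ev, 2)), ([0, 0, 1, 0, 0, 0], (.pl 1, 1)), ([0, 0, 0, 0, 0, 0], (.ev, 2))], [1, 1, 1, 1, 0, 1]⟩,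
   ⟨[10, 10, 10, 7, 4, 3], 1, [([4, 4, 4, 4, 2, 2], (.ev, 0)), ([4, 4, 2, 2, 1, 1], (.ev, 0)), ([2, 1, 2, 1, 0, 0], (.ev, 2)), ([0, 1, 1, 0, 0, 0], (.ev, 4)), ([0, 0, 0, 0, 0, 0], (.pl 1, 2)), ([0, 0, 1, 0, 1, 0], (.ev, 0))], [1, 1, 1, 1, 0, 1]⟩,
   ⟨[10, 10, 10, 7, 3], 2, [([4, 4, 2, 2, 0], (.ev, 8)), ([1, 1, 1, 1, 1], (.pl 1, 3)), ([1, 1, 1, 1, 1], (.pl 1, 1)), ([4, 0, 4, 0, 0], (.ev, 0)), ([0, 3, 0, 3, 0], (.ev, 0)), ([0, 0, 1, 0, 1], (.pl 1, 0)), ([0, 1, 1, 0, 0], (.ev, 0))], [2, 0, 1, 1, 1, 0, 1]⟩,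
   ⟨[10, 10, 10, 6, 6, 6], 1, [([4, 4, 4, 4, 2, 2], (.ev, 0)), ([4, 4, 2, 1, 2, 1], (.ev, 0)), ([1, 1, 3, 0, 0, 3], (.ev, 0)), ([1, 1, 1, 0, 1, 0], (.ev, 2)), ([0, 0, 0, 0, 0, 0], (.pl 1, 2)), ([0, 0, 0, 1, 1, 0], (.ev, 0))], [1, 1, 1, 1, 0, 1]⟩,
   ⟨[10, 10, 10, 6, 6, 5], 1, [([4, 4, 4, 4, 2, 2], (.ev, 0)), ([4, 4, 2, 1, 2, 1], (.ev, 0)), ([2, 2, 2, 0, 2, 0], (.ev, 0)), ([0, 0, 2, 0, 0, 2], (.ev, 2)), ([0, 0, 0, 1, 0, 0], (.pl 1, 1)), ([0, 0, 0, 0, 0, 0], (.ev, 2))], [1, 1, 1, 1, 0, 1]⟩,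
   ⟨[10, 10, 10, 6, 6, 4], 1, [([4, 4, 4, 4, 2, 2], (.ev, 0)), ([4, 4, 2, 1, 2, 1], (.ev, 0)), ([2, 1, 2, 0, 1, 0], (.ev, 2)), ([0, 1, 1, 1, 1, 0], (.ev, 2)), ([0, 0, 0, 0, 0, 0], (.pl 1, 2)), ([0, 0, 1, 0, 0, 1], (.ev, 0))], [1, 1, 1, 1, 0, 1]⟩,
   ⟨[10, 10, 10, 6, 6, 3], 1, [([4, 4, 4, 4, 2, 2], (.ev, 0)), ([4, 4, 2, 1, 2, 1], (.ev, 0)), ([2, 2, 2, 0, 2, 0], (.ev, 0)), ([0, 0, 1, 1, 0, 0], (.ev, 4)), ([0, 0, 1, 0, 0, 0], (.pl 1, 1)), ([0, 0, 0, 0, 0, 0], (.ev, 2))], [1, 1, 1, 1, 0, 1]⟩,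
   ⟨[10, 10, 10, 6, 6, 2], 1, [([4, 4, 4, 4, 2, 2], (.ev, 0)), ([4, 4, 2, 0, 2, 0], (.ev, 2)), ([2, 2, 2, 2, 0, 0], (.ev, 0)), ([0, 0, 2, 0, 2, 0], (.ev, 2)), ([0, 0, 0, 0, 0, 0], (.pl 1, 2)), ([0, 0, 0, 0, 0, 0], (.ev, 2))], [1, 1, 1, 1, 0, 1]⟩,
   ⟨[10, 10, 10, 6, 6, 1], 1, [([4, 4, 2, 2, 1, 1], (.ev, 6)), ([4, 2, 4, 0, 2, 0], (.ev, 2)), ([0, 4, 4, 0, 0, 0], (.ev, 0)), ([0, 0, 0, 3, 3, 0], (.ev, 0)), ([1, 0, 0, 0, 0, 0], (.pl 1, 1)), ([1, 0, 0, 1, 0, 0], (.ev, 0))], [1, 1, 1, 1, 0, 1]⟩,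
   ⟨[10, 10, 10, 6, 5, 5], 1, [([4, 4, 4, 4, 2, 2], (.ev, 0)), ([4, 4, 2, 1, 2, 1], (.ev, 0)), ([2, 1, 2, 0, 0, 1], (.ev, 2)), ([0, 1, 1, 1, 1, 0], (.ev, 2)), ([0, 0, 0, 0, 0, 0], (.pl 1, 2)), ([0, 0, 1, 0, 0, 1], (.ev, 0))], [1, 1, 1, 1, 0, 1]⟩,
   ⟨[10, 10, 10, 6, 5, 4], 1, [([4, 4, 4, 4, 2, 2], (.ev, 0)), ([4, 4, 2, 1, 2, 1], (.ev, 0)), ([2, 1, 2, 1, 0, 0], (.ev, 2)), ([0, 1, 1, 0, 1, 1], (.ev, 2)), ([0, 0, 1, 0, 0, 0], (.pl 1, 1)), ([0, 0, 0, 0, 0, 0], (.ev, 2))], [1, 1, 1, 1, 0, 1]⟩,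
   ⟨[10, 10, 10, 6, 5, 3], 1, [([4, 4, 4, 4, 2, 2], (.ev, 0)), ([4, 4, 2, 1, 2, 1], (.ev, 0)), ([2, 1, 2, 1, 0, 0], (.ev, 2)), ([0, 1, 1, 0, 0, 0], (.ev, 4)), ([0, 0, 0, 0, 0, 0], (.pl 1, 2)), ([0, 0, 1, 0, 1, 0], (.ev, 0))], [1, 1, 1, 1, 0, 1]⟩,
   ⟨[10, 10, 10, 6, 4, 4], 1, [([4, 4, 4, 4, 2, 2], (.ev, 0)), ([4, 4, 2, 2, 0, 0], (.ev, 2)), ([2, 2, 2, 0, 2, 0], (.ev, 0)), ([0, 0, 2, 0, 0, 2], (.ev, 2)), ([0, 0, 0, 0, 0, 0], (.pl 1, 2)), ([0, 0, 0, 0, 0, 0], (.ev, 2))], [1, 1, 1, 1, 0, 1]⟩,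
   ⟨[10, 10, 10, 6, 4, 3], 1, [([4, 4, 4, 4, 2, 2], (.ev, 0)), ([4, 4, 2, 2, 1, 1], (.ev, 0)), ([2, 1, 2, 0, 1, 0], (.ev, 2)), ([0, 1, 1, 0, 0, 0], (.ev, 4)), ([0, 0, 1, 0, 0, 0], (.pl 1, 1)), ([0, 0, 0, 0, 0, 0], (.ev, 2))], [1, 1, 1, 1, 0, 1]⟩,
   ⟨[10, 10, 10, 6, 3], 1, [([4, 4, 2, 2, 0], (.ev, 8)), ([4, 2, 4, 2, 0], (.ev, 2)), ([0, 4, 4, 0, 0], (.ev, 0)), ([2, 0, 0, 0, 2], (.ev, 2)), ([0, 0, 0, 1, 0], (.pl 1, 1)), ([0, 0, 0, 1, 1], (.ev, 0))], [2, 1, 1, 1, 1, 1]⟩,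
   ⟨[10, 10, 10, 5], 1, [([4, 4, 2, 2], (.ev, 8)), ([4, 2, 4, 2], (.ev, 2)), ([0, 3, 3, 0], (.ev, 2)), ([1, 1, 1, 1], (.ev, 2)), ([1, 0, 0, 0], (.pl 1, 1)), ([0, 0, 0, 0], (.ev, 2))], [2, 1, 1, 1, 1, 1]⟩,
   ⟨[10, 10, 10, 4], 2, [([4, 4, 2, 2], (.ev, 8)), ([1, 1, 1, 1], (.pl 1, 4)), ([1, 1, 0, 1], (.pl 1, 3)), ([4, 0, 4, 0], (.ev, 0)), ([0, 3, 3, 0], (.ev, 0)), ([0, 1, 0, 0], (.pl 1, 1)), ([0, 0, 0, 0], (.ev, 2))], [2, 0, 0, 1, 1, 1, 1]⟩,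
   ⟨[10, 10, 9, 9, 8, 2], 1, [([4, 4, 4, 4, 2, 2], (.ev, 0)), ([4, 4, 2, 0, 2, 0], (.ev, 2)), ([0, 0, 0, 4, 4, 0], (.ev, 0)), ([2, 1, 2, 1, 0, 0], (.ev, 0)), ([0, 0, 0, 0, 0, 0], (.pl 1, 2)), ([0, 1, 1, 0, 0, 0], (.ev, 0))], [1, 1, 1, 1, 0, 1]⟩,
   ⟨[10, 10, 9, 9, 7, 3], 1, [([4, 4, 4, 4, 2, 2], (.ev, 0)), ([4, 4, 2, 2, 1, 1], (.ev, 0)), ([1, 0, 3, 1, 3, 0], (.ev, 0)), ([1, 2, 0, 2, 1, 0], (.ev, 0)), ([0, 0, 0, 0, 0, 0], (.pl 1, 2)), ([0, 0, 0, 0, 0, 0], (.ev, 2))], [1, 1, 1, 1, 0, 1]⟩,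
   ⟨[10, 10, 9, 9, 7, 2], 1, [([4, 4, 4, 4, 2, 2], (.ev, 0)), ([4, 4, 2, 2, 0, 0], (.ev, 2)), ([1, 0, 3, 1, 3, 0], (.ev, 0)), ([1, 2, 0, 2, 1, 0], (.ev, 0)), ([0, 0, 0, 0, 1, 0], (.pl 1, 1)), ([0, 0, 0, 0, 0, 0], (.ev, 2))], [1, 1, 1, 1, 0, 1]⟩,
   ⟨[10, 10, 9, 9, 7, 1], 0, [([1, 1, 1, 1, 1, 1], (.pl 1, 5)), ([3, 4, 3, 4, 3, 0], (.pl 4, 0)), ([1, 1, 1, 1, 1, 0], (.pl 1, 1)), ([4, 4, 0, 0, 0, 0], (.ev, 0)), ([0, 0, 3, 3, 0, 0], (.ev, 0)), ([0, 0, 1, 0, 1, 0], (.pl 1, 0)), ([1, 0, 0, 0, 1, 0], (.ev, 0))], [0, 0, 0, 1, 1, 0, 1]⟩,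
   ⟨[10, 10, 9, 9, 6, 4], 1, [([4, 4, 4, 4, 2, 2], (.ev, 0)), ([4, 4, 2, 2, 1, 1], (.ev, 0)), ([1, 0, 3, 3, 1, 0], (.ev, 0)), ([1, 2, 0, 0, 2, 1], (.ev, 0)), ([0, 0, 0, 0, 0, 0], (.pl 1, 2)), ([0, 0, 0, 0, 0, 0], (.ev, 2))], [1, 1, 1, 1, 0, 1]⟩,
   ⟨[10, 10, 9, 9, 6, 3], 1, [([4, 4, 4, 4, 2, 2], (.ev, 0)), ([4, 4, 2, 2, 1, 1], (.ev, 0)), ([1, 0, 3, 3, 1, 0], (.ev, 0)), ([0, 2, 0, 0, 2, 0], (.ev, 2)), ([1, 0, 0, 0, 0, 0], (.pl 1, 1)), ([0, 0, 0, 0, 0, 0], (.ev, 2))], [1, 1, 1, 1, 0, 1]⟩,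
   ⟨[10, 10, 9, 9, 6, 2], 1, [([4, 4, 4, 4, 2, 2], (.ev, 0)), ([4, 4, 2, 2, 0, 0], (.ev, 2)), ([1, 0, 3, 1, 3, 0], (.ev, 0)), ([1, 2, 0, 2, 1, 0], (.ev, 0)), ([0, 0, 0, 0, 0, 0], (.pl 1, 2)), ([0, 0, 0, 0, 0, 0], (.ev, 2))], [1, 1, 1, 1, 0, 1]⟩,
   ⟨[10, 10, 9, 9, 6, 1], 0, [([1, 1, 1, 1, 1, 1], (.pl 1, 5)), ([3, 3, 4, 3, 3, 0], (.pl 4, 1)), ([1, 1, 1, 1, 1, 0], (.pl 1, 1)), ([4, 4, 0, 0, 0, 0], (.ev, 0)), ([0, 0, 3, 3, 0, 0], (.ev, 0)), ([0, 0, 0, 1, 1, 0], (.pl 1, 0)), ([1, 1, 0, 0, 0, 0], (.ev, 0))], [0, 0, 0, 1, 1, 0, 1]⟩,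
   ⟨[10, 10, 9, 9, 5, 5], 1, [([4, 4, 4, 4, 2, 2], (.ev, 0)), ([4, 4, 2, 2, 1, 1], (.ev, 0)), ([1, 1, 3, 3, 0, 0], (.ev, 0)), ([1, 1, 0, 0, 2, 2], (.ev, 0)), ([0, 0, 0, 0, 0, 0], (.pl 1, 2)), ([0, 0, 0, 0, 0, 0], (.ev, 2))], [1, 1, 1, 1, 0, 1]⟩,
   ⟨[10, 10, 9, 9, 5, 4], 1, [([4, 4, 4, 4, 2, 2], (.ev, 0)), ([4, 4, 2, 2, 1, 1], (.ev, 0)), ([1, 1, 3, 3, 0, 0], (.ev, 0)), ([1, 1, 0, 0, 1, 1], (.ev, 2)), ([0, 0, 0, 0, 1, 0], (.pl 1, 1)), ([0, 0, 0, 0, 0, 0], (.ev, 2))], [1, 1, 1, 1, 0, 1]⟩,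
   ⟨[10, 10, 9, 9, 5, 3], 1, [([4, 4, 4, 4, 2, 2], (.ev, 0)), ([4, 4, 2, 2, 1, 1], (.ev, 0)), ([1, 1, 2, 2, 0, 0], (.ev, 2)), ([1, 1, 1, 0, 1, 0], (.ev, 2)), ([0, 0, 0, 0, 0, 0], (.pl 1, 2)), ([0, 0, 0, 1, 1, 0], (.ev, 0))], [1, 1, 1, 1, 0, 1]⟩,
   ⟨[10, 10, 9, 9, 5, 2], 1, [([4, 4, 4, 4, 2, 2], (.ev, 0)), ([4, 4, 2, 2, 0, 0], (.ev, 2)), ([1, 0, 3, 3, 1, 0], (.ev, 0)), ([0, 2, 0, 0, 2, 0], (.ev, 2)), ([1, 0, 0, 0, 0, 0], (.pl 1, 1)), ([0, 0, 0, 0, 0, 0], (.ev, 2))], [1, 1, 1, 1, 0, 1]⟩,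
   ⟨[10, 10, 9, 9, 5, 1], 1, [([4, 4, 2, 2, 1, 1], (.ev, 6)), ([2, 2, 4, 4, 0, 0], (.ev, 2)), ([3, 3, 1, 0, 1, 0], (.ev, 0)), ([0, 0, 0, 3, 3, 0], (.ev, 0)), ([0, 1, 1, 0, 0, 0], (.pl 1, 0)), ([1, 0, 1, 0, 0, 0], (.ev, 0))], [1, 1, 1, 1, 0, 1]⟩,
   ⟨[10, 10, 9, 9, 4, 4], 1, [([4, 4, 4, 4, 2, 2], (.ev, 0)), ([4, 4, 2, 2, 1, 1], (.ev, 0)), ([1, 1, 3, 3, 0, 0], (.ev, 0)), ([1, 1, 0, 0, 1, 1], (.ev, 2)), ([0, 0, 0, 0, 0, 0], (.pl 1, 2)), ([0, 0, 0, 0, 0, 0], (.ev, 2))], [1, 1, 1, 1, 0, 1]⟩,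
   ⟨[10, 10, 9, 9, 4, 3], 1, [([4, 4, 4, 4, 2, 2], (.ev, 0)), ([4, 4, 2, 2, 1, 1], (.ev, 0)), ([1, 1, 3, 3, 0, 0], (.ev, 0)), ([1, 1, 0, 0, 0, 0], (.ev, 4)), ([0, 0, 0, 0, 1, 0], (.pl 1, 1)), ([0, 0, 0, 0, 0, 0], (.ev, 2))], [1, 1, 1, 1, 0, 1]⟩,
   ⟨[10, 10, 9, 9, 4, 2], 1, [([4, 4, 4, 4, 2, 2], (.ev, 0)), ([4, 4, 2, 2, 0, 0], (.ev, 2)), ([1, 1, 3, 3, 0, 0], (.ev, 0)), ([1, 0, 0, 0, 1, 0], (.ev, 4)), ([0, 0, 0, 0, 0, 0], (.pl 1, 2)), ([0, 1, 0, 0, 1, 0], (.ev, 0))], [1, 1, 1, 1, 0, 1]⟩,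
   ⟨[10, 10, 9, 9, 4, 1], 1, [([4, 4, 2, 2, 1, 1], (.ev, 6)), ([2, 2, 4, 4, 0, 0], (.ev, 2)), ([3, 3, 1, 1, 0, 0], (.ev, 0)), ([1, 0, 2, 1, 2, 0], (.ev, 0)), ([0, 0, 0, 0, 1, 0], (.pl 1, 1)), ([0, 1, 0, 1, 0, 0], (.ev, 0))], [1, 1, 1, 1, 0, 1]⟩,
   ⟨[10, 10, 9, 9, 3, 3], 1, [([4, 4, 4, 4, 2, 2], (.ev, 0)), ([4, 4, 2, 2, 1, 1], (.ev, 0)), ([1, 1, 3, 3, 0, 0], (.ev, 0)), ([1, 1, 0, 0, 0, 0], (.ev, 4)), ([0, 0, 0, 0, 0, 0], (.pl 1, 2)), ([0, 0, 0, 0, 0, 0], (.ev, 2))], [1, 1, 1, 1, 0, 1]⟩,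
   ⟨[10, 10, 9, 8, 8, 3], 1, [([4, 4, 4, 4, 2, 2], (.ev, 0)), ([4, 4, 2, 1, 2, 1], (.ev, 0)), ([1, 0, 3, 1, 3, 0], (.ev, 0)), ([1, 2, 0, 2, 1, 0], (.ev, 0)), ([0, 0, 0, 0, 0, 0], (.pl 1, 2)), ([0, 0, 0, 0, 0, 0], (.ev, 2))], [1, 1, 1, 1, 0, 1]⟩,
   ⟨[10, 10, 9, 8, 8, 2], 1, [([4, 4, 4, 4, 2, 2], (.ev, 0)), ([4, 4, 2, 0, 2, 0], (.ev, 2)), ([0, 0, 0, 4, 4, 0], (.ev, 0)), ([2, 0, 2, 0, 0, 0], (.ev, 2)), ([0, 1, 0, 0, 0, 0], (.pl 1, 1)), ([0, 1, 1, 0, 0, 0], (.ev, 0))], [1, 1, 1, 1, 0, 1]⟩,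
   ⟨[10, 10, 9, 8, 8, 1], 0, [([1, 1, 1, 1, 1, 1], (.pl 1, 5)), ([3, 4, 3, 3, 4, 0], (.pl 4, 0)), ([1, 1, 1, 1, 1, 0], (.pl 1, 1)), ([4, 4, 0, 0, 0, 0], (.ev, 0)), ([0, 0, 3, 3, 0, 0], (.ev, 0)), ([0, 0, 1, 0, 1, 0], (.pl 1, 0)), ([1, 0, 0, 0, 1, 0], (.ev, 0))], [0, 0, 0, 1, 1, 0, 1]⟩,
   ⟨[10, 10, 9, 8, 7, 4], 1, [([4, 4, 4, 4, 2, 2], (.ev, 0)), ([4, 4, 2, 1, 2, 1], (.ev, 0)), ([1, 0, 3, 3, 1, 0], (.ev, 0)), ([1, 2, 0, 0, 2, 1], (.ev, 0)), ([0, 0, 0, 0, 0, 0], (.pl 1, 2)), ([0, 0, 0, 0, 0, 0], (.ev, 2))], [1, 1, 1, 1, 0, 1]⟩,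
   ⟨[10, 10, 9, 8, 7, 3], 1, [([4, 4, 4, 4, 2, 2], (.ev, 0)), ([4, 4, 2, 1, 2, 1], (.ev, 0)), ([1, 0, 3, 3, 1, 0], (.ev, 0)), ([0, 2, 0, 0, 2, 0], (.ev, 2)), ([1, 0, 0, 0, 0, 0], (.pl 1, 1)), ([0, 0, 0, 0, 0, 0], (.ev, 2))], [1, 1, 1, 1, 0, 1]⟩,
   ⟨[10, 10, 9, 8, 7, 2], 1, [([4, 4, 4, 4, 2, 2], (.ev, 0)), ([4, 4, 2, 0, 2, 0], (.ev, 2)), ([1, 0, 3, 3, 1, 0], (.ev, 0)), ([1, 2, 0, 1, 2, 0], (.ev, 0)), ([0, 0, 0, 0, 0, 0], (.pl 1, 2)), ([0, 0, 0, 0, 0, 0], (.ev, 2))], [1, 1, 1, 1, 0, 1]⟩,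
   ⟨[10, 10, 9, 8, 7, 1], 0, [([1, 1, 1, 1, 1, 1], (.pl 1, 5)), ([3, 4, 3, 3, 3, 0], (.pl 4, 1)), ([1, 1, 1, 1, 1, 0], (.pl 1, 1)), ([4, 4, 0, 0, 0, 0], (.ev, 0)), ([0, 0, 3, 3, 0, 0], (.ev, 0)), ([0, 0, 1, 0, 1, 0], (.pl 1, 0)), ([1, 0, 0, 0, 1, 0], (.ev, 0))], [0, 0, 0, 1, 1, 0, 1]⟩,
   ⟨[10, 10, 9, 8, 6, 5], 1, [([4, 4, 4, 4, 2, 2], (.ev, 0)), ([4, 4, 2, 2, 1, 1], (.ev, 0)), ([1, 1, 3, 0, 3, 0], (.ev, 0)), ([1, 1, 0, 2, 0, 2], (.ev, 0)), ([0, 0, 0, 0, 0, 0], (.pl 1, 2)), ([0, 0, 0, 0, 0, 0], (.ev, 2))], [1, 1, 1, 1, 0, 1]⟩,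
   ⟨[10, 10, 9, 8, 6, 4], 1, [([4, 4, 4, 4, 2, 2], (.ev, 0)), ([4, 4, 2, 2, 1, 1], (.ev, 0)), ([1, 1, 3, 0, 3, 0], (.ev, 0)), ([1, 1, 0, 1, 0, 1], (.ev, 2)), ([0, 0, 0, 1, 0, 0], (.pl 1, 1)), ([0, 0, 0, 0, 0, 0], (.ev, 2))], [1, 1, 1, 1, 0, 1]⟩,
   ⟨[10, 10, 9, 8, 6, 3], 1, [([4, 4, 4, 4, 2, 2], (.ev, 0)), ([4, 4, 2, 2, 1, 1], (.ev, 0)), ([1, 1, 2, 0, 2, 0], (.ev, 2)), ([1, 1, 1, 1, 0, 0], (.ev, 2)), ([0, 0, 0, 0, 0, 0], (.pl 1, 2)), ([0, 0, 0, 1, 1, 0], (.ev, 0))], [1, 1, 1, 1, 0, 1]⟩,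
   ⟨[10, 10, 9, 8, 6, 2], 1, [([4, 4, 4, 4, 2, 2], (.ev, 0)), ([4, 4, 2, 2, 0, 0], (.ev, 2)), ([1, 1, 3, 0, 3, 0], (.ev, 0)), ([1, 1, 0, 1, 1, 0], (.ev, 2)), ([0, 0, 0, 1, 0, 0], (.pl 1, 1)), ([0, 0, 0, 0, 0, 0], (.ev, 2))], [1, 1, 1, 1, 0, 1]⟩,
   ⟨[10, 10, 9, 8, 6, 1], 1, [([4, 4, 2, 2, 1, 1], (.ev, 6)), ([4, 2, 4, 2, 0, 0], (.ev, 2)), ([0, 4, 0, 0, 4, 0], (.ev, 0)), ([0, 0, 3, 3, 0, 0], (.ev, 0)), ([1, 0, 0, 0, 1, 0], (.pl 1, 0)), ([1, 0, 0, 1, 0, 0], (.ev, 0))], [1, 1, 1, 1, 0, 1]⟩,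
   ⟨[10, 10, 9, 8, 5, 5], 1, [([4, 4, 4, 4, 2, 2], (.ev, 0)), ([4, 4, 2, 2, 1, 1], (.ev, 0)), ([2, 2, 2, 2, 0, 0], (.ev, 0)), ([0, 0, 0, 0, 2, 2], (.ev, 2)), ([0, 0, 1, 0, 0, 0], (.pl 1, 1)), ([0, 0, 0, 0, 0, 0], (.ev, 2))], [1, 1, 1, 1, 0, 1]⟩,
   ⟨[10, 10, 9, 8, 5, 4], 1, [([4, 4, 4, 4, 2, 2], (.ev, 0)), ([4, 4, 2, 2, 1, 1], (.ev, 0)), ([2, 1, 2, 1, 1, 1], (.ev, 0)), ([0, 1, 1, 1, 1, 0], (.ev, 2)), ([0, 0, 0, 0, 0, 0], (.pl 1, 2)), ([0, 0, 0, 0, 0, 0], (.ev, 2))], [1, 1, 1, 1, 0, 1]⟩,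
   ⟨[10, 10, 9, 8, 5, 3], 1, [([4, 4, 4, 4, 2, 2], (.ev, 0)), ([4, 4, 2, 2, 1, 1], (.ev, 0)), ([2, 2, 2, 2, 0, 0], (.ev, 0)), ([0, 0, 1, 0, 1, 0], (.ev, 4)), ([0, 0, 0, 0, 1, 0], (.pl 1, 1)), ([0, 0, 0, 0, 0, 0], (.ev, 2))], [1, 1, 1, 1, 0, 1]⟩,
   ⟨[10, 10, 9, 8, 5, 2], 1, [([4, 4, 4, 4, 2, 2], (.ev, 0)), ([4, 4, 2, 2, 0, 0], (.ev, 2)), ([1, 1, 3, 0, 3, 0], (.ev, 0)), ([1, 0, 0, 1, 0, 0], (.ev, 4)), ([0, 0, 0, 0, 0, 0], (.pl 1, 2)), ([0, 1, 0, 1, 0, 0], (.ev, 0))], [1, 1, 1, 1, 0, 1]⟩,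
   ⟨[10, 10, 9, 8, 5, 1], 1, [([4, 4, 2, 2, 1, 1], (.ev, 6)), ([4, 2, 4, 2, 0, 0], (.ev, 2)), ([0, 4, 0, 4, 0, 0], (.ev, 0)), ([0, 0, 3, 0, 3, 0], (.ev, 0)), ([1, 0, 0, 0, 0, 0], (.pl 1, 1)), ([1, 0, 0, 0, 1, 0], (.ev, 0))], [1, 1, 1, 1, 0, 1]⟩,
   ⟨[10, 10, 9, 8, 4, 4], 1, [([4, 4, 4, 4, 2, 2], (.ev, 0)), ([4, 4, 2, 2, 1, 1], (.ev, 0)), ([2, 1, 2, 1, 0, 0], (.ev, 2)), ([0, 1, 1, 1, 1, 0], (.ev, 2)), ([0, 0, 0, 0, 0, 1], (.pl 1, 1)), ([0, 0, 0, 0, 0, 0], (.ev, 2))], [1, 1, 1, 1, 0, 1]⟩,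
   ⟨[10, 10, 9, 8, 4, 3], 1, [([4, 4, 4, 4, 2, 2], (.ev, 0)), ([4, 4, 2, 2, 1, 1], (.ev, 0)), ([2, 2, 2, 2, 0, 0], (.ev, 0)), ([0, 0, 1, 0, 1, 0], (.ev, 4)), ([0, 0, 0, 0, 0, 0], (.pl 1, 2)), ([0, 0, 0, 0, 0, 0], (.ev, 2))], [1, 1, 1, 1, 0, 1]⟩,
   ⟨[10, 10, 9, 8, 3], 2, [([4, 4, 2, 2, 0], (.ev, 8)), ([1, 1, 1, 1, 1], (.pl 1, 3)), ([1, 1, 1, 1, 1], (.pl 1, 1)), ([4, 0, 4, 0, 0], (.ev, 0)), ([0, 3, 0, 3, 0], (.ev, 0)), ([0, 0, 0, 1, 1], (.pl 1, 0)), ([0, 1, 1, 0, 0], (.ev, 0))], [2, 0, 1, 1, 1, 0, 1]⟩,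
   ⟨[10, 10, 9, 7, 7, 5], 1, [([4, 4, 4, 4, 2, 2], (.ev, 0)), ([4, 4, 2, 1, 2, 1], (.ev, 0)), ([1, 1, 3, 0, 3, 0], (.ev, 0)), ([1, 1, 0, 2, 0, 2], (.ev, 0)), ([0, 0, 0, 0, 0, 0], (.pl 1, 2)), ([0, 0, 0, 0, 0, 0], (.ev, 2))], [1, 1, 1, 1, 0, 1]⟩,
   ⟨[10, 10, 9, 7, 7, 4], 1, [([4, 4, 4, 4, 2, 2], (.ev, 0)), ([4, 4, 2, 1, 2, 1], (.ev, 0)), ([1, 1, 3, 0, 3, 0], (.ev, 0)), ([1, 1, 0, 1, 0, 1], (.ev, 2)), ([0, 0, 0, 1, 0, 0], (.pl 1, 1)), ([0, 0, 0, 0, 0, 0], (.ev, 2))], [1, 1, 1, 1, 0, 1]⟩,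
   ⟨[10, 10, 9, 7, 7, 3], 1, [([4, 4, 4, 4, 2, 2], (.ev, 0)), ([4, 4, 2, 1, 2, 1], (.ev, 0)), ([1, 1, 2, 0, 2, 0], (.ev, 2)), ([1, 1, 1, 1, 0, 0], (.ev, 2)), ([0, 0, 0, 0, 0, 0], (.pl 1, 2)), ([0, 0, 0, 1, 1, 0], (.ev, 0))], [1, 1, 1, 1, 0, 1]⟩,
   ⟨[10, 10, 9, 7, 7, 2], 1, [([4, 4, 4, 4, 2, 2], (.ev, 0)), ([4, 4, 2, 0, 2, 0], (.ev, 2)), ([1, 0, 3, 3, 1, 0], (.ev, 0)), ([0, 2, 0, 0, 2, 0], (.ev, 2)), ([1, 0, 0, 0, 0, 0], (.pl 1, 1)), ([0, 0, 0, 0, 0, 0], (.ev, 2))], [1, 1, 1, 1, 0, 1]⟩,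
   ⟨[10, 10, 9, 7, 7, 1], 1, [([4, 4, 2, 2, 1, 1], (.ev, 6)), ([4, 2, 4, 0, 2, 0], (.ev, 2)), ([0, 4, 0, 4, 0, 0], (.ev, 0)), ([0, 0, 3, 0, 3, 0], (.ev, 0)), ([1, 0, 0, 0, 1, 0], (.pl 1, 0)), ([1, 0, 0, 1, 0, 0], (.ev, 0))], [1, 1, 1, 1, 0, 1]⟩,
   ⟨[10, 10, 9, 7, 6, 6], 1, [([4, 4, 4, 4, 2, 2], (.ev, 0)), ([4, 4, 2, 1, 2, 1], (.ev, 0)), ([1, 1, 3, 0, 0, 3], (.ev, 0)), ([1, 1, 0, 2, 2, 0], (.ev, 0)), ([0, 0, 0, 0, 0, 0], (.pl 1, 2)), ([0, 0, 0, 0, 0, 0], (.ev, 2))], [1, 1, 1, 1, 0, 1]⟩,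
   ⟨[10, 10, 9, 7, 6, 5], 1, [([4, 4, 4, 4, 2, 2], (.ev, 0)), ([4, 4, 2, 1, 2, 1], (.ev, 0)), ([2, 2, 2, 2, 0, 0], (.ev, 0)), ([0, 0, 0, 0, 2, 2], (.ev, 2)), ([0, 0, 1, 0, 0, 0], (.pl 1, 1)), ([0, 0, 0, 0, 0, 0], (.ev, 2))], [1, 1, 1, 1, 0, 1]⟩]

def cmC_11_8_6_3_1 : List (List ℕ × List (ℕ × ℕ)) :=
  [([10, 10, 10, 8, 4, 3], [(0, 1), (0, 1), (0, 1), (4, 1), (1, 1), (2, 1)]),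
   ([10, 10, 10, 8, 4, 2], [(0, 1), (2, 1), (0, 1), (2, 1), (2, 1), (2, 1)]),
   ([10, 10, 10, 8, 4, 1], [(6, 1), (2, 1), (0, 1), (0, 1), (1, 1), (0, 1)]),
   ([10, 10, 10, 8, 3, 3], [(0, 1), (0, 1), (2, 1), (4, 1), (2, 1), (0, 1)]),
   ([10, 10, 10, 7, 7, 4], [(0, 1), (0, 1), (0, 1), (2, 1), (2, 1), (0, 1)]),
   ([10, 10, 10, 7, 7, 3], [(0, 1), (0, 1), (0, 1), (2, 1), (1, 1), (2, 1)]),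
   ([10, 10, 10, 7, 7, 2], [(0, 1), (2, 1), (0, 1), (0, 1), (2, 1), (2, 1)]),
   ([10, 10, 10, 7, 7, 1], [(5, 1), (1, 4), (1, 1), (0, 1), (0, 1), (0, 1), (0, 1)]),
   ([10, 10, 10, 7, 6, 5], [(0, 1), (0, 1), (0, 1), (4, 1), (0, 1), (0, 1)]),
   ([10, 10, 10, 7, 6, 4], [(0, 1), (0, 1), (0, 1), (2, 1), (1, 1), (2, 1)]),
   ([10, 10, 10, 7, 6, 3], [(0, 1), (0, 1), (0, 1), (2, 1), (2, 1), (2, 1)]),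
   ([10, 10, 10, 7, 6, 2], [(0, 1), (2, 1), (0, 1), (2, 1), (1, 1), (2, 1)]),
   ([10, 10, 10, 7, 6, 1], [(6, 1), (2, 1), (0, 1), (0, 1), (0, 1), (0, 1)]),
   ([10, 10, 10, 7, 5, 5], [(0, 1), (0, 1), (0, 1), (2, 1), (1, 1), (2, 1)]),
   ([10, 10, 10, 7, 5, 4], [(0, 1), (0, 1), (2, 1), (2, 1), (2, 1), (0, 1)]),
   ([10, 10, 10, 7, 5, 3], [(0, 1), (0, 1), (0, 1), (4, 1), (1, 1), (2, 1)]),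
   ([10, 10, 10, 7, 5, 2], [(0, 1), (2, 1), (0, 1), (2, 1), (2, 1), (2, 1)]),
   ([10, 10, 10, 7, 5, 1], [(6, 1), (2, 1), (0, 1), (0, 1), (1, 1), (0, 1)]),
   ([10, 10, 10, 7, 4, 4], [(0, 1), (0, 1), (2, 1), (2, 1), (1, 1), (2, 1)]),
   ([10, 10, 10, 7, 4, 3], [(0, 1), (0, 1), (2, 1), (4, 1), (2, 1), (0, 1)]),
   ([10, 10, 10, 7, 3], [(9, 2), (3, 1), (0, 1), (0, 1), (0, 1), (0, 1), (0, 1)]),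
   ([10, 10, 10, 6, 6, 6], [(0, 1), (0, 1), (0, 1), (2, 1), (2, 1), (0, 1)]),
   ([10, 10, 10, 6, 6, 5], [(0, 1), (0, 1), (0, 1), (2, 1), (1, 1), (2, 1)]),
   ([10, 10, 10, 6, 6, 4], [(0, 1), (0, 1), (2, 1), (2, 1), (2, 1), (0, 1)]),
   ([10, 10, 10, 6, 6, 3], [(0, 1), (0, 1), (0, 1), (4, 1), (1, 1), (2, 1)]),
   ([10, 10, 10, 6, 6, 2], [(0, 1), (2, 1), (0, 1), (2, 1), (2, 1), (2, 1)]),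
   ([10, 10, 10, 6, 6, 1], [(6, 1), (2, 1), (0, 1), (0, 1), (1, 1), (0, 1)]),
   ([10, 10, 10, 6, 5, 5], [(0, 1), (0, 1), (2, 1), (2, 1), (2, 1), (0, 1)]),
   ([10, 10, 10, 6, 5, 4], [(0, 1), (0, 1), (2, 1), (2, 1), (1, 1), (2, 1)]),
   ([10, 10, 10, 6, 5, 3], [(0, 1), (0, 1), (2, 1), (4, 1), (2, 1), (0, 1)]),
   ([10, 10, 10, 6, 4, 4], [(0, 1), (2, 1), (0, 1), (2, 1), (2, 1), (2, 1)]),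
   ([10, 10, 10, 6, 4, 3], [(0, 1), (0, 1), (2, 1), (4, 1), (1, 1), (2, 1)]),
   ([10, 10, 10, 6, 3], [(9, 2), (2, 1), (0, 1), (2, 1), (0, 1), (0, 1)]),
   ([10, 10, 10, 5], [(9, 2), (2, 1), (2, 1), (2, 1), (0, 1), (2, 1)]),
   ([10, 10, 10, 4], [(9, 2), (4, 1), (3, 1), (0, 1), (0, 1), (0, 1), (2, 1)]),
   ([10, 10, 9, 9, 8, 2], [(0, 1), (2, 1), (0, 1), (0, 1), (2, 1), (0, 1)]),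
   ([10, 10, 9, 9, 7, 3], [(0, 1), (0, 1), (0, 1), (0, 1), (2, 1), (2, 1)]),
   ([10, 10, 9, 9, 7, 2], [(0, 1), (2, 1), (0, 1), (0, 1), (1, 1), (2, 1)]),
   ([10, 10, 9, 9, 7, 1], [(5, 1), (0, 4), (1, 1), (0, 1), (0, 1), (0, 1), (0, 1)]),
   ([10, 10, 9, 9, 6, 4], [(0, 1), (0, 1), (0, 1), (0, 1), (2, 1), (2, 1)]),
   ([10, 10, 9, 9, 6, 3], [(0, 1), (0, 1), (0, 1), (2, 1), (1, 1), (2, 1)]),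
   ([10, 10, 9, 9, 6, 2], [(0, 1), (2, 1), (0, 1), (0, 1), (2, 1), (2, 1)]),
   ([10, 10, 9, 9, 6, 1], [(5, 1), (1, 4), (1, 1), (0, 1), (0, 1), (0, 1), (0, 1)]),
   ([10, 10, 9, 9, 5, 5], [(0, 1), (0, 1), (0, 1), (0, 1), (2, 1), (2, 1)]),
   ([10, 10, 9, 9, 5, 4], [(0, 1), (0, 1), (0, 1), (2, 1), (1, 1), (2, 1)]),
   ([10, 10, 9, 9, 5, 3], [(0, 1), (0, 1), (2, 1), (2, 1), (2, 1), (0, 1)]),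
   ([10, 10, 9, 9, 5, 2], [(0, 1), (2, 1), (0, 1), (2, 1), (1, 1), (2, 1)]),
   ([10, 10, 9, 9, 5, 1], [(6, 1), (2, 1), (0, 1), (0, 1), (0, 1), (0, 1)]),
   ([10, 10, 9, 9, 4, 4], [(0, 1), (0, 1), (0, 1), (2, 1), (2, 1), (2, 1)]),
   ([10, 10, 9, 9, 4, 3], [(0, 1), (0, 1), (0, 1), (4, 1), (1, 1), (2, 1)]),
   ([10, 10, 9, 9, 4, 2], [(0, 1), (2, 1), (0, 1), (4, 1), (2, 1), (0, 1)]),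
   ([10, 10, 9, 9, 4, 1], [(6, 1), (2, 1), (0, 1), (0, 1), (1, 1), (0, 1)]),
   ([10, 10, 9, 9, 3, 3], [(0, 1), (0, 1), (0, 1), (4, 1), (2, 1), (2, 1)]),
   ([10, 10, 9, 8, 8, 3], [(0, 1), (0, 1), (0, 1), (0, 1), (2, 1), (2, 1)]),
   ([10, 10, 9, 8, 8, 2], [(0, 1), (2, 1), (0, 1), (2, 1), (1, 1), (0, 1)]),
   ([10, 10, 9, 8, 8, 1], [(5, 1), (0, 4), (1, 1), (0, 1), (0, 1), (0, 1), (0, 1)]),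
   ([10, 10, 9, 8, 7, 4], [(0, 1), (0, 1), (0, 1), (0, 1), (2, 1), (2, 1)]),
   ([10, 10, 9, 8, 7, 3], [(0, 1), (0, 1), (0, 1), (2, 1), (1, 1), (2, 1)]),
   ([10, 10, 9, 8, 7, 2], [(0, 1), (2, 1), (0, 1), (0, 1), (2, 1), (2, 1)]),
   ([10, 10, 9, 8, 7, 1], [(5, 1), (1, 4), (1, 1), (0, 1), (0, 1), (0, 1), (0, 1)]),
   ([10, 10, 9, 8, 6, 5], [(0, 1), (0, 1), (0, 1), (0, 1), (2, 1), (2, 1)]),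
   ([10, 10, 9, 8, 6, 4], [(0, 1), (0, 1), (0, 1), (2, 1), (1, 1), (2, 1)]),
   ([10, 10, 9, 8, 6, 3], [(0, 1), (0, 1), (2, 1), (2, 1), (2, 1), (0, 1)]),
   ([10, 10, 9, 8, 6, 2], [(0, 1), (2, 1), (0, 1), (2, 1), (1, 1), (2, 1)]),
   ([10, 10, 9, 8, 6, 1], [(6, 1), (2, 1), (0, 1), (0, 1), (0, 1), (0, 1)]),
   ([10, 10, 9, 8, 5, 5], [(0, 1), (0, 1), (0, 1), (2, 1), (1, 1), (2, 1)]),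
   ([10, 10, 9, 8, 5, 4], [(0, 1), (0, 1), (0, 1), (2, 1), (2, 1), (2, 1)]),
   ([10, 10, 9, 8, 5, 3], [(0, 1), (0, 1), (0, 1), (4, 1), (1, 1), (2, 1)]),
   ([10, 10, 9, 8, 5, 2], [(0, 1), (2, 1), (0, 1), (4, 1), (2, 1), (0, 1)]),
   ([10, 10, 9, 8, 5, 1], [(6, 1), (2, 1), (0, 1), (0, 1), (1, 1), (0, 1)]),
   ([10, 10, 9, 8, 4, 4], [(0, 1), (0, 1), (2, 1), (2, 1), (1, 1), (2, 1)]),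
   ([10, 10, 9, 8, 4, 3], [(0, 1), (0, 1), (0, 1), (4, 1), (2, 1), (2, 1)]),
   ([10, 10, 9, 8, 3], [(9, 2), (3, 1), (0, 1), (0, 1), (0, 1), (0, 1), (0, 1)]),
   ([10, 10, 9, 7, 7, 5], [(0, 1), (0, 1), (0, 1), (0, 1), (2, 1), (2, 1)]),
   ([10, 10, 9, 7, 7, 4], [(0, 1), (0, 1), (0, 1), (2, 1), (1, 1), (2, 1)]),
   ([10, 10, 9, 7, 7, 3], [(0, 1), (0, 1), (2, 1), (2, 1), (2, 1), (0, 1)]),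
   ([10, 10, 9, 7, 7, 2], [(0, 1), (2, 1), (0, 1), (2, 1), (1, 1), (2, 1)]),
   ([10, 10, 9, 7, 7, 1], [(6, 1), (2, 1), (0, 1), (0, 1), (0, 1), (0, 1)]),
   ([10, 10, 9, 7, 6, 6], [(0, 1), (0, 1), (0, 1), (0, 1), (2, 1), (2, 1)]),
   ([10, 10, 9, 7, 6, 5], [(0, 1), (0, 1), (0, 1), (2, 1), (1, 1), (2, 1)])]

def cm_11_8_6_3_2 : List CM :=
  [⟨[10, 10, 9, 7, 6, 4], 1, [([4, 4, 4, 4, 2, 2], (.ev, 0)), ([4, 4, 2, 1, 2, 1], (.ev, 0)), ([2, 1, 2, 1, 1, 1], (.ev, 0)), ([0, 1, 1, 1, 1, 0], (.ev, 2)), ([0, 0, 0, 0, 0, 0], (.pl 1, 2)), ([0, 0, 0, 0, 0, 0], (.ev, 2))], [1, 1, 1, 1, 0, 1]⟩,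
   ⟨[10, 10, 9, 7, 6, 3], 1, [([4, 4, 4, 4, 2, 2], (.ev, 0)), ([4, 4, 2, 1, 2, 1], (.ev, 0)), ([2, 2, 2, 2, 0, 0], (.ev, 0)), ([0, 0, 1, 0, 1, 0], (.ev, 4)), ([0, 0, 0, 0, 1, 0], (.pl 1, 1)), ([0, 0, 0, 0, 0, 0], (.ev, 2))], [1, 1, 1, 1, 0, 1]⟩,
   ⟨[10, 10, 9, 7, 6, 2], 1, [([4, 4, 4, 4, 2, 2], (.ev, 0)), ([4, 4, 2, 0, 2, 0], (.ev, 2)), ([1, 1, 3, 3, 0, 0], (.ev, 0)), ([1, 0, 0, 0, 1, 0], (.ev, 4)), ([0, 0, 0, 0, 0, 0], (.pl 1, 2)), ([0, 1, 0, 0, 1, 0], (.ev, 0))], [1, 1, 1, 1, 0, 1]⟩,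
   ⟨[10, 10, 9, 7, 6, 1], 1, [([4, 4, 2, 2, 1, 1], (.ev, 6)), ([4, 2, 4, 2, 0, 0], (.ev, 2)), ([0, 4, 0, 0, 4, 0], (.ev, 0)), ([0, 0, 3, 3, 0, 0], (.ev, 0)), ([1, 0, 0, 0, 0, 0], (.pl 1, 1)), ([1, 0, 0, 0, 1, 0], (.ev, 0))], [1, 1, 1, 1, 0, 1]⟩,
   ⟨[10, 10, 9, 7, 5, 5], 1, [([4, 4, 4, 4, 2, 2], (.ev, 0)), ([4, 4, 2, 2, 1, 1], (.ev, 0)), ([2, 1, 2, 1, 1, 1], (.ev, 0)), ([0, 1, 1, 0, 1, 1], (.ev, 2)), ([0, 0, 0, 0, 0, 0], (.pl 1, 2)), ([0, 0, 0, 0, 0, 0], (.ev, 2))], [1, 1, 1, 1, 0, 1]⟩,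
   ⟨[10, 10, 9, 7, 5, 4], 1, [([4, 4, 4, 4, 2, 2], (.ev, 0)), ([4, 4, 2, 2, 1, 1], (.ev, 0)), ([2, 1, 2, 0, 1, 0], (.ev, 2)), ([0, 1, 1, 1, 1, 0], (.ev, 2)), ([0, 0, 0, 0, 0, 1], (.pl 1, 1)), ([0, 0, 0, 0, 0, 0], (.ev, 2))], [1, 1, 1, 1, 0, 1]⟩,
   ⟨[10, 10, 9, 7, 5, 3], 1, [([4, 4, 4, 4, 2, 2], (.ev, 0)), ([4, 4, 2, 2, 1, 1], (.ev, 0)), ([2, 2, 2, 0, 2, 0], (.ev, 0)), ([0, 0, 1, 1, 0, 0], (.ev, 4)), ([0, 0, 0, 0, 0, 0], (.pl 1, 2)), ([0, 0, 0, 0, 0, 0], (.ev, 2))], [1, 1, 1, 1, 0, 1]⟩,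
   ⟨[10, 10, 9, 7, 4, 4], 1, [([4, 4, 4, 4, 2, 2], (.ev, 0)), ([4, 4, 2, 2, 1, 1], (.ev, 0)), ([2, 1, 2, 1, 0, 0], (.ev, 2)), ([0, 1, 1, 0, 1, 1], (.ev, 2)), ([0, 0, 0, 0, 0, 0], (.pl 1, 2)), ([0, 0, 0, 0, 0, 0], (.ev, 2))], [1, 1, 1, 1, 0, 1]⟩,
   ⟨[10, 10, 9, 7, 4, 3], 1, [([4, 4, 4, 4, 2, 2], (.ev, 0)), ([4, 4, 2, 2, 1, 1], (.ev, 0)), ([2, 1, 2, 1, 0, 0], (.ev, 2)), ([0, 1, 1, 0, 0, 0], (.ev, 4)), ([0, 0, 0, 0, 1, 0], (.pl 1, 1)), ([0, 0, 0, 0, 0, 0], (.ev, 2))], [1, 1, 1, 1, 0, 1]⟩,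
   ⟨[10, 10, 9, 7, 3], 1, [([4, 4, 2, 2, 0], (.ev, 8)), ([4, 2, 4, 2, 0], (.ev, 2)), ([0, 3, 3, 1, 1], (.ev, 0)), ([2, 1, 0, 2, 1], (.ev, 0)), ([0, 0, 0, 0, 1], (.pl 1, 1)), ([0, 0, 0, 0, 0], (.ev, 2))], [2, 1, 1, 1, 1, 1]⟩,
   ⟨[10, 10, 9, 6], 1, [([4, 4, 2, 2], (.ev, 8)), ([4, 2, 4, 2], (.ev, 2)), ([0, 3, 3, 0], (.ev, 2)), ([2, 0, 0, 2], (.ev, 2)), ([0, 1, 0, 0], (.pl 1, 1)), ([0, 0, 0, 0], (.ev, 2))], [2, 1, 1, 1, 1, 1]⟩,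
   ⟨[10, 10, 9, 5, 5, 5], 2, [([4, 4, 4, 4, 2, 2], (.ev, 0)), ([1, 1, 1, 1, 1, 1], (.pl 1, 2)), ([1, 1, 1, 0, 1, 1], (.pl 1, 1)), ([3, 3, 1, 0, 1, 0], (.ev, 0)), ([1, 1, 1, 0, 0, 1], (.ev, 2)), ([0, 0, 1, 0, 0, 0], (.pl 1, 1)), ([0, 0, 0, 0, 0, 0], (.ev, 2))], [1, 0, 0, 1, 1, 0, 1]⟩,
   ⟨[10, 10, 9, 5, 5, 4], 1, [([4, 4, 4, 4, 2, 2], (.ev, 0)), ([4, 4, 2, 1, 2, 1], (.ev, 0)), ([2, 1, 2, 0, 1, 0], (.ev, 2)), ([0, 1, 1, 0, 0, 0], (.ev, 4)), ([0, 0, 0, 0, 0, 1], (.pl 1, 1)), ([0, 0, 0, 0, 0, 0], (.ev, 2))], [1, 1, 1, 1, 0, 1]⟩,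
   ⟨[10, 10, 9, 5, 5, 3], 1, [([4, 4, 4, 4, 2, 2], (.ev, 0)), ([4, 4, 2, 1, 2, 1], (.ev, 0)), ([2, 1, 2, 0, 1, 0], (.ev, 2)), ([0, 1, 1, 0, 0, 0], (.ev, 4)), ([0, 0, 0, 0, 0, 0], (.pl 1, 2)), ([0, 0, 0, 0, 0, 0], (.ev, 2))], [1, 1, 1, 1, 0, 1]⟩,
   ⟨[10, 10, 9, 5, 4, 4], 1, [([4, 4, 4, 4, 2, 2], (.ev, 0)), ([4, 4, 2, 1, 2, 1], (.ev, 0)), ([2, 1, 2, 0, 0, 1], (.ev, 2)), ([0, 1, 1, 0, 0, 0], (.ev, 4)), ([0, 0, 0, 0, 0, 0], (.pl 1, 2)), ([0, 0, 0, 0, 0, 0], (.ev, 2))], [1, 1, 1, 1, 0, 1]⟩,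
   ⟨[10, 10, 9, 5, 4, 3], 1, [([4, 4, 4, 4, 2, 2], (.ev, 0)), ([4, 4, 2, 1, 2, 1], (.ev, 0)), ([2, 0, 2, 0, 0, 0], (.ev, 4)), ([0, 1, 1, 0, 0, 0], (.ev, 4)), ([0, 1, 0, 0, 0, 0], (.pl 1, 1)), ([0, 0, 0, 0, 0, 0], (.ev, 2))], [1, 1, 1, 1, 0, 1]⟩,
   ⟨[10, 10, 9, 5, 3], 1, [([4, 4, 2, 2, 0], (.ev, 8)), ([4, 2, 4, 2, 0], (.ev, 2)), ([1, 3, 3, 0, 1], (.ev, 0)), ([1, 1, 0, 1, 1], (.ev, 2)), ([0, 0, 0, 0, 1], (.pl 1, 1)), ([0, 0, 0, 0, 0], (.ev, 2))], [2, 1, 1, 1, 1, 1]⟩,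
   ⟨[10, 10, 9, 4], 1, [([4, 4, 2, 2], (.ev, 8)), ([4, 2, 4, 2], (.ev, 2)), ([0, 3, 3, 0], (.ev, 2)), ([1, 1, 0, 0], (.ev, 4)), ([1, 0, 0, 0], (.pl 1, 1)), ([0, 0, 0, 0], (.ev, 2))], [2, 1, 1, 1, 1, 1]⟩,
   ⟨[10, 10, 8, 8, 8, 4], 1, [([4, 4, 4, 4, 2, 2], (.ev, 0)), ([4, 4, 2, 1, 2, 1], (.ev, 0)), ([1, 1, 0, 3, 3, 0], (.ev, 0)), ([1, 1, 1, 0, 1, 0], (.ev, 2)), ([0, 0, 0, 0, 0, 0], (.pl 1, 2)), ([0, 0, 1, 0, 0, 1], (.ev, 0))], [1, 1, 1, 1, 0, 1]⟩,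
   ⟨[10, 10, 8, 8, 8, 3], 1, [([4, 4, 4, 4, 2, 2], (.ev, 0)), ([4, 4, 2, 1, 2, 1], (.ev, 0)), ([1, 1, 0, 3, 3, 0], (.ev, 0)), ([1, 1, 1, 0, 1, 0], (.ev, 2)), ([0, 0, 1, 0, 0, 0], (.pl 1, 1)), ([0, 0, 0, 0, 0, 0], (.ev, 2))], [1, 1, 1, 1, 0, 1]⟩,
   ⟨[10, 10, 8, 8, 8, 2], 1, [([4, 4, 4, 4, 2, 2], (.ev, 0)), ([4, 4, 2, 0, 2, 0], (.ev, 2)), ([0, 0, 0, 4, 4, 0], (.ev, 0)), ([1, 1, 0, 0, 0, 0], (.ev, 4)), ([0, 1, 1, 0, 0, 0], (.pl 1, 0)), ([1, 0, 1, 0, 0, 0], (.ev, 0))], [1, 1, 1, 1, 0, 1]⟩,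
   ⟨[10, 10, 8, 8, 8, 1], 0, [([1, 1, 1, 1, 1, 1], (.pl 1, 5)), ([3, 4, 3, 2, 4, 0], (.pl 4, 1)), ([1, 1, 1, 1, 1, 0], (.pl 1, 1)), ([4, 4, 0, 0, 0, 0], (.ev, 0)), ([0, 0, 3, 3, 0, 0], (.ev, 0)), ([0, 0, 0, 1, 1, 0], (.pl 1, 0)), ([1, 0, 0, 0, 1, 0], (.ev, 0))], [0, 0, 0, 1, 1, 0, 1]⟩,
   ⟨[10, 10, 8, 8, 7, 5], 1, [([4, 4, 4, 4, 2, 2], (.ev, 0)), ([4, 4, 2, 1, 2, 1], (.ev, 0)), ([1, 1, 0, 3, 3, 0], (.ev, 0)), ([1, 1, 2, 0, 0, 2], (.ev, 0)), ([0, 0, 0, 0, 0, 0], (.pl 1, 2)), ([0, 0, 0, 0, 0, 0], (.ev, 2))], [1, 1, 1, 1, 0, 1]⟩,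
   ⟨[10, 10, 8, 8, 7, 4], 1, [([4, 4, 4, 4, 2, 2], (.ev, 0)), ([4, 4, 2, 1, 2, 1], (.ev, 0)), ([1, 1, 0, 3, 3, 0], (.ev, 0)), ([1, 1, 1, 0, 0, 1], (.ev, 2)), ([0, 0, 1, 0, 0, 0], (.pl 1, 1)), ([0, 0, 0, 0, 0, 0], (.ev, 2))], [1, 1, 1, 1, 0, 1]⟩,
   ⟨[10, 10, 8, 8, 7, 3], 1, [([4, 4, 4, 4, 2, 2], (.ev, 0)), ([4, 4, 2, 1, 2, 1], (.ev, 0)), ([1, 1, 0, 2, 2, 0], (.ev, 2)), ([1, 1, 1, 1, 0, 0], (.ev, 2)), ([0, 0, 0, 0, 0, 0], (.pl 1, 2)), ([0, 0, 1, 0, 1, 0], (.ev, 0))], [1, 1, 1, 1, 0, 1]⟩,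
   ⟨[10, 10, 8, 8, 7, 2], 1, [([4, 4, 4, 4, 2, 2], (.ev, 0)), ([4, 4, 2, 0, 2, 0], (.ev, 2)), ([1, 1, 0, 3, 3, 0], (.ev, 0)), ([1, 1, 1, 1, 0, 0], (.ev, 2)), ([0, 0, 1, 0, 0, 0], (.pl 1, 1)), ([0, 0, 0, 0, 0, 0], (.ev, 2))], [1, 1, 1, 1, 0, 1]⟩,
   ⟨[10, 10, 8, 8, 6, 6], 1, [([4, 4, 4, 4, 2, 2], (.ev, 0)), ([4, 4, 2, 2, 1, 1], (.ev, 0)), ([1, 1, 0, 0, 3, 3], (.ev, 0)), ([1, 1, 2, 2, 0, 0], (.ev, 0)), ([0, 0, 0, 0, 0, 0], (.pl 1, 2)), ([0, 0, 0, 0, 0, 0], (.ev, 2))], [1, 1, 1, 1, 0, 1]⟩,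
   ⟨[10, 10, 8, 8, 6, 5], 1, [([4, 4, 4, 4, 2, 2], (.ev, 0)), ([4, 4, 2, 2, 1, 1], (.ev, 0)), ([2, 2, 2, 0, 2, 0], (.ev, 0)), ([0, 0, 0, 2, 0, 2], (.ev, 2)), ([0, 0, 0, 0, 1, 0], (.pl 1, 1)), ([0, 0, 0, 0, 0, 0], (.ev, 2))], [1, 1, 1, 1, 0, 1]⟩,
   ⟨[10, 10, 8, 8, 6, 4], 1, [([4, 4, 4, 4, 2, 2], (.ev, 0)), ([4, 4, 2, 2, 1, 1], (.ev, 0)), ([2, 1, 1, 1, 2, 1], (.ev, 0)), ([0, 1, 1, 1, 1, 0], (.ev, 2)), ([0, 0, 0, 0, 0, 0], (.pl 1, 2)), ([0, 0, 0, 0, 0, 0], (.ev, 2))], [1, 1, 1, 1, 0, 1]⟩,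
   ⟨[10, 10, 8, 8, 6, 3], 1, [([4, 4, 4, 4, 2, 2], (.ev, 0)), ([4, 4, 2, 2, 1, 1], (.ev, 0)), ([2, 2, 2, 0, 2, 0], (.ev, 0)), ([0, 0, 0, 1, 1, 0], (.ev, 4)), ([0, 0, 0, 1, 0, 0], (.pl 1, 1)), ([0, 0, 0, 0, 0, 0], (.ev, 2))], [1, 1, 1, 1, 0, 1]⟩,
   ⟨[10, 10, 8, 8, 6, 2], 1, [([4, 4, 4, 4, 2, 2], (.ev, 0)), ([4, 4, 2, 2, 0, 0], (.ev, 2)), ([2, 2, 2, 0, 2, 0], (.ev, 0)), ([0, 0, 0, 2, 2, 0], (.ev, 2)), ([0, 0, 0, 0, 0, 0], (.pl 1, 2)), ([0, 0, 0, 0, 0, 0], (.ev, 2))], [1, 1, 1, 1, 0, 1]⟩,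
   ⟨[10, 10, 8, 8, 5, 5], 1, [([4, 4, 4, 4, 2, 2], (.ev, 0)), ([4, 4, 2, 2, 1, 1], (.ev, 0)), ([2, 2, 2, 2, 0, 0], (.ev, 0)), ([0, 0, 0, 0, 2, 2], (.ev, 2)), ([0, 0, 0, 0, 0, 0], (.pl 1, 2)), ([0, 0, 0, 0, 0, 0], (.ev, 2))], [1, 1, 1, 1, 0, 1]⟩,
   ⟨[10, 10, 8, 8, 5, 4], 1, [([4, 4, 4, 4, 2, 2], (.ev, 0)), ([4, 4, 2, 2, 1, 1], (.ev, 0)), ([2, 2, 1, 1, 0, 0], (.ev, 2)), ([0, 0, 1, 1, 1, 1], (.ev, 2)), ([0, 0, 0, 0, 1, 0], (.pl 1, 1)), ([0, 0, 0, 0, 0, 0], (.ev, 2))], [1, 1, 1, 1, 0, 1]⟩,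
   ⟨[10, 10, 8, 8, 5, 3], 1, [([4, 4, 4, 4, 2, 2], (.ev, 0)), ([4, 4, 2, 2, 1, 1], (.ev, 0)), ([2, 2, 1, 1, 0, 0], (.ev, 2)), ([0, 0, 1, 0, 1, 0], (.ev, 4)), ([0, 0, 0, 0, 0, 0], (.pl 1, 2)), ([0, 0, 0, 1, 1, 0], (.ev, 0))], [1, 1, 1, 1, 0, 1]⟩,
   ⟨[10, 10, 8, 8, 4, 4], 1, [([4, 4, 4, 4, 2, 2], (.ev, 0)), ([4, 4, 2, 2, 1, 1], (.ev, 0)), ([2, 2, 1, 1, 0, 0], (.ev, 2)), ([0, 0, 1, 1, 1, 1], (.ev, 2)), ([0, 0, 0, 0, 0, 0], (.pl 1, 2)), ([0, 0, 0, 0, 0, 0], (.ev, 2))], [1, 1, 1, 1, 0, 1]⟩,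
   ⟨[10, 10, 8, 8, 4, 3], 1, [([4, 4, 4, 4, 2, 2], (.ev, 0)), ([4, 4, 2, 2, 1, 1], (.ev, 0)), ([2, 2, 2, 2, 0, 0], (.ev, 0)), ([0, 0, 0, 0, 0, 0], (.ev, 6)), ([0, 0, 0, 0, 1, 0], (.pl 1, 1)), ([0, 0, 0, 0, 0, 0], (.ev, 2))], [1, 1, 1, 2, 1, 1]⟩,
   ⟨[10, 10, 8, 8, 3], 1, [([4, 4, 2, 2, 0], (.ev, 8)), ([4, 4, 2, 2, 0], (.ev, 2)), ([0, 0, 4, 4, 0], (.ev, 0)), ([2, 0, 0, 0, 2], (.ev, 2)), ([0, 1, 0, 0, 0], (.pl 1, 1)), ([0, 1, 0, 0, 1], (.ev, 0))], [2, 1, 1, 1, 1, 1]⟩,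
   ⟨[10, 10, 8, 7, 7, 6], 1, [([4, 4, 4, 4, 2, 2], (.ev, 0)), ([4, 4, 2, 1, 2, 1], (.ev, 0)), ([1, 1, 0, 0, 3, 3], (.ev, 0)), ([1, 1, 2, 2, 0, 0], (.ev, 0)), ([0, 0, 0, 0, 0, 0], (.pl 1, 2)), ([0, 0, 0, 0, 0, 0], (.ev, 2))], [1, 1, 1, 1, 0, 1]⟩,
   ⟨[10, 10, 8, 7, 7, 5], 1, [([4, 4, 4, 4, 2, 2], (.ev, 0)), ([4, 4, 2, 1, 2, 1], (.ev, 0)), ([2, 2, 2, 0, 2, 0], (.ev, 0)), ([0, 0, 0, 2, 0, 2], (.ev, 2)), ([0, 0, 0, 0, 1, 0], (.pl 1, 1)), ([0, 0, 0, 0, 0, 0], (.ev, 2))], [1, 1, 1, 1, 0, 1]⟩,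
   ⟨[10, 10, 8, 7, 7, 4], 1, [([4, 4, 4, 4, 2, 2], (.ev, 0)), ([4, 4, 2, 1, 2, 1], (.ev, 0)), ([2, 1, 1, 1, 2, 1], (.ev, 0)), ([0, 1, 1, 1, 1, 0], (.ev, 2)), ([0, 0, 0, 0, 0, 0], (.pl 1, 2)), ([0, 0, 0, 0, 0, 0], (.ev, 2))], [1, 1, 1, 1, 0, 1]⟩,
   ⟨[10, 10, 8, 7, 7, 3], 1, [([4, 4, 4, 4, 2, 2], (.ev, 0)), ([4, 4, 2, 1, 2, 1], (.ev, 0)), ([2, 2, 2, 0, 2, 0], (.ev, 0)), ([0, 0, 0, 1, 1, 0], (.ev, 4)), ([0, 0, 0, 1, 0, 0], (.pl 1, 1)), ([0, 0, 0, 0, 0, 0], (.ev, 2))], [1, 1, 1, 1, 0, 1]⟩,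
   ⟨[10, 10, 8, 7, 7, 2], 1, [([4, 4, 4, 4, 2, 2], (.ev, 0)), ([4, 4, 2, 0, 2, 0], (.ev, 2)), ([1, 1, 0, 3, 3, 0], (.ev, 0)), ([1, 0, 1, 0, 0, 0], (.ev, 4)), ([0, 0, 0, 0, 0, 0], (.pl 1, 2)), ([0, 1, 1, 0, 0, 0], (.ev, 0))], [1, 1, 1, 1, 0, 1]⟩,
   ⟨[10, 10, 8, 7, 6, 6], 1, [([4, 4, 4, 4, 2, 2], (.ev, 0)), ([4, 4, 2, 1, 2, 1], (.ev, 0)), ([2, 2, 2, 0, 0, 2], (.ev, 0)), ([0, 0, 0, 2, 2, 0], (.ev, 2)), ([0, 0, 0, 0, 0, 1], (.pl 1, 1)), ([0, 0, 0, 0, 0, 0], (.ev, 2))], [1, 1, 1, 1, 0, 1]⟩,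
   ⟨[10, 10, 8, 7, 6, 5], 1, [([4, 4, 4, 4, 2, 2], (.ev, 0)), ([4, 4, 2, 1, 2, 1], (.ev, 0)), ([2, 2, 2, 2, 0, 0], (.ev, 0)), ([0, 0, 0, 0, 2, 2], (.ev, 2)), ([0, 0, 0, 0, 0, 0], (.pl 1, 2)), ([0, 0, 0, 0, 0, 0], (.ev, 2))], [1, 1, 1, 1, 0, 1]⟩,
   ⟨[10, 10, 8, 7, 6, 4], 1, [([4, 4, 4, 4, 2, 2], (.ev, 0)), ([4, 4, 2, 1, 2, 1], (.ev, 0)), ([2, 2, 1, 1, 0, 0], (.ev, 2)), ([0, 0, 1, 1, 1, 1], (.ev, 2)), ([0, 0, 0, 0, 1, 0], (.pl 1, 1)), ([0, 0, 0, 0, 0, 0], (.ev, 2))], [1, 1, 1, 1, 0, 1]⟩,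
   ⟨[10, 10, 8, 7, 6, 3], 1, [([4, 4, 4, 4, 2, 2], (.ev, 0)), ([4, 4, 2, 1, 2, 1], (.ev, 0)), ([2, 2, 1, 1, 0, 0], (.ev, 2)), ([0, 0, 1, 0, 1, 0], (.ev, 4)), ([0, 0, 0, 0, 0, 0], (.pl 1, 2)), ([0, 0, 0, 1, 1, 0], (.ev, 0))], [1, 1, 1, 1, 0, 1]⟩,
   ⟨[10, 10, 8, 7, 5, 5], 1, [([4, 4, 4, 4, 2, 2], (.ev, 0)), ([4, 4, 2, 2, 1, 1], (.ev, 0)), ([2, 2, 1, 0, 1, 0], (.ev, 2)), ([0, 0, 1, 1, 1, 1], (.ev, 2)), ([0, 0, 0, 0, 0, 1], (.pl 1, 1)), ([0, 0, 0, 0, 0, 0], (.ev, 2))], [1, 1, 1, 1, 0, 1]⟩,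
   ⟨[10, 10, 8, 7, 5, 4], 1, [([4, 4, 4, 4, 2, 2], (.ev, 0)), ([4, 4, 2, 2, 1, 1], (.ev, 0)), ([2, 2, 1, 0, 1, 0], (.ev, 2)), ([0, 0, 1, 1, 1, 1], (.ev, 2)), ([0, 0, 0, 0, 0, 0], (.pl 1, 2)), ([0, 0, 0, 0, 0, 0], (.ev, 2))], [1, 1, 1, 1, 0, 1]⟩,
   ⟨[10, 10, 8, 7, 5, 3], 1, [([4, 4, 4, 4, 2, 2], (.ev, 0)), ([4, 4, 2, 2, 1, 1], (.ev, 0)), ([2, 2, 2, 0, 2, 0], (.ev, 0)), ([0, 0, 0, 0, 0, 0], (.ev, 6)), ([0, 0, 0, 1, 0, 0], (.pl 1, 1)), ([0, 0, 0, 0, 0, 0], (.ev, 2))], [1, 1, 1, 2, 1, 1]⟩,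
   ⟨[10, 10, 8, 7, 4], 2, [([4, 4, 2, 2, 0], (.ev, 8)), ([1, 1, 1, 1, 1], (.pl 1, 3)), ([1, 1, 1, 1, 1], (.pl 1, 1)), ([4, 4, 0, 0, 0], (.ev, 0)), ([0, 0, 3, 3, 0], (.ev, 0)), ([0, 0, 0, 0, 1], (.pl 1, 1)), ([0, 0, 1, 0, 1], (.ev, 0))], [3, 0, 1, 1, 1, 1, 1]⟩,
   ⟨[10, 10, 8, 7, 3], 2, [([4, 4, 2, 2, 0], (.ev, 8)), ([1, 1, 1, 1, 1], (.pl 1, 3)), ([1, 1, 1, 1, 1], (.pl 1, 1)), ([4, 4, 0, 0, 0], (.ev, 0)), ([0, 0, 3, 3, 0], (.ev, 0)), ([0, 0, 0, 0, 0], (.pl 1, 2)), ([0, 0, 1, 0, 1], (.ev, 0))], [2, 0, 1, 1, 1, 0, 1]⟩,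
   ⟨[10, 10, 8, 6, 6, 6], 1, [([4, 4, 4, 4, 2, 2], (.ev, 0)), ([4, 4, 2, 1, 2, 1], (.ev, 0)), ([2, 1, 1, 1, 1, 2], (.ev, 0)), ([0, 1, 1, 0, 1, 1], (.ev, 2)), ([0, 0, 0, 0, 0, 0], (.pl 1, 2)), ([0, 0, 0, 0, 0, 0], (.ev, 2))], [1, 1, 1, 1, 0, 1]⟩,
   ⟨[10, 10, 8, 6, 6, 5], 1, [([4, 4, 4, 4, 2, 2], (.ev, 0)), ([4, 4, 2, 1, 2, 1], (.ev, 0)), ([2, 2, 1, 0, 1, 0], (.ev, 2)), ([0, 0, 1, 1, 1, 1], (.ev, 2)), ([0, 0, 0, 0, 0, 1], (.pl 1, 1)), ([0, 0, 0, 0, 0, 0], (.ev, 2))], [1, 1, 1, 1, 0, 1]⟩,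
   ⟨[10, 10, 8, 6, 6, 4], 1, [([4, 4, 4, 4, 2, 2], (.ev, 0)), ([4, 4, 2, 1, 2, 1], (.ev, 0)), ([2, 2, 1, 0, 1, 0], (.ev, 2)), ([0, 0, 1, 1, 1, 1], (.ev, 2)), ([0, 0, 0, 0, 0, 0], (.pl 1, 2)), ([0, 0, 0, 0, 0, 0], (.ev, 2))], [1, 1, 1, 1, 0, 1]⟩,
   ⟨[10, 10, 8, 6, 6, 3], 1, [([4, 4, 4, 4, 2, 2], (.ev, 0)), ([4, 4, 2, 1, 2, 1], (.ev, 0)), ([2, 2, 2, 0, 2, 0], (.ev, 0)), ([0, 0, 0, 0, 0, 0], (.ev, 6)), ([0, 0, 0, 1, 0, 0], (.pl 1, 1)), ([0, 0, 0, 0, 0, 0], (.ev, 2))], [1, 1, 1, 2, 1, 1]⟩,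
   ⟨[10, 10, 8, 6, 5, 5], 2, [([4, 4, 4, 4, 2, 2], (.ev, 0)), ([1, 1, 1, 1, 1, 1], (.pl 1, 2)), ([1, 1, 1, 1, 0, 1], (.pl 1, 1)), ([4, 4, 0, 0, 0, 0], (.ev, 0)), ([0, 0, 2, 0, 2, 0], (.ev, 2)), ([0, 0, 0, 0, 0, 1], (.pl 1, 1)), ([0, 0, 0, 0, 0, 0], (.ev, 2))], [1, 0, 0, 1, 1, 0, 1]⟩,
   ⟨[10, 10, 8, 6, 5, 4], 1, [([4, 4, 4, 4, 2, 2], (.ev, 0)), ([4, 4, 2, 1, 2, 1], (.ev, 0)), ([2, 2, 1, 1, 0, 0], (.ev, 2)), ([0, 0, 1, 0, 1, 0], (.ev, 4)), ([0, 0, 0, 0, 0, 1], (.pl 1, 1)), ([0, 0, 0, 0, 0, 0], (.ev, 2))], [1, 1, 1, 1, 0, 1]⟩,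
   ⟨[10, 10, 8, 6, 5, 3], 1, [([4, 4, 4, 4, 2, 2], (.ev, 0)), ([4, 4, 2, 1, 2, 1], (.ev, 0)), ([2, 2, 1, 1, 0, 0], (.ev, 2)), ([0, 0, 1, 0, 1, 0], (.ev, 4)), ([0, 0, 0, 0, 0, 0], (.pl 1, 2)), ([0, 0, 0, 0, 0, 0], (.ev, 2))], [1, 1, 1, 1, 0, 1]⟩,
   ⟨[10, 10, 8, 6, 4, 4], 1, [([4, 4, 4, 4, 2, 2], (.ev, 0)), ([4, 4, 2, 2, 1, 1], (.ev, 0)), ([2, 2, 1, 0, 1, 0], (.ev, 2)), ([0, 0, 1, 0, 0, 1], (.ev, 4)), ([0, 0, 0, 0, 0, 0], (.pl 1, 2)), ([0, 0, 0, 0, 0, 0], (.ev, 2))], [1, 1, 1, 1, 0, 1]⟩,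
   ⟨[10, 10, 8, 6, 4, 3], 1, [([4, 4, 4, 4, 2, 2], (.ev, 0)), ([4, 4, 2, 2, 1, 1], (.ev, 0)), ([2, 2, 1, 0, 1, 0], (.ev, 2)), ([0, 0, 0, 0, 0, 0], (.ev, 6)), ([0, 0, 1, 0, 0, 0], (.pl 1, 1)), ([0, 0, 0, 0, 0, 0], (.ev, 2))], [1, 1, 1, 2, 1, 1]⟩,
   ⟨[10, 10, 8, 6, 3], 1, [([4, 4, 2, 2, 0], (.ev, 8)), ([4, 4, 2, 2, 0], (.ev, 2)), ([1, 1, 3, 0, 3], (.ev, 0)), ([1, 1, 1, 1, 0], (.ev, 2)), ([0, 0, 0, 1, 0], (.pl 1, 1)), ([0, 0, 0, 0, 0], (.ev, 2))], [2, 1, 1, 1, 1, 1]⟩,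
   ⟨[10, 10, 8, 5], 1, [([4, 4, 2, 2], (.ev, 8)), ([4, 4, 2, 2], (.ev, 2)), ([2, 1, 2, 1], (.ev, 2)), ([0, 1, 1, 0], (.ev, 4)), ([0, 0, 1, 0], (.pl 1, 1)), ([0, 0, 0, 0], (.ev, 2))], [2, 1, 1, 1, 1, 1]⟩,
   ⟨[10, 10, 8, 4], 2, [([4, 4, 2, 2], (.ev, 8)), ([0, 0, 1, 1], (.pl 1, 6)), ([0, 0, 1, 0], (.pl 1, 5)), ([4, 4, 0, 0], (.ev, 0)), ([2, 1, 2, 1], (.ev, 0)), ([0, 0, 1, 0], (.pl 1, 1)), ([0, 1, 1, 0], (.ev, 0))], [2, 0, 0, 1, 1, 1, 1]⟩,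
   ⟨[10, 10, 7, 7, 7, 7], 1, [([4, 4, 4, 4, 2, 2], (.ev, 0)), ([4, 4, 1, 1, 2, 2], (.ev, 0)), ([1, 1, 0, 0, 3, 3], (.ev, 0)), ([1, 1, 2, 2, 0, 0], (.ev, 0)), ([0, 0, 0, 0, 0, 0], (.pl 1, 2)), ([0, 0, 0, 0, 0, 0], (.ev, 2))], [1, 1, 1, 1, 0, 1]⟩,
   ⟨[10, 10, 7, 7, 7, 6], 1, [([4, 4, 4, 4, 2, 2], (.ev, 0)), ([4, 4, 1, 1, 2, 2], (.ev, 0)), ([2, 2, 2, 0, 2, 0], (.ev, 0)), ([0, 0, 0, 2, 0, 2], (.ev, 2)), ([0, 0, 0, 0, 1, 0], (.pl 1, 1)), ([0, 0, 0, 0, 0, 0], (.ev, 2))], [1, 1, 1, 1, 0, 1]⟩,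
   ⟨[10, 10, 7, 7, 7, 5], 1, [([4, 4, 4, 4, 2, 2], (.ev, 0)), ([4, 4, 2, 1, 2, 1], (.ev, 0)), ([2, 1, 1, 1, 2, 1], (.ev, 0)), ([0, 1, 0, 1, 1, 1], (.ev, 2)), ([0, 0, 0, 0, 0, 0], (.pl 1, 2)), ([0, 0, 0, 0, 0, 0], (.ev, 2))], [1, 1, 1, 1, 0, 1]⟩,
   ⟨[10, 10, 7, 7, 7, 4], 1, [([4, 4, 4, 4, 2, 2], (.ev, 0)), ([4, 4, 2, 1, 2, 1], (.ev, 0)), ([2, 1, 0, 1, 2, 0], (.ev, 2)), ([0, 1, 1, 1, 1, 0], (.ev, 2)), ([0, 0, 0, 0, 0, 1], (.pl 1, 1)), ([0, 0, 0, 0, 0, 0], (.ev, 2))], [1, 1, 1, 1, 0, 1]⟩,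
   ⟨[10, 10, 7, 7, 7, 3], 1, [([4, 4, 4, 4, 2, 2], (.ev, 0)), ([4, 4, 2, 1, 2, 1], (.ev, 0)), ([2, 2, 0, 2, 2, 0], (.ev, 0)), ([0, 0, 1, 0, 1, 0], (.ev, 4)), ([0, 0, 0, 0, 0, 0], (.pl 1, 2)), ([0, 0, 0, 0, 0, 0], (.ev, 2))], [1, 1, 1, 1, 0, 1]⟩,
   ⟨[10, 10, 7, 7, 6, 6], 1, [([4, 4, 4, 4, 2, 2], (.ev, 0)), ([4, 4, 1, 1, 2, 2], (.ev, 0)), ([2, 2, 2, 2, 0, 0], (.ev, 0)), ([0, 0, 0, 0, 2, 2], (.ev, 2)), ([0, 0, 0, 0, 0, 0], (.pl 1, 2)), ([0, 0, 0, 0, 0, 0], (.ev, 2))], [1, 1, 1, 1, 0, 1]⟩,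
   ⟨[10, 10, 7, 7, 6, 5], 1, [([4, 4, 4, 4, 2, 2], (.ev, 0)), ([4, 4, 2, 1, 2, 1], (.ev, 0)), ([2, 2, 0, 1, 1, 0], (.ev, 2)), ([0, 0, 1, 1, 1, 1], (.ev, 2)), ([0, 0, 0, 0, 0, 1], (.pl 1, 1)), ([0, 0, 0, 0, 0, 0], (.ev, 2))], [1, 1, 1, 1, 0, 1]⟩,
   ⟨[10, 10, 7, 7, 6, 4], 1, [([4, 4, 4, 4, 2, 2], (.ev, 0)), ([4, 4, 2, 1, 2, 1], (.ev, 0)), ([2, 2, 0, 1, 1, 0], (.ev, 2)), ([0, 0, 1, 1, 1, 1], (.ev, 2)), ([0, 0, 0, 0, 0, 0], (.pl 1, 2)), ([0, 0, 0, 0, 0, 0], (.ev, 2))], [1, 1, 1, 1, 0, 1]⟩,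
   ⟨[10, 10, 7, 7, 6, 3], 1, [([4, 4, 4, 4, 2, 2], (.ev, 0)), ([4, 4, 2, 1, 2, 1], (.ev, 0)), ([2, 2, 0, 2, 2, 0], (.ev, 0)), ([0, 0, 0, 0, 0, 0], (.ev, 6)), ([0, 0, 1, 0, 0, 0], (.pl 1, 1)), ([0, 0, 0, 0, 0, 0], (.ev, 2))], [1, 1, 1, 2, 1, 1]⟩,
   ⟨[10, 10, 7, 7, 5, 5], 2, [([4, 4, 4, 4, 2, 2], (.ev, 0)), ([1, 1, 1, 1, 1, 1], (.pl 1, 2)), ([1, 1, 1, 1, 1, 0], (.pl 1, 1)), ([4, 4, 0, 0, 0, 0], (.ev, 0)), ([0, 0, 1, 1, 1, 1], (.ev, 2)), ([0, 0, 0, 0, 0, 1], (.pl 1, 1)), ([0, 0, 0, 0, 0, 0], (.ev, 2))], [1, 0, 0, 1, 1, 0, 1]⟩,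
   ⟨[10, 10, 7, 7, 5, 4], 1, [([4, 4, 4, 4, 2, 2], (.ev, 0)), ([4, 4, 2, 2, 1, 1], (.ev, 0)), ([2, 2, 1, 0, 1, 0], (.ev, 2)), ([0, 0, 0, 1, 1, 0], (.ev, 4)), ([0, 0, 0, 0, 0, 1], (.pl 1, 1)), ([0, 0, 0, 0, 0, 0], (.ev, 2))], [1, 1, 1, 1, 0, 1]⟩,
   ⟨[10, 10, 7, 7, 5, 3], 1, [([4, 4, 4, 4, 2, 2], (.ev, 0)), ([4, 4, 2, 2, 1, 1], (.ev, 0)), ([2, 2, 1, 0, 1, 0], (.ev, 2)), ([0, 0, 0, 1, 1, 0], (.ev, 4)), ([0, 0, 0, 0, 0, 0], (.pl 1, 2)), ([0, 0, 0, 0, 0, 0], (.ev, 2))], [1, 1, 1, 1, 0, 1]⟩,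
   ⟨[10, 10, 7, 7, 4, 4], 1, [([4, 4, 4, 4, 2, 2], (.ev, 0)), ([4, 4, 2, 2, 1, 1], (.ev, 0)), ([2, 2, 1, 1, 0, 0], (.ev, 2)), ([0, 0, 0, 0, 1, 1], (.ev, 4)), ([0, 0, 0, 0, 0, 0], (.pl 1, 2)), ([0, 0, 0, 0, 0, 0], (.ev, 2))], [1, 1, 1, 1, 0, 1]⟩,
   ⟨[10, 10, 7, 7, 4, 3], 1, [([4, 4, 4, 4, 2, 2], (.ev, 0)), ([4, 4, 2, 2, 1, 1], (.ev, 0)), ([2, 2, 1, 1, 0, 0], (.ev, 2)), ([0, 0, 0, 0, 0, 0], (.ev, 6)), ([0, 0, 0, 0, 1, 0], (.pl 1, 1)), ([0, 0, 0, 0, 0, 0], (.ev, 2))], [1, 1, 1, 2, 1, 1]⟩,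
   ⟨[10, 10, 7, 7, 3], 1, [([4, 4, 2, 2, 0], (.ev, 8)), ([4, 4, 2, 2, 0], (.ev, 2)), ([1, 0, 3, 3, 1], (.ev, 0)), ([0, 2, 0, 0, 2], (.ev, 2)), ([1, 0, 0, 0, 0], (.pl 1, 1)), ([0, 0, 0, 0, 0], (.ev, 2))], [2, 1, 1, 1, 1, 1]⟩,
   ⟨[10, 10, 7, 6, 6, 6], 1, [([4, 4, 4, 4, 2, 2], (.ev, 0)), ([4, 4, 1, 1, 2, 2], (.ev, 0)), ([2, 2, 1, 0, 1, 0], (.ev, 2)), ([0, 0, 1, 1, 1, 1], (.ev, 2)), ([0, 0, 0, 0, 0, 1], (.pl 1, 1)), ([0, 0, 0, 0, 0, 0], (.ev, 2))], [1, 1, 1, 1, 0, 1]⟩,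
   ⟨[10, 10, 7, 6, 6, 5], 2, [([4, 4, 4, 4, 2, 2], (.ev, 0)), ([1, 1, 1, 1, 1, 1], (.pl 1, 2)), ([1, 1, 0, 1, 1, 1], (.pl 1, 1)), ([4, 4, 0, 0, 0, 0], (.ev, 0)), ([0, 0, 2, 0, 2, 0], (.ev, 2)), ([0, 0, 0, 0, 0, 1], (.pl 1, 1)), ([0, 0, 0, 0, 0, 0], (.ev, 2))], [1, 0, 0, 1, 1, 0, 1]⟩]

def cmC_11_8_6_3_2 : List (List ℕ × List (ℕ × ℕ)) :=
  [([10, 10, 9, 7, 6, 4], [(0, 1), (0, 1), (0, 1), (2, 1), (2, 1), (2, 1)]),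
   ([10, 10, 9, 7, 6, 3], [(0, 1), (0, 1), (0, 1), (4, 1), (1, 1), (2, 1)]),
   ([10, 10, 9, 7, 6, 2], [(0, 1), (2, 1), (0, 1), (4, 1), (2, 1), (0, 1)]),
   ([10, 10, 9, 7, 6, 1], [(6, 1), (2, 1), (0, 1), (0, 1), (1, 1), (0, 1)]),
   ([10, 10, 9, 7, 5, 5], [(0, 1), (0, 1), (0, 1), (2, 1), (2, 1), (2, 1)]),
   ([10, 10, 9, 7, 5, 4], [(0, 1), (0, 1), (2, 1), (2, 1), (1, 1), (2, 1)]),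
   ([10, 10, 9, 7, 5, 3], [(0, 1), (0, 1), (0, 1), (4, 1), (2, 1), (2, 1)]),
   ([10, 10, 9, 7, 4, 4], [(0, 1), (0, 1), (2, 1), (2, 1), (2, 1), (2, 1)]),
   ([10, 10, 9, 7, 4, 3], [(0, 1), (0, 1), (2, 1), (4, 1), (1, 1), (2, 1)]),
   ([10, 10, 9, 7, 3], [(9, 2), (2, 1), (0, 1), (0, 1), (0, 1), (2, 1)]),
   ([10, 10, 9, 6], [(9, 2), (2, 1), (2, 1), (2, 1), (0, 1), (2, 1)]),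
   ([10, 10, 9, 5, 5, 5], [(0, 1), (2, 1), (1, 1), (0, 1), (2, 1), (1, 1), (2, 1)]),
   ([10, 10, 9, 5, 5, 4], [(0, 1), (0, 1), (2, 1), (4, 1), (1, 1), (2, 1)]),
   ([10, 10, 9, 5, 5, 3], [(0, 1), (0, 1), (2, 1), (4, 1), (2, 1), (2, 1)]),
   ([10, 10, 9, 5, 4, 4], [(0, 1), (0, 1), (2, 1), (4, 1), (2, 1), (2, 1)]),
   ([10, 10, 9, 5, 4, 3], [(0, 1), (0, 1), (4, 1), (4, 1), (1, 1), (2, 1)]),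
   ([10, 10, 9, 5, 3], [(9, 2), (2, 1), (0, 1), (2, 1), (0, 1), (2, 1)]),
   ([10, 10, 9, 4], [(9, 2), (2, 1), (2, 1), (4, 1), (0, 1), (2, 1)]),
   ([10, 10, 8, 8, 8, 4], [(0, 1), (0, 1), (0, 1), (2, 1), (2, 1), (0, 1)]),
   ([10, 10, 8, 8, 8, 3], [(0, 1), (0, 1), (0, 1), (2, 1), (1, 1), (2, 1)]),
   ([10, 10, 8, 8, 8, 2], [(0, 1), (2, 1), (0, 1), (4, 1), (0, 1), (0, 1)]),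
   ([10, 10, 8, 8, 8, 1], [(5, 1), (1, 4), (1, 1), (0, 1), (0, 1), (0, 1), (0, 1)]),
   ([10, 10, 8, 8, 7, 5], [(0, 1), (0, 1), (0, 1), (0, 1), (2, 1), (2, 1)]),
   ([10, 10, 8, 8, 7, 4], [(0, 1), (0, 1), (0, 1), (2, 1), (1, 1), (2, 1)]),
   ([10, 10, 8, 8, 7, 3], [(0, 1), (0, 1), (2, 1), (2, 1), (2, 1), (0, 1)]),
   ([10, 10, 8, 8, 7, 2], [(0, 1), (2, 1), (0, 1), (2, 1), (1, 1), (2, 1)]),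
   ([10, 10, 8, 8, 6, 6], [(0, 1), (0, 1), (0, 1), (0, 1), (2, 1), (2, 1)]),
   ([10, 10, 8, 8, 6, 5], [(0, 1), (0, 1), (0, 1), (2, 1), (1, 1), (2, 1)]),
   ([10, 10, 8, 8, 6, 4], [(0, 1), (0, 1), (0, 1), (2, 1), (2, 1), (2, 1)]),
   ([10, 10, 8, 8, 6, 3], [(0, 1), (0, 1), (0, 1), (4, 1), (1, 1), (2, 1)]),
   ([10, 10, 8, 8, 6, 2], [(0, 1), (2, 1), (0, 1), (2, 1), (2, 1), (2, 1)]),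
   ([10, 10, 8, 8, 5, 5], [(0, 1), (0, 1), (0, 1), (2, 1), (2, 1), (2, 1)]),
   ([10, 10, 8, 8, 5, 4], [(0, 1), (0, 1), (2, 1), (2, 1), (1, 1), (2, 1)]),
   ([10, 10, 8, 8, 5, 3], [(0, 1), (0, 1), (2, 1), (4, 1), (2, 1), (0, 1)]),
   ([10, 10, 8, 8, 4, 4], [(0, 1), (0, 1), (2, 1), (2, 1), (2, 1), (2, 1)]),
   ([10, 10, 8, 8, 4, 3], [(0, 1), (0, 1), (0, 1), (7, 2), (0, 1), (2, 1)]),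
   ([10, 10, 8, 8, 3], [(9, 2), (2, 1), (0, 1), (2, 1), (0, 1), (0, 1)]),
   ([10, 10, 8, 7, 7, 6], [(0, 1), (0, 1), (0, 1), (0, 1), (2, 1), (2, 1)]),
   ([10, 10, 8, 7, 7, 5], [(0, 1), (0, 1), (0, 1), (2, 1), (1, 1), (2, 1)]),
   ([10, 10, 8, 7, 7, 4], [(0, 1), (0, 1), (0, 1), (2, 1), (2, 1), (2, 1)]),
   ([10, 10, 8, 7, 7, 3], [(0, 1), (0, 1), (0, 1), (4, 1), (1, 1), (2, 1)]),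
   ([10, 10, 8, 7, 7, 2], [(0, 1), (2, 1), (0, 1), (4, 1), (2, 1), (0, 1)]),
   ([10, 10, 8, 7, 6, 6], [(0, 1), (0, 1), (0, 1), (2, 1), (1, 1), (2, 1)]),
   ([10, 10, 8, 7, 6, 5], [(0, 1), (0, 1), (0, 1), (2, 1), (2, 1), (2, 1)]),
   ([10, 10, 8, 7, 6, 4], [(0, 1), (0, 1), (2, 1), (2, 1), (1, 1), (2, 1)]),
   ([10, 10, 8, 7, 6, 3], [(0, 1), (0, 1), (2, 1), (4, 1), (2, 1), (0, 1)]),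
   ([10, 10, 8, 7, 5, 5], [(0, 1), (0, 1), (2, 1), (2, 1), (1, 1), (2, 1)]),
   ([10, 10, 8, 7, 5, 4], [(0, 1), (0, 1), (2, 1), (2, 1), (2, 1), (2, 1)]),
   ([10, 10, 8, 7, 5, 3], [(0, 1), (0, 1), (0, 1), (7, 2), (0, 1), (2, 1)]),
   ([10, 10, 8, 7, 4], [(10, 3), (3, 1), (0, 1), (0, 1), (0, 1), (0, 1), (0, 1)]),
   ([10, 10, 8, 7, 3], [(9, 2), (3, 1), (0, 1), (0, 1), (0, 1), (2, 1), (0, 1)]),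
   ([10, 10, 8, 6, 6, 6], [(0, 1), (0, 1), (0, 1), (2, 1), (2, 1), (2, 1)]),
   ([10, 10, 8, 6, 6, 5], [(0, 1), (0, 1), (2, 1), (2, 1), (1, 1), (2, 1)]),
   ([10, 10, 8, 6, 6, 4], [(0, 1), (0, 1), (2, 1), (2, 1), (2, 1), (2, 1)]),
   ([10, 10, 8, 6, 6, 3], [(0, 1), (0, 1), (0, 1), (7, 2), (0, 1), (2, 1)]),
   ([10, 10, 8, 6, 5, 5], [(0, 1), (2, 1), (1, 1), (0, 1), (2, 1), (1, 1), (2, 1)]),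
   ([10, 10, 8, 6, 5, 4], [(0, 1), (0, 1), (2, 1), (4, 1), (1, 1), (2, 1)]),
   ([10, 10, 8, 6, 5, 3], [(0, 1), (0, 1), (2, 1), (4, 1), (2, 1), (2, 1)]),
   ([10, 10, 8, 6, 4, 4], [(0, 1), (0, 1), (2, 1), (4, 1), (2, 1), (2, 1)]),
   ([10, 10, 8, 6, 4, 3], [(0, 1), (0, 1), (2, 1), (7, 2), (0, 1), (2, 1)]),
   ([10, 10, 8, 6, 3], [(9, 2), (2, 1), (0, 1), (2, 1), (0, 1), (2, 1)]),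
   ([10, 10, 8, 5], [(9, 2), (2, 1), (2, 1), (4, 1), (0, 1), (2, 1)]),
   ([10, 10, 8, 4], [(9, 2), (6, 1), (5, 1), (0, 1), (0, 1), (0, 1), (0, 1)]),
   ([10, 10, 7, 7, 7, 7], [(0, 1), (0, 1), (0, 1), (0, 1), (2, 1), (2, 1)]),
   ([10, 10, 7, 7, 7, 6], [(0, 1), (0, 1), (0, 1), (2, 1), (1, 1), (2, 1)]),
   ([10, 10, 7, 7, 7, 5], [(0, 1), (0, 1), (0, 1), (2, 1), (2, 1), (2, 1)]),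
   ([10, 10, 7, 7, 7, 4], [(0, 1), (0, 1), (2, 1), (2, 1), (1, 1), (2, 1)]),
   ([10, 10, 7, 7, 7, 3], [(0, 1), (0, 1), (0, 1), (4, 1), (2, 1), (2, 1)]),
   ([10, 10, 7, 7, 6, 6], [(0, 1), (0, 1), (0, 1), (2, 1), (2, 1), (2, 1)]),
   ([10, 10, 7, 7, 6, 5], [(0, 1), (0, 1), (2, 1), (2, 1), (1, 1), (2, 1)]),
   ([10, 10, 7, 7, 6, 4], [(0, 1), (0, 1), (2, 1), (2, 1), (2, 1), (2, 1)]),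
   ([10, 10, 7, 7, 6, 3], [(0, 1), (0, 1), (0, 1), (7, 2), (0, 1), (2, 1)]),
   ([10, 10, 7, 7, 5, 5], [(0, 1), (2, 1), (1, 1), (0, 1), (2, 1), (1, 1), (2, 1)]),
   ([10, 10, 7, 7, 5, 4], [(0, 1), (0, 1), (2, 1), (4, 1), (1, 1), (2, 1)]),
   ([10, 10, 7, 7, 5, 3], [(0, 1), (0, 1), (2, 1), (4, 1), (2, 1), (2, 1)]),
   ([10, 10, 7, 7, 4, 4], [(0, 1), (0, 1), (2, 1), (4, 1), (2, 1), (2, 1)]),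
   ([10, 10, 7, 7, 4, 3], [(0, 1), (0, 1), (2, 1), (7, 2), (0, 1), (2, 1)]),
   ([10, 10, 7, 7, 3], [(9, 2), (2, 1), (0, 1), (2, 1), (0, 1), (2, 1)]),
   ([10, 10, 7, 6, 6, 6], [(0, 1), (0, 1), (2, 1), (2, 1), (1, 1), (2, 1)]),
   ([10, 10, 7, 6, 6, 5], [(0, 1), (2, 1), (1, 1), (0, 1), (2, 1), (1, 1), (2, 1)])]

def cm_11_8_6_3_3 : List CM :=
  [⟨[10, 10, 7, 6, 6, 4], 1, [([4, 4, 4, 4, 2, 2], (.ev, 0)), ([4, 4, 2, 1, 2, 1], (.ev, 0)), ([2, 2, 1, 0, 1, 0], (.ev, 2)), ([0, 0, 0, 1, 1, 0], (.ev, 4)), ([0, 0, 0, 0, 0, 1], (.pl 1, 1)), ([0, 0, 0, 0, 0, 0], (.ev, 2))], [1, 1, 1, 1, 0, 1]⟩,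
   ⟨[10, 10, 7, 6, 6, 3], 1, [([4, 4, 4, 4, 2, 2], (.ev, 0)), ([4, 4, 2, 1, 2, 1], (.ev, 0)), ([2, 2, 1, 0, 1, 0], (.ev, 2)), ([0, 0, 0, 1, 1, 0], (.ev, 4)), ([0, 0, 0, 0, 0, 0], (.pl 1, 2)), ([0, 0, 0, 0, 0, 0], (.ev, 2))], [1, 1, 1, 1, 0, 1]⟩,
   ⟨[10, 10, 7, 6, 5, 5], 1, [([4, 4, 4, 4, 2, 2], (.ev, 0)), ([4, 4, 2, 0, 2, 0], (.ev, 2)), ([2, 1, 0, 1, 0, 2], (.ev, 2)), ([0, 1, 1, 1, 1, 0], (.ev, 2)), ([0, 0, 0, 0, 0, 1], (.pl 1, 1)), ([0, 0, 0, 0, 0, 0], (.ev, 2))], [1, 1, 1, 1, 0, 1]⟩,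
   ⟨[10, 10, 7, 6, 5, 4], 1, [([4, 4, 4, 4, 2, 2], (.ev, 0)), ([4, 4, 2, 1, 2, 1], (.ev, 0)), ([2, 2, 1, 1, 0, 0], (.ev, 2)), ([0, 0, 0, 0, 1, 1], (.ev, 4)), ([0, 0, 0, 0, 0, 0], (.pl 1, 2)), ([0, 0, 0, 0, 0, 0], (.ev, 2))], [1, 1, 1, 1, 0, 1]⟩,
   ⟨[10, 10, 7, 6, 5, 3], 1, [([4, 4, 4, 4, 2, 2], (.ev, 0)), ([4, 4, 2, 1, 2, 1], (.ev, 0)), ([2, 2, 1, 1, 0, 0], (.ev, 2)), ([0, 0, 0, 0, 0, 0], (.ev, 6)), ([0, 0, 0, 0, 1, 0], (.pl 1, 1)), ([0, 0, 0, 0, 0, 0], (.ev, 2))], [1, 1, 1, 2, 1, 1]⟩,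
   ⟨[10, 10, 7, 6, 4], 1, [([4, 4, 2, 2, 0], (.ev, 8)), ([4, 4, 2, 2, 0], (.ev, 2)), ([1, 1, 3, 0, 3], (.ev, 0)), ([1, 1, 0, 1, 1], (.ev, 2)), ([0, 0, 0, 1, 0], (.pl 1, 1)), ([0, 0, 0, 0, 0], (.ev, 2))], [2, 1, 1, 1, 1, 1]⟩,
   ⟨[10, 10, 7, 5], 2, [([4, 4, 2, 2], (.ev, 8)), ([1, 1, 1, 1], (.pl 1, 4)), ([1, 1, 1, 0], (.pl 1, 3)), ([4, 4, 0, 0], (.ev, 0)), ([0, 0, 2, 2], (.ev, 2)), ([0, 0, 1, 0], (.pl 1, 1)), ([0, 0, 0, 0], (.ev, 2))], [2, 0, 0, 1, 1, 1, 1]⟩,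
   ⟨[10, 10, 7, 4], 1, [([4, 4, 2, 2], (.ev, 8)), ([4, 4, 2, 2], (.ev, 2)), ([2, 0, 2, 0], (.ev, 4)), ([0, 1, 1, 0], (.ev, 4)), ([0, 1, 0, 0], (.pl 1, 1)), ([0, 0, 0, 0], (.ev, 2))], [2, 1, 1, 1, 1, 1]⟩,
   ⟨[10, 10, 6, 6, 6, 6], 2, [([4, 4, 4, 4, 2, 2], (.ev, 0)), ([1, 1, 1, 1, 1, 1], (.pl 1, 2)), ([1, 1, 1, 1, 1, 0], (.pl 1, 1)), ([4, 4, 0, 0, 0, 0], (.ev, 0)), ([0, 0, 0, 0, 2, 2], (.ev, 2)), ([0, 0, 0, 0, 0, 1], (.pl 1, 1)), ([0, 0, 0, 0, 0, 0], (.ev, 2))], [1, 0, 0, 1, 1, 0, 1]⟩,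
   ⟨[10, 10, 6, 6, 6, 5], 1, [([4, 4, 4, 4, 2, 2], (.ev, 0)), ([4, 4, 0, 0, 2, 2], (.ev, 2)), ([2, 2, 1, 1, 0, 0], (.ev, 2)), ([0, 0, 1, 1, 1, 1], (.ev, 2)), ([0, 0, 0, 0, 1, 0], (.pl 1, 1)), ([0, 0, 0, 0, 0, 0], (.ev, 2))], [1, 1, 1, 1, 0, 1]⟩,
   ⟨[10, 10, 6, 6, 6, 4], 1, [([4, 4, 4, 4, 2, 2], (.ev, 0)), ([4, 4, 2, 1, 2, 1], (.ev, 0)), ([2, 2, 0, 1, 1, 0], (.ev, 2)), ([0, 0, 0, 0, 1, 1], (.ev, 4)), ([0, 0, 0, 0, 0, 0], (.pl 1, 2)), ([0, 0, 0, 0, 0, 0], (.ev, 2))], [1, 1, 1, 1, 0, 1]⟩,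
   ⟨[10, 10, 6, 6, 6, 3], 1, [([4, 4, 4, 4, 2, 2], (.ev, 0)), ([4, 4, 2, 1, 2, 1], (.ev, 0)), ([2, 2, 0, 1, 1, 0], (.ev, 2)), ([0, 0, 0, 0, 0, 0], (.ev, 6)), ([0, 0, 0, 0, 1, 0], (.pl 1, 1)), ([0, 0, 0, 0, 0, 0], (.ev, 2))], [1, 1, 1, 2, 1, 1]⟩,
   ⟨[10, 10, 6, 6, 5], 2, [([4, 4, 2, 2, 0], (.ev, 8)), ([1, 1, 1, 1, 1], (.pl 1, 3)), ([1, 1, 1, 1, 1], (.pl 1, 1)), ([4, 4, 0, 0, 0], (.ev, 0)), ([0, 0, 2, 0, 2], (.ev, 2)), ([0, 0, 0, 1, 0], (.pl 1, 1)), ([0, 0, 0, 1, 1], (.ev, 0))], [3, 0, 1, 1, 1, 1, 1]⟩,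
   ⟨[10, 10, 6, 6, 4], 2, [([4, 4, 2, 2, 0], (.ev, 8)), ([1, 1, 1, 1, 1], (.pl 1, 3)), ([0, 1, 0, 0, 1], (.pl 1, 4)), ([4, 4, 0, 0, 0], (.ev, 0)), ([0, 0, 3, 3, 0], (.ev, 0)), ([0, 0, 0, 0, 1], (.pl 1, 1)), ([1, 0, 0, 0, 1], (.ev, 0))], [2, 0, 0, 1, 1, 1, 1]⟩,
   ⟨[10, 10, 6, 5], 1, [([4, 4, 2, 2], (.ev, 8)), ([4, 4, 2, 2], (.ev, 2)), ([2, 2, 0, 0], (.ev, 4)), ([0, 0, 1, 1], (.ev, 4)), ([0, 0, 1, 0], (.pl 1, 1)), ([0, 0, 0, 0], (.ev, 2))], [2, 1, 1, 1, 1, 1]⟩,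
   ⟨[10, 10, 6, 4], 2, [([4, 4, 2, 2], (.ev, 8)), ([1, 1, 1, 1], (.pl 1, 4)), ([0, 0, 1, 0], (.pl 1, 5)), ([4, 4, 0, 0], (.ev, 0)), ([1, 1, 1, 1], (.ev, 2)), ([0, 0, 1, 0], (.pl 1, 1)), ([0, 0, 0, 0], (.ev, 2))], [2, 0, 0, 1, 1, 1, 1]⟩,
   ⟨[10, 10, 5, 5, 5], 2, [([4, 4, 2, 2, 0], (.ev, 8)), ([1, 1, 1, 1, 1], (.pl 1, 3)), ([1, 1, 1, 1, 1], (.pl 1, 1)), ([4, 4, 0, 0, 0], (.ev, 0)), ([0, 0, 1, 0, 1], (.ev, 4)), ([0, 0, 0, 0, 1], (.pl 1, 1)), ([0, 0, 0, 1, 1], (.ev, 0))], [3, 0, 1, 1, 1, 1, 1]⟩,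
   ⟨[10, 10, 5, 5, 4], 2, [([4, 4, 2, 2, 0], (.ev, 8)), ([1, 1, 0, 1, 1], (.pl 1, 4)), ([1, 1, 0, 1, 0], (.pl 1, 3)), ([4, 4, 0, 0, 0], (.ev, 0)), ([0, 0, 3, 0, 3], (.ev, 0)), ([0, 0, 0, 1, 0], (.pl 1, 1)), ([0, 0, 0, 0, 0], (.ev, 2))], [2, 0, 0, 1, 1, 1, 1]⟩,
   ⟨[10, 10, 5, 4], 1, [([4, 4, 2, 2], (.ev, 8)), ([4, 4, 2, 2], (.ev, 2)), ([2, 2, 0, 0], (.ev, 4)), ([0, 0, 0, 0], (.ev, 6)), ([0, 0, 1, 0], (.pl 1, 1)), ([0, 0, 0, 0], (.ev, 2))], [2, 1, 1, 1, 1, 1]⟩,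
   ⟨[10, 10, 4, 4, 4], 2, [([4, 4, 2, 2, 0], (.ev, 8)), ([1, 1, 1, 1, 1], (.pl 1, 3)), ([0, 0, 0, 1, 1], (.pl 1, 4)), ([4, 4, 0, 0, 0], (.ev, 0)), ([1, 1, 1, 0, 1], (.ev, 2)), ([0, 0, 0, 0, 1], (.pl 1, 1)), ([0, 0, 0, 0, 0], (.ev, 2))], [2, 0, 0, 1, 1, 1, 1]⟩,
   ⟨[10, 9, 9, 9, 9, 2], 1, [([4, 4, 4, 4, 2, 2], (.ev, 0)), ([4, 2, 2, 0, 4, 0], (.ev, 2)), ([0, 3, 1, 3, 1, 0], (.ev, 0)), ([2, 0, 2, 1, 1, 0], (.ev, 0)), ([0, 0, 0, 0, 0, 0], (.pl 1, 2)), ([0, 0, 0, 1, 1, 0], (.ev, 0))], [1, 1, 1, 1, 0, 1]⟩,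
   ⟨[10, 9, 9, 9, 8, 3], 1, [([4, 4, 4, 4, 2, 2], (.ev, 0)), ([4, 2, 2, 1, 4, 1], (.ev, 0)), ([1, 3, 1, 3, 0, 0], (.ev, 0)), ([1, 0, 2, 1, 2, 0], (.ev, 0)), ([0, 0, 0, 0, 0, 0], (.pl 1, 2)), ([0, 0, 0, 0, 0, 0], (.ev, 2))], [1, 1, 1, 1, 0, 1]⟩,
   ⟨[10, 9, 9, 9, 8, 2], 1, [([4, 4, 4, 4, 2, 2], (.ev, 0)), ([4, 2, 2, 0, 4, 0], (.ev, 2)), ([1, 3, 1, 3, 0, 0], (.ev, 0)), ([1, 0, 2, 2, 1, 0], (.ev, 0)), ([0, 0, 0, 0, 1, 0], (.pl 1, 1)), ([0, 0, 0, 0, 0, 0], (.ev, 2))], [1, 1, 1, 1, 0, 1]⟩,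
   ⟨[10, 9, 9, 9, 8, 1], 0, [([1, 1, 1, 1, 1, 1], (.pl 1, 5)), ([3, 3, 4, 3, 4, 0], (.pl 4, 0)), ([1, 1, 1, 1, 1, 0], (.pl 1, 1)), ([4, 4, 0, 0, 0, 0], (.ev, 0)), ([0, 0, 3, 3, 0, 0], (.ev, 0)), ([0, 0, 0, 1, 1, 0], (.pl 1, 0)), ([1, 0, 0, 0, 1, 0], (.ev, 0))], [0, 0, 0, 1, 1, 0, 1]⟩,
   ⟨[10, 9, 9, 9, 7, 4], 1, [([4, 4, 4, 4, 2, 2], (.ev, 0)), ([4, 4, 2, 2, 1, 1], (.ev, 0)), ([1, 0, 3, 1, 3, 0], (.ev, 0)), ([1, 1, 0, 1, 1, 0], (.ev, 2)), ([0, 0, 0, 0, 0, 0], (.pl 1, 2)), ([0, 0, 0, 1, 0, 1], (.ev, 0))], [1, 1, 1, 1, 0, 1]⟩,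
   ⟨[10, 9, 9, 9, 7, 3], 1, [([4, 4, 4, 4, 2, 2], (.ev, 0)), ([4, 4, 2, 2, 1, 1], (.ev, 0)), ([1, 0, 3, 1, 3, 0], (.ev, 0)), ([1, 1, 0, 1, 1, 0], (.ev, 2)), ([0, 0, 0, 1, 0, 0], (.pl 1, 1)), ([0, 0, 0, 0, 0, 0], (.ev, 2))], [1, 1, 1, 1, 0, 1]⟩,
   ⟨[10, 9, 9, 9, 7, 2], 1, [([4, 4, 4, 4, 2, 2], (.ev, 0)), ([4, 4, 2, 2, 0, 0], (.ev, 2)), ([1, 0, 3, 1, 3, 0], (.ev, 0)), ([1, 1, 0, 2, 2, 0], (.ev, 0)), ([0, 0, 0, 0, 0, 0], (.pl 1, 2)), ([0, 0, 0, 0, 0, 0], (.ev, 2))], [1, 1, 1, 1, 0, 1]⟩,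
   ⟨[10, 9, 9, 9, 7, 1], 0, [([1, 1, 1, 1, 1, 1], (.pl 1, 5)), ([3, 3, 4, 3, 3, 0], (.pl 4, 1)), ([1, 1, 1, 1, 1, 0], (.pl 1, 1)), ([4, 4, 0, 0, 0, 0], (.ev, 0)), ([0, 0, 3, 3, 0, 0], (.ev, 0)), ([0, 0, 0, 1, 1, 0], (.pl 1, 0)), ([1, 0, 0, 0, 1, 0], (.ev, 0))], [0, 0, 0, 1, 1, 0, 1]⟩,
   ⟨[10, 9, 9, 9, 6, 5], 1, [([4, 4, 4, 4, 2, 2], (.ev, 0)), ([4, 4, 2, 2, 1, 1], (.ev, 0)), ([1, 0, 3, 3, 1, 0], (.ev, 0)), ([1, 1, 0, 0, 2, 2], (.ev, 0)), ([0, 0, 0, 0, 0, 0], (.pl 1, 2)), ([0, 0, 0, 0, 0, 0], (.ev, 2))], [1, 1, 1, 1, 0, 1]⟩,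
   ⟨[10, 9, 9, 9, 6, 4], 1, [([4, 4, 4, 4, 2, 2], (.ev, 0)), ([4, 4, 2, 2, 1, 1], (.ev, 0)), ([1, 0, 3, 3, 1, 0], (.ev, 0)), ([1, 1, 0, 0, 1, 1], (.ev, 2)), ([0, 0, 0, 0, 1, 0], (.pl 1, 1)), ([0, 0, 0, 0, 0, 0], (.ev, 2))], [1, 1, 1, 1, 0, 1]⟩,
   ⟨[10, 9, 9, 9, 6, 3], 1, [([4, 4, 4, 4, 2, 2], (.ev, 0)), ([4, 4, 2, 2, 1, 1], (.ev, 0)), ([0, 0, 3, 3, 0, 0], (.ev, 2)), ([2, 0, 0, 0, 2, 0], (.ev, 2)), ([0, 0, 0, 0, 0, 0], (.pl 1, 2)), ([0, 1, 0, 0, 1, 0], (.ev, 0))], [1, 1, 1, 1, 0, 1]⟩,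
   ⟨[10, 9, 9, 9, 6, 2], 1, [([4, 4, 4, 4, 2, 2], (.ev, 0)), ([4, 4, 2, 2, 0, 0], (.ev, 2)), ([1, 0, 3, 1, 3, 0], (.ev, 0)), ([1, 1, 0, 1, 1, 0], (.ev, 2)), ([0, 0, 0, 1, 0, 0], (.pl 1, 1)), ([0, 0, 0, 0, 0, 0], (.ev, 2))], [1, 1, 1, 1, 0, 1]⟩,
   ⟨[10, 9, 9, 9, 6, 1], 1, [([4, 4, 2, 2, 1, 1], (.ev, 6)), ([2, 2, 4, 4, 0, 0], (.ev, 2)), ([4, 0, 0, 0, 4, 0], (.ev, 0)), ([0, 2, 2, 1, 1, 0], (.ev, 0)), ([0, 0, 1, 1, 0, 0], (.pl 1, 0)), ([0, 1, 0, 1, 0, 0], (.ev, 0))], [1, 1, 1, 1, 0, 1]⟩,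
   ⟨[10, 9, 9, 9, 5, 5], 1, [([4, 4, 4, 4, 2, 2], (.ev, 0)), ([4, 4, 2, 2, 1, 1], (.ev, 0)), ([1, 0, 3, 3, 1, 0], (.ev, 0)), ([1, 1, 0, 0, 1, 1], (.ev, 2)), ([0, 0, 0, 0, 0, 1], (.pl 1, 1)), ([0, 0, 0, 0, 0, 0], (.ev, 2))], [1, 1, 1, 1, 0, 1]⟩,
   ⟨[10, 9, 9, 9, 5, 4], 1, [([4, 4, 4, 4, 2, 2], (.ev, 0)), ([4, 4, 2, 2, 1, 1], (.ev, 0)), ([1, 0, 3, 3, 1, 0], (.ev, 0)), ([1, 1, 0, 0, 1, 1], (.ev, 2)), ([0, 0, 0, 0, 0, 0], (.pl 1, 2)), ([0, 0, 0, 0, 0, 0], (.ev, 2))], [1, 1, 1, 1, 0, 1]⟩,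
   ⟨[10, 9, 9, 9, 5, 3], 1, [([4, 4, 4, 4, 2, 2], (.ev, 0)), ([4, 4, 2, 2, 1, 1], (.ev, 0)), ([1, 0, 3, 3, 1, 0], (.ev, 0)), ([1, 1, 0, 0, 0, 0], (.ev, 4)), ([0, 0, 0, 0, 1, 0], (.pl 1, 1)), ([0, 0, 0, 0, 0, 0], (.ev, 2))], [1, 1, 1, 1, 0, 1]⟩,
   ⟨[10, 9, 9, 9, 5, 2], 1, [([4, 4, 4, 4, 2, 2], (.ev, 0)), ([4, 4, 2, 2, 0, 0], (.ev, 2)), ([1, 0, 3, 3, 1, 0], (.ev, 0)), ([1, 0, 0, 0, 1, 0], (.ev, 4)), ([0, 0, 0, 0, 0, 0], (.pl 1, 2)), ([0, 1, 0, 0, 1, 0], (.ev, 0))], [1, 1, 1, 1, 0, 1]⟩,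
   ⟨[10, 9, 9, 9, 5, 1], 1, [([4, 4, 2, 2, 1, 1], (.ev, 6)), ([2, 2, 4, 4, 0, 0], (.ev, 2)), ([3, 1, 1, 0, 3, 0], (.ev, 0)), ([1, 2, 1, 2, 0, 0], (.ev, 0)), ([0, 0, 0, 0, 1, 0], (.pl 1, 1)), ([0, 0, 1, 1, 0, 0], (.ev, 0))], [1, 1, 1, 1, 0, 1]⟩,
   ⟨[10, 9, 9, 9, 4, 4], 1, [([4, 4, 4, 4, 2, 2], (.ev, 0)), ([4, 4, 2, 2, 1, 1], (.ev, 0)), ([0, 0, 3, 3, 0, 0], (.ev, 2)), ([1, 1, 0, 0, 1, 1], (.ev, 2)), ([1, 0, 0, 0, 0, 0], (.pl 1, 1)), ([0, 0, 0, 0, 0, 0], (.ev, 2))], [1, 1, 1, 1, 0, 1]⟩,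
   ⟨[10, 9, 9, 9, 4, 3], 1, [([4, 4, 4, 4, 2, 2], (.ev, 0)), ([4, 4, 2, 2, 1, 1], (.ev, 0)), ([1, 1, 3, 3, 0, 0], (.ev, 0)), ([1, 0, 0, 0, 1, 0], (.ev, 4)), ([0, 0, 0, 0, 0, 0], (.pl 1, 2)), ([0, 0, 0, 0, 0, 0], (.ev, 2))], [1, 1, 1, 1, 0, 1]⟩,
   ⟨[10, 9, 9, 9, 3], 2, [([4, 4, 2, 2, 0], (.ev, 8)), ([1, 1, 1, 1, 1], (.pl 1, 3)), ([1, 1, 1, 1, 1], (.pl 1, 1)), ([0, 0, 4, 4, 0], (.ev, 0)), ([3, 3, 0, 0, 0], (.ev, 0)), ([0, 0, 0, 1, 1], (.pl 1, 0)), ([1, 0, 1, 0, 0], (.ev, 0))], [2, 0, 1, 1, 1, 0, 1]⟩,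
   ⟨[10, 9, 9, 8, 8, 4], 1, [([4, 4, 4, 4, 2, 2], (.ev, 0)), ([4, 2, 2, 1, 4, 1], (.ev, 0)), ([1, 3, 3, 1, 0, 0], (.ev, 0)), ([1, 0, 0, 2, 2, 1], (.ev, 0)), ([0, 0, 0, 0, 0, 0], (.pl 1, 2)), ([0, 0, 0, 0, 0, 0], (.ev, 2))], [1, 1, 1, 1, 0, 1]⟩,
   ⟨[10, 9, 9, 8, 8, 3], 1, [([4, 4, 4, 4, 2, 2], (.ev, 0)), ([4, 2, 2, 1, 4, 1], (.ev, 0)), ([1, 3, 3, 1, 0, 0], (.ev, 0)), ([0, 0, 0, 2, 2, 0], (.ev, 2)), ([1, 0, 0, 0, 0, 0], (.pl 1, 1)), ([0, 0, 0, 0, 0, 0], (.ev, 2))], [1, 1, 1, 1, 0, 1]⟩,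
   ⟨[10, 9, 9, 8, 8, 2], 1, [([4, 4, 4, 4, 2, 2], (.ev, 0)), ([4, 2, 2, 0, 4, 0], (.ev, 2)), ([1, 3, 1, 3, 0, 0], (.ev, 0)), ([1, 0, 2, 1, 2, 0], (.ev, 0)), ([0, 0, 0, 0, 0, 0], (.pl 1, 2)), ([0, 0, 0, 0, 0, 0], (.ev, 2))], [1, 1, 1, 1, 0, 1]⟩,
   ⟨[10, 9, 9, 8, 8, 1], 0, [([1, 1, 1, 1, 1, 1], (.pl 1, 5)), ([3, 3, 4, 2, 4, 0], (.pl 4, 1)), ([1, 1, 1, 1, 1, 0], (.pl 1, 1)), ([4, 4, 0, 0, 0, 0], (.ev, 0)), ([0, 0, 3, 3, 0, 0], (.ev, 0)), ([0, 0, 0, 1, 1, 0], (.pl 1, 0)), ([1, 0, 0, 0, 1, 0], (.ev, 0))], [0, 0, 0, 1, 1, 0, 1]⟩,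
   ⟨[10, 9, 9, 8, 7, 5], 1, [([4, 4, 4, 4, 2, 2], (.ev, 0)), ([4, 4, 2, 1, 2, 1], (.ev, 0)), ([1, 0, 3, 3, 1, 0], (.ev, 0)), ([1, 1, 0, 0, 2, 2], (.ev, 0)), ([0, 0, 0, 0, 0, 0], (.pl 1, 2)), ([0, 0, 0, 0, 0, 0], (.ev, 2))], [1, 1, 1, 1, 0, 1]⟩,
   ⟨[10, 9, 9, 8, 7, 4], 1, [([4, 4, 4, 4, 2, 2], (.ev, 0)), ([4, 4, 2, 1, 2, 1], (.ev, 0)), ([1, 0, 3, 3, 1, 0], (.ev, 0)), ([1, 1, 0, 0, 1, 1], (.ev, 2)), ([0, 0, 0, 0, 1, 0], (.pl 1, 1)), ([0, 0, 0, 0, 0, 0], (.ev, 2))], [1, 1, 1, 1, 0, 1]⟩,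
   ⟨[10, 9, 9, 8, 7, 3], 1, [([4, 4, 4, 4, 2, 2], (.ev, 0)), ([4, 4, 2, 1, 2, 1], (.ev, 0)), ([0, 0, 3, 3, 0, 0], (.ev, 2)), ([2, 0, 0, 0, 2, 0], (.ev, 2)), ([0, 0, 0, 0, 0, 0], (.pl 1, 2)), ([0, 1, 0, 0, 1, 0], (.ev, 0))], [1, 1, 1, 1, 0, 1]⟩,
   ⟨[10, 9, 9, 8, 7, 2], 1, [([4, 4, 4, 4, 2, 2], (.ev, 0)), ([4, 4, 2, 0, 2, 0], (.ev, 2)), ([1, 0, 3, 3, 1, 0], (.ev, 0)), ([1, 1, 0, 1, 1, 0], (.ev, 2)), ([0, 0, 0, 0, 1, 0], (.pl 1, 1)), ([0, 0, 0, 0, 0, 0], (.ev, 2))], [1, 1, 1, 1, 0, 1]⟩,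
   ⟨[10, 9, 9, 8, 6, 6], 1, [([4, 4, 4, 4, 2, 2], (.ev, 0)), ([4, 4, 2, 2, 1, 1], (.ev, 0)), ([1, 0, 3, 0, 3, 1], (.ev, 0)), ([1, 1, 0, 2, 0, 2], (.ev, 0)), ([0, 0, 0, 0, 0, 0], (.pl 1, 2)), ([0, 0, 0, 0, 0, 0], (.ev, 2))], [1, 1, 1, 1, 0, 1]⟩,
   ⟨[10, 9, 9, 8, 6, 5], 1, [([4, 4, 4, 4, 2, 2], (.ev, 0)), ([4, 4, 2, 2, 1, 1], (.ev, 0)), ([1, 0, 3, 1, 3, 0], (.ev, 0)), ([1, 1, 0, 1, 0, 1], (.ev, 2)), ([0, 0, 0, 0, 0, 1], (.pl 1, 1)), ([0, 0, 0, 0, 0, 0], (.ev, 2))], [1, 1, 1, 1, 0, 1]⟩,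
   ⟨[10, 9, 9, 8, 6, 4], 1, [([4, 4, 4, 4, 2, 2], (.ev, 0)), ([4, 4, 2, 2, 1, 1], (.ev, 0)), ([1, 0, 3, 1, 3, 0], (.ev, 0)), ([1, 1, 0, 1, 0, 1], (.ev, 2)), ([0, 0, 0, 0, 0, 0], (.pl 1, 2)), ([0, 0, 0, 0, 0, 0], (.ev, 2))], [1, 1, 1, 1, 0, 1]⟩,
   ⟨[10, 9, 9, 8, 6, 3], 1, [([4, 4, 4, 4, 2, 2], (.ev, 0)), ([4, 4, 2, 2, 1, 1], (.ev, 0)), ([1, 0, 3, 1, 3, 0], (.ev, 0)), ([1, 1, 0, 0, 0, 0], (.ev, 4)), ([0, 0, 0, 1, 0, 0], (.pl 1, 1)), ([0, 0, 0, 0, 0, 0], (.ev, 2))], [1, 1, 1, 1, 0, 1]⟩,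
   ⟨[10, 9, 9, 8, 6, 2], 1, [([4, 4, 4, 4, 2, 2], (.ev, 0)), ([4, 4, 2, 2, 0, 0], (.ev, 2)), ([1, 0, 3, 1, 3, 0], (.ev, 0)), ([1, 1, 0, 1, 1, 0], (.ev, 2)), ([0, 0, 0, 0, 0, 0], (.pl 1, 2)), ([0, 0, 0, 0, 0, 0], (.ev, 2))], [1, 1, 1, 1, 0, 1]⟩,
   ⟨[10, 9, 9, 8, 5, 5], 1, [([4, 4, 4, 4, 2, 2], (.ev, 0)), ([4, 4, 2, 2, 1, 1], (.ev, 0)), ([2, 1, 2, 1, 1, 1], (.ev, 0)), ([0, 0, 1, 1, 1, 1], (.ev, 2)), ([0, 0, 0, 0, 0, 0], (.pl 1, 2)), ([0, 0, 0, 0, 0, 0], (.ev, 2))], [1, 1, 1, 1, 0, 1]⟩,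
   ⟨[10, 9, 9, 8, 5, 4], 1, [([4, 4, 4, 4, 2, 2], (.ev, 0)), ([4, 4, 2, 2, 1, 1], (.ev, 0)), ([2, 0, 2, 1, 1, 0], (.ev, 2)), ([0, 1, 1, 1, 1, 0], (.ev, 2)), ([0, 0, 0, 0, 0, 1], (.pl 1, 1)), ([0, 0, 0, 0, 0, 0], (.ev, 2))], [1, 1, 1, 1, 0, 1]⟩,
   ⟨[10, 9, 9, 8, 5, 3], 1, [([4, 4, 4, 4, 2, 2], (.ev, 0)), ([4, 4, 2, 2, 1, 1], (.ev, 0)), ([2, 0, 2, 2, 2, 0], (.ev, 0)), ([0, 1, 1, 0, 0, 0], (.ev, 4)), ([0, 0, 0, 0, 0, 0], (.pl 1, 2)), ([0, 0, 0, 0, 0, 0], (.ev, 2))], [1, 1, 1, 1, 0, 1]⟩,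
   ⟨[10, 9, 9, 8, 4, 4], 1, [([4, 4, 4, 4, 2, 2], (.ev, 0)), ([4, 4, 2, 2, 1, 1], (.ev, 0)), ([2, 1, 2, 1, 0, 0], (.ev, 2)), ([0, 0, 1, 1, 1, 1], (.ev, 2)), ([0, 0, 0, 0, 0, 0], (.pl 1, 2)), ([0, 0, 0, 0, 0, 0], (.ev, 2))], [1, 1, 1, 1, 0, 1]⟩,
   ⟨[10, 9, 9, 8, 4, 3], 1, [([4, 4, 4, 4, 2, 2], (.ev, 0)), ([4, 4, 2, 2, 1, 1], (.ev, 0)), ([2, 1, 2, 1, 0, 0], (.ev, 2)), ([0, 0, 1, 1, 0, 0], (.ev, 4)), ([0, 0, 0, 0, 1, 0], (.pl 1, 1)), ([0, 0, 0, 0, 0, 0], (.ev, 2))], [1, 1, 1, 1, 0, 1]⟩,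
   ⟨[10, 9, 9, 8, 3], 1, [([4, 4, 2, 2, 0], (.ev, 8)), ([4, 2, 4, 2, 0], (.ev, 2)), ([0, 3, 1, 3, 1], (.ev, 0)), ([2, 0, 2, 1, 1], (.ev, 0)), ([0, 0, 0, 0, 1], (.pl 1, 1)), ([0, 0, 0, 0, 0], (.ev, 2))], [2, 1, 1, 1, 1, 1]⟩,
   ⟨[10, 9, 9, 7, 7, 6], 1, [([4, 4, 4, 4, 2, 2], (.ev, 0)), ([4, 4, 2, 1, 2, 1], (.ev, 0)), ([1, 0, 3, 0, 3, 1], (.ev, 0)), ([1, 1, 0, 2, 0, 2], (.ev, 0)), ([0, 0, 0, 0, 0, 0], (.pl 1, 2)), ([0, 0, 0, 0, 0, 0], (.ev, 2))], [1, 1, 1, 1, 0, 1]⟩,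
   ⟨[10, 9, 9, 7, 7, 5], 1, [([4, 4, 4, 4, 2, 2], (.ev, 0)), ([4, 4, 2, 1, 2, 1], (.ev, 0)), ([1, 0, 3, 1, 3, 0], (.ev, 0)), ([1, 1, 0, 1, 0, 1], (.ev, 2)), ([0, 0, 0, 0, 0, 1], (.pl 1, 1)), ([0, 0, 0, 0, 0, 0], (.ev, 2))], [1, 1, 1, 1, 0, 1]⟩,
   ⟨[10, 9, 9, 7, 7, 4], 1, [([4, 4, 4, 4, 2, 2], (.ev, 0)), ([4, 4, 2, 1, 2, 1], (.ev, 0)), ([1, 0, 3, 1, 3, 0], (.ev, 0)), ([1, 1, 0, 1, 0, 1], (.ev, 2)), ([0, 0, 0, 0, 0, 0], (.pl 1, 2)), ([0, 0, 0, 0, 0, 0], (.ev, 2))], [1, 1, 1, 1, 0, 1]⟩,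
   ⟨[10, 9, 9, 7, 7, 3], 1, [([4, 4, 4, 4, 2, 2], (.ev, 0)), ([4, 4, 2, 1, 2, 1], (.ev, 0)), ([1, 0, 3, 1, 3, 0], (.ev, 0)), ([1, 1, 0, 0, 0, 0], (.ev, 4)), ([0, 0, 0, 1, 0, 0], (.pl 1, 1)), ([0, 0, 0, 0, 0, 0], (.ev, 2))], [1, 1, 1, 1, 0, 1]⟩,
   ⟨[10, 9, 9, 7, 7, 2], 1, [([4, 4, 4, 4, 2, 2], (.ev, 0)), ([4, 4, 2, 0, 2, 0], (.ev, 2)), ([1, 0, 3, 3, 1, 0], (.ev, 0)), ([1, 0, 0, 0, 1, 0], (.ev, 4)), ([0, 0, 0, 0, 0, 0], (.pl 1, 2)), ([0, 1, 0, 0, 1, 0], (.ev, 0))], [1, 1, 1, 1, 0, 1]⟩,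
   ⟨[10, 9, 9, 7, 6, 6], 1, [([4, 4, 4, 4, 2, 2], (.ev, 0)), ([4, 4, 2, 1, 2, 1], (.ev, 0)), ([1, 0, 3, 1, 0, 3], (.ev, 0)), ([1, 1, 0, 1, 1, 0], (.ev, 2)), ([0, 0, 0, 0, 1, 0], (.pl 1, 1)), ([0, 0, 0, 0, 0, 0], (.ev, 2))], [1, 1, 1, 1, 0, 1]⟩,
   ⟨[10, 9, 9, 7, 6, 5], 1, [([4, 4, 4, 4, 2, 2], (.ev, 0)), ([4, 4, 2, 1, 2, 1], (.ev, 0)), ([2, 1, 2, 1, 1, 1], (.ev, 0)), ([0, 0, 1, 1, 1, 1], (.ev, 2)), ([0, 0, 0, 0, 0, 0], (.pl 1, 2)), ([0, 0, 0, 0, 0, 0], (.ev, 2))], [1, 1, 1, 1, 0, 1]⟩,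
   ⟨[10, 9, 9, 7, 6, 4], 1, [([4, 4, 4, 4, 2, 2], (.ev, 0)), ([4, 4, 2, 1, 2, 1], (.ev, 0)), ([2, 0, 2, 1, 1, 0], (.ev, 2)), ([0, 1, 1, 1, 1, 0], (.ev, 2)), ([0, 0, 0, 0, 0, 1], (.pl 1, 1)), ([0, 0, 0, 0, 0, 0], (.ev, 2))], [1, 1, 1, 1, 0, 1]⟩,
   ⟨[10, 9, 9, 7, 6, 3], 1, [([4, 4, 4, 4, 2, 2], (.ev, 0)), ([4, 4, 2, 1, 2, 1], (.ev, 0)), ([2, 0, 2, 2, 2, 0], (.ev, 0)), ([0, 1, 1, 0, 0, 0], (.ev, 4)), ([0, 0, 0, 0, 0, 0], (.pl 1, 2)), ([0, 0, 0, 0, 0, 0], (.ev, 2))], [1, 1, 1, 1, 0, 1]⟩,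
   ⟨[10, 9, 9, 7, 5, 5], 1, [([4, 4, 4, 4, 2, 2], (.ev, 0)), ([4, 4, 2, 2, 1, 1], (.ev, 0)), ([2, 0, 2, 0, 1, 1], (.ev, 2)), ([0, 1, 1, 1, 1, 0], (.ev, 2)), ([0, 0, 0, 0, 0, 1], (.pl 1, 1)), ([0, 0, 0, 0, 0, 0], (.ev, 2))], [1, 1, 1, 1, 0, 1]⟩,
   ⟨[10, 9, 9, 7, 5, 4], 1, [([4, 4, 4, 4, 2, 2], (.ev, 0)), ([4, 4, 2, 2, 1, 1], (.ev, 0)), ([2, 1, 2, 0, 1, 0], (.ev, 2)), ([0, 0, 1, 1, 1, 1], (.ev, 2)), ([0, 0, 0, 0, 0, 0], (.pl 1, 2)), ([0, 0, 0, 0, 0, 0], (.ev, 2))], [1, 1, 1, 1, 0, 1]⟩,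
   ⟨[10, 9, 9, 7, 5, 3], 1, [([4, 4, 4, 4, 2, 2], (.ev, 0)), ([4, 4, 2, 2, 1, 1], (.ev, 0)), ([2, 1, 2, 0, 1, 0], (.ev, 2)), ([0, 0, 1, 1, 0, 0], (.ev, 4)), ([0, 0, 0, 0, 1, 0], (.pl 1, 1)), ([0, 0, 0, 0, 0, 0], (.ev, 2))], [1, 1, 1, 1, 0, 1]⟩,
   ⟨[10, 9, 9, 7, 4], 2, [([4, 4, 2, 2, 0], (.ev, 8)), ([1, 1, 1, 1, 1], (.pl 1, 3)), ([1, 1, 1, 1, 1], (.pl 1, 1)), ([4, 0, 4, 0, 0], (.ev, 0)), ([0, 3, 0, 3, 0], (.ev, 0)), ([0, 0, 0, 0, 1], (.pl 1, 1)), ([0, 0, 1, 0, 1], (.ev, 0))], [3, 0, 1, 1, 1, 1, 1]⟩,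
   ⟨[10, 9, 9, 7, 3], 2, [([4, 4, 2, 2, 0], (.ev, 8)), ([1, 1, 1, 1, 1], (.pl 1, 3)), ([1, 1, 1, 1, 1], (.pl 1, 1)), ([4, 0, 4, 0, 0], (.ev, 0)), ([0, 3, 0, 3, 0], (.ev, 0)), ([0, 0, 0, 0, 0], (.pl 1, 2)), ([0, 0, 1, 0, 1], (.ev, 0))], [2, 0, 1, 1, 1, 0, 1]⟩,
   ⟨[10, 9, 9, 6, 6, 6], 1, [([4, 4, 4, 4, 2, 2], (.ev, 0)), ([4, 4, 2, 1, 2, 1], (.ev, 0)), ([1, 0, 3, 0, 1, 3], (.ev, 0)), ([1, 1, 0, 1, 1, 0], (.ev, 2)), ([0, 0, 0, 0, 0, 0], (.pl 1, 2)), ([0, 0, 0, 0, 0, 0], (.ev, 2))], [1, 1, 1, 1, 0, 1]⟩,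
   ⟨[10, 9, 9, 6, 6, 5], 1, [([4, 4, 4, 4, 2, 2], (.ev, 0)), ([4, 4, 2, 1, 2, 1], (.ev, 0)), ([2, 0, 2, 0, 1, 1], (.ev, 2)), ([0, 1, 1, 1, 1, 0], (.ev, 2)), ([0, 0, 0, 0, 0, 1], (.pl 1, 1)), ([0, 0, 0, 0, 0, 0], (.ev, 2))], [1, 1, 1, 1, 0, 1]⟩,
   ⟨[10, 9, 9, 6, 6, 4], 1, [([4, 4, 4, 4, 2, 2], (.ev, 0)), ([4, 4, 2, 1, 2, 1], (.ev, 0)), ([2, 1, 2, 0, 1, 0], (.ev, 2)), ([0, 0, 1, 1, 1, 1], (.ev, 2)), ([0, 0, 0, 0, 0, 0], (.pl 1, 2)), ([0, 0, 0, 0, 0, 0], (.ev, 2))], [1, 1, 1, 1, 0, 1]⟩,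
   ⟨[10, 9, 9, 6, 6, 3], 1, [([4, 4, 4, 4, 2, 2], (.ev, 0)), ([4, 4, 2, 1, 2, 1], (.ev, 0)), ([2, 1, 2, 0, 1, 0], (.ev, 2)), ([0, 0, 1, 1, 0, 0], (.ev, 4)), ([0, 0, 0, 0, 1, 0], (.pl 1, 1)), ([0, 0, 0, 0, 0, 0], (.ev, 2))], [1, 1, 1, 1, 0, 1]⟩,
   ⟨[10, 9, 9, 6, 5, 5], 2, [([4, 4, 4, 4, 2, 2], (.ev, 0)), ([1, 1, 1, 1, 1, 1], (.pl 1, 2)), ([0, 1, 1, 1, 1, 1], (.pl 1, 1)), ([3, 3, 1, 0, 1, 0], (.ev, 0)), ([2, 0, 2, 0, 0, 0], (.ev, 2)), ([0, 0, 0, 0, 0, 1], (.pl 1, 1)), ([0, 0, 0, 0, 0, 0], (.ev, 2))], [1, 0, 0, 1, 1, 0, 1]⟩,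
   ⟨[10, 9, 9, 6, 5, 4], 1, [([4, 4, 4, 4, 2, 2], (.ev, 0)), ([4, 4, 2, 1, 2, 1], (.ev, 0)), ([2, 1, 2, 1, 0, 0], (.ev, 2)), ([0, 0, 1, 0, 1, 0], (.ev, 4)), ([0, 0, 0, 0, 0, 1], (.pl 1, 1)), ([0, 0, 0, 0, 0, 0], (.ev, 2))], [1, 1, 1, 1, 0, 1]⟩]

def cmC_11_8_6_3_3 : List (List ℕ × List (ℕ × ℕ)) :=
  [([10, 10, 7, 6, 6, 4], [(0, 1), (0, 1), (2, 1), (4, 1), (1, 1), (2, 1)]),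
   ([10, 10, 7, 6, 6, 3], [(0, 1), (0, 1), (2, 1), (4, 1), (2, 1), (2, 1)]),
   ([10, 10, 7, 6, 5, 5], [(0, 1), (2, 1), (2, 1), (2, 1), (1, 1), (2, 1)]),
   ([10, 10, 7, 6, 5, 4], [(0, 1), (0, 1), (2, 1), (4, 1), (2, 1), (2, 1)]),
   ([10, 10, 7, 6, 5, 3], [(0, 1), (0, 1), (2, 1), (7, 2), (0, 1), (2, 1)]),
   ([10, 10, 7, 6, 4], [(9, 2), (2, 1), (0, 1), (2, 1), (0, 1), (2, 1)]),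
   ([10, 10, 7, 5], [(9, 2), (4, 1), (3, 1), (0, 1), (2, 1), (0, 1), (2, 1)]),
   ([10, 10, 7, 4], [(9, 2), (2, 1), (4, 1), (4, 1), (0, 1), (2, 1)]),
   ([10, 10, 6, 6, 6, 6], [(0, 1), (2, 1), (1, 1), (0, 1), (2, 1), (1, 1), (2, 1)]),
   ([10, 10, 6, 6, 6, 5], [(0, 1), (2, 1), (2, 1), (2, 1), (1, 1), (2, 1)]),
   ([10, 10, 6, 6, 6, 4], [(0, 1), (0, 1), (2, 1), (4, 1), (2, 1), (2, 1)]),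
   ([10, 10, 6, 6, 6, 3], [(0, 1), (0, 1), (2, 1), (7, 2), (0, 1), (2, 1)]),
   ([10, 10, 6, 6, 5], [(10, 3), (3, 1), (0, 1), (0, 1), (2, 1), (0, 1), (0, 1)]),
   ([10, 10, 6, 6, 4], [(9, 2), (3, 1), (4, 1), (0, 1), (0, 1), (0, 1), (0, 1)]),
   ([10, 10, 6, 5], [(9, 2), (2, 1), (4, 1), (4, 1), (0, 1), (2, 1)]),
   ([10, 10, 6, 4], [(9, 2), (4, 1), (5, 1), (0, 1), (2, 1), (0, 1), (2, 1)]),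
   ([10, 10, 5, 5, 5], [(10, 3), (3, 1), (0, 1), (0, 1), (4, 1), (0, 1), (0, 1)]),
   ([10, 10, 5, 5, 4], [(9, 2), (4, 1), (3, 1), (0, 1), (0, 1), (0, 1), (2, 1)]),
   ([10, 10, 5, 4], [(9, 2), (2, 1), (4, 1), (6, 1), (0, 1), (2, 1)]),
   ([10, 10, 4, 4, 4], [(9, 2), (3, 1), (4, 1), (0, 1), (2, 1), (0, 1), (2, 1)]),
   ([10, 9, 9, 9, 9, 2], [(0, 1), (2, 1), (0, 1), (0, 1), (2, 1), (0, 1)]),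
   ([10, 9, 9, 9, 8, 3], [(0, 1), (0, 1), (0, 1), (0, 1), (2, 1), (2, 1)]),
   ([10, 9, 9, 9, 8, 2], [(0, 1), (2, 1), (0, 1), (0, 1), (1, 1), (2, 1)]),
   ([10, 9, 9, 9, 8, 1], [(5, 1), (0, 4), (1, 1), (0, 1), (0, 1), (0, 1), (0, 1)]),
   ([10, 9, 9, 9, 7, 4], [(0, 1), (0, 1), (0, 1), (2, 1), (2, 1), (0, 1)]),
   ([10, 9, 9, 9, 7, 3], [(0, 1), (0, 1), (0, 1), (2, 1), (1, 1), (2, 1)]),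
   ([10, 9, 9, 9, 7, 2], [(0, 1), (2, 1), (0, 1), (0, 1), (2, 1), (2, 1)]),
   ([10, 9, 9, 9, 7, 1], [(5, 1), (1, 4), (1, 1), (0, 1), (0, 1), (0, 1), (0, 1)]),
   ([10, 9, 9, 9, 6, 5], [(0, 1), (0, 1), (0, 1), (0, 1), (2, 1), (2, 1)]),
   ([10, 9, 9, 9, 6, 4], [(0, 1), (0, 1), (0, 1), (2, 1), (1, 1), (2, 1)]),
   ([10, 9, 9, 9, 6, 3], [(0, 1), (0, 1), (2, 1), (2, 1), (2, 1), (0, 1)]),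
   ([10, 9, 9, 9, 6, 2], [(0, 1), (2, 1), (0, 1), (2, 1), (1, 1), (2, 1)]),
   ([10, 9, 9, 9, 6, 1], [(6, 1), (2, 1), (0, 1), (0, 1), (0, 1), (0, 1)]),
   ([10, 9, 9, 9, 5, 5], [(0, 1), (0, 1), (0, 1), (2, 1), (1, 1), (2, 1)]),
   ([10, 9, 9, 9, 5, 4], [(0, 1), (0, 1), (0, 1), (2, 1), (2, 1), (2, 1)]),
   ([10, 9, 9, 9, 5, 3], [(0, 1), (0, 1), (0, 1), (4, 1), (1, 1), (2, 1)]),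
   ([10, 9, 9, 9, 5, 2], [(0, 1), (2, 1), (0, 1), (4, 1), (2, 1), (0, 1)]),
   ([10, 9, 9, 9, 5, 1], [(6, 1), (2, 1), (0, 1), (0, 1), (1, 1), (0, 1)]),
   ([10, 9, 9, 9, 4, 4], [(0, 1), (0, 1), (2, 1), (2, 1), (1, 1), (2, 1)]),
   ([10, 9, 9, 9, 4, 3], [(0, 1), (0, 1), (0, 1), (4, 1), (2, 1), (2, 1)]),
   ([10, 9, 9, 9, 3], [(9, 2), (3, 1), (0, 1), (0, 1), (0, 1), (0, 1), (0, 1)]),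
   ([10, 9, 9, 8, 8, 4], [(0, 1), (0, 1), (0, 1), (0, 1), (2, 1), (2, 1)]),
   ([10, 9, 9, 8, 8, 3], [(0, 1), (0, 1), (0, 1), (2, 1), (1, 1), (2, 1)]),
   ([10, 9, 9, 8, 8, 2], [(0, 1), (2, 1), (0, 1), (0, 1), (2, 1), (2, 1)]),
   ([10, 9, 9, 8, 8, 1], [(5, 1), (1, 4), (1, 1), (0, 1), (0, 1), (0, 1), (0, 1)]),
   ([10, 9, 9, 8, 7, 5], [(0, 1), (0, 1), (0, 1), (0, 1), (2, 1), (2, 1)]),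
   ([10, 9, 9, 8, 7, 4], [(0, 1), (0, 1), (0, 1), (2, 1), (1, 1), (2, 1)]),
   ([10, 9, 9, 8, 7, 3], [(0, 1), (0, 1), (2, 1), (2, 1), (2, 1), (0, 1)]),
   ([10, 9, 9, 8, 7, 2], [(0, 1), (2, 1), (0, 1), (2, 1), (1, 1), (2, 1)]),
   ([10, 9, 9, 8, 6, 6], [(0, 1), (0, 1), (0, 1), (0, 1), (2, 1), (2, 1)]),
   ([10, 9, 9, 8, 6, 5], [(0, 1), (0, 1), (0, 1), (2, 1), (1, 1), (2, 1)]),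
   ([10, 9, 9, 8, 6, 4], [(0, 1), (0, 1), (0, 1), (2, 1), (2, 1), (2, 1)]),
   ([10, 9, 9, 8, 6, 3], [(0, 1), (0, 1), (0, 1), (4, 1), (1, 1), (2, 1)]),
   ([10, 9, 9, 8, 6, 2], [(0, 1), (2, 1), (0, 1), (2, 1), (2, 1), (2, 1)]),
   ([10, 9, 9, 8, 5, 5], [(0, 1), (0, 1), (0, 1), (2, 1), (2, 1), (2, 1)]),
   ([10, 9, 9, 8, 5, 4], [(0, 1), (0, 1), (2, 1), (2, 1), (1, 1), (2, 1)]),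
   ([10, 9, 9, 8, 5, 3], [(0, 1), (0, 1), (0, 1), (4, 1), (2, 1), (2, 1)]),
   ([10, 9, 9, 8, 4, 4], [(0, 1), (0, 1), (2, 1), (2, 1), (2, 1), (2, 1)]),
   ([10, 9, 9, 8, 4, 3], [(0, 1), (0, 1), (2, 1), (4, 1), (1, 1), (2, 1)]),
   ([10, 9, 9, 8, 3], [(9, 2), (2, 1), (0, 1), (0, 1), (0, 1), (2, 1)]),
   ([10, 9, 9, 7, 7, 6], [(0, 1), (0, 1), (0, 1), (0, 1), (2, 1), (2, 1)]),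
   ([10, 9, 9, 7, 7, 5], [(0, 1), (0, 1), (0, 1), (2, 1), (1, 1), (2, 1)]),
   ([10, 9, 9, 7, 7, 4], [(0, 1), (0, 1), (0, 1), (2, 1), (2, 1), (2, 1)]),
   ([10, 9, 9, 7, 7, 3], [(0, 1), (0, 1), (0, 1), (4, 1), (1, 1), (2, 1)]),
   ([10, 9, 9, 7, 7, 2], [(0, 1), (2, 1), (0, 1), (4, 1), (2, 1), (0, 1)]),
   ([10, 9, 9, 7, 6, 6], [(0, 1), (0, 1), (0, 1), (2, 1), (1, 1), (2, 1)]),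
   ([10, 9, 9, 7, 6, 5], [(0, 1), (0, 1), (0, 1), (2, 1), (2, 1), (2, 1)]),
   ([10, 9, 9, 7, 6, 4], [(0, 1), (0, 1), (2, 1), (2, 1), (1, 1), (2, 1)]),
   ([10, 9, 9, 7, 6, 3], [(0, 1), (0, 1), (0, 1), (4, 1), (2, 1), (2, 1)]),
   ([10, 9, 9, 7, 5, 5], [(0, 1), (0, 1), (2, 1), (2, 1), (1, 1), (2, 1)]),
   ([10, 9, 9, 7, 5, 4], [(0, 1), (0, 1), (2, 1), (2, 1), (2, 1), (2, 1)]),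
   ([10, 9, 9, 7, 5, 3], [(0, 1), (0, 1), (2, 1), (4, 1), (1, 1), (2, 1)]),
   ([10, 9, 9, 7, 4], [(10, 3), (3, 1), (0, 1), (0, 1), (0, 1), (0, 1), (0, 1)]),
   ([10, 9, 9, 7, 3], [(9, 2), (3, 1), (0, 1), (0, 1), (0, 1), (2, 1), (0, 1)]),
   ([10, 9, 9, 6, 6, 6], [(0, 1), (0, 1), (0, 1), (2, 1), (2, 1), (2, 1)]),
   ([10, 9, 9, 6, 6, 5], [(0, 1), (0, 1), (2, 1), (2, 1), (1, 1), (2, 1)]),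
   ([10, 9, 9, 6, 6, 4], [(0, 1), (0, 1), (2, 1), (2, 1), (2, 1), (2, 1)]),
   ([10, 9, 9, 6, 6, 3], [(0, 1), (0, 1), (2, 1), (4, 1), (1, 1), (2, 1)]),
   ([10, 9, 9, 6, 5, 5], [(0, 1), (2, 1), (1, 1), (0, 1), (2, 1), (1, 1), (2, 1)]),
   ([10, 9, 9, 6, 5, 4], [(0, 1), (0, 1), (2, 1), (4, 1), (1, 1), (2, 1)])]

def cm_11_8_6_3_4 : List CM :=
  [⟨[10, 9, 9, 6, 5, 3], 1, [([4, 4, 4, 4, 2, 2], (.ev, 0)), ([4, 4, 2, 1, 2, 1], (.ev, 0)), ([2, 1, 2, 1, 0, 0], (.ev, 2)), ([0, 0, 1, 0, 1, 0], (.ev, 4)), ([0, 0, 0, 0, 0, 0], (.pl 1, 2)), ([0, 0, 0, 0, 0, 0], (.ev, 2))], [1, 1, 1, 1, 0, 1]⟩,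
   ⟨[10, 9, 9, 6, 4, 4], 1, [([4, 4, 4, 4, 2, 2], (.ev, 0)), ([4, 4, 2, 2, 1, 1], (.ev, 0)), ([2, 1, 2, 0, 1, 0], (.ev, 2)), ([0, 0, 1, 0, 0, 1], (.ev, 4)), ([0, 0, 0, 0, 0, 0], (.pl 1, 2)), ([0, 0, 0, 0, 0, 0], (.ev, 2))], [1, 1, 1, 1, 0, 1]⟩,
   ⟨[10, 9, 9, 6, 4, 3], 1, [([4, 4, 4, 4, 2, 2], (.ev, 0)), ([4, 4, 2, 2, 1, 1], (.ev, 0)), ([2, 1, 2, 0, 1, 0], (.ev, 2)), ([0, 0, 0, 0, 0, 0], (.ev, 6)), ([0, 0, 1, 0, 0, 0], (.pl 1, 1)), ([0, 0, 0, 0, 0, 0], (.ev, 2))], [1, 1, 1, 2, 1, 1]⟩,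
   ⟨[10, 9, 9, 6, 3], 1, [([4, 4, 2, 2, 0], (.ev, 8)), ([4, 2, 4, 2, 0], (.ev, 2)), ([1, 3, 3, 0, 1], (.ev, 0)), ([0, 0, 0, 2, 2], (.ev, 2)), ([1, 0, 0, 0, 0], (.pl 1, 1)), ([0, 0, 0, 0, 0], (.ev, 2))], [2, 1, 1, 1, 1, 1]⟩,
   ⟨[10, 9, 9, 5], 1, [([4, 4, 2, 2], (.ev, 8)), ([4, 2, 4, 2], (.ev, 2)), ([0, 3, 3, 0], (.ev, 2)), ([1, 0, 0, 1], (.ev, 4)), ([1, 0, 0, 0], (.pl 1, 1)), ([0, 0, 0, 0], (.ev, 2))], [2, 1, 1, 1, 1, 1]⟩,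
   ⟨[10, 9, 9, 4], 2, [([4, 4, 2, 2], (.ev, 8)), ([1, 1, 1, 1], (.pl 1, 4)), ([0, 1, 0, 0], (.pl 1, 5)), ([4, 0, 4, 0], (.ev, 0)), ([1, 2, 2, 1], (.ev, 0)), ([0, 1, 0, 0], (.pl 1, 1)), ([0, 0, 0, 0], (.ev, 2))], [2, 0, 0, 1, 1, 1, 1]⟩,
   ⟨[10, 9, 8, 8, 8, 5], 1, [([4, 4, 4, 4, 2, 2], (.ev, 0)), ([4, 2, 2, 1, 4, 1], (.ev, 0)), ([1, 3, 1, 3, 0, 0], (.ev, 0)), ([1, 0, 1, 0, 2, 2], (.ev, 0)), ([0, 0, 0, 0, 0, 0], (.pl 1, 2)), ([0, 0, 0, 0, 0, 0], (.ev, 2))], [1, 1, 1, 1, 0, 1]⟩,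
   ⟨[10, 9, 8, 8, 8, 4], 1, [([4, 4, 4, 4, 2, 2], (.ev, 0)), ([4, 2, 2, 1, 4, 1], (.ev, 0)), ([1, 3, 1, 3, 0, 0], (.ev, 0)), ([1, 0, 1, 0, 1, 1], (.ev, 2)), ([0, 0, 0, 0, 1, 0], (.pl 1, 1)), ([0, 0, 0, 0, 0, 0], (.ev, 2))], [1, 1, 1, 1, 0, 1]⟩,
   ⟨[10, 9, 8, 8, 8, 3], 1, [([4, 4, 4, 4, 2, 2], (.ev, 0)), ([4, 2, 2, 1, 4, 1], (.ev, 0)), ([1, 2, 1, 2, 0, 0], (.ev, 2)), ([1, 1, 1, 0, 1, 0], (.ev, 2)), ([0, 0, 0, 0, 0, 0], (.pl 1, 2)), ([0, 0, 0, 1, 1, 0], (.ev, 0))], [1, 1, 1, 1, 0, 1]⟩,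
   ⟨[10, 9, 8, 8, 8, 2], 1, [([4, 4, 4, 4, 2, 2], (.ev, 0)), ([4, 2, 2, 0, 4, 0], (.ev, 2)), ([1, 3, 1, 3, 0, 0], (.ev, 0)), ([1, 0, 1, 1, 1, 0], (.ev, 2)), ([0, 0, 0, 0, 1, 0], (.pl 1, 1)), ([0, 0, 0, 0, 0, 0], (.ev, 2))], [1, 1, 1, 1, 0, 1]⟩,
   ⟨[10, 9, 8, 8, 7, 6], 1, [([4, 4, 4, 4, 2, 2], (.ev, 0)), ([4, 4, 2, 1, 2, 1], (.ev, 0)), ([1, 0, 0, 3, 3, 1], (.ev, 0)), ([1, 1, 2, 0, 0, 2], (.ev, 0)), ([0, 0, 0, 0, 0, 0], (.pl 1, 2)), ([0, 0, 0, 0, 0, 0], (.ev, 2))], [1, 1, 1, 1, 0, 1]⟩,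
   ⟨[10, 9, 8, 8, 7, 5], 1, [([4, 4, 4, 4, 2, 2], (.ev, 0)), ([4, 4, 2, 1, 2, 1], (.ev, 0)), ([1, 0, 1, 3, 3, 0], (.ev, 0)), ([1, 1, 1, 0, 0, 1], (.ev, 2)), ([0, 0, 0, 0, 0, 1], (.pl 1, 1)), ([0, 0, 0, 0, 0, 0], (.ev, 2))], [1, 1, 1, 1, 0, 1]⟩,
   ⟨[10, 9, 8, 8, 7, 4], 1, [([4, 4, 4, 4, 2, 2], (.ev, 0)), ([4, 4, 2, 1, 2, 1], (.ev, 0)), ([1, 0, 1, 3, 3, 0], (.ev, 0)), ([1, 1, 1, 0, 0, 1], (.ev, 2)), ([0, 0, 0, 0, 0, 0], (.pl 1, 2)), ([0, 0, 0, 0, 0, 0], (.ev, 2))], [1, 1, 1, 1, 0, 1]⟩,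
   ⟨[10, 9, 8, 8, 7, 3], 1, [([4, 4, 4, 4, 2, 2], (.ev, 0)), ([4, 4, 2, 1, 2, 1], (.ev, 0)), ([1, 0, 1, 3, 3, 0], (.ev, 0)), ([1, 1, 0, 0, 0, 0], (.ev, 4)), ([0, 0, 1, 0, 0, 0], (.pl 1, 1)), ([0, 0, 0, 0, 0, 0], (.ev, 2))], [1, 1, 1, 1, 0, 1]⟩,
   ⟨[10, 9, 8, 8, 7, 2], 1, [([4, 4, 4, 4, 2, 2], (.ev, 0)), ([4, 4, 2, 0, 2, 0], (.ev, 2)), ([1, 0, 1, 3, 3, 0], (.ev, 0)), ([1, 1, 1, 1, 0, 0], (.ev, 2)), ([0, 0, 0, 0, 0, 0], (.pl 1, 2)), ([0, 0, 0, 0, 0, 0], (.ev, 2))], [1, 1, 1, 1, 0, 1]⟩,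
   ⟨[10, 9, 8, 8, 6, 6], 1, [([4, 4, 4, 4, 2, 2], (.ev, 0)), ([4, 4, 2, 2, 1, 1], (.ev, 0)), ([1, 0, 1, 0, 3, 3], (.ev, 0)), ([1, 1, 1, 1, 0, 0], (.ev, 2)), ([0, 0, 0, 1, 0, 0], (.pl 1, 1)), ([0, 0, 0, 0, 0, 0], (.ev, 2))], [1, 1, 1, 1, 0, 1]⟩,
   ⟨[10, 9, 8, 8, 6, 5], 1, [([4, 4, 4, 4, 2, 2], (.ev, 0)), ([4, 4, 2, 2, 1, 1], (.ev, 0)), ([2, 1, 1, 1, 2, 1], (.ev, 0)), ([0, 0, 1, 1, 1, 1], (.ev, 2)), ([0, 0, 0, 0, 0, 0], (.pl 1, 2)), ([0, 0, 0, 0, 0, 0], (.ev, 2))], [1, 1, 1, 1, 0, 1]⟩,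
   ⟨[10, 9, 8, 8, 6, 4], 1, [([4, 4, 4, 4, 2, 2], (.ev, 0)), ([4, 4, 2, 2, 1, 1], (.ev, 0)), ([2, 0, 1, 1, 2, 0], (.ev, 2)), ([0, 1, 1, 1, 1, 0], (.ev, 2)), ([0, 0, 0, 0, 0, 1], (.pl 1, 1)), ([0, 0, 0, 0, 0, 0], (.ev, 2))], [1, 1, 1, 1, 0, 1]⟩,
   ⟨[10, 9, 8, 8, 6, 3], 1, [([4, 4, 4, 4, 2, 2], (.ev, 0)), ([4, 4, 2, 2, 1, 1], (.ev, 0)), ([2, 0, 2, 2, 2, 0], (.ev, 0)), ([0, 1, 0, 0, 1, 0], (.ev, 4)), ([0, 0, 0, 0, 0, 0], (.pl 1, 2)), ([0, 0, 0, 0, 0, 0], (.ev, 2))], [1, 1, 1, 1, 0, 1]⟩,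
   ⟨[10, 9, 8, 8, 5, 5], 1, [([4, 4, 4, 4, 2, 2], (.ev, 0)), ([4, 4, 2, 2, 1, 1], (.ev, 0)), ([2, 0, 2, 1, 1, 0], (.ev, 2)), ([0, 1, 0, 1, 1, 1], (.ev, 2)), ([0, 0, 0, 0, 0, 1], (.pl 1, 1)), ([0, 0, 0, 0, 0, 0], (.ev, 2))], [1, 1, 1, 1, 0, 1]⟩,
   ⟨[10, 9, 8, 8, 5, 4], 1, [([4, 4, 4, 4, 2, 2], (.ev, 0)), ([4, 4, 2, 2, 1, 1], (.ev, 0)), ([2, 0, 2, 1, 1, 0], (.ev, 2)), ([0, 1, 0, 1, 1, 1], (.ev, 2)), ([0, 0, 0, 0, 0, 0], (.pl 1, 2)), ([0, 0, 0, 0, 0, 0], (.ev, 2))], [1, 1, 1, 1, 0, 1]⟩,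
   ⟨[10, 9, 8, 8, 5, 3], 1, [([4, 4, 4, 4, 2, 2], (.ev, 0)), ([4, 4, 2, 2, 1, 1], (.ev, 0)), ([2, 0, 2, 2, 2, 0], (.ev, 0)), ([0, 0, 0, 0, 0, 0], (.ev, 6)), ([0, 1, 0, 0, 0, 0], (.pl 1, 1)), ([0, 0, 0, 0, 0, 0], (.ev, 2))], [1, 1, 1, 2, 1, 1]⟩,
   ⟨[10, 9, 8, 8, 4], 2, [([4, 4, 2, 2, 0], (.ev, 8)), ([1, 1, 1, 1, 1], (.pl 1, 3)), ([1, 1, 1, 1, 1], (.pl 1, 1)), ([4, 0, 4, 0, 0], (.ev, 0)), ([0, 3, 0, 3, 0], (.ev, 0)), ([0, 0, 0, 0, 1], (.pl 1, 1)), ([0, 0, 0, 1, 1], (.ev, 0))], [3, 0, 1, 1, 1, 1, 1]⟩,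
   ⟨[10, 9, 8, 8, 3], 2, [([4, 4, 2, 2, 0], (.ev, 8)), ([1, 1, 1, 1, 1], (.pl 1, 3)), ([1, 1, 1, 1, 1], (.pl 1, 1)), ([4, 0, 4, 0, 0], (.ev, 0)), ([0, 3, 0, 3, 0], (.ev, 0)), ([0, 0, 0, 0, 0], (.pl 1, 2)), ([0, 0, 0, 1, 1], (.ev, 0))], [2, 0, 1, 1, 1, 0, 1]⟩,
   ⟨[10, 9, 8, 7, 7, 7], 1, [([4, 4, 4, 4, 2, 2], (.ev, 0)), ([4, 4, 1, 1, 2, 2], (.ev, 0)), ([1, 0, 3, 0, 3, 1], (.ev, 0)), ([1, 1, 0, 2, 0, 2], (.ev, 0)), ([0, 0, 0, 0, 0, 0], (.pl 1, 2)), ([0, 0, 0, 0, 0, 0], (.ev, 2))], [1, 1, 1, 1, 0, 1]⟩,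
   ⟨[10, 9, 8, 7, 7, 6], 1, [([4, 4, 4, 4, 2, 2], (.ev, 0)), ([4, 4, 2, 1, 2, 1], (.ev, 0)), ([1, 0, 1, 0, 3, 3], (.ev, 0)), ([1, 1, 1, 1, 0, 0], (.ev, 2)), ([0, 0, 0, 1, 0, 0], (.pl 1, 1)), ([0, 0, 0, 0, 0, 0], (.ev, 2))], [1, 1, 1, 1, 0, 1]⟩,
   ⟨[10, 9, 8, 7, 7, 5], 1, [([4, 4, 4, 4, 2, 2], (.ev, 0)), ([4, 4, 2, 1, 2, 1], (.ev, 0)), ([2, 1, 1, 1, 2, 1], (.ev, 0)), ([0, 0, 1, 1, 1, 1], (.ev, 2)), ([0, 0, 0, 0, 0, 0], (.pl 1, 2)), ([0, 0, 0, 0, 0, 0], (.ev, 2))], [1, 1, 1, 1, 0, 1]⟩,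
   ⟨[10, 9, 8, 7, 7, 4], 1, [([4, 4, 4, 4, 2, 2], (.ev, 0)), ([4, 4, 2, 1, 2, 1], (.ev, 0)), ([2, 0, 1, 1, 2, 0], (.ev, 2)), ([0, 1, 1, 1, 1, 0], (.ev, 2)), ([0, 0, 0, 0, 0, 1], (.pl 1, 1)), ([0, 0, 0, 0, 0, 0], (.ev, 2))], [1, 1, 1, 1, 0, 1]⟩,
   ⟨[10, 9, 8, 7, 7, 3], 1, [([4, 4, 4, 4, 2, 2], (.ev, 0)), ([4, 4, 2, 1, 2, 1], (.ev, 0)), ([2, 0, 2, 2, 2, 0], (.ev, 0)), ([0, 1, 0, 0, 1, 0], (.ev, 4)), ([0, 0, 0, 0, 0, 0], (.pl 1, 2)), ([0, 0, 0, 0, 0, 0], (.ev, 2))], [1, 1, 1, 1, 0, 1]⟩,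
   ⟨[10, 9, 8, 7, 6, 6], 1, [([4, 4, 4, 4, 2, 2], (.ev, 0)), ([4, 4, 2, 1, 2, 1], (.ev, 0)), ([2, 1, 1, 1, 1, 2], (.ev, 0)), ([0, 0, 1, 1, 1, 1], (.ev, 2)), ([0, 0, 0, 0, 0, 0], (.pl 1, 2)), ([0, 0, 0, 0, 0, 0], (.ev, 2))], [1, 1, 1, 1, 0, 1]⟩,
   ⟨[10, 9, 8, 7, 6, 5], 1, [([4, 4, 4, 4, 2, 2], (.ev, 0)), ([4, 4, 2, 1, 2, 1], (.ev, 0)), ([2, 0, 2, 1, 1, 0], (.ev, 2)), ([0, 1, 0, 1, 1, 1], (.ev, 2)), ([0, 0, 0, 0, 0, 1], (.pl 1, 1)), ([0, 0, 0, 0, 0, 0], (.ev, 2))], [1, 1, 1, 1, 0, 1]⟩,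
   ⟨[10, 9, 8, 7, 6, 4], 1, [([4, 4, 4, 4, 2, 2], (.ev, 0)), ([4, 4, 2, 1, 2, 1], (.ev, 0)), ([2, 0, 2, 1, 1, 0], (.ev, 2)), ([0, 1, 0, 1, 1, 1], (.ev, 2)), ([0, 0, 0, 0, 0, 0], (.pl 1, 2)), ([0, 0, 0, 0, 0, 0], (.ev, 2))], [1, 1, 1, 1, 0, 1]⟩,
   ⟨[10, 9, 8, 7, 6, 3], 1, [([4, 4, 4, 4, 2, 2], (.ev, 0)), ([4, 4, 2, 1, 2, 1], (.ev, 0)), ([2, 0, 2, 2, 2, 0], (.ev, 0)), ([0, 0, 0, 0, 0, 0], (.ev, 6)), ([0, 1, 0, 0, 0, 0], (.pl 1, 1)), ([0, 0, 0, 0, 0, 0], (.ev, 2))], [1, 1, 1, 2, 1, 1]⟩,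
   ⟨[10, 9, 8, 7, 5, 5], 2, [([4, 4, 4, 4, 2, 2], (.ev, 0)), ([1, 1, 1, 1, 1, 1], (.pl 1, 2)), ([1, 0, 1, 1, 1, 1], (.pl 1, 1)), ([4, 4, 0, 0, 0, 0], (.ev, 0)), ([0, 0, 1, 1, 1, 1], (.ev, 2)), ([0, 0, 1, 0, 0, 0], (.pl 1, 1)), ([0, 0, 0, 0, 0, 0], (.ev, 2))], [1, 0, 0, 1, 1, 0, 1]⟩,
   ⟨[10, 9, 8, 7, 5, 4], 1, [([4, 4, 4, 4, 2, 2], (.ev, 0)), ([4, 4, 2, 2, 1, 1], (.ev, 0)), ([2, 1, 2, 0, 1, 0], (.ev, 2)), ([0, 0, 0, 1, 1, 0], (.ev, 4)), ([0, 0, 0, 0, 0, 1], (.pl 1, 1)), ([0, 0, 0, 0, 0, 0], (.ev, 2))], [1, 1, 1, 1, 0, 1]⟩,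
   ⟨[10, 9, 8, 7, 5, 3], 1, [([4, 4, 4, 4, 2, 2], (.ev, 0)), ([4, 4, 2, 2, 1, 1], (.ev, 0)), ([2, 1, 2, 0, 1, 0], (.ev, 2)), ([0, 0, 0, 1, 1, 0], (.ev, 4)), ([0, 0, 0, 0, 0, 0], (.pl 1, 2)), ([0, 0, 0, 0, 0, 0], (.ev, 2))], [1, 1, 1, 1, 0, 1]⟩,
   ⟨[10, 9, 8, 7, 4, 4], 1, [([4, 4, 4, 4, 2, 2], (.ev, 0)), ([4, 4, 2, 2, 1, 1], (.ev, 0)), ([2, 1, 2, 1, 0, 0], (.ev, 2)), ([0, 0, 0, 0, 1, 1], (.ev, 4)), ([0, 0, 0, 0, 0, 0], (.pl 1, 2)), ([0, 0, 0, 0, 0, 0], (.ev, 2))], [1, 1, 1, 1, 0, 1]⟩,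
   ⟨[10, 9, 8, 7, 4, 3], 1, [([4, 4, 4, 4, 2, 2], (.ev, 0)), ([4, 4, 2, 2, 1, 1], (.ev, 0)), ([2, 1, 2, 1, 0, 0], (.ev, 2)), ([0, 0, 0, 0, 0, 0], (.ev, 6)), ([0, 0, 0, 0, 1, 0], (.pl 1, 1)), ([0, 0, 0, 0, 0, 0], (.ev, 2))], [1, 1, 1, 2, 1, 1]⟩,
   ⟨[10, 9, 8, 7, 3], 1, [([4, 4, 2, 2, 0], (.ev, 8)), ([4, 2, 4, 2, 0], (.ev, 2)), ([1, 3, 0, 3, 1], (.ev, 0)), ([0, 0, 2, 0, 2], (.ev, 2)), ([1, 0, 0, 0, 0], (.pl 1, 1)), ([0, 0, 0, 0, 0], (.ev, 2))], [2, 1, 1, 1, 1, 1]⟩,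
   ⟨[10, 9, 8, 6, 6, 6], 1, [([4, 4, 4, 4, 2, 2], (.ev, 0)), ([4, 4, 2, 1, 2, 1], (.ev, 0)), ([2, 0, 1, 0, 1, 2], (.ev, 2)), ([0, 1, 1, 1, 1, 0], (.ev, 2)), ([0, 0, 0, 0, 0, 1], (.pl 1, 1)), ([0, 0, 0, 0, 0, 0], (.ev, 2))], [1, 1, 1, 1, 0, 1]⟩,
   ⟨[10, 9, 8, 6, 6, 5], 2, [([4, 4, 4, 4, 2, 2], (.ev, 0)), ([1, 1, 1, 1, 1, 1], (.pl 1, 2)), ([1, 0, 1, 1, 1, 1], (.pl 1, 1)), ([4, 4, 0, 0, 0, 0], (.ev, 0)), ([0, 0, 2, 0, 2, 0], (.ev, 2)), ([0, 0, 0, 0, 0, 1], (.pl 1, 1)), ([0, 0, 0, 0, 0, 0], (.ev, 2))], [1, 0, 0, 1, 1, 0, 1]⟩,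
   ⟨[10, 9, 8, 6, 6, 4], 1, [([4, 4, 4, 4, 2, 2], (.ev, 0)), ([4, 4, 2, 1, 2, 1], (.ev, 0)), ([2, 1, 2, 0, 1, 0], (.ev, 2)), ([0, 0, 0, 1, 1, 0], (.ev, 4)), ([0, 0, 0, 0, 0, 1], (.pl 1, 1)), ([0, 0, 0, 0, 0, 0], (.ev, 2))], [1, 1, 1, 1, 0, 1]⟩,
   ⟨[10, 9, 8, 6, 6, 3], 1, [([4, 4, 4, 4, 2, 2], (.ev, 0)), ([4, 4, 2, 1, 2, 1], (.ev, 0)), ([2, 1, 2, 0, 1, 0], (.ev, 2)), ([0, 0, 0, 1, 1, 0], (.ev, 4)), ([0, 0, 0, 0, 0, 0], (.pl 1, 2)), ([0, 0, 0, 0, 0, 0], (.ev, 2))], [1, 1, 1, 1, 0, 1]⟩,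
   ⟨[10, 9, 8, 6, 5, 5], 1, [([4, 4, 4, 4, 2, 2], (.ev, 0)), ([4, 4, 2, 0, 2, 0], (.ev, 2)), ([2, 0, 1, 1, 0, 2], (.ev, 2)), ([0, 1, 1, 1, 1, 0], (.ev, 2)), ([0, 0, 0, 0, 0, 1], (.pl 1, 1)), ([0, 0, 0, 0, 0, 0], (.ev, 2))], [1, 1, 1, 1, 0, 1]⟩,
   ⟨[10, 9, 8, 6, 5, 4], 1, [([4, 4, 4, 4, 2, 2], (.ev, 0)), ([4, 4, 2, 1, 2, 1], (.ev, 0)), ([2, 1, 2, 1, 0, 0], (.ev, 2)), ([0, 0, 0, 0, 1, 1], (.ev, 4)), ([0, 0, 0, 0, 0, 0], (.pl 1, 2)), ([0, 0, 0, 0, 0, 0], (.ev, 2))], [1, 1, 1, 1, 0, 1]⟩,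
   ⟨[10, 9, 8, 6, 5, 3], 1, [([4, 4, 4, 4, 2, 2], (.ev, 0)), ([4, 4, 2, 1, 2, 1], (.ev, 0)), ([2, 1, 2, 1, 0, 0], (.ev, 2)), ([0, 0, 0, 0, 0, 0], (.ev, 6)), ([0, 0, 0, 0, 1, 0], (.pl 1, 1)), ([0, 0, 0, 0, 0, 0], (.ev, 2))], [1, 1, 1, 2, 1, 1]⟩,
   ⟨[10, 9, 8, 6, 4], 1, [([4, 4, 2, 2, 0], (.ev, 8)), ([4, 2, 4, 2, 0], (.ev, 2)), ([1, 3, 1, 0, 3], (.ev, 0)), ([1, 0, 1, 1, 1], (.ev, 2)), ([0, 0, 0, 1, 0], (.pl 1, 1)), ([0, 0, 0, 0, 0], (.ev, 2))], [2, 1, 1, 1, 1, 1]⟩,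
   ⟨[10, 9, 8, 5], 2, [([4, 4, 2, 2], (.ev, 8)), ([1, 1, 1, 1], (.pl 1, 4)), ([1, 1, 1, 0], (.pl 1, 3)), ([4, 0, 4, 0], (.ev, 0)), ([0, 2, 0, 2], (.ev, 2)), ([0, 1, 0, 0], (.pl 1, 1)), ([0, 0, 0, 0], (.ev, 2))], [2, 0, 0, 1, 1, 1, 1]⟩,
   ⟨[10, 9, 8, 4], 1, [([4, 4, 2, 2], (.ev, 8)), ([4, 2, 4, 2], (.ev, 2)), ([2, 2, 0, 0], (.ev, 4)), ([0, 1, 1, 0], (.ev, 4)), ([0, 0, 1, 0], (.pl 1, 1)), ([0, 0, 0, 0], (.ev, 2))], [2, 1, 1, 1, 1, 1]⟩,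
   ⟨[10, 9, 7, 7, 7, 7], 1, [([4, 4, 4, 4, 2, 2], (.ev, 0)), ([4, 4, 1, 1, 2, 2], (.ev, 0)), ([1, 0, 1, 0, 3, 3], (.ev, 0)), ([1, 1, 1, 1, 0, 0], (.ev, 2)), ([0, 0, 0, 1, 0, 0], (.pl 1, 1)), ([0, 0, 0, 0, 0, 0], (.ev, 2))], [1, 1, 1, 1, 0, 1]⟩,
   ⟨[10, 9, 7, 7, 7, 6], 1, [([4, 4, 4, 4, 2, 2], (.ev, 0)), ([4, 4, 1, 1, 2, 2], (.ev, 0)), ([2, 1, 1, 1, 2, 1], (.ev, 0)), ([0, 0, 1, 1, 1, 1], (.ev, 2)), ([0, 0, 0, 0, 0, 0], (.pl 1, 2)), ([0, 0, 0, 0, 0, 0], (.ev, 2))], [1, 1, 1, 1, 0, 1]⟩,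
   ⟨[10, 9, 7, 7, 7, 5], 1, [([4, 4, 4, 4, 2, 2], (.ev, 0)), ([4, 4, 2, 1, 2, 1], (.ev, 0)), ([2, 0, 0, 1, 2, 1], (.ev, 2)), ([0, 1, 1, 1, 1, 0], (.ev, 2)), ([0, 0, 0, 0, 0, 1], (.pl 1, 1)), ([0, 0, 0, 0, 0, 0], (.ev, 2))], [1, 1, 1, 1, 0, 1]⟩,
   ⟨[10, 9, 7, 7, 7, 4], 1, [([4, 4, 4, 4, 2, 2], (.ev, 0)), ([4, 4, 2, 1, 2, 1], (.ev, 0)), ([2, 1, 0, 1, 2, 0], (.ev, 2)), ([0, 0, 1, 1, 1, 1], (.ev, 2)), ([0, 0, 0, 0, 0, 0], (.pl 1, 2)), ([0, 0, 0, 0, 0, 0], (.ev, 2))], [1, 1, 1, 1, 0, 1]⟩,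
   ⟨[10, 9, 7, 7, 7, 3], 1, [([4, 4, 4, 4, 2, 2], (.ev, 0)), ([4, 4, 2, 1, 2, 1], (.ev, 0)), ([2, 1, 0, 1, 2, 0], (.ev, 2)), ([0, 0, 1, 1, 0, 0], (.ev, 4)), ([0, 0, 0, 0, 1, 0], (.pl 1, 1)), ([0, 0, 0, 0, 0, 0], (.ev, 2))], [1, 1, 1, 1, 0, 1]⟩,
   ⟨[10, 9, 7, 7, 6, 6], 1, [([4, 4, 4, 4, 2, 2], (.ev, 0)), ([4, 4, 1, 1, 2, 2], (.ev, 0)), ([2, 0, 2, 1, 1, 0], (.ev, 2)), ([0, 1, 0, 1, 1, 1], (.ev, 2)), ([0, 0, 0, 0, 0, 1], (.pl 1, 1)), ([0, 0, 0, 0, 0, 0], (.ev, 2))], [1, 1, 1, 1, 0, 1]⟩,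
   ⟨[10, 9, 7, 7, 6, 5], 2, [([4, 4, 4, 4, 2, 2], (.ev, 0)), ([1, 1, 1, 1, 1, 1], (.pl 1, 2)), ([1, 0, 1, 1, 1, 1], (.pl 1, 1)), ([4, 4, 0, 0, 0, 0], (.ev, 0)), ([0, 0, 1, 1, 1, 1], (.ev, 2)), ([0, 0, 0, 0, 1, 0], (.pl 1, 1)), ([0, 0, 0, 0, 0, 0], (.ev, 2))], [1, 0, 0, 1, 1, 0, 1]⟩,
   ⟨[10, 9, 7, 7, 6, 4], 1, [([4, 4, 4, 4, 2, 2], (.ev, 0)), ([4, 4, 2, 1, 2, 1], (.ev, 0)), ([2, 1, 0, 2, 1, 0], (.ev, 2)), ([0, 0, 1, 0, 1, 0], (.ev, 4)), ([0, 0, 0, 0, 0, 1], (.pl 1, 1)), ([0, 0, 0, 0, 0, 0], (.ev, 2))], [1, 1, 1, 1, 0, 1]⟩,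
   ⟨[10, 9, 7, 7, 6, 3], 1, [([4, 4, 4, 4, 2, 2], (.ev, 0)), ([4, 4, 2, 1, 2, 1], (.ev, 0)), ([2, 1, 0, 2, 1, 0], (.ev, 2)), ([0, 0, 1, 0, 1, 0], (.ev, 4)), ([0, 0, 0, 0, 0, 0], (.pl 1, 2)), ([0, 0, 0, 0, 0, 0], (.ev, 2))], [1, 1, 1, 1, 0, 1]⟩,
   ⟨[10, 9, 7, 7, 5, 5], 1, [([4, 4, 4, 4, 2, 2], (.ev, 0)), ([4, 4, 2, 2, 0, 0], (.ev, 2)), ([0, 0, 0, 0, 3, 3], (.ev, 2)), ([1, 1, 1, 1, 0, 0], (.ev, 2)), ([1, 0, 0, 0, 0, 0], (.pl 1, 1)), ([0, 0, 0, 0, 0, 0], (.ev, 2))], [1, 1, 1, 1, 0, 1]⟩,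
   ⟨[10, 9, 7, 7, 5, 4], 1, [([4, 4, 4, 4, 2, 2], (.ev, 0)), ([4, 4, 2, 2, 1, 1], (.ev, 0)), ([2, 1, 1, 0, 2, 0], (.ev, 2)), ([0, 0, 0, 1, 0, 1], (.ev, 4)), ([0, 0, 0, 0, 0, 0], (.pl 1, 2)), ([0, 0, 0, 0, 0, 0], (.ev, 2))], [1, 1, 1, 1, 0, 1]⟩,
   ⟨[10, 9, 7, 7, 5, 3], 1, [([4, 4, 4, 4, 2, 2], (.ev, 0)), ([4, 4, 2, 2, 1, 1], (.ev, 0)), ([2, 1, 1, 0, 2, 0], (.ev, 2)), ([0, 0, 0, 0, 0, 0], (.ev, 6)), ([0, 0, 0, 1, 0, 0], (.pl 1, 1)), ([0, 0, 0, 0, 0, 0], (.ev, 2))], [1, 1, 1, 2, 1, 1]⟩,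
   ⟨[10, 9, 7, 7, 4], 1, [([4, 4, 2, 2, 0], (.ev, 8)), ([4, 4, 2, 2, 0], (.ev, 2)), ([1, 0, 3, 1, 3], (.ev, 0)), ([1, 1, 0, 1, 1], (.ev, 2)), ([0, 0, 0, 1, 0], (.pl 1, 1)), ([0, 0, 0, 0, 0], (.ev, 2))], [2, 1, 1, 1, 1, 1]⟩,
   ⟨[10, 9, 7, 6, 6, 6], 2, [([4, 4, 4, 4, 2, 2], (.ev, 0)), ([1, 1, 1, 1, 1, 1], (.pl 1, 2)), ([1, 0, 1, 1, 1, 1], (.pl 1, 1)), ([4, 4, 0, 0, 0, 0], (.ev, 0)), ([0, 0, 0, 0, 2, 2], (.ev, 2)), ([0, 0, 1, 0, 0, 0], (.pl 1, 1)), ([0, 0, 0, 0, 0, 0], (.ev, 2))], [1, 0, 0, 1, 1, 0, 1]⟩,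
   ⟨[10, 9, 7, 6, 6, 5], 1, [([4, 4, 4, 4, 2, 2], (.ev, 0)), ([4, 4, 2, 0, 2, 0], (.ev, 2)), ([2, 0, 0, 1, 1, 2], (.ev, 2)), ([0, 1, 1, 1, 1, 0], (.ev, 2)), ([0, 0, 0, 0, 0, 1], (.pl 1, 1)), ([0, 0, 0, 0, 0, 0], (.ev, 2))], [1, 1, 1, 1, 0, 1]⟩,
   ⟨[10, 9, 7, 6, 6, 4], 1, [([4, 4, 4, 4, 2, 2], (.ev, 0)), ([4, 4, 2, 1, 2, 1], (.ev, 0)), ([2, 1, 1, 0, 2, 0], (.ev, 2)), ([0, 0, 0, 1, 0, 1], (.ev, 4)), ([0, 0, 0, 0, 0, 0], (.pl 1, 2)), ([0, 0, 0, 0, 0, 0], (.ev, 2))], [1, 1, 1, 1, 0, 1]⟩,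
   ⟨[10, 9, 7, 6, 6, 3], 1, [([4, 4, 4, 4, 2, 2], (.ev, 0)), ([4, 4, 2, 1, 2, 1], (.ev, 0)), ([2, 1, 1, 0, 2, 0], (.ev, 2)), ([0, 0, 0, 0, 0, 0], (.ev, 6)), ([0, 0, 0, 1, 0, 0], (.pl 1, 1)), ([0, 0, 0, 0, 0, 0], (.ev, 2))], [1, 1, 1, 2, 1, 1]⟩,
   ⟨[10, 9, 7, 6, 5], 2, [([4, 4, 2, 2, 0], (.ev, 8)), ([1, 1, 1, 1, 1], (.pl 1, 3)), ([1, 1, 1, 1, 1], (.pl 1, 1)), ([3, 3, 1, 0, 1], (.ev, 0)), ([1, 0, 2, 2, 1], (.ev, 0)), ([0, 0, 0, 0, 1], (.pl 1, 1)), ([0, 0, 0, 0, 0], (.ev, 2))], [3, 0, 1, 1, 1, 1, 1]⟩,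
   ⟨[10, 9, 7, 6, 4], 2, [([4, 4, 2, 2, 0], (.ev, 8)), ([1, 1, 1, 1, 1], (.pl 1, 3)), ([0, 0, 1, 0, 1], (.pl 1, 4)), ([4, 4, 0, 0, 0], (.ev, 0)), ([0, 0, 3, 3, 0], (.ev, 0)), ([0, 0, 0, 0, 1], (.pl 1, 1)), ([1, 0, 0, 0, 1], (.ev, 0))], [2, 0, 0, 1, 1, 1, 1]⟩,
   ⟨[10, 9, 7, 5], 1, [([4, 4, 2, 2], (.ev, 8)), ([4, 4, 2, 2], (.ev, 2)), ([2, 0, 2, 0], (.ev, 4)), ([0, 1, 1, 0], (.ev, 4)), ([0, 0, 0, 1], (.pl 1, 1)), ([0, 0, 0, 0], (.ev, 2))], [2, 1, 1, 1, 1, 1]⟩,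
   ⟨[10, 9, 7, 4], 2, [([4, 4, 2, 2], (.ev, 8)), ([0, 0, 1, 1], (.pl 1, 6)), ([0, 0, 1, 0], (.pl 1, 5)), ([4, 4, 0, 0], (.ev, 0)), ([2, 1, 2, 1], (.ev, 0)), ([0, 0, 1, 0], (.pl 1, 1)), ([0, 0, 0, 0], (.ev, 2))], [2, 0, 0, 1, 1, 1, 1]⟩,
   ⟨[10, 9, 6, 6, 6, 6, 6], 1, [([4, 4, 4, 4, 2, 2, 0], (.ev, 0)), ([4, 2, 1, 0, 2, 1, 4], (.ev, 0)), ([1, 3, 0, 1, 0, 3, 0], (.ev, 0)), ([1, 0, 1, 0, 2, 0, 2], (.ev, 0)), ([0, 0, 0, 1, 0, 0, 0], (.pl 1, 1)), ([0, 0, 0, 0, 0, 0, 0], (.ev, 2))], [1, 1, 1, 1, 0, 1]⟩,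
   ⟨[10, 9, 6, 6, 6, 6, 5], 1, [([4, 4, 4, 4, 2, 2, 0], (.ev, 0)), ([4, 4, 1, 0, 2, 1, 2], (.ev, 0)), ([1, 0, 0, 1, 0, 3, 3], (.ev, 0)), ([1, 1, 1, 0, 1, 0, 0], (.ev, 2)), ([0, 0, 0, 0, 0, 0, 0], (.pl 1, 2)), ([0, 0, 0, 1, 1, 0, 0], (.ev, 0))], [1, 1, 1, 1, 0, 1]⟩,
   ⟨[10, 9, 6, 6, 6, 6, 4], 1, [([4, 4, 4, 4, 2, 2, 0], (.ev, 0)), ([4, 4, 1, 0, 2, 2, 1], (.ev, 0)), ([2, 0, 0, 2, 2, 0, 2], (.ev, 0)), ([0, 1, 1, 0, 0, 1, 1], (.ev, 2)), ([0, 0, 0, 0, 0, 1, 0], (.pl 1, 1)), ([0, 0, 0, 0, 0, 0, 0], (.ev, 2))], [1, 1, 1, 1, 0, 1]⟩,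
   ⟨[10, 9, 6, 6, 6, 6, 3], 1, [([4, 4, 4, 4, 2, 2, 0], (.ev, 0)), ([4, 4, 1, 0, 2, 2, 1], (.ev, 0)), ([2, 1, 0, 2, 1, 1, 1], (.ev, 0)), ([0, 0, 1, 0, 1, 1, 1], (.ev, 2)), ([0, 0, 0, 0, 0, 0, 0], (.pl 1, 2)), ([0, 0, 0, 0, 0, 0, 0], (.ev, 2))], [1, 1, 1, 1, 0, 1]⟩,
   ⟨[10, 9, 6, 6, 6, 5], 1, [([4, 4, 4, 4, 2, 2], (.ev, 0)), ([4, 4, 0, 0, 2, 2], (.ev, 2)), ([2, 0, 2, 1, 1, 0], (.ev, 2)), ([0, 1, 0, 1, 1, 1], (.ev, 2)), ([0, 0, 0, 0, 0, 0], (.pl 1, 2)), ([0, 0, 0, 0, 0, 0], (.ev, 2))], [1, 1, 1, 1, 0, 1]⟩,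
   ⟨[10, 9, 6, 6, 6, 4], 1, [([4, 4, 4, 4, 2, 2], (.ev, 0)), ([4, 4, 2, 1, 2, 1], (.ev, 0)), ([2, 1, 0, 1, 2, 0], (.ev, 2)), ([0, 0, 0, 0, 0, 0], (.ev, 6)), ([0, 0, 0, 0, 0, 1], (.pl 1, 1)), ([0, 0, 0, 0, 0, 0], (.ev, 2))], [1, 1, 1, 2, 1, 1]⟩,
   ⟨[10, 9, 6, 6, 6, 3], 1, [([4, 4, 4, 4, 2, 2], (.ev, 0)), ([4, 4, 2, 1, 2, 1], (.ev, 0)), ([2, 0, 0, 0, 2, 0], (.ev, 4)), ([0, 1, 0, 1, 0, 0], (.ev, 4)), ([0, 0, 0, 0, 0, 0], (.pl 1, 2)), ([0, 0, 0, 0, 0, 0], (.ev, 2))], [1, 1, 1, 1, 0, 1]⟩,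
   ⟨[10, 9, 6, 6, 5, 5], 1, [([4, 4, 4, 4, 2, 2], (.ev, 0)), ([4, 4, 0, 0, 2, 2], (.ev, 2)), ([2, 1, 2, 1, 0, 0], (.ev, 2)), ([0, 0, 0, 1, 1, 0], (.ev, 4)), ([0, 0, 0, 0, 0, 1], (.pl 1, 1)), ([0, 0, 0, 0, 0, 0], (.ev, 2))], [1, 1, 1, 1, 0, 1]⟩,
   ⟨[10, 9, 6, 6, 5, 4], 1, [([4, 4, 4, 4, 2, 2], (.ev, 0)), ([4, 4, 2, 0, 2, 0], (.ev, 2)), ([2, 1, 0, 2, 0, 1], (.ev, 2)), ([0, 0, 0, 0, 1, 1], (.ev, 4)), ([0, 0, 0, 0, 0, 0], (.pl 1, 2)), ([0, 0, 0, 0, 0, 0], (.ev, 2))], [1, 1, 1, 1, 0, 1]⟩,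
   ⟨[10, 9, 6, 6, 4], 1, [([4, 4, 2, 2, 0], (.ev, 8)), ([4, 4, 2, 2, 0], (.ev, 2)), ([2, 0, 2, 2, 2], (.ev, 0)), ([0, 1, 0, 0, 1], (.ev, 4)), ([0, 0, 0, 0, 1], (.pl 1, 1)), ([0, 0, 0, 0, 0], (.ev, 2))], [2, 1, 1, 1, 1, 1]⟩]

def cmC_11_8_6_3_4 : List (List ℕ × List (ℕ × ℕ)) :=
  [([10, 9, 9, 6, 5, 3], [(0, 1), (0, 1), (2, 1), (4, 1), (2, 1), (2, 1)]),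
   ([10, 9, 9, 6, 4, 4], [(0, 1), (0, 1), (2, 1), (4, 1), (2, 1), (2, 1)]),
   ([10, 9, 9, 6, 4, 3], [(0, 1), (0, 1), (2, 1), (7, 2), (0, 1), (2, 1)]),
   ([10, 9, 9, 6, 3], [(9, 2), (2, 1), (0, 1), (2, 1), (0, 1), (2, 1)]),
   ([10, 9, 9, 5], [(9, 2), (2, 1), (2, 1), (4, 1), (0, 1), (2, 1)]),
   ([10, 9, 9, 4], [(9, 2), (4, 1), (5, 1), (0, 1), (0, 1), (0, 1), (2, 1)]),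
   ([10, 9, 8, 8, 8, 5], [(0, 1), (0, 1), (0, 1), (0, 1), (2, 1), (2, 1)]),
   ([10, 9, 8, 8, 8, 4], [(0, 1), (0, 1), (0, 1), (2, 1), (1, 1), (2, 1)]),
   ([10, 9, 8, 8, 8, 3], [(0, 1), (0, 1), (2, 1), (2, 1), (2, 1), (0, 1)]),
   ([10, 9, 8, 8, 8, 2], [(0, 1), (2, 1), (0, 1), (2, 1), (1, 1), (2, 1)]),
   ([10, 9, 8, 8, 7, 6], [(0, 1), (0, 1), (0, 1), (0, 1), (2, 1), (2, 1)]),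
   ([10, 9, 8, 8, 7, 5], [(0, 1), (0, 1), (0, 1), (2, 1), (1, 1), (2, 1)]),
   ([10, 9, 8, 8, 7, 4], [(0, 1), (0, 1), (0, 1), (2, 1), (2, 1), (2, 1)]),
   ([10, 9, 8, 8, 7, 3], [(0, 1), (0, 1), (0, 1), (4, 1), (1, 1), (2, 1)]),
   ([10, 9, 8, 8, 7, 2], [(0, 1), (2, 1), (0, 1), (2, 1), (2, 1), (2, 1)]),
   ([10, 9, 8, 8, 6, 6], [(0, 1), (0, 1), (0, 1), (2, 1), (1, 1), (2, 1)]),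
   ([10, 9, 8, 8, 6, 5], [(0, 1), (0, 1), (0, 1), (2, 1), (2, 1), (2, 1)]),
   ([10, 9, 8, 8, 6, 4], [(0, 1), (0, 1), (2, 1), (2, 1), (1, 1), (2, 1)]),
   ([10, 9, 8, 8, 6, 3], [(0, 1), (0, 1), (0, 1), (4, 1), (2, 1), (2, 1)]),
   ([10, 9, 8, 8, 5, 5], [(0, 1), (0, 1), (2, 1), (2, 1), (1, 1), (2, 1)]),
   ([10, 9, 8, 8, 5, 4], [(0, 1), (0, 1), (2, 1), (2, 1), (2, 1), (2, 1)]),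
   ([10, 9, 8, 8, 5, 3], [(0, 1), (0, 1), (0, 1), (7, 2), (0, 1), (2, 1)]),
   ([10, 9, 8, 8, 4], [(10, 3), (3, 1), (0, 1), (0, 1), (0, 1), (0, 1), (0, 1)]),
   ([10, 9, 8, 8, 3], [(9, 2), (3, 1), (0, 1), (0, 1), (0, 1), (2, 1), (0, 1)]),
   ([10, 9, 8, 7, 7, 7], [(0, 1), (0, 1), (0, 1), (0, 1), (2, 1), (2, 1)]),
   ([10, 9, 8, 7, 7, 6], [(0, 1), (0, 1), (0, 1), (2, 1), (1, 1), (2, 1)]),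
   ([10, 9, 8, 7, 7, 5], [(0, 1), (0, 1), (0, 1), (2, 1), (2, 1), (2, 1)]),
   ([10, 9, 8, 7, 7, 4], [(0, 1), (0, 1), (2, 1), (2, 1), (1, 1), (2, 1)]),
   ([10, 9, 8, 7, 7, 3], [(0, 1), (0, 1), (0, 1), (4, 1), (2, 1), (2, 1)]),
   ([10, 9, 8, 7, 6, 6], [(0, 1), (0, 1), (0, 1), (2, 1), (2, 1), (2, 1)]),
   ([10, 9, 8, 7, 6, 5], [(0, 1), (0, 1), (2, 1), (2, 1), (1, 1), (2, 1)]),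
   ([10, 9, 8, 7, 6, 4], [(0, 1), (0, 1), (2, 1), (2, 1), (2, 1), (2, 1)]),
   ([10, 9, 8, 7, 6, 3], [(0, 1), (0, 1), (0, 1), (7, 2), (0, 1), (2, 1)]),
   ([10, 9, 8, 7, 5, 5], [(0, 1), (2, 1), (1, 1), (0, 1), (2, 1), (1, 1), (2, 1)]),
   ([10, 9, 8, 7, 5, 4], [(0, 1), (0, 1), (2, 1), (4, 1), (1, 1), (2, 1)]),
   ([10, 9, 8, 7, 5, 3], [(0, 1), (0, 1), (2, 1), (4, 1), (2, 1), (2, 1)]),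
   ([10, 9, 8, 7, 4, 4], [(0, 1), (0, 1), (2, 1), (4, 1), (2, 1), (2, 1)]),
   ([10, 9, 8, 7, 4, 3], [(0, 1), (0, 1), (2, 1), (7, 2), (0, 1), (2, 1)]),
   ([10, 9, 8, 7, 3], [(9, 2), (2, 1), (0, 1), (2, 1), (0, 1), (2, 1)]),
   ([10, 9, 8, 6, 6, 6], [(0, 1), (0, 1), (2, 1), (2, 1), (1, 1), (2, 1)]),
   ([10, 9, 8, 6, 6, 5], [(0, 1), (2, 1), (1, 1), (0, 1), (2, 1), (1, 1), (2, 1)]),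
   ([10, 9, 8, 6, 6, 4], [(0, 1), (0, 1), (2, 1), (4, 1), (1, 1), (2, 1)]),
   ([10, 9, 8, 6, 6, 3], [(0, 1), (0, 1), (2, 1), (4, 1), (2, 1), (2, 1)]),
   ([10, 9, 8, 6, 5, 5], [(0, 1), (2, 1), (2, 1), (2, 1), (1, 1), (2, 1)]),
   ([10, 9, 8, 6, 5, 4], [(0, 1), (0, 1), (2, 1), (4, 1), (2, 1), (2, 1)]),
   ([10, 9, 8, 6, 5, 3], [(0, 1), (0, 1), (2, 1), (7, 2), (0, 1), (2, 1)]),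
   ([10, 9, 8, 6, 4], [(9, 2), (2, 1), (0, 1), (2, 1), (0, 1), (2, 1)]),
   ([10, 9, 8, 5], [(9, 2), (4, 1), (3, 1), (0, 1), (2, 1), (0, 1), (2, 1)]),
   ([10, 9, 8, 4], [(9, 2), (2, 1), (4, 1), (4, 1), (0, 1), (2, 1)]),
   ([10, 9, 7, 7, 7, 7], [(0, 1), (0, 1), (0, 1), (2, 1), (1, 1), (2, 1)]),
   ([10, 9, 7, 7, 7, 6], [(0, 1), (0, 1), (0, 1), (2, 1), (2, 1), (2, 1)]),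
   ([10, 9, 7, 7, 7, 5], [(0, 1), (0, 1), (2, 1), (2, 1), (1, 1), (2, 1)]),
   ([10, 9, 7, 7, 7, 4], [(0, 1), (0, 1), (2, 1), (2, 1), (2, 1), (2, 1)]),
   ([10, 9, 7, 7, 7, 3], [(0, 1), (0, 1), (2, 1), (4, 1), (1, 1), (2, 1)]),
   ([10, 9, 7, 7, 6, 6], [(0, 1), (0, 1), (2, 1), (2, 1), (1, 1), (2, 1)]),
   ([10, 9, 7, 7, 6, 5], [(0, 1), (2, 1), (1, 1), (0, 1), (2, 1), (1, 1), (2, 1)]),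
   ([10, 9, 7, 7, 6, 4], [(0, 1), (0, 1), (2, 1), (4, 1), (1, 1), (2, 1)]),
   ([10, 9, 7, 7, 6, 3], [(0, 1), (0, 1), (2, 1), (4, 1), (2, 1), (2, 1)]),
   ([10, 9, 7, 7, 5, 5], [(0, 1), (2, 1), (2, 1), (2, 1), (1, 1), (2, 1)]),
   ([10, 9, 7, 7, 5, 4], [(0, 1), (0, 1), (2, 1), (4, 1), (2, 1), (2, 1)]),
   ([10, 9, 7, 7, 5, 3], [(0, 1), (0, 1), (2, 1), (7, 2), (0, 1), (2, 1)]),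
   ([10, 9, 7, 7, 4], [(9, 2), (2, 1), (0, 1), (2, 1), (0, 1), (2, 1)]),
   ([10, 9, 7, 6, 6, 6], [(0, 1), (2, 1), (1, 1), (0, 1), (2, 1), (1, 1), (2, 1)]),
   ([10, 9, 7, 6, 6, 5], [(0, 1), (2, 1), (2, 1), (2, 1), (1, 1), (2, 1)]),
   ([10, 9, 7, 6, 6, 4], [(0, 1), (0, 1), (2, 1), (4, 1), (2, 1), (2, 1)]),
   ([10, 9, 7, 6, 6, 3], [(0, 1), (0, 1), (2, 1), (7, 2), (0, 1), (2, 1)]),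
   ([10, 9, 7, 6, 5], [(10, 3), (3, 1), (0, 1), (0, 1), (0, 1), (0, 1), (2, 1)]),
   ([10, 9, 7, 6, 4], [(9, 2), (3, 1), (4, 1), (0, 1), (0, 1), (0, 1), (0, 1)]),
   ([10, 9, 7, 5], [(9, 2), (2, 1), (4, 1), (4, 1), (0, 1), (2, 1)]),
   ([10, 9, 7, 4], [(9, 2), (6, 1), (5, 1), (0, 1), (0, 1), (0, 1), (2, 1)]),
   ([10, 9, 6, 6, 6, 6, 6], [(0, 1), (0, 1), (0, 1), (0, 1), (1, 1), (2, 1)]),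
   ([10, 9, 6, 6, 6, 6, 5], [(0, 1), (0, 1), (0, 1), (2, 1), (2, 1), (0, 1)]),
   ([10, 9, 6, 6, 6, 6, 4], [(0, 1), (0, 1), (0, 1), (2, 1), (1, 1), (2, 1)]),
   ([10, 9, 6, 6, 6, 6, 3], [(0, 1), (0, 1), (0, 1), (2, 1), (2, 1), (2, 1)]),
   ([10, 9, 6, 6, 6, 5], [(0, 1), (2, 1), (2, 1), (2, 1), (2, 1), (2, 1)]),
   ([10, 9, 6, 6, 6, 4], [(0, 1), (0, 1), (2, 1), (7, 2), (0, 1), (2, 1)]),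
   ([10, 9, 6, 6, 6, 3], [(0, 1), (0, 1), (4, 1), (4, 1), (2, 1), (2, 1)]),
   ([10, 9, 6, 6, 5, 5], [(0, 1), (2, 1), (2, 1), (4, 1), (1, 1), (2, 1)]),
   ([10, 9, 6, 6, 5, 4], [(0, 1), (2, 1), (2, 1), (4, 1), (2, 1), (2, 1)]),
   ([10, 9, 6, 6, 4], [(9, 2), (2, 1), (0, 1), (4, 1), (0, 1), (2, 1)])]

def cm_11_8_6_3_5 : List CM :=
  [⟨[10, 9, 6, 5], 2, [([4, 4, 2, 2], (.ev, 8)), ([1, 0, 1, 1], (.pl 1, 5)), ([0, 0, 1, 1], (.pl 1, 4)), ([4, 4, 0, 0], (.ev, 0)), ([1, 1, 1, 1], (.ev, 2)), ([0, 0, 1, 0], (.pl 1, 1)), ([0, 0, 0, 0], (.ev, 2))], [2, 0, 0, 1, 1, 1, 1]⟩,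
   ⟨[10, 9, 6, 4], 1, [([4, 4, 2, 2], (.ev, 8)), ([4, 4, 2, 2], (.ev, 2)), ([2, 0, 2, 0], (.ev, 4)), ([0, 0, 0, 0], (.ev, 6)), ([0, 1, 0, 0], (.pl 1, 1)), ([0, 0, 0, 0], (.ev, 2))], [2, 1, 1, 1, 1, 1]⟩,
   ⟨[10, 9, 5, 5], 1, [([4, 4, 2, 2], (.ev, 8)), ([4, 4, 2, 2], (.ev, 2)), ([1, 1, 1, 1], (.ev, 4)), ([0, 0, 0, 0], (.ev, 6)), ([1, 0, 0, 0], (.pl 1, 1)), ([0, 0, 0, 0], (.ev, 2))], [2, 1, 1, 1, 1, 1]⟩,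
   ⟨[10, 9, 5, 4], 2, [([4, 4, 2, 2], (.ev, 8)), ([1, 1, 1, 1], (.pl 1, 4)), ([1, 0, 1, 1], (.pl 1, 3)), ([4, 4, 0, 0], (.ev, 0)), ([0, 0, 0, 0], (.ev, 6)), ([0, 0, 1, 0], (.pl 1, 1)), ([0, 0, 0, 0], (.ev, 2))], [2, 0, 0, 1, 1, 1, 1]⟩,
   ⟨[10, 8, 8, 8, 8, 6], 1, [([4, 4, 4, 4, 2, 2], (.ev, 0)), ([4, 2, 2, 1, 4, 1], (.ev, 0)), ([1, 1, 0, 3, 0, 3], (.ev, 0)), ([1, 1, 2, 0, 2, 0], (.ev, 0)), ([0, 0, 0, 0, 0, 0], (.pl 1, 2)), ([0, 0, 0, 0, 0, 0], (.ev, 2))], [1, 1, 1, 1, 0, 1]⟩,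
   ⟨[10, 8, 8, 8, 8, 5], 1, [([4, 4, 4, 4, 2, 2], (.ev, 0)), ([4, 2, 2, 1, 4, 1], (.ev, 0)), ([2, 2, 2, 2, 0, 0], (.ev, 0)), ([0, 0, 0, 0, 2, 2], (.ev, 2)), ([0, 0, 0, 1, 0, 0], (.pl 1, 1)), ([0, 0, 0, 0, 0, 0], (.ev, 2))], [1, 1, 1, 1, 0, 1]⟩,
   ⟨[10, 8, 8, 8, 8, 4], 1, [([4, 4, 4, 4, 2, 2], (.ev, 0)), ([4, 2, 2, 1, 4, 1], (.ev, 0)), ([2, 1, 1, 2, 1, 1], (.ev, 0)), ([0, 1, 1, 1, 1, 0], (.ev, 2)), ([0, 0, 0, 0, 0, 0], (.pl 1, 2)), ([0, 0, 0, 0, 0, 0], (.ev, 2))], [1, 1, 1, 1, 0, 1]⟩,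
   ⟨[10, 8, 8, 8, 8, 3], 1, [([4, 4, 4, 4, 2, 2], (.ev, 0)), ([4, 2, 2, 1, 4, 1], (.ev, 0)), ([2, 2, 2, 2, 0, 0], (.ev, 0)), ([0, 0, 0, 1, 1, 0], (.ev, 4)), ([0, 0, 0, 0, 1, 0], (.pl 1, 1)), ([0, 0, 0, 0, 0, 0], (.ev, 2))], [1, 1, 1, 1, 0, 1]⟩,
   ⟨[10, 8, 8, 8, 8, 2], 1, [([4, 4, 4, 4, 2, 2], (.ev, 0)), ([4, 2, 2, 0, 4, 0], (.ev, 2)), ([2, 2, 2, 2, 0, 0], (.ev, 0)), ([0, 0, 0, 2, 2, 0], (.ev, 2)), ([0, 0, 0, 0, 0, 0], (.pl 1, 2)), ([0, 0, 0, 0, 0, 0], (.ev, 2))], [1, 1, 1, 1, 0, 1]⟩,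
   ⟨[10, 8, 8, 8, 7, 7], 1, [([4, 4, 4, 4, 2, 2], (.ev, 0)), ([4, 2, 1, 1, 4, 2], (.ev, 0)), ([1, 0, 3, 3, 0, 1], (.ev, 0)), ([1, 2, 0, 0, 1, 2], (.ev, 0)), ([0, 0, 0, 0, 0, 0], (.pl 1, 2)), ([0, 0, 0, 0, 0, 0], (.ev, 2))], [1, 1, 1, 1, 0, 1]⟩,
   ⟨[10, 8, 8, 8, 7, 6], 1, [([4, 4, 4, 4, 2, 2], (.ev, 0)), ([4, 2, 2, 1, 4, 1], (.ev, 0)), ([1, 1, 0, 3, 0, 3], (.ev, 0)), ([1, 1, 1, 0, 1, 0], (.ev, 2)), ([0, 0, 1, 0, 0, 0], (.pl 1, 1)), ([0, 0, 0, 0, 0, 0], (.ev, 2))], [1, 1, 1, 1, 0, 1]⟩,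
   ⟨[10, 8, 8, 8, 7, 5], 1, [([4, 4, 4, 4, 2, 2], (.ev, 0)), ([4, 2, 2, 1, 4, 1], (.ev, 0)), ([2, 1, 1, 2, 1, 1], (.ev, 0)), ([0, 1, 1, 1, 0, 1], (.ev, 2)), ([0, 0, 0, 0, 0, 0], (.pl 1, 2)), ([0, 0, 0, 0, 0, 0], (.ev, 2))], [1, 1, 1, 1, 0, 1]⟩,
   ⟨[10, 8, 8, 8, 7, 4], 1, [([4, 4, 4, 4, 2, 2], (.ev, 0)), ([4, 2, 2, 1, 4, 1], (.ev, 0)), ([2, 1, 1, 2, 0, 0], (.ev, 2)), ([0, 1, 1, 1, 1, 0], (.ev, 2)), ([0, 0, 0, 0, 0, 1], (.pl 1, 1)), ([0, 0, 0, 0, 0, 0], (.ev, 2))], [1, 1, 1, 1, 0, 1]⟩,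
   ⟨[10, 8, 8, 8, 7, 3], 1, [([4, 4, 4, 4, 2, 2], (.ev, 0)), ([4, 2, 2, 1, 4, 1], (.ev, 0)), ([2, 2, 2, 2, 0, 0], (.ev, 0)), ([0, 0, 0, 1, 1, 0], (.ev, 4)), ([0, 0, 0, 0, 0, 0], (.pl 1, 2)), ([0, 0, 0, 0, 0, 0], (.ev, 2))], [1, 1, 1, 1, 0, 1]⟩,
   ⟨[10, 8, 8, 8, 6, 6], 1, [([4, 4, 4, 4, 2, 2], (.ev, 0)), ([4, 4, 2, 2, 1, 1], (.ev, 0)), ([1, 0, 1, 0, 2, 2], (.ev, 2)), ([1, 0, 1, 1, 1, 0], (.ev, 2)), ([0, 0, 0, 0, 0, 0], (.pl 1, 2)), ([0, 0, 0, 1, 0, 1], (.ev, 0))], [1, 1, 1, 1, 0, 1]⟩,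
   ⟨[10, 8, 8, 8, 6, 5], 1, [([4, 4, 4, 4, 2, 2], (.ev, 0)), ([4, 4, 2, 2, 1, 1], (.ev, 0)), ([2, 0, 1, 1, 2, 0], (.ev, 2)), ([0, 0, 1, 1, 1, 1], (.ev, 2)), ([0, 0, 0, 0, 0, 1], (.pl 1, 1)), ([0, 0, 0, 0, 0, 0], (.ev, 2))], [1, 1, 1, 1, 0, 1]⟩,
   ⟨[10, 8, 8, 8, 6, 4], 1, [([4, 4, 4, 4, 2, 2], (.ev, 0)), ([4, 4, 2, 2, 1, 1], (.ev, 0)), ([2, 0, 1, 1, 2, 0], (.ev, 2)), ([0, 0, 1, 1, 1, 1], (.ev, 2)), ([0, 0, 0, 0, 0, 0], (.pl 1, 2)), ([0, 0, 0, 0, 0, 0], (.ev, 2))], [1, 1, 1, 1, 0, 1]⟩,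
   ⟨[10, 8, 8, 8, 6, 3], 1, [([4, 4, 4, 4, 2, 2], (.ev, 0)), ([4, 4, 2, 2, 1, 1], (.ev, 0)), ([2, 0, 2, 2, 2, 0], (.ev, 0)), ([0, 0, 0, 0, 0, 0], (.ev, 6)), ([0, 0, 0, 0, 1, 0], (.pl 1, 1)), ([0, 0, 0, 0, 0, 0], (.ev, 2))], [1, 1, 1, 2, 1, 1]⟩,
   ⟨[10, 8, 8, 8, 5, 5], 2, [([4, 4, 4, 4, 2, 2], (.ev, 0)), ([1, 1, 1, 1, 1, 1], (.pl 1, 2)), ([1, 0, 1, 1, 1, 1], (.pl 1, 1)), ([3, 3, 1, 1, 0, 0], (.ev, 0)), ([1, 0, 1, 1, 1, 0], (.ev, 2)), ([0, 0, 0, 0, 0, 1], (.pl 1, 1)), ([0, 0, 0, 0, 0, 0], (.ev, 2))], [1, 0, 0, 1, 1, 0, 1]⟩,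
   ⟨[10, 8, 8, 8, 5, 4], 1, [([4, 4, 4, 4, 2, 2], (.ev, 0)), ([4, 4, 2, 2, 1, 1], (.ev, 0)), ([2, 0, 2, 1, 1, 0], (.ev, 2)), ([0, 0, 0, 1, 1, 0], (.ev, 4)), ([0, 0, 0, 0, 0, 1], (.pl 1, 1)), ([0, 0, 0, 0, 0, 0], (.ev, 2))], [1, 1, 1, 1, 0, 1]⟩,
   ⟨[10, 8, 8, 8, 5, 3], 1, [([4, 4, 4, 4, 2, 2], (.ev, 0)), ([4, 4, 2, 2, 1, 1], (.ev, 0)), ([2, 0, 2, 1, 1, 0], (.ev, 2)), ([0, 0, 0, 1, 1, 0], (.ev, 4)), ([0, 0, 0, 0, 0, 0], (.pl 1, 2)), ([0, 0, 0, 0, 0, 0], (.ev, 2))], [1, 1, 1, 1, 0, 1]⟩,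
   ⟨[10, 8, 8, 8, 4, 4], 1, [([4, 4, 4, 4, 2, 2], (.ev, 0)), ([4, 4, 2, 2, 1, 1], (.ev, 0)), ([2, 0, 2, 1, 1, 0], (.ev, 2)), ([0, 0, 0, 1, 0, 1], (.ev, 4)), ([0, 0, 0, 0, 0, 0], (.pl 1, 2)), ([0, 0, 0, 0, 0, 0], (.ev, 2))], [1, 1, 1, 1, 0, 1]⟩,
   ⟨[10, 8, 8, 8, 4, 3], 1, [([4, 4, 4, 4, 2, 2], (.ev, 0)), ([4, 4, 2, 2, 1, 1], (.ev, 0)), ([2, 0, 2, 1, 1, 0], (.ev, 2)), ([0, 0, 0, 0, 0, 0], (.ev, 6)), ([0, 0, 0, 1, 0, 0], (.pl 1, 1)), ([0, 0, 0, 0, 0, 0], (.ev, 2))], [1, 1, 1, 2, 1, 1]⟩,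
   ⟨[10, 8, 8, 8, 3], 1, [([4, 4, 2, 2, 0], (.ev, 8)), ([4, 2, 4, 2, 0], (.ev, 2)), ([1, 1, 0, 3, 3], (.ev, 0)), ([1, 1, 1, 1, 0], (.ev, 2)), ([0, 0, 1, 0, 0], (.pl 1, 1)), ([0, 0, 0, 0, 0], (.ev, 2))], [2, 1, 1, 1, 1, 1]⟩,
   ⟨[10, 8, 8, 7, 7, 7], 1, [([4, 4, 4, 4, 2, 2], (.ev, 0)), ([4, 2, 1, 1, 4, 2], (.ev, 0)), ([1, 1, 3, 0, 0, 3], (.ev, 0)), ([1, 1, 0, 1, 1, 0], (.ev, 2)), ([0, 0, 0, 1, 0, 0], (.pl 1, 1)), ([0, 0, 0, 0, 0, 0], (.ev, 2))], [1, 1, 1, 1, 0, 1]⟩,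
   ⟨[10, 8, 8, 7, 7, 6], 1, [([4, 4, 4, 4, 2, 2], (.ev, 0)), ([4, 2, 2, 1, 4, 1], (.ev, 0)), ([2, 1, 1, 1, 1, 2], (.ev, 0)), ([0, 1, 1, 1, 0, 1], (.ev, 2)), ([0, 0, 0, 0, 0, 0], (.pl 1, 2)), ([0, 0, 0, 0, 0, 0], (.ev, 2))], [1, 1, 1, 1, 0, 1]⟩,
   ⟨[10, 8, 8, 7, 7, 5], 1, [([4, 4, 4, 4, 2, 2], (.ev, 0)), ([4, 2, 2, 1, 4, 1], (.ev, 0)), ([2, 2, 1, 1, 0, 0], (.ev, 2)), ([0, 0, 1, 1, 1, 1], (.ev, 2)), ([0, 0, 0, 0, 0, 1], (.pl 1, 1)), ([0, 0, 0, 0, 0, 0], (.ev, 2))], [1, 1, 1, 1, 0, 1]⟩,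
   ⟨[10, 8, 8, 7, 7, 4], 1, [([4, 4, 4, 4, 2, 2], (.ev, 0)), ([4, 2, 2, 1, 4, 1], (.ev, 0)), ([2, 2, 1, 1, 0, 0], (.ev, 2)), ([0, 0, 1, 1, 1, 1], (.ev, 2)), ([0, 0, 0, 0, 0, 0], (.pl 1, 2)), ([0, 0, 0, 0, 0, 0], (.ev, 2))], [1, 1, 1, 1, 0, 1]⟩,
   ⟨[10, 8, 8, 7, 7, 3], 1, [([4, 4, 4, 4, 2, 2], (.ev, 0)), ([4, 2, 2, 1, 4, 1], (.ev, 0)), ([2, 2, 2, 2, 0, 0], (.ev, 0)), ([0, 0, 0, 0, 0, 0], (.ev, 6)), ([0, 0, 0, 0, 1, 0], (.pl 1, 1)), ([0, 0, 0, 0, 0, 0], (.ev, 2))], [1, 1, 1, 2, 1, 1]⟩,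
   ⟨[10, 8, 8, 7, 6, 6], 1, [([4, 4, 4, 4, 2, 2], (.ev, 0)), ([4, 4, 2, 1, 2, 1], (.ev, 0)), ([2, 0, 1, 1, 0, 2], (.ev, 2)), ([0, 0, 1, 1, 1, 1], (.ev, 2)), ([0, 0, 0, 0, 1, 0], (.pl 1, 1)), ([0, 0, 0, 0, 0, 0], (.ev, 2))], [1, 1, 1, 1, 0, 1]⟩,
   ⟨[10, 8, 8, 7, 6, 5], 2, [([4, 4, 4, 4, 2, 2], (.ev, 0)), ([1, 1, 1, 1, 1, 1], (.pl 1, 2)), ([1, 0, 1, 1, 1, 1], (.pl 1, 1)), ([3, 3, 1, 0, 1, 0], (.ev, 0)), ([1, 0, 1, 1, 1, 0], (.ev, 2)), ([0, 0, 0, 0, 0, 1], (.pl 1, 1)), ([0, 0, 0, 0, 0, 0], (.ev, 2))], [1, 0, 0, 1, 1, 0, 1]⟩,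
   ⟨[10, 8, 8, 7, 6, 4], 1, [([4, 4, 4, 4, 2, 2], (.ev, 0)), ([4, 4, 2, 1, 2, 1], (.ev, 0)), ([2, 0, 2, 1, 1, 0], (.ev, 2)), ([0, 0, 0, 1, 1, 0], (.ev, 4)), ([0, 0, 0, 0, 0, 1], (.pl 1, 1)), ([0, 0, 0, 0, 0, 0], (.ev, 2))], [1, 1, 1, 1, 0, 1]⟩,
   ⟨[10, 8, 8, 7, 6, 3], 1, [([4, 4, 4, 4, 2, 2], (.ev, 0)), ([4, 4, 2, 1, 2, 1], (.ev, 0)), ([2, 0, 2, 1, 1, 0], (.ev, 2)), ([0, 0, 0, 1, 1, 0], (.ev, 4)), ([0, 0, 0, 0, 0, 0], (.pl 1, 2)), ([0, 0, 0, 0, 0, 0], (.ev, 2))], [1, 1, 1, 1, 0, 1]⟩,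
   ⟨[10, 8, 8, 7, 5, 5], 1, [([4, 4, 4, 4, 2, 2], (.ev, 0)), ([4, 4, 2, 2, 0, 0], (.ev, 2)), ([0, 0, 0, 0, 3, 3], (.ev, 2)), ([2, 0, 2, 0, 0, 0], (.ev, 2)), ([0, 0, 0, 1, 0, 0], (.pl 1, 1)), ([0, 0, 0, 0, 0, 0], (.ev, 2))], [1, 1, 1, 1, 0, 1]⟩,
   ⟨[10, 8, 8, 7, 5, 4], 1, [([4, 4, 4, 4, 2, 2], (.ev, 0)), ([4, 4, 2, 2, 1, 1], (.ev, 0)), ([2, 0, 2, 1, 1, 0], (.ev, 2)), ([0, 0, 0, 0, 1, 1], (.ev, 4)), ([0, 0, 0, 0, 0, 0], (.pl 1, 2)), ([0, 0, 0, 0, 0, 0], (.ev, 2))], [1, 1, 1, 1, 0, 1]⟩,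
   ⟨[10, 8, 8, 7, 5, 3], 1, [([4, 4, 4, 4, 2, 2], (.ev, 0)), ([4, 4, 2, 2, 1, 1], (.ev, 0)), ([2, 0, 2, 1, 1, 0], (.ev, 2)), ([0, 0, 0, 0, 0, 0], (.ev, 6)), ([0, 0, 0, 0, 1, 0], (.pl 1, 1)), ([0, 0, 0, 0, 0, 0], (.ev, 2))], [1, 1, 1, 2, 1, 1]⟩,
   ⟨[10, 8, 8, 7, 4], 1, [([4, 4, 2, 2, 0], (.ev, 8)), ([4, 2, 4, 2, 0], (.ev, 2)), ([1, 1, 0, 3, 3], (.ev, 0)), ([1, 1, 1, 0, 1], (.ev, 2)), ([0, 0, 1, 0, 0], (.pl 1, 1)), ([0, 0, 0, 0, 0], (.ev, 2))], [2, 1, 1, 1, 1, 1]⟩,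
   ⟨[10, 8, 8, 6, 6, 6], 2, [([4, 4, 4, 4, 2, 2], (.ev, 0)), ([1, 1, 1, 1, 1, 1], (.pl 1, 2)), ([1, 0, 1, 1, 1, 1], (.pl 1, 1)), ([3, 3, 1, 0, 1, 0], (.ev, 0)), ([1, 0, 1, 0, 1, 1], (.ev, 2)), ([0, 0, 0, 0, 0, 1], (.pl 1, 1)), ([0, 0, 0, 0, 0, 0], (.ev, 2))], [1, 0, 0, 1, 1, 0, 1]⟩,
   ⟨[10, 8, 8, 6, 6, 5], 1, [([4, 4, 4, 4, 2, 2], (.ev, 0)), ([4, 4, 2, 0, 2, 0], (.ev, 2)), ([2, 0, 1, 1, 0, 2], (.ev, 2)), ([0, 0, 1, 1, 1, 1], (.ev, 2)), ([0, 0, 0, 0, 1, 0], (.pl 1, 1)), ([0, 0, 0, 0, 0, 0], (.ev, 2))], [1, 1, 1, 1, 0, 1]⟩,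
   ⟨[10, 8, 8, 6, 6, 4], 1, [([4, 4, 4, 4, 2, 2], (.ev, 0)), ([4, 4, 2, 1, 2, 1], (.ev, 0)), ([2, 0, 2, 1, 1, 0], (.ev, 2)), ([0, 0, 0, 0, 1, 1], (.ev, 4)), ([0, 0, 0, 0, 0, 0], (.pl 1, 2)), ([0, 0, 0, 0, 0, 0], (.ev, 2))], [1, 1, 1, 1, 0, 1]⟩,
   ⟨[10, 8, 8, 6, 6, 3], 1, [([4, 4, 4, 4, 2, 2], (.ev, 0)), ([4, 4, 2, 1, 2, 1], (.ev, 0)), ([2, 0, 2, 1, 1, 0], (.ev, 2)), ([0, 0, 0, 0, 0, 0], (.ev, 6)), ([0, 0, 0, 0, 1, 0], (.pl 1, 1)), ([0, 0, 0, 0, 0, 0], (.ev, 2))], [1, 1, 1, 2, 1, 1]⟩,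
   ⟨[10, 8, 8, 6, 5], 2, [([4, 4, 2, 2, 0], (.ev, 8)), ([1, 1, 1, 1, 1], (.pl 1, 3)), ([1, 1, 1, 1, 1], (.pl 1, 1)), ([4, 0, 4, 0, 0], (.ev, 0)), ([0, 2, 0, 0, 2], (.ev, 2)), ([0, 0, 0, 1, 0], (.pl 1, 1)), ([0, 0, 0, 1, 1], (.ev, 0))], [3, 0, 1, 1, 1, 1, 1]⟩,
   ⟨[10, 8, 8, 6, 4], 2, [([4, 4, 2, 2, 0], (.ev, 8)), ([1, 1, 1, 1, 1], (.pl 1, 3)), ([0, 0, 1, 0, 1], (.pl 1, 4)), ([4, 0, 4, 0, 0], (.ev, 0)), ([0, 3, 0, 3, 0], (.ev, 0)), ([0, 0, 0, 0, 1], (.pl 1, 1)), ([1, 0, 0, 0, 1], (.ev, 0))], [2, 0, 0, 1, 1, 1, 1]⟩,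
   ⟨[10, 8, 8, 5], 1, [([4, 4, 2, 2], (.ev, 8)), ([4, 2, 4, 2], (.ev, 2)), ([2, 2, 0, 0], (.ev, 4)), ([0, 0, 1, 1], (.ev, 4)), ([0, 0, 1, 0], (.pl 1, 1)), ([0, 0, 0, 0], (.ev, 2))], [2, 1, 1, 1, 1, 1]⟩,
   ⟨[10, 8, 8, 4], 2, [([4, 4, 2, 2], (.ev, 8)), ([1, 1, 1, 1], (.pl 1, 4)), ([0, 1, 0, 0], (.pl 1, 5)), ([4, 0, 4, 0], (.ev, 0)), ([1, 1, 1, 1], (.ev, 2)), ([0, 1, 0, 0], (.pl 1, 1)), ([0, 0, 0, 0], (.ev, 2))], [2, 0, 0, 1, 1, 1, 1]⟩,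
   ⟨[10, 8, 7, 7, 7, 7], 1, [([4, 4, 4, 4, 2, 2], (.ev, 0)), ([4, 2, 1, 1, 4, 2], (.ev, 0)), ([2, 1, 1, 1, 1, 2], (.ev, 0)), ([0, 1, 1, 1, 0, 1], (.ev, 2)), ([0, 0, 0, 0, 0, 0], (.pl 1, 2)), ([0, 0, 0, 0, 0, 0], (.ev, 2))], [1, 1, 1, 1, 0, 1]⟩,
   ⟨[10, 8, 7, 7, 7, 6], 1, [([4, 4, 4, 4, 2, 2], (.ev, 0)), ([4, 2, 1, 1, 4, 2], (.ev, 0)), ([2, 2, 1, 1, 0, 0], (.ev, 2)), ([0, 0, 1, 1, 1, 1], (.ev, 2)), ([0, 0, 0, 0, 0, 1], (.pl 1, 1)), ([0, 0, 0, 0, 0, 0], (.ev, 2))], [1, 1, 1, 1, 0, 1]⟩,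
   ⟨[10, 8, 7, 7, 7, 5], 2, [([4, 4, 4, 4, 2, 2], (.ev, 0)), ([1, 1, 1, 1, 1, 1], (.pl 1, 2)), ([1, 1, 1, 1, 0, 1], (.pl 1, 1)), ([4, 0, 0, 0, 4, 0], (.ev, 0)), ([0, 1, 1, 1, 0, 1], (.ev, 2)), ([0, 1, 0, 0, 0, 0], (.pl 1, 1)), ([0, 0, 0, 0, 0, 0], (.ev, 2))], [1, 0, 0, 1, 1, 0, 1]⟩,
   ⟨[10, 8, 7, 7, 7, 4], 1, [([4, 4, 4, 4, 2, 2], (.ev, 0)), ([4, 2, 2, 1, 4, 1], (.ev, 0)), ([2, 2, 1, 1, 0, 0], (.ev, 2)), ([0, 0, 0, 1, 1, 0], (.ev, 4)), ([0, 0, 0, 0, 0, 1], (.pl 1, 1)), ([0, 0, 0, 0, 0, 0], (.ev, 2))], [1, 1, 1, 1, 0, 1]⟩,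
   ⟨[10, 8, 7, 7, 7, 3], 1, [([4, 4, 4, 4, 2, 2], (.ev, 0)), ([4, 2, 2, 1, 4, 1], (.ev, 0)), ([2, 2, 1, 1, 0, 0], (.ev, 2)), ([0, 0, 0, 1, 1, 0], (.ev, 4)), ([0, 0, 0, 0, 0, 0], (.pl 1, 2)), ([0, 0, 0, 0, 0, 0], (.ev, 2))], [1, 1, 1, 1, 0, 1]⟩,
   ⟨[10, 8, 7, 7, 6, 6], 2, [([4, 4, 4, 4, 2, 2], (.ev, 0)), ([1, 1, 1, 1, 1, 1], (.pl 1, 2)), ([1, 0, 1, 1, 1, 1], (.pl 1, 1)), ([3, 3, 0, 0, 1, 1], (.ev, 0)), ([1, 0, 1, 1, 1, 0], (.ev, 2)), ([0, 0, 0, 0, 0, 1], (.pl 1, 1)), ([0, 0, 0, 0, 0, 0], (.ev, 2))], [1, 0, 0, 1, 1, 0, 1]⟩,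
   ⟨[10, 8, 7, 7, 6, 5], 1, [([4, 4, 4, 4, 2, 2], (.ev, 0)), ([4, 4, 2, 0, 2, 0], (.ev, 2)), ([0, 0, 0, 3, 0, 3], (.ev, 2)), ([2, 0, 0, 0, 2, 0], (.ev, 2)), ([0, 0, 1, 0, 0, 0], (.pl 1, 1)), ([0, 0, 0, 0, 0, 0], (.ev, 2))], [1, 1, 1, 1, 0, 1]⟩,
   ⟨[10, 8, 7, 7, 6, 4], 1, [([4, 4, 4, 4, 2, 2], (.ev, 0)), ([4, 4, 2, 1, 2, 1], (.ev, 0)), ([2, 0, 1, 2, 1, 0], (.ev, 2)), ([0, 0, 0, 0, 1, 1], (.ev, 4)), ([0, 0, 0, 0, 0, 0], (.pl 1, 2)), ([0, 0, 0, 0, 0, 0], (.ev, 2))], [1, 1, 1, 1, 0, 1]⟩,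
   ⟨[10, 8, 7, 7, 6, 3], 1, [([4, 4, 4, 4, 2, 2], (.ev, 0)), ([4, 4, 2, 1, 2, 1], (.ev, 0)), ([2, 0, 1, 2, 1, 0], (.ev, 2)), ([0, 0, 0, 0, 0, 0], (.ev, 6)), ([0, 0, 0, 0, 1, 0], (.pl 1, 1)), ([0, 0, 0, 0, 0, 0], (.ev, 2))], [1, 1, 1, 2, 1, 1]⟩,
   ⟨[10, 8, 7, 7, 5], 2, [([4, 4, 2, 2, 0], (.ev, 8)), ([1, 1, 1, 1, 1], (.pl 1, 3)), ([1, 1, 1, 1, 1], (.pl 1, 1)), ([3, 0, 3, 1, 1], (.ev, 0)), ([1, 2, 0, 2, 1], (.ev, 0)), ([0, 0, 0, 0, 1], (.pl 1, 1)), ([0, 0, 0, 0, 0], (.ev, 2))], [3, 0, 1, 1, 1, 1, 1]⟩,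
   ⟨[10, 8, 7, 7, 4], 2, [([4, 4, 2, 2, 0], (.ev, 8)), ([1, 1, 1, 1, 1], (.pl 1, 3)), ([0, 0, 0, 1, 1], (.pl 1, 4)), ([4, 0, 4, 0, 0], (.ev, 0)), ([0, 3, 0, 3, 0], (.ev, 0)), ([0, 0, 0, 0, 1], (.pl 1, 1)), ([1, 0, 0, 0, 1], (.ev, 0))], [2, 0, 0, 1, 1, 1, 1]⟩,
   ⟨[10, 8, 7, 6, 6, 6, 6], 1, [([4, 4, 4, 4, 2, 2, 0], (.ev, 0)), ([4, 2, 1, 0, 2, 1, 4], (.ev, 0)), ([2, 2, 2, 0, 0, 2, 0], (.ev, 0)), ([0, 0, 0, 2, 2, 1, 1], (.ev, 0)), ([0, 0, 0, 0, 0, 0, 1], (.pl 1, 1)), ([0, 0, 0, 0, 0, 0, 0], (.ev, 2))], [1, 1, 1, 1, 0, 1]⟩,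
   ⟨[10, 8, 7, 6, 6, 6, 5], 1, [([4, 4, 4, 4, 2, 2, 0], (.ev, 0)), ([4, 2, 1, 0, 2, 1, 4], (.ev, 0)), ([2, 2, 2, 0, 0, 2, 0], (.ev, 0)), ([0, 0, 0, 2, 2, 1, 1], (.ev, 0)), ([0, 0, 0, 0, 0, 0, 0], (.pl 1, 2)), ([0, 0, 0, 0, 0, 0, 0], (.ev, 2))], [1, 1, 1, 1, 0, 1]⟩,
   ⟨[10, 8, 7, 6, 6, 6, 4], 1, [([4, 4, 4, 4, 2, 2, 0], (.ev, 0)), ([4, 4, 1, 0, 2, 2, 1], (.ev, 0)), ([2, 0, 2, 2, 0, 0, 2], (.ev, 0)), ([0, 0, 0, 0, 2, 2, 0], (.ev, 2)), ([0, 0, 0, 0, 0, 0, 1], (.pl 1, 1)), ([0, 0, 0, 0, 0, 0, 0], (.ev, 2))], [1, 1, 1, 1, 0, 1]⟩,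
   ⟨[10, 8, 7, 6, 6, 6, 3], 1, [([4, 4, 4, 4, 2, 2, 0], (.ev, 0)), ([4, 4, 1, 0, 2, 2, 1], (.ev, 0)), ([2, 0, 2, 2, 2, 0, 0], (.ev, 0)), ([0, 0, 0, 0, 0, 2, 2], (.ev, 2)), ([0, 0, 0, 0, 0, 0, 0], (.pl 1, 2)), ([0, 0, 0, 0, 0, 0, 0], (.ev, 2))], [1, 1, 1, 1, 0, 1]⟩,
   ⟨[10, 8, 7, 6, 6, 5], 1, [([4, 4, 4, 4, 2, 2], (.ev, 0)), ([4, 4, 2, 0, 2, 0], (.ev, 2)), ([2, 0, 0, 1, 1, 2], (.ev, 2)), ([0, 0, 1, 1, 1, 1], (.ev, 2)), ([0, 0, 0, 0, 0, 0], (.pl 1, 2)), ([0, 0, 0, 0, 0, 0], (.ev, 2))], [1, 1, 1, 1, 0, 1]⟩,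
   ⟨[10, 8, 7, 6, 6, 4], 1, [([4, 4, 4, 4, 2, 2], (.ev, 0)), ([4, 4, 2, 1, 2, 1], (.ev, 0)), ([2, 0, 1, 1, 2, 0], (.ev, 2)), ([0, 0, 0, 0, 0, 0], (.ev, 6)), ([0, 0, 0, 0, 0, 1], (.pl 1, 1)), ([0, 0, 0, 0, 0, 0], (.ev, 2))], [1, 1, 1, 2, 1, 1]⟩,
   ⟨[10, 8, 7, 6, 6, 3], 1, [([4, 4, 4, 4, 2, 2], (.ev, 0)), ([4, 4, 2, 1, 2, 1], (.ev, 0)), ([2, 0, 0, 0, 2, 0], (.ev, 4)), ([0, 0, 1, 1, 0, 0], (.ev, 4)), ([0, 0, 0, 0, 0, 0], (.pl 1, 2)), ([0, 0, 0, 0, 0, 0], (.ev, 2))], [1, 1, 1, 1, 0, 1]⟩,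
   ⟨[10, 8, 7, 6, 5, 5], 1, [([4, 4, 4, 4, 2, 2], (.ev, 0)), ([4, 4, 2, 0, 2, 0], (.ev, 2)), ([2, 0, 1, 1, 0, 2], (.ev, 2)), ([0, 0, 0, 1, 1, 0], (.ev, 4)), ([0, 0, 0, 0, 0, 1], (.pl 1, 1)), ([0, 0, 0, 0, 0, 0], (.ev, 2))], [1, 1, 1, 1, 0, 1]⟩,
   ⟨[10, 8, 7, 6, 5, 4], 1, [([4, 4, 4, 4, 2, 2], (.ev, 0)), ([4, 4, 2, 0, 2, 0], (.ev, 2)), ([2, 0, 1, 2, 0, 1], (.ev, 2)), ([0, 0, 0, 0, 1, 1], (.ev, 4)), ([0, 0, 0, 0, 0, 0], (.pl 1, 2)), ([0, 0, 0, 0, 0, 0], (.ev, 2))], [1, 1, 1, 1, 0, 1]⟩,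
   ⟨[10, 8, 7, 6, 4], 1, [([4, 4, 2, 2, 0], (.ev, 8)), ([4, 2, 4, 2, 0], (.ev, 2)), ([2, 2, 0, 2, 2], (.ev, 0)), ([0, 0, 1, 0, 1], (.ev, 4)), ([0, 0, 0, 0, 1], (.pl 1, 1)), ([0, 0, 0, 0, 0], (.ev, 2))], [2, 1, 1, 1, 1, 1]⟩,
   ⟨[10, 8, 7, 5], 2, [([4, 4, 2, 2], (.ev, 8)), ([1, 1, 0, 1], (.pl 1, 5)), ([0, 1, 0, 1], (.pl 1, 4)), ([4, 0, 4, 0], (.ev, 0)), ([1, 1, 1, 1], (.ev, 2)), ([0, 1, 0, 0], (.pl 1, 1)), ([0, 0, 0, 0], (.ev, 2))], [2, 0, 0, 1, 1, 1, 1]⟩,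
   ⟨[10, 8, 7, 4], 1, [([4, 4, 2, 2], (.ev, 8)), ([4, 2, 4, 2], (.ev, 2)), ([2, 2, 0, 0], (.ev, 4)), ([0, 0, 0, 0], (.ev, 6)), ([0, 0, 1, 0], (.pl 1, 1)), ([0, 0, 0, 0], (.ev, 2))], [2, 1, 1, 1, 1, 1]⟩,
   ⟨[10, 8, 6, 6], 2, [([4, 4, 2, 2], (.ev, 8)), ([1, 1, 1, 1], (.pl 1, 4)), ([1, 0, 1, 1], (.pl 1, 3)), ([3, 3, 0, 0], (.ev, 2)), ([0, 0, 2, 2], (.ev, 2)), ([1, 0, 0, 0], (.pl 1, 1)), ([0, 0, 0, 0], (.ev, 2))], [2, 0, 0, 1, 1, 1, 1]⟩,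
   ⟨[10, 8, 6, 5], 1, [([4, 4, 2, 2], (.ev, 8)), ([4, 4, 2, 2], (.ev, 2)), ([2, 0, 2, 0], (.ev, 4)), ([0, 0, 0, 0], (.ev, 6)), ([0, 0, 0, 1], (.pl 1, 1)), ([0, 0, 0, 0], (.ev, 2))], [2, 1, 1, 1, 1, 1]⟩,
   ⟨[10, 8, 6, 4], 2, [([4, 4, 2, 2], (.ev, 8)), ([1, 0, 1, 1], (.pl 1, 5)), ([0, 0, 1, 1], (.pl 1, 4)), ([4, 4, 0, 0], (.ev, 0)), ([1, 0, 1, 0], (.ev, 4)), ([0, 0, 1, 0], (.pl 1, 1)), ([0, 0, 0, 0], (.ev, 2))], [2, 0, 0, 1, 1, 1, 1]⟩,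
   ⟨[10, 8, 5, 5], 2, [([4, 4, 2, 2], (.ev, 8)), ([1, 1, 1, 1], (.pl 1, 4)), ([1, 0, 1, 1], (.pl 1, 3)), ([3, 3, 1, 1], (.ev, 0)), ([0, 0, 0, 0], (.ev, 6)), ([1, 0, 0, 0], (.pl 1, 1)), ([0, 0, 0, 0], (.ev, 2))], [2, 0, 0, 1, 1, 1, 1]⟩,
   ⟨[10, 7, 7, 7, 7, 7], 1, [([4, 4, 4, 4, 2, 2], (.ev, 0)), ([4, 2, 1, 1, 4, 2], (.ev, 0)), ([2, 0, 1, 1, 0, 2], (.ev, 2)), ([0, 1, 1, 1, 1, 0], (.ev, 2)), ([0, 0, 0, 0, 0, 1], (.pl 1, 1)), ([0, 0, 0, 0, 0, 0], (.ev, 2))], [1, 1, 1, 1, 0, 1]⟩,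
   ⟨[10, 7, 7, 7, 7, 6], 2, [([4, 4, 4, 4, 2, 2], (.ev, 0)), ([1, 1, 1, 1, 1, 1], (.pl 1, 2)), ([1, 1, 1, 1, 0, 1], (.pl 1, 1)), ([4, 0, 0, 0, 4, 0], (.ev, 0)), ([0, 1, 1, 1, 0, 1], (.ev, 2)), ([0, 0, 0, 0, 0, 1], (.pl 1, 1)), ([0, 0, 0, 0, 0, 0], (.ev, 2))], [1, 0, 0, 1, 1, 0, 1]⟩,
   ⟨[10, 7, 7, 7, 7, 5], 1, [([4, 4, 4, 4, 2, 2], (.ev, 0)), ([4, 2, 2, 0, 4, 0], (.ev, 2)), ([0, 0, 0, 3, 0, 3], (.ev, 2)), ([1, 1, 1, 0, 1, 0], (.ev, 2)), ([1, 0, 0, 0, 0, 0], (.pl 1, 1)), ([0, 0, 0, 0, 0, 0], (.ev, 2))], [1, 1, 1, 1, 0, 1]⟩,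
   ⟨[10, 7, 7, 7, 7, 4], 1, [([4, 4, 4, 4, 2, 2], (.ev, 0)), ([4, 2, 2, 1, 4, 1], (.ev, 0)), ([2, 1, 1, 2, 0, 0], (.ev, 2)), ([0, 0, 0, 0, 1, 1], (.ev, 4)), ([0, 0, 0, 0, 0, 0], (.pl 1, 2)), ([0, 0, 0, 0, 0, 0], (.ev, 2))], [1, 1, 1, 1, 0, 1]⟩,
   ⟨[10, 7, 7, 7, 7, 3], 1, [([4, 4, 4, 4, 2, 2], (.ev, 0)), ([4, 2, 2, 1, 4, 1], (.ev, 0)), ([2, 1, 1, 2, 0, 0], (.ev, 2)), ([0, 0, 0, 0, 0, 0], (.ev, 6)), ([0, 0, 0, 0, 1, 0], (.pl 1, 1)), ([0, 0, 0, 0, 0, 0], (.ev, 2))], [1, 1, 1, 2, 1, 1]⟩,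
   ⟨[10, 7, 7, 7, 6, 6, 6], 1, [([4, 4, 4, 4, 2, 2, 0], (.ev, 0)), ([4, 1, 1, 0, 2, 2, 4], (.ev, 0)), ([2, 2, 2, 2, 0, 0, 0], (.ev, 0)), ([0, 0, 0, 1, 2, 2, 1], (.ev, 0)), ([0, 0, 0, 0, 0, 0, 1], (.pl 1, 1)), ([0, 0, 0, 0, 0, 0, 0], (.ev, 2))], [1, 1, 1, 1, 0, 1]⟩,
   ⟨[10, 7, 7, 7, 6, 6, 5], 1, [([4, 4, 4, 4, 2, 2, 0], (.ev, 0)), ([4, 1, 1, 0, 2, 2, 4], (.ev, 0)), ([2, 2, 2, 2, 0, 0, 0], (.ev, 0)), ([0, 0, 0, 1, 2, 2, 1], (.ev, 0)), ([0, 0, 0, 0, 0, 0, 0], (.pl 1, 2)), ([0, 0, 0, 0, 0, 0, 0], (.ev, 2))], [1, 1, 1, 1, 0, 1]⟩,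
   ⟨[10, 7, 7, 7, 6, 6, 4], 1, [([4, 4, 4, 4, 2, 2, 0], (.ev, 0)), ([4, 1, 1, 0, 4, 2, 2], (.ev, 0)), ([2, 2, 2, 2, 0, 0, 0], (.ev, 0)), ([0, 0, 0, 0, 0, 2, 2], (.ev, 2)), ([0, 0, 0, 1, 0, 0, 0], (.pl 1, 1)), ([0, 0, 0, 0, 0, 0, 0], (.ev, 2))], [1, 1, 1, 1, 0, 1]⟩]

def cmC_11_8_6_3_5 : List (List ℕ × List (ℕ × ℕ)) :=
  [([10, 9, 6, 5], [(9, 2), (5, 1), (4, 1), (0, 1), (2, 1), (0, 1), (2, 1)]),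
   ([10, 9, 6, 4], [(9, 2), (2, 1), (4, 1), (6, 1), (0, 1), (2, 1)]),
   ([10, 9, 5, 5], [(9, 2), (2, 1), (4, 1), (6, 1), (0, 1), (2, 1)]),
   ([10, 9, 5, 4], [(9, 2), (4, 1), (3, 1), (0, 1), (6, 1), (0, 1), (2, 1)]),
   ([10, 8, 8, 8, 8, 6], [(0, 1), (0, 1), (0, 1), (0, 1), (2, 1), (2, 1)]),
   ([10, 8, 8, 8, 8, 5], [(0, 1), (0, 1), (0, 1), (2, 1), (1, 1), (2, 1)]),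
   ([10, 8, 8, 8, 8, 4], [(0, 1), (0, 1), (0, 1), (2, 1), (2, 1), (2, 1)]),
   ([10, 8, 8, 8, 8, 3], [(0, 1), (0, 1), (0, 1), (4, 1), (1, 1), (2, 1)]),
   ([10, 8, 8, 8, 8, 2], [(0, 1), (2, 1), (0, 1), (2, 1), (2, 1), (2, 1)]),
   ([10, 8, 8, 8, 7, 7], [(0, 1), (0, 1), (0, 1), (0, 1), (2, 1), (2, 1)]),
   ([10, 8, 8, 8, 7, 6], [(0, 1), (0, 1), (0, 1), (2, 1), (1, 1), (2, 1)]),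
   ([10, 8, 8, 8, 7, 5], [(0, 1), (0, 1), (0, 1), (2, 1), (2, 1), (2, 1)]),
   ([10, 8, 8, 8, 7, 4], [(0, 1), (0, 1), (2, 1), (2, 1), (1, 1), (2, 1)]),
   ([10, 8, 8, 8, 7, 3], [(0, 1), (0, 1), (0, 1), (4, 1), (2, 1), (2, 1)]),
   ([10, 8, 8, 8, 6, 6], [(0, 1), (0, 1), (2, 1), (2, 1), (2, 1), (0, 1)]),
   ([10, 8, 8, 8, 6, 5], [(0, 1), (0, 1), (2, 1), (2, 1), (1, 1), (2, 1)]),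
   ([10, 8, 8, 8, 6, 4], [(0, 1), (0, 1), (2, 1), (2, 1), (2, 1), (2, 1)]),
   ([10, 8, 8, 8, 6, 3], [(0, 1), (0, 1), (0, 1), (7, 2), (0, 1), (2, 1)]),
   ([10, 8, 8, 8, 5, 5], [(0, 1), (2, 1), (1, 1), (0, 1), (2, 1), (1, 1), (2, 1)]),
   ([10, 8, 8, 8, 5, 4], [(0, 1), (0, 1), (2, 1), (4, 1), (1, 1), (2, 1)]),
   ([10, 8, 8, 8, 5, 3], [(0, 1), (0, 1), (2, 1), (4, 1), (2, 1), (2, 1)]),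
   ([10, 8, 8, 8, 4, 4], [(0, 1), (0, 1), (2, 1), (4, 1), (2, 1), (2, 1)]),
   ([10, 8, 8, 8, 4, 3], [(0, 1), (0, 1), (2, 1), (7, 2), (0, 1), (2, 1)]),
   ([10, 8, 8, 8, 3], [(9, 2), (2, 1), (0, 1), (2, 1), (0, 1), (2, 1)]),
   ([10, 8, 8, 7, 7, 7], [(0, 1), (0, 1), (0, 1), (2, 1), (1, 1), (2, 1)]),
   ([10, 8, 8, 7, 7, 6], [(0, 1), (0, 1), (0, 1), (2, 1), (2, 1), (2, 1)]),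
   ([10, 8, 8, 7, 7, 5], [(0, 1), (0, 1), (2, 1), (2, 1), (1, 1), (2, 1)]),
   ([10, 8, 8, 7, 7, 4], [(0, 1), (0, 1), (2, 1), (2, 1), (2, 1), (2, 1)]),
   ([10, 8, 8, 7, 7, 3], [(0, 1), (0, 1), (0, 1), (7, 2), (0, 1), (2, 1)]),
   ([10, 8, 8, 7, 6, 6], [(0, 1), (0, 1), (2, 1), (2, 1), (1, 1), (2, 1)]),
   ([10, 8, 8, 7, 6, 5], [(0, 1), (2, 1), (1, 1), (0, 1), (2, 1), (1, 1), (2, 1)]),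
   ([10, 8, 8, 7, 6, 4], [(0, 1), (0, 1), (2, 1), (4, 1), (1, 1), (2, 1)]),
   ([10, 8, 8, 7, 6, 3], [(0, 1), (0, 1), (2, 1), (4, 1), (2, 1), (2, 1)]),
   ([10, 8, 8, 7, 5, 5], [(0, 1), (2, 1), (2, 1), (2, 1), (1, 1), (2, 1)]),
   ([10, 8, 8, 7, 5, 4], [(0, 1), (0, 1), (2, 1), (4, 1), (2, 1), (2, 1)]),
   ([10, 8, 8, 7, 5, 3], [(0, 1), (0, 1), (2, 1), (7, 2), (0, 1), (2, 1)]),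
   ([10, 8, 8, 7, 4], [(9, 2), (2, 1), (0, 1), (2, 1), (0, 1), (2, 1)]),
   ([10, 8, 8, 6, 6, 6], [(0, 1), (2, 1), (1, 1), (0, 1), (2, 1), (1, 1), (2, 1)]),
   ([10, 8, 8, 6, 6, 5], [(0, 1), (2, 1), (2, 1), (2, 1), (1, 1), (2, 1)]),
   ([10, 8, 8, 6, 6, 4], [(0, 1), (0, 1), (2, 1), (4, 1), (2, 1), (2, 1)]),
   ([10, 8, 8, 6, 6, 3], [(0, 1), (0, 1), (2, 1), (7, 2), (0, 1), (2, 1)]),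
   ([10, 8, 8, 6, 5], [(10, 3), (3, 1), (0, 1), (0, 1), (2, 1), (0, 1), (0, 1)]),
   ([10, 8, 8, 6, 4], [(9, 2), (3, 1), (4, 1), (0, 1), (0, 1), (0, 1), (0, 1)]),
   ([10, 8, 8, 5], [(9, 2), (2, 1), (4, 1), (4, 1), (0, 1), (2, 1)]),
   ([10, 8, 8, 4], [(9, 2), (4, 1), (5, 1), (0, 1), (2, 1), (0, 1), (2, 1)]),
   ([10, 8, 7, 7, 7, 7], [(0, 1), (0, 1), (0, 1), (2, 1), (2, 1), (2, 1)]),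
   ([10, 8, 7, 7, 7, 6], [(0, 1), (0, 1), (2, 1), (2, 1), (1, 1), (2, 1)]),
   ([10, 8, 7, 7, 7, 5], [(0, 1), (2, 1), (1, 1), (0, 1), (2, 1), (1, 1), (2, 1)]),
   ([10, 8, 7, 7, 7, 4], [(0, 1), (0, 1), (2, 1), (4, 1), (1, 1), (2, 1)]),
   ([10, 8, 7, 7, 7, 3], [(0, 1), (0, 1), (2, 1), (4, 1), (2, 1), (2, 1)]),
   ([10, 8, 7, 7, 6, 6], [(0, 1), (2, 1), (1, 1), (0, 1), (2, 1), (1, 1), (2, 1)]),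
   ([10, 8, 7, 7, 6, 5], [(0, 1), (2, 1), (2, 1), (2, 1), (1, 1), (2, 1)]),
   ([10, 8, 7, 7, 6, 4], [(0, 1), (0, 1), (2, 1), (4, 1), (2, 1), (2, 1)]),
   ([10, 8, 7, 7, 6, 3], [(0, 1), (0, 1), (2, 1), (7, 2), (0, 1), (2, 1)]),
   ([10, 8, 7, 7, 5], [(10, 3), (3, 1), (0, 1), (0, 1), (0, 1), (0, 1), (2, 1)]),
   ([10, 8, 7, 7, 4], [(9, 2), (3, 1), (4, 1), (0, 1), (0, 1), (0, 1), (0, 1)]),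
   ([10, 8, 7, 6, 6, 6, 6], [(0, 1), (0, 1), (0, 1), (0, 1), (1, 1), (2, 1)]),
   ([10, 8, 7, 6, 6, 6, 5], [(0, 1), (0, 1), (0, 1), (0, 1), (2, 1), (2, 1)]),
   ([10, 8, 7, 6, 6, 6, 4], [(0, 1), (0, 1), (0, 1), (2, 1), (1, 1), (2, 1)]),
   ([10, 8, 7, 6, 6, 6, 3], [(0, 1), (0, 1), (0, 1), (2, 1), (2, 1), (2, 1)]),
   ([10, 8, 7, 6, 6, 5], [(0, 1), (2, 1), (2, 1), (2, 1), (2, 1), (2, 1)]),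
   ([10, 8, 7, 6, 6, 4], [(0, 1), (0, 1), (2, 1), (7, 2), (0, 1), (2, 1)]),
   ([10, 8, 7, 6, 6, 3], [(0, 1), (0, 1), (4, 1), (4, 1), (2, 1), (2, 1)]),
   ([10, 8, 7, 6, 5, 5], [(0, 1), (2, 1), (2, 1), (4, 1), (1, 1), (2, 1)]),
   ([10, 8, 7, 6, 5, 4], [(0, 1), (2, 1), (2, 1), (4, 1), (2, 1), (2, 1)]),
   ([10, 8, 7, 6, 4], [(9, 2), (2, 1), (0, 1), (4, 1), (0, 1), (2, 1)]),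
   ([10, 8, 7, 5], [(9, 2), (5, 1), (4, 1), (0, 1), (2, 1), (0, 1), (2, 1)]),
   ([10, 8, 7, 4], [(9, 2), (2, 1), (4, 1), (6, 1), (0, 1), (2, 1)]),
   ([10, 8, 6, 6], [(9, 2), (4, 1), (3, 1), (2, 1), (2, 1), (0, 1), (2, 1)]),
   ([10, 8, 6, 5], [(9, 2), (2, 1), (4, 1), (6, 1), (0, 1), (2, 1)]),
   ([10, 8, 6, 4], [(9, 2), (5, 1), (4, 1), (0, 1), (4, 1), (0, 1), (2, 1)]),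
   ([10, 8, 5, 5], [(9, 2), (4, 1), (3, 1), (0, 1), (6, 1), (0, 1), (2, 1)]),
   ([10, 7, 7, 7, 7, 7], [(0, 1), (0, 1), (2, 1), (2, 1), (1, 1), (2, 1)]),
   ([10, 7, 7, 7, 7, 6], [(0, 1), (2, 1), (1, 1), (0, 1), (2, 1), (1, 1), (2, 1)]),
   ([10, 7, 7, 7, 7, 5], [(0, 1), (2, 1), (2, 1), (2, 1), (1, 1), (2, 1)]),
   ([10, 7, 7, 7, 7, 4], [(0, 1), (0, 1), (2, 1), (4, 1), (2, 1), (2, 1)]),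
   ([10, 7, 7, 7, 7, 3], [(0, 1), (0, 1), (2, 1), (7, 2), (0, 1), (2, 1)]),
   ([10, 7, 7, 7, 6, 6, 6], [(0, 1), (0, 1), (0, 1), (0, 1), (1, 1), (2, 1)]),
   ([10, 7, 7, 7, 6, 6, 5], [(0, 1), (0, 1), (0, 1), (0, 1), (2, 1), (2, 1)]),
   ([10, 7, 7, 7, 6, 6, 4], [(0, 1), (0, 1), (0, 1), (2, 1), (1, 1), (2, 1)])]

def cm_11_8_6_3_6 : List CM :=
  [⟨[10, 7, 7, 7, 6, 6, 3], 1, [([4, 4, 4, 4, 2, 2, 0], (.ev, 0)), ([4, 2, 1, 1, 4, 2, 0], (.ev, 0)), ([2, 1, 1, 1, 0, 1, 2], (.ev, 0)), ([0, 0, 1, 1, 0, 1, 1], (.ev, 2)), ([0, 0, 0, 0, 0, 0, 0], (.pl 1, 2)), ([0, 0, 0, 0, 0, 0, 0], (.ev, 2))], [1, 1, 1, 1, 0, 1]⟩,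
   ⟨[10, 7, 7, 7, 6, 5], 1, [([4, 4, 4, 4, 2, 2], (.ev, 0)), ([4, 2, 2, 0, 4, 0], (.ev, 2)), ([1, 1, 0, 2, 0, 2], (.ev, 2)), ([1, 0, 1, 1, 0, 1], (.ev, 2)), ([0, 0, 0, 0, 0, 0], (.pl 1, 2)), ([0, 0, 0, 0, 0, 0], (.ev, 2))], [1, 1, 1, 1, 0, 1]⟩,
   ⟨[10, 7, 7, 7, 6, 4], 1, [([4, 4, 4, 4, 2, 2], (.ev, 0)), ([4, 2, 2, 1, 4, 1], (.ev, 0)), ([2, 1, 1, 2, 0, 0], (.ev, 2)), ([0, 0, 0, 0, 0, 0], (.ev, 6)), ([0, 0, 0, 0, 0, 1], (.pl 1, 1)), ([0, 0, 0, 0, 0, 0], (.ev, 2))], [1, 1, 1, 2, 1, 1]⟩,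
   ⟨[10, 7, 7, 7, 6, 3], 1, [([4, 4, 4, 4, 2, 2], (.ev, 0)), ([4, 2, 2, 1, 4, 1], (.ev, 0)), ([2, 0, 0, 2, 0, 0], (.ev, 4)), ([0, 1, 1, 0, 0, 0], (.ev, 4)), ([0, 0, 0, 0, 0, 0], (.pl 1, 2)), ([0, 0, 0, 0, 0, 0], (.ev, 2))], [1, 1, 1, 1, 0, 1]⟩,
   ⟨[10, 7, 7, 7, 5, 5], 1, [([4, 4, 4, 4, 2, 2], (.ev, 0)), ([3, 3, 2, 2, 1, 1], (.ev, 2)), ([2, 0, 1, 0, 2, 1], (.ev, 2)), ([1, 0, 0, 1, 0, 0], (.ev, 4)), ([0, 0, 0, 0, 0, 1], (.pl 1, 1)), ([0, 0, 0, 0, 0, 0], (.ev, 2))], [1, 1, 1, 1, 0, 1]⟩,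
   ⟨[10, 7, 7, 7, 5, 4], 1, [([4, 4, 4, 4, 2, 2], (.ev, 0)), ([3, 3, 2, 2, 1, 1], (.ev, 2)), ([2, 0, 1, 1, 2, 0], (.ev, 2)), ([1, 0, 0, 0, 0, 1], (.ev, 4)), ([0, 0, 0, 0, 0, 0], (.pl 1, 2)), ([0, 0, 0, 0, 0, 0], (.ev, 2))], [1, 1, 1, 1, 0, 1]⟩,
   ⟨[10, 7, 7, 7, 4], 1, [([4, 4, 2, 2, 0], (.ev, 8)), ([4, 0, 4, 2, 2], (.ev, 2)), ([1, 3, 0, 3, 1], (.ev, 0)), ([1, 0, 1, 0, 0], (.ev, 4)), ([0, 0, 0, 0, 1], (.pl 1, 1)), ([0, 0, 0, 0, 0], (.ev, 2))], [2, 1, 1, 1, 1, 1]⟩,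
   ⟨[10, 7, 7, 6], 2, [([4, 4, 2, 2], (.ev, 8)), ([1, 1, 1, 1], (.pl 1, 4)), ([0, 1, 1, 1], (.pl 1, 3)), ([3, 0, 3, 0], (.ev, 2)), ([2, 0, 0, 2], (.ev, 2)), ([0, 1, 0, 0], (.pl 1, 1)), ([0, 0, 0, 0], (.ev, 2))], [2, 0, 0, 1, 1, 1, 1]⟩,
   ⟨[10, 7, 7, 5], 1, [([4, 4, 2, 2], (.ev, 8)), ([4, 2, 4, 2], (.ev, 2)), ([1, 1, 1, 1], (.ev, 4)), ([0, 0, 0, 0], (.ev, 6)), ([1, 0, 0, 0], (.pl 1, 1)), ([0, 0, 0, 0], (.ev, 2))], [2, 1, 1, 1, 1, 1]⟩,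
   ⟨[10, 7, 7, 4], 2, [([4, 4, 2, 2], (.ev, 8)), ([1, 1, 1, 1], (.pl 1, 4)), ([1, 1, 0, 1], (.pl 1, 3)), ([4, 0, 4, 0], (.ev, 0)), ([0, 0, 0, 0], (.ev, 6)), ([0, 1, 0, 0], (.pl 1, 1)), ([0, 0, 0, 0], (.ev, 2))], [2, 0, 0, 1, 1, 1, 1]⟩,
   ⟨[10, 7, 6, 6], 2, [([4, 4, 2, 2], (.ev, 8)), ([1, 1, 1, 1], (.pl 1, 4)), ([0, 1, 0, 1], (.pl 1, 4)), ([3, 0, 3, 0], (.ev, 2)), ([2, 0, 0, 2], (.ev, 2)), ([0, 1, 0, 0], (.pl 1, 1)), ([0, 0, 0, 0], (.ev, 2))], [2, 0, 0, 1, 1, 1, 1]⟩,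
   ⟨[10, 7, 6, 5], 2, [([4, 4, 2, 2], (.ev, 8)), ([1, 1, 1, 1], (.pl 1, 4)), ([1, 1, 0, 1], (.pl 1, 3)), ([3, 1, 3, 1], (.ev, 0)), ([0, 0, 0, 0], (.ev, 6)), ([1, 0, 0, 0], (.pl 1, 1)), ([0, 0, 0, 0], (.ev, 2))], [2, 0, 0, 1, 1, 1, 1]⟩,
   ⟨[10, 7, 5, 5], 1, [([4, 4, 2, 2], (.ev, 8)), ([3, 3, 2, 2], (.ev, 4)), ([1, 0, 1, 0], (.ev, 6)), ([1, 0, 0, 1], (.ev, 4)), ([1, 0, 0, 0], (.pl 1, 1)), ([0, 0, 0, 0], (.ev, 2))], [2, 1, 1, 1, 1, 1]⟩,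
   ⟨[10, 6, 6, 6], 2, [([4, 4, 2, 2], (.ev, 8)), ([1, 1, 0, 1], (.pl 1, 5)), ([1, 0, 0, 1], (.pl 1, 4)), ([3, 0, 3, 0], (.ev, 2)), ([1, 1, 1, 1], (.ev, 2)), ([0, 0, 0, 1], (.pl 1, 1)), ([0, 0, 0, 0], (.ev, 2))], [2, 0, 0, 1, 1, 1, 1]⟩,
   ⟨[10, 6, 6, 5], 1, [([4, 4, 2, 2], (.ev, 8)), ([3, 2, 3, 2], (.ev, 4)), ([1, 0, 1, 0], (.ev, 6)), ([1, 0, 0, 1], (.ev, 4)), ([1, 0, 0, 0], (.pl 1, 1)), ([0, 0, 0, 0], (.ev, 2))], [2, 1, 1, 1, 1, 1]⟩,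
   ⟨[10, 6, 5, 5], 2, [([4, 4, 2, 2], (.ev, 8)), ([1, 1, 0, 1], (.pl 1, 5)), ([1, 0, 0, 1], (.pl 1, 4)), ([3, 1, 3, 1], (.ev, 0)), ([0, 0, 0, 0], (.ev, 6)), ([1, 0, 0, 0], (.pl 1, 1)), ([0, 0, 0, 0], (.ev, 2))], [2, 0, 0, 1, 1, 1, 1]⟩,
   ⟨[10, 5, 5, 5], 2, [([4, 4, 2, 2], (.ev, 8)), ([1, 0, 0, 1], (.pl 1, 6)), ([1, 0, 0, 1], (.pl 1, 4)), ([3, 1, 3, 1], (.ev, 0)), ([0, 0, 0, 0], (.ev, 6)), ([1, 0, 0, 0], (.pl 1, 1)), ([0, 0, 0, 0], (.ev, 2))], [2, 0, 0, 1, 1, 1, 1]⟩,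
   ⟨[9, 9, 9, 9, 9, 4], 1, [([4, 4, 4, 4, 2, 2], (.ev, 0)), ([4, 2, 2, 1, 4, 1], (.ev, 0)), ([0, 3, 1, 3, 1, 0], (.ev, 0)), ([1, 0, 2, 1, 2, 0], (.ev, 0)), ([0, 0, 0, 0, 0, 1], (.pl 1, 1)), ([0, 0, 0, 0, 0, 0], (.ev, 2))], [1, 1, 1, 1, 0, 1]⟩,
   ⟨[9, 9, 9, 9, 9, 3], 1, [([4, 4, 4, 4, 2, 2], (.ev, 0)), ([4, 2, 2, 1, 4, 1], (.ev, 0)), ([0, 3, 1, 3, 1, 0], (.ev, 0)), ([1, 0, 2, 1, 2, 0], (.ev, 0)), ([0, 0, 0, 0, 0, 0], (.pl 1, 2)), ([0, 0, 0, 0, 0, 0], (.ev, 2))], [1, 1, 1, 1, 0, 1]⟩,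
   ⟨[9, 9, 9, 9, 9, 2], 1, [([4, 4, 4, 4, 2, 2], (.ev, 0)), ([4, 2, 2, 0, 4, 0], (.ev, 2)), ([0, 3, 1, 3, 1, 0], (.ev, 0)), ([1, 0, 2, 2, 1, 0], (.ev, 0)), ([0, 0, 0, 0, 1, 0], (.pl 1, 1)), ([0, 0, 0, 0, 0, 0], (.ev, 2))], [1, 1, 1, 1, 0, 1]⟩,
   ⟨[9, 9, 9, 9, 9, 1], 0, [([1, 1, 1, 1, 1, 1], (.pl 1, 5)), ([2, 3, 4, 4, 4, 0], (.pl 4, 0)), ([1, 1, 1, 1, 1, 0], (.pl 1, 1)), ([4, 4, 0, 0, 0, 0], (.ev, 0)), ([1, 0, 2, 2, 1, 0], (.ev, 0)), ([0, 0, 0, 1, 1, 0], (.pl 1, 0)), ([0, 0, 1, 0, 1, 0], (.ev, 0))], [0, 0, 0, 1, 1, 0, 1]⟩,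
   ⟨[9, 9, 9, 9, 8, 5], 1, [([4, 4, 4, 4, 2, 2], (.ev, 0)), ([4, 2, 2, 1, 4, 1], (.ev, 0)), ([0, 3, 1, 3, 1, 0], (.ev, 0)), ([1, 0, 2, 1, 0, 2], (.ev, 0)), ([0, 0, 0, 0, 1, 0], (.pl 1, 1)), ([0, 0, 0, 0, 0, 0], (.ev, 2))], [1, 1, 1, 1, 0, 1]⟩,
   ⟨[9, 9, 9, 9, 8, 4], 1, [([4, 4, 4, 4, 2, 2], (.ev, 0)), ([4, 2, 2, 1, 4, 1], (.ev, 0)), ([0, 3, 1, 3, 1, 0], (.ev, 0)), ([1, 0, 1, 1, 1, 0], (.ev, 2)), ([0, 0, 0, 0, 0, 0], (.pl 1, 2)), ([0, 0, 1, 0, 0, 1], (.ev, 0))], [1, 1, 1, 1, 0, 1]⟩,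
   ⟨[9, 9, 9, 9, 8, 3], 1, [([4, 4, 4, 4, 2, 2], (.ev, 0)), ([4, 2, 2, 1, 4, 1], (.ev, 0)), ([0, 3, 1, 3, 1, 0], (.ev, 0)), ([1, 0, 1, 1, 1, 0], (.ev, 2)), ([0, 0, 1, 0, 0, 0], (.pl 1, 1)), ([0, 0, 0, 0, 0, 0], (.ev, 2))], [1, 1, 1, 1, 0, 1]⟩,
   ⟨[9, 9, 9, 9, 8, 2], 1, [([4, 4, 4, 4, 2, 2], (.ev, 0)), ([4, 2, 2, 0, 4, 0], (.ev, 2)), ([0, 3, 1, 3, 1, 0], (.ev, 0)), ([1, 0, 2, 2, 1, 0], (.ev, 0)), ([0, 0, 0, 0, 0, 0], (.pl 1, 2)), ([0, 0, 0, 0, 0, 0], (.ev, 2))], [1, 1, 1, 1, 0, 1]⟩,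
   ⟨[9, 9, 9, 9, 8, 1], 0, [([1, 1, 1, 1, 1, 1], (.pl 1, 5)), ([3, 3, 3, 3, 4, 0], (.pl 4, 1)), ([1, 1, 1, 1, 1, 0], (.pl 1, 1)), ([4, 4, 0, 0, 0, 0], (.ev, 0)), ([0, 0, 3, 3, 0, 0], (.ev, 0)), ([0, 0, 0, 1, 1, 0], (.pl 1, 0)), ([0, 0, 1, 0, 1, 0], (.ev, 0))], [0, 0, 0, 1, 1, 0, 1]⟩,
   ⟨[9, 9, 9, 9, 7, 6], 1, [([4, 4, 4, 4, 2, 2], (.ev, 0)), ([4, 4, 2, 2, 1, 1], (.ev, 0)), ([0, 0, 3, 1, 3, 1], (.ev, 0)), ([1, 1, 0, 2, 0, 2], (.ev, 0)), ([0, 0, 0, 0, 1, 0], (.pl 1, 1)), ([0, 0, 0, 0, 0, 0], (.ev, 2))], [1, 1, 1, 1, 0, 1]⟩,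
   ⟨[9, 9, 9, 9, 7, 5], 1, [([4, 4, 4, 4, 2, 2], (.ev, 0)), ([4, 4, 2, 2, 1, 1], (.ev, 0)), ([0, 0, 3, 1, 3, 1], (.ev, 0)), ([1, 1, 0, 1, 1, 0], (.ev, 2)), ([0, 0, 0, 0, 0, 0], (.pl 1, 2)), ([0, 0, 0, 1, 0, 1], (.ev, 0))], [1, 1, 1, 1, 0, 1]⟩,
   ⟨[9, 9, 9, 9, 7, 4], 1, [([4, 4, 4, 4, 2, 2], (.ev, 0)), ([4, 4, 2, 2, 1, 1], (.ev, 0)), ([1, 0, 3, 1, 3, 0], (.ev, 0)), ([0, 1, 0, 1, 1, 1], (.ev, 2)), ([0, 0, 0, 1, 0, 0], (.pl 1, 1)), ([0, 0, 0, 0, 0, 0], (.ev, 2))], [1, 1, 1, 1, 0, 1]⟩,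
   ⟨[9, 9, 9, 9, 7, 3], 1, [([4, 4, 4, 4, 2, 2], (.ev, 0)), ([4, 4, 2, 2, 1, 1], (.ev, 0)), ([1, 0, 2, 1, 2, 0], (.ev, 2)), ([0, 1, 1, 2, 2, 0], (.ev, 0)), ([0, 0, 0, 0, 0, 0], (.pl 1, 2)), ([0, 0, 0, 0, 0, 0], (.ev, 2))], [1, 1, 1, 1, 0, 1]⟩,
   ⟨[9, 9, 9, 9, 7, 2], 1, [([4, 4, 4, 4, 2, 2], (.ev, 0)), ([4, 4, 2, 2, 0, 0], (.ev, 2)), ([1, 0, 3, 1, 3, 0], (.ev, 0)), ([0, 0, 0, 2, 2, 0], (.ev, 2)), ([0, 1, 0, 0, 0, 0], (.pl 1, 1)), ([0, 0, 0, 0, 0, 0], (.ev, 2))], [1, 1, 1, 1, 0, 1]⟩,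
   ⟨[9, 9, 9, 9, 6, 6], 1, [([4, 4, 4, 4, 2, 2], (.ev, 0)), ([4, 4, 2, 2, 1, 1], (.ev, 0)), ([0, 0, 3, 3, 1, 1], (.ev, 0)), ([1, 1, 0, 0, 2, 2], (.ev, 0)), ([0, 0, 0, 0, 0, 0], (.pl 1, 2)), ([0, 0, 0, 0, 0, 0], (.ev, 2))], [1, 1, 1, 1, 0, 1]⟩,
   ⟨[9, 9, 9, 9, 6, 5], 1, [([4, 4, 4, 4, 2, 2], (.ev, 0)), ([4, 4, 2, 2, 1, 1], (.ev, 0)), ([0, 0, 3, 3, 1, 1], (.ev, 0)), ([1, 1, 0, 0, 1, 1], (.ev, 2)), ([0, 0, 0, 0, 1, 0], (.pl 1, 1)), ([0, 0, 0, 0, 0, 0], (.ev, 2))], [1, 1, 1, 1, 0, 1]⟩,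
   ⟨[9, 9, 9, 9, 6, 4], 2, [([4, 4, 4, 4, 2, 2], (.ev, 0)), ([1, 1, 1, 1, 1, 1], (.pl 1, 2)), ([0, 1, 1, 1, 1, 1], (.pl 1, 1)), ([3, 3, 1, 1, 0, 0], (.ev, 0)), ([1, 0, 2, 2, 1, 0], (.ev, 0)), ([0, 0, 0, 0, 1, 0], (.pl 1, 1)), ([0, 0, 0, 0, 0, 0], (.ev, 2))], [1, 0, 0, 1, 1, 0, 1]⟩,
   ⟨[9, 9, 9, 9, 6, 3], 1, [([4, 4, 4, 4, 2, 2], (.ev, 0)), ([4, 4, 2, 2, 1, 1], (.ev, 0)), ([1, 0, 3, 3, 1, 0], (.ev, 0)), ([0, 1, 0, 0, 1, 0], (.ev, 4)), ([0, 0, 0, 0, 1, 0], (.pl 1, 1)), ([0, 0, 0, 0, 0, 0], (.ev, 2))], [1, 1, 1, 2, 1, 1]⟩,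
   ⟨[9, 9, 9, 9, 6, 2], 1, [([4, 4, 4, 4, 2, 2], (.ev, 0)), ([4, 4, 2, 2, 0, 0], (.ev, 2)), ([1, 0, 3, 1, 3, 0], (.ev, 0)), ([0, 1, 0, 1, 0, 0], (.ev, 4)), ([0, 0, 0, 0, 0, 0], (.pl 1, 2)), ([0, 0, 0, 1, 1, 0], (.ev, 0))], [1, 1, 1, 1, 0, 1]⟩,
   ⟨[9, 9, 9, 9, 5, 5], 2, [([4, 4, 4, 4, 2, 2], (.ev, 0)), ([1, 1, 1, 1, 1, 1], (.pl 1, 2)), ([1, 1, 1, 1, 1, 0], (.pl 1, 1)), ([3, 3, 1, 1, 0, 0], (.ev, 0)), ([0, 0, 2, 2, 1, 1], (.ev, 0)), ([0, 0, 0, 0, 0, 1], (.pl 1, 1)), ([0, 0, 0, 0, 0, 0], (.ev, 2))], [1, 0, 0, 1, 1, 0, 1]⟩,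
   ⟨[9, 9, 9, 9, 5, 4], 1, [([4, 4, 4, 4, 2, 2], (.ev, 0)), ([4, 4, 2, 2, 1, 1], (.ev, 0)), ([0, 0, 3, 3, 0, 0], (.ev, 2)), ([1, 1, 0, 0, 1, 1], (.ev, 2)), ([0, 0, 0, 0, 1, 0], (.pl 1, 1)), ([0, 0, 0, 0, 0, 0], (.ev, 2))], [1, 1, 1, 1, 0, 1]⟩,
   ⟨[9, 9, 9, 9, 5, 3], 1, [([4, 4, 4, 4, 2, 2], (.ev, 0)), ([4, 4, 2, 2, 1, 1], (.ev, 0)), ([1, 0, 2, 2, 1, 0], (.ev, 2)), ([0, 1, 1, 1, 1, 0], (.ev, 2)), ([0, 0, 0, 0, 0, 0], (.pl 1, 2)), ([0, 0, 0, 0, 0, 0], (.ev, 2))], [1, 1, 1, 1, 0, 1]⟩,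
   ⟨[9, 9, 9, 9, 4, 4], 1, [([4, 4, 4, 4, 2, 2], (.ev, 0)), ([4, 4, 2, 2, 1, 1], (.ev, 0)), ([0, 0, 3, 3, 0, 0], (.ev, 2)), ([1, 1, 0, 0, 1, 1], (.ev, 2)), ([0, 0, 0, 0, 0, 0], (.pl 1, 2)), ([0, 0, 0, 0, 0, 0], (.ev, 2))], [1, 1, 1, 1, 0, 1]⟩,
   ⟨[9, 9, 9, 9, 4, 3], 1, [([4, 4, 4, 4, 2, 2], (.ev, 0)), ([4, 4, 2, 2, 1, 1], (.ev, 0)), ([0, 0, 3, 3, 0, 0], (.ev, 2)), ([1, 1, 0, 0, 0, 0], (.ev, 4)), ([0, 0, 0, 0, 1, 0], (.pl 1, 1)), ([0, 0, 0, 0, 0, 0], (.ev, 2))], [1, 1, 1, 2, 1, 1]⟩,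
   ⟨[9, 9, 9, 9, 3], 1, [([4, 4, 2, 2, 0], (.ev, 8)), ([2, 2, 4, 4, 0], (.ev, 2)), ([3, 3, 1, 1, 0], (.ev, 0)), ([0, 0, 2, 0, 2], (.ev, 2)), ([0, 0, 0, 1, 0], (.pl 1, 1)), ([0, 0, 0, 1, 1], (.ev, 0))], [2, 1, 1, 1, 1, 1]⟩,
   ⟨[9, 9, 9, 8, 8, 6], 1, [([4, 4, 4, 4, 2, 2], (.ev, 0)), ([4, 2, 2, 1, 4, 1], (.ev, 0)), ([0, 3, 3, 1, 0, 1], (.ev, 0)), ([1, 0, 0, 2, 2, 1], (.ev, 0)), ([0, 0, 0, 0, 0, 1], (.pl 1, 1)), ([0, 0, 0, 0, 0, 0], (.ev, 2))], [1, 1, 1, 1, 0, 1]⟩,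
   ⟨[9, 9, 9, 8, 8, 5], 1, [([4, 4, 4, 4, 2, 2], (.ev, 0)), ([4, 2, 2, 1, 4, 1], (.ev, 0)), ([0, 3, 3, 1, 1, 0], (.ev, 0)), ([1, 0, 0, 2, 1, 2], (.ev, 0)), ([0, 0, 0, 0, 0, 0], (.pl 1, 2)), ([0, 0, 0, 0, 0, 0], (.ev, 2))], [1, 1, 1, 1, 0, 1]⟩,
   ⟨[9, 9, 9, 8, 8, 4], 1, [([4, 4, 4, 4, 2, 2], (.ev, 0)), ([4, 2, 2, 1, 4, 1], (.ev, 0)), ([0, 3, 3, 1, 1, 0], (.ev, 0)), ([1, 0, 0, 1, 1, 1], (.ev, 2)), ([0, 0, 0, 1, 0, 0], (.pl 1, 1)), ([0, 0, 0, 0, 0, 0], (.ev, 2))], [1, 1, 1, 1, 0, 1]⟩,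
   ⟨[9, 9, 9, 8, 8, 3], 1, [([4, 4, 4, 4, 2, 2], (.ev, 0)), ([4, 2, 2, 1, 4, 1], (.ev, 0)), ([0, 3, 3, 0, 0, 0], (.ev, 2)), ([0, 0, 0, 2, 2, 0], (.ev, 2)), ([0, 0, 0, 0, 0, 0], (.pl 1, 2)), ([1, 0, 0, 1, 0, 0], (.ev, 0))], [1, 1, 1, 1, 0, 1]⟩,
   ⟨[9, 9, 9, 8, 8, 2], 1, [([4, 4, 4, 4, 2, 2], (.ev, 0)), ([4, 2, 2, 0, 4, 0], (.ev, 2)), ([0, 3, 1, 3, 1, 0], (.ev, 0)), ([1, 0, 1, 1, 1, 0], (.ev, 2)), ([0, 0, 1, 0, 0, 0], (.pl 1, 1)), ([0, 0, 0, 0, 0, 0], (.ev, 2))], [1, 1, 1, 1, 0, 1]⟩,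
   ⟨[9, 9, 9, 8, 7, 7], 1, [([4, 4, 4, 4, 2, 2], (.ev, 0)), ([4, 4, 2, 1, 2, 1], (.ev, 0)), ([0, 0, 3, 1, 1, 3], (.ev, 0)), ([1, 1, 0, 2, 2, 0], (.ev, 0)), ([0, 0, 0, 0, 0, 1], (.pl 1, 1)), ([0, 0, 0, 0, 0, 0], (.ev, 2))], [1, 1, 1, 1, 0, 1]⟩,
   ⟨[9, 9, 9, 8, 7, 6], 1, [([4, 4, 4, 4, 2, 2], (.ev, 0)), ([4, 4, 2, 1, 2, 1], (.ev, 0)), ([0, 0, 3, 3, 1, 1], (.ev, 0)), ([1, 1, 0, 0, 2, 2], (.ev, 0)), ([0, 0, 0, 0, 0, 0], (.pl 1, 2)), ([0, 0, 0, 0, 0, 0], (.ev, 2))], [1, 1, 1, 1, 0, 1]⟩,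
   ⟨[9, 9, 9, 8, 7, 5], 1, [([4, 4, 4, 4, 2, 2], (.ev, 0)), ([4, 4, 2, 1, 2, 1], (.ev, 0)), ([0, 0, 3, 3, 1, 1], (.ev, 0)), ([1, 1, 0, 0, 1, 1], (.ev, 2)), ([0, 0, 0, 0, 1, 0], (.pl 1, 1)), ([0, 0, 0, 0, 0, 0], (.ev, 2))], [1, 1, 1, 1, 0, 1]⟩,
   ⟨[9, 9, 9, 8, 7, 4], 2, [([4, 4, 4, 4, 2, 2], (.ev, 0)), ([1, 1, 1, 1, 1, 1], (.pl 1, 2)), ([0, 1, 1, 1, 1, 1], (.pl 1, 1)), ([3, 3, 1, 0, 1, 0], (.ev, 0)), ([1, 0, 2, 2, 1, 0], (.ev, 0)), ([0, 0, 0, 0, 1, 0], (.pl 1, 1)), ([0, 0, 0, 0, 0, 0], (.ev, 2))], [1, 0, 0, 1, 1, 0, 1]⟩,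
   ⟨[9, 9, 9, 8, 7, 3], 1, [([4, 4, 4, 4, 2, 2], (.ev, 0)), ([4, 4, 2, 1, 2, 1], (.ev, 0)), ([1, 0, 3, 3, 1, 0], (.ev, 0)), ([0, 1, 0, 0, 1, 0], (.ev, 4)), ([0, 0, 0, 0, 1, 0], (.pl 1, 1)), ([0, 0, 0, 0, 0, 0], (.ev, 2))], [1, 1, 1, 2, 1, 1]⟩,
   ⟨[9, 9, 9, 8, 7, 2], 1, [([4, 4, 4, 4, 2, 2], (.ev, 0)), ([4, 4, 2, 0, 2, 0], (.ev, 2)), ([1, 0, 3, 3, 1, 0], (.ev, 0)), ([0, 1, 0, 0, 1, 0], (.ev, 4)), ([0, 0, 0, 0, 0, 0], (.pl 1, 2)), ([0, 0, 0, 1, 1, 0], (.ev, 0))], [1, 1, 1, 1, 0, 1]⟩,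
   ⟨[9, 9, 9, 8, 6, 6], 1, [([4, 4, 4, 4, 2, 2], (.ev, 0)), ([4, 4, 2, 2, 1, 1], (.ev, 0)), ([0, 0, 3, 1, 3, 1], (.ev, 0)), ([1, 1, 0, 1, 0, 1], (.ev, 2)), ([0, 0, 0, 0, 0, 1], (.pl 1, 1)), ([0, 0, 0, 0, 0, 0], (.ev, 2))], [1, 1, 1, 1, 0, 1]⟩,
   ⟨[9, 9, 9, 8, 6, 5], 2, [([4, 4, 4, 4, 2, 2], (.ev, 0)), ([1, 1, 1, 1, 1, 1], (.pl 1, 2)), ([1, 1, 1, 1, 1, 0], (.pl 1, 1)), ([3, 3, 1, 1, 0, 0], (.ev, 0)), ([0, 0, 2, 1, 2, 1], (.ev, 0)), ([0, 0, 0, 0, 0, 1], (.pl 1, 1)), ([0, 0, 0, 0, 0, 0], (.ev, 2))], [1, 0, 0, 1, 1, 0, 1]⟩,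
   ⟨[9, 9, 9, 8, 6, 4], 1, [([4, 4, 4, 4, 2, 2], (.ev, 0)), ([4, 4, 2, 2, 1, 1], (.ev, 0)), ([0, 0, 3, 0, 3, 0], (.ev, 2)), ([1, 1, 0, 1, 0, 1], (.ev, 2)), ([0, 0, 0, 1, 0, 0], (.pl 1, 1)), ([0, 0, 0, 0, 0, 0], (.ev, 2))], [1, 1, 1, 1, 0, 1]⟩,
   ⟨[9, 9, 9, 8, 6, 3], 1, [([4, 4, 4, 4, 2, 2], (.ev, 0)), ([4, 4, 2, 2, 1, 1], (.ev, 0)), ([1, 0, 2, 1, 2, 0], (.ev, 2)), ([0, 1, 1, 1, 1, 0], (.ev, 2)), ([0, 0, 0, 0, 0, 0], (.pl 1, 2)), ([0, 0, 0, 0, 0, 0], (.ev, 2))], [1, 1, 1, 1, 0, 1]⟩,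
   ⟨[9, 9, 9, 8, 5, 5, 5], 1, [([4, 4, 4, 4, 2, 2, 0], (.ev, 0)), ([4, 4, 2, 1, 1, 0, 2], (.ev, 0)), ([0, 0, 3, 3, 0, 1, 1], (.ev, 0)), ([1, 0, 0, 0, 2, 2, 1], (.ev, 0)), ([0, 0, 0, 0, 0, 0, 0], (.pl 1, 2)), ([0, 1, 0, 0, 0, 0, 1], (.ev, 0))], [1, 1, 1, 1, 0, 1]⟩,
   ⟨[9, 9, 9, 8, 5, 5, 4], 1, [([4, 4, 4, 4, 2, 2, 0], (.ev, 0)), ([4, 4, 2, 2, 1, 0, 1], (.ev, 0)), ([0, 0, 3, 1, 0, 3, 1], (.ev, 0)), ([1, 1, 0, 0, 2, 0, 2], (.ev, 0)), ([0, 0, 0, 1, 0, 0, 0], (.pl 1, 1)), ([0, 0, 0, 0, 0, 0, 0], (.ev, 2))], [1, 1, 1, 1, 0, 1]⟩,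
   ⟨[9, 9, 9, 8, 5, 5, 3], 2, [([4, 4, 4, 4, 2, 2, 0], (.ev, 0)), ([1, 1, 1, 1, 1, 1, 1], (.pl 1, 1)), ([0, 0, 1, 0, 1, 1, 1], (.pl 1, 2)), ([4, 4, 0, 0, 0, 0, 0], (.ev, 0)), ([0, 0, 3, 3, 0, 0, 0], (.ev, 0)), ([0, 0, 0, 0, 0, 0, 1], (.pl 1, 1)), ([0, 0, 0, 0, 1, 1, 0], (.ev, 0))], [1, 0, 0, 1, 1, 0, 1]⟩,
   ⟨[9, 9, 9, 8, 5, 5, 2], 1, [([4, 4, 4, 4, 2, 2, 0], (.ev, 0)), ([4, 4, 2, 2, 1, 1, 0], (.ev, 0)), ([0, 0, 2, 2, 2, 2, 0], (.ev, 0)), ([1, 1, 1, 0, 0, 0, 1], (.ev, 2)), ([0, 0, 0, 0, 0, 0, 1], (.pl 1, 1)), ([0, 0, 0, 0, 0, 0, 0], (.ev, 2))], [1, 1, 1, 1, 0, 1]⟩,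
   ⟨[9, 9, 9, 8, 5, 4], 1, [([4, 4, 4, 4, 2, 2], (.ev, 0)), ([4, 4, 2, 2, 1, 1], (.ev, 0)), ([1, 0, 2, 2, 1, 0], (.ev, 2)), ([0, 1, 1, 0, 1, 1], (.ev, 2)), ([0, 0, 0, 0, 0, 0], (.pl 1, 2)), ([0, 0, 0, 0, 0, 0], (.ev, 2))], [1, 1, 1, 1, 0, 1]⟩,
   ⟨[9, 9, 9, 8, 5, 3], 1, [([4, 4, 4, 4, 2, 2], (.ev, 0)), ([4, 4, 2, 2, 1, 1], (.ev, 0)), ([1, 0, 2, 2, 1, 0], (.ev, 2)), ([0, 1, 1, 0, 0, 0], (.ev, 4)), ([0, 0, 0, 0, 1, 0], (.pl 1, 1)), ([0, 0, 0, 0, 0, 0], (.ev, 2))], [1, 1, 1, 2, 1, 1]⟩,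
   ⟨[9, 9, 9, 8, 4], 2, [([4, 4, 2, 2, 0], (.ev, 8)), ([1, 1, 1, 1, 1], (.pl 1, 3)), ([1, 1, 1, 1, 1], (.pl 1, 1)), ([0, 0, 4, 4, 0], (.ev, 0)), ([3, 3, 0, 0, 0], (.ev, 0)), ([0, 0, 0, 0, 1], (.pl 1, 1)), ([0, 0, 1, 0, 1], (.ev, 0))], [3, 0, 1, 1, 1, 1, 1]⟩,
   ⟨[9, 9, 9, 8, 3], 2, [([4, 4, 2, 2, 0], (.ev, 8)), ([1, 1, 1, 1, 1], (.pl 1, 3)), ([1, 1, 1, 1, 1], (.pl 1, 1)), ([0, 0, 4, 4, 0], (.ev, 0)), ([3, 3, 0, 0, 0], (.ev, 0)), ([0, 0, 0, 0, 0], (.pl 1, 2)), ([0, 0, 1, 0, 1], (.ev, 0))], [2, 0, 1, 1, 1, 0, 1]⟩,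
   ⟨[9, 9, 9, 7, 7, 7], 1, [([4, 4, 4, 4, 2, 2], (.ev, 0)), ([4, 4, 2, 1, 2, 1], (.ev, 0)), ([0, 0, 3, 1, 1, 3], (.ev, 0)), ([1, 1, 0, 1, 1, 0], (.ev, 2)), ([0, 0, 0, 0, 0, 0], (.pl 1, 2)), ([0, 0, 0, 0, 1, 1], (.ev, 0))], [1, 1, 1, 1, 0, 1]⟩,
   ⟨[9, 9, 9, 7, 7, 6], 1, [([4, 4, 4, 4, 2, 2], (.ev, 0)), ([4, 4, 2, 1, 2, 1], (.ev, 0)), ([0, 0, 3, 1, 3, 1], (.ev, 0)), ([1, 1, 0, 1, 0, 1], (.ev, 2)), ([0, 0, 0, 0, 0, 1], (.pl 1, 1)), ([0, 0, 0, 0, 0, 0], (.ev, 2))], [1, 1, 1, 1, 0, 1]⟩,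
   ⟨[9, 9, 9, 7, 7, 5], 2, [([4, 4, 4, 4, 2, 2], (.ev, 0)), ([1, 1, 1, 1, 1, 1], (.pl 1, 2)), ([1, 1, 1, 1, 1, 0], (.pl 1, 1)), ([3, 3, 1, 0, 1, 0], (.ev, 0)), ([0, 0, 2, 1, 2, 1], (.ev, 0)), ([0, 0, 0, 0, 0, 1], (.pl 1, 1)), ([0, 0, 0, 0, 0, 0], (.ev, 2))], [1, 0, 0, 1, 1, 0, 1]⟩,
   ⟨[9, 9, 9, 7, 7, 4], 1, [([4, 4, 4, 4, 2, 2], (.ev, 0)), ([4, 4, 2, 1, 2, 1], (.ev, 0)), ([0, 0, 3, 0, 3, 0], (.ev, 2)), ([1, 1, 0, 1, 0, 1], (.ev, 2)), ([0, 0, 0, 1, 0, 0], (.pl 1, 1)), ([0, 0, 0, 0, 0, 0], (.ev, 2))], [1, 1, 1, 1, 0, 1]⟩,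
   ⟨[9, 9, 9, 7, 7, 3], 1, [([4, 4, 4, 4, 2, 2], (.ev, 0)), ([4, 4, 2, 1, 2, 1], (.ev, 0)), ([1, 0, 2, 1, 2, 0], (.ev, 2)), ([0, 1, 1, 1, 1, 0], (.ev, 2)), ([0, 0, 0, 0, 0, 0], (.pl 1, 2)), ([0, 0, 0, 0, 0, 0], (.ev, 2))], [1, 1, 1, 1, 0, 1]⟩,
   ⟨[9, 9, 9, 7, 6, 6], 2, [([4, 4, 4, 4, 2, 2], (.ev, 0)), ([1, 1, 1, 1, 1, 1], (.pl 1, 2)), ([1, 1, 1, 1, 1, 0], (.pl 1, 1)), ([3, 3, 1, 0, 1, 0], (.ev, 0)), ([0, 0, 2, 1, 1, 2], (.ev, 0)), ([0, 0, 0, 0, 0, 1], (.pl 1, 1)), ([0, 0, 0, 0, 0, 0], (.ev, 2))], [1, 0, 0, 1, 1, 0, 1]⟩,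
   ⟨[9, 9, 9, 7, 6, 5, 5], 1, [([4, 4, 4, 4, 2, 2, 0], (.ev, 0)), ([4, 4, 2, 1, 1, 0, 2], (.ev, 0)), ([0, 0, 3, 0, 3, 1, 1], (.ev, 0)), ([1, 0, 0, 2, 0, 2, 1], (.ev, 0)), ([0, 0, 0, 0, 0, 0, 0], (.pl 1, 2)), ([0, 1, 0, 0, 0, 0, 1], (.ev, 0))], [1, 1, 1, 1, 0, 1]⟩,
   ⟨[9, 9, 9, 7, 6, 5, 4], 1, [([4, 4, 4, 4, 2, 2, 0], (.ev, 0)), ([4, 4, 2, 1, 2, 0, 1], (.ev, 0)), ([0, 0, 3, 1, 0, 3, 1], (.ev, 0)), ([1, 1, 0, 0, 2, 0, 2], (.ev, 0)), ([0, 0, 0, 1, 0, 0, 0], (.pl 1, 1)), ([0, 0, 0, 0, 0, 0, 0], (.ev, 2))], [1, 1, 1, 1, 0, 1]⟩,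
   ⟨[9, 9, 9, 7, 6, 5, 3], 2, [([4, 4, 4, 4, 2, 2, 0], (.ev, 0)), ([1, 1, 1, 1, 1, 1, 1], (.pl 1, 1)), ([0, 0, 1, 1, 0, 1, 1], (.pl 1, 2)), ([4, 4, 0, 0, 0, 0, 0], (.ev, 0)), ([0, 0, 3, 0, 3, 0, 0], (.ev, 0)), ([0, 0, 0, 0, 0, 0, 1], (.pl 1, 1)), ([0, 0, 0, 1, 0, 1, 0], (.ev, 0))], [1, 0, 0, 1, 1, 0, 1]⟩,
   ⟨[9, 9, 9, 7, 6, 5, 2], 1, [([4, 4, 4, 4, 2, 2, 0], (.ev, 0)), ([4, 4, 2, 1, 2, 1, 0], (.ev, 0)), ([0, 0, 2, 2, 2, 2, 0], (.ev, 0)), ([1, 1, 1, 0, 0, 0, 1], (.ev, 2)), ([0, 0, 0, 0, 0, 0, 1], (.pl 1, 1)), ([0, 0, 0, 0, 0, 0, 0], (.ev, 2))], [1, 1, 1, 1, 0, 1]⟩,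
   ⟨[9, 9, 9, 7, 6, 4], 1, [([4, 4, 4, 4, 2, 2], (.ev, 0)), ([4, 4, 2, 1, 2, 1], (.ev, 0)), ([1, 0, 2, 2, 1, 0], (.ev, 2)), ([0, 1, 1, 0, 1, 1], (.ev, 2)), ([0, 0, 0, 0, 0, 0], (.pl 1, 2)), ([0, 0, 0, 0, 0, 0], (.ev, 2))], [1, 1, 1, 1, 0, 1]⟩,
   ⟨[9, 9, 9, 7, 6, 3], 1, [([4, 4, 4, 4, 2, 2], (.ev, 0)), ([4, 4, 2, 1, 2, 1], (.ev, 0)), ([1, 0, 2, 2, 1, 0], (.ev, 2)), ([0, 1, 1, 0, 0, 0], (.ev, 4)), ([0, 0, 0, 0, 1, 0], (.pl 1, 1)), ([0, 0, 0, 0, 0, 0], (.ev, 2))], [1, 1, 1, 2, 1, 1]⟩,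
   ⟨[9, 9, 9, 7, 5, 5], 2, [([4, 4, 4, 4, 2, 2], (.ev, 0)), ([1, 1, 1, 1, 1, 1], (.pl 1, 2)), ([1, 1, 1, 1, 0, 1], (.pl 1, 1)), ([3, 3, 1, 1, 0, 0], (.ev, 0)), ([0, 0, 2, 0, 2, 0], (.ev, 2)), ([0, 0, 0, 0, 0, 1], (.pl 1, 1)), ([0, 0, 0, 0, 0, 0], (.ev, 2))], [1, 0, 0, 1, 1, 0, 1]⟩,
   ⟨[9, 9, 9, 7, 5, 4], 1, [([4, 4, 4, 4, 2, 2], (.ev, 0)), ([4, 4, 2, 2, 1, 1], (.ev, 0)), ([1, 1, 2, 0, 2, 0], (.ev, 2)), ([0, 0, 1, 1, 0, 0], (.ev, 4)), ([0, 0, 0, 0, 0, 1], (.pl 1, 1)), ([0, 0, 0, 0, 0, 0], (.ev, 2))], [1, 1, 1, 2, 1, 1]⟩,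
   ⟨[9, 9, 9, 7, 5, 3], 1, [([4, 4, 4, 4, 2, 2], (.ev, 0)), ([4, 4, 2, 2, 1, 1], (.ev, 0)), ([1, 1, 2, 0, 2, 0], (.ev, 2)), ([0, 0, 1, 1, 0, 0], (.ev, 4)), ([0, 0, 0, 0, 0, 0], (.pl 1, 2)), ([0, 0, 0, 0, 0, 0], (.ev, 2))], [1, 1, 1, 1, 0, 1]⟩]

def cmC_11_8_6_3_6 : List (List ℕ × List (ℕ × ℕ)) :=
  [([10, 7, 7, 7, 6, 6, 3], [(0, 1), (0, 1), (0, 1), (2, 1), (2, 1), (2, 1)]),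
   ([10, 7, 7, 7, 6, 5], [(0, 1), (2, 1), (2, 1), (2, 1), (2, 1), (2, 1)]),
   ([10, 7, 7, 7, 6, 4], [(0, 1), (0, 1), (2, 1), (7, 2), (0, 1), (2, 1)]),
   ([10, 7, 7, 7, 6, 3], [(0, 1), (0, 1), (4, 1), (4, 1), (2, 1), (2, 1)]),
   ([10, 7, 7, 7, 5, 5], [(0, 1), (2, 1), (2, 1), (4, 1), (1, 1), (2, 1)]),
   ([10, 7, 7, 7, 5, 4], [(0, 1), (2, 1), (2, 1), (4, 1), (2, 1), (2, 1)]),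
   ([10, 7, 7, 7, 4], [(9, 2), (2, 1), (0, 1), (4, 1), (0, 1), (2, 1)]),
   ([10, 7, 7, 6], [(9, 2), (4, 1), (3, 1), (2, 1), (2, 1), (0, 1), (2, 1)]),
   ([10, 7, 7, 5], [(9, 2), (2, 1), (4, 1), (6, 1), (0, 1), (2, 1)]),
   ([10, 7, 7, 4], [(9, 2), (4, 1), (3, 1), (0, 1), (6, 1), (0, 1), (2, 1)]),
   ([10, 7, 6, 6], [(9, 2), (4, 1), (4, 1), (2, 1), (2, 1), (0, 1), (2, 1)]),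
   ([10, 7, 6, 5], [(9, 2), (4, 1), (3, 1), (0, 1), (6, 1), (0, 1), (2, 1)]),
   ([10, 7, 5, 5], [(9, 2), (4, 1), (6, 1), (4, 1), (0, 1), (2, 1)]),
   ([10, 6, 6, 6], [(9, 2), (5, 1), (4, 1), (2, 1), (2, 1), (0, 1), (2, 1)]),
   ([10, 6, 6, 5], [(9, 2), (4, 1), (6, 1), (4, 1), (0, 1), (2, 1)]),
   ([10, 6, 5, 5], [(9, 2), (5, 1), (4, 1), (0, 1), (6, 1), (0, 1), (2, 1)]),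
   ([10, 5, 5, 5], [(9, 2), (6, 1), (4, 1), (0, 1), (6, 1), (0, 1), (2, 1)]),
   ([9, 9, 9, 9, 9, 4], [(0, 1), (0, 1), (0, 1), (0, 1), (1, 1), (2, 1)]),
   ([9, 9, 9, 9, 9, 3], [(0, 1), (0, 1), (0, 1), (0, 1), (2, 1), (2, 1)]),
   ([9, 9, 9, 9, 9, 2], [(0, 1), (2, 1), (0, 1), (0, 1), (1, 1), (2, 1)]),
   ([9, 9, 9, 9, 9, 1], [(5, 1), (0, 4), (1, 1), (0, 1), (0, 1), (0, 1), (0, 1)]),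
   ([9, 9, 9, 9, 8, 5], [(0, 1), (0, 1), (0, 1), (0, 1), (1, 1), (2, 1)]),
   ([9, 9, 9, 9, 8, 4], [(0, 1), (0, 1), (0, 1), (2, 1), (2, 1), (0, 1)]),
   ([9, 9, 9, 9, 8, 3], [(0, 1), (0, 1), (0, 1), (2, 1), (1, 1), (2, 1)]),
   ([9, 9, 9, 9, 8, 2], [(0, 1), (2, 1), (0, 1), (0, 1), (2, 1), (2, 1)]),
   ([9, 9, 9, 9, 8, 1], [(5, 1), (1, 4), (1, 1), (0, 1), (0, 1), (0, 1), (0, 1)]),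
   ([9, 9, 9, 9, 7, 6], [(0, 1), (0, 1), (0, 1), (0, 1), (1, 1), (2, 1)]),
   ([9, 9, 9, 9, 7, 5], [(0, 1), (0, 1), (0, 1), (2, 1), (2, 1), (0, 1)]),
   ([9, 9, 9, 9, 7, 4], [(0, 1), (0, 1), (0, 1), (2, 1), (1, 1), (2, 1)]),
   ([9, 9, 9, 9, 7, 3], [(0, 1), (0, 1), (2, 1), (0, 1), (2, 1), (2, 1)]),
   ([9, 9, 9, 9, 7, 2], [(0, 1), (2, 1), (0, 1), (2, 1), (1, 1), (2, 1)]),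
   ([9, 9, 9, 9, 6, 6], [(0, 1), (0, 1), (0, 1), (0, 1), (2, 1), (2, 1)]),
   ([9, 9, 9, 9, 6, 5], [(0, 1), (0, 1), (0, 1), (2, 1), (1, 1), (2, 1)]),
   ([9, 9, 9, 9, 6, 4], [(0, 1), (2, 1), (1, 1), (0, 1), (0, 1), (1, 1), (2, 1)]),
   ([9, 9, 9, 9, 6, 3], [(0, 1), (0, 1), (0, 1), (5, 2), (0, 1), (2, 1)]),
   ([9, 9, 9, 9, 6, 2], [(0, 1), (2, 1), (0, 1), (4, 1), (2, 1), (0, 1)]),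
   ([9, 9, 9, 9, 5, 5], [(0, 1), (2, 1), (1, 1), (0, 1), (0, 1), (1, 1), (2, 1)]),
   ([9, 9, 9, 9, 5, 4], [(0, 1), (0, 1), (2, 1), (2, 1), (1, 1), (2, 1)]),
   ([9, 9, 9, 9, 5, 3], [(0, 1), (0, 1), (2, 1), (2, 1), (2, 1), (2, 1)]),
   ([9, 9, 9, 9, 4, 4], [(0, 1), (0, 1), (2, 1), (2, 1), (2, 1), (2, 1)]),
   ([9, 9, 9, 9, 4, 3], [(0, 1), (0, 1), (2, 1), (5, 2), (0, 1), (2, 1)]),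
   ([9, 9, 9, 9, 3], [(9, 2), (2, 1), (0, 1), (2, 1), (0, 1), (0, 1)]),
   ([9, 9, 9, 8, 8, 6], [(0, 1), (0, 1), (0, 1), (0, 1), (1, 1), (2, 1)]),
   ([9, 9, 9, 8, 8, 5], [(0, 1), (0, 1), (0, 1), (0, 1), (2, 1), (2, 1)]),
   ([9, 9, 9, 8, 8, 4], [(0, 1), (0, 1), (0, 1), (2, 1), (1, 1), (2, 1)]),
   ([9, 9, 9, 8, 8, 3], [(0, 1), (0, 1), (2, 1), (2, 1), (2, 1), (0, 1)]),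
   ([9, 9, 9, 8, 8, 2], [(0, 1), (2, 1), (0, 1), (2, 1), (1, 1), (2, 1)]),
   ([9, 9, 9, 8, 7, 7], [(0, 1), (0, 1), (0, 1), (0, 1), (1, 1), (2, 1)]),
   ([9, 9, 9, 8, 7, 6], [(0, 1), (0, 1), (0, 1), (0, 1), (2, 1), (2, 1)]),
   ([9, 9, 9, 8, 7, 5], [(0, 1), (0, 1), (0, 1), (2, 1), (1, 1), (2, 1)]),
   ([9, 9, 9, 8, 7, 4], [(0, 1), (2, 1), (1, 1), (0, 1), (0, 1), (1, 1), (2, 1)]),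
   ([9, 9, 9, 8, 7, 3], [(0, 1), (0, 1), (0, 1), (5, 2), (0, 1), (2, 1)]),
   ([9, 9, 9, 8, 7, 2], [(0, 1), (2, 1), (0, 1), (4, 1), (2, 1), (0, 1)]),
   ([9, 9, 9, 8, 6, 6], [(0, 1), (0, 1), (0, 1), (2, 1), (1, 1), (2, 1)]),
   ([9, 9, 9, 8, 6, 5], [(0, 1), (2, 1), (1, 1), (0, 1), (0, 1), (1, 1), (2, 1)]),
   ([9, 9, 9, 8, 6, 4], [(0, 1), (0, 1), (2, 1), (2, 1), (1, 1), (2, 1)]),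
   ([9, 9, 9, 8, 6, 3], [(0, 1), (0, 1), (2, 1), (2, 1), (2, 1), (2, 1)]),
   ([9, 9, 9, 8, 5, 5, 5], [(0, 1), (0, 1), (0, 1), (0, 1), (2, 1), (0, 1)]),
   ([9, 9, 9, 8, 5, 5, 4], [(0, 1), (0, 1), (0, 1), (0, 1), (1, 1), (2, 1)]),
   ([9, 9, 9, 8, 5, 5, 3], [(0, 1), (1, 1), (2, 1), (0, 1), (0, 1), (1, 1), (0, 1)]),
   ([9, 9, 9, 8, 5, 5, 2], [(0, 1), (0, 1), (0, 1), (2, 1), (1, 1), (2, 1)]),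
   ([9, 9, 9, 8, 5, 4], [(0, 1), (0, 1), (2, 1), (2, 1), (2, 1), (2, 1)]),
   ([9, 9, 9, 8, 5, 3], [(0, 1), (0, 1), (2, 1), (5, 2), (0, 1), (2, 1)]),
   ([9, 9, 9, 8, 4], [(10, 3), (3, 1), (0, 1), (0, 1), (0, 1), (0, 1), (0, 1)]),
   ([9, 9, 9, 8, 3], [(9, 2), (3, 1), (0, 1), (0, 1), (0, 1), (2, 1), (0, 1)]),
   ([9, 9, 9, 7, 7, 7], [(0, 1), (0, 1), (0, 1), (2, 1), (2, 1), (0, 1)]),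
   ([9, 9, 9, 7, 7, 6], [(0, 1), (0, 1), (0, 1), (2, 1), (1, 1), (2, 1)]),
   ([9, 9, 9, 7, 7, 5], [(0, 1), (2, 1), (1, 1), (0, 1), (0, 1), (1, 1), (2, 1)]),
   ([9, 9, 9, 7, 7, 4], [(0, 1), (0, 1), (2, 1), (2, 1), (1, 1), (2, 1)]),
   ([9, 9, 9, 7, 7, 3], [(0, 1), (0, 1), (2, 1), (2, 1), (2, 1), (2, 1)]),
   ([9, 9, 9, 7, 6, 6], [(0, 1), (2, 1), (1, 1), (0, 1), (0, 1), (1, 1), (2, 1)]),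
   ([9, 9, 9, 7, 6, 5, 5], [(0, 1), (0, 1), (0, 1), (0, 1), (2, 1), (0, 1)]),
   ([9, 9, 9, 7, 6, 5, 4], [(0, 1), (0, 1), (0, 1), (0, 1), (1, 1), (2, 1)]),
   ([9, 9, 9, 7, 6, 5, 3], [(0, 1), (1, 1), (2, 1), (0, 1), (0, 1), (1, 1), (0, 1)]),
   ([9, 9, 9, 7, 6, 5, 2], [(0, 1), (0, 1), (0, 1), (2, 1), (1, 1), (2, 1)]),
   ([9, 9, 9, 7, 6, 4], [(0, 1), (0, 1), (2, 1), (2, 1), (2, 1), (2, 1)]),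
   ([9, 9, 9, 7, 6, 3], [(0, 1), (0, 1), (2, 1), (5, 2), (0, 1), (2, 1)]),
   ([9, 9, 9, 7, 5, 5], [(0, 1), (2, 1), (1, 1), (0, 1), (2, 1), (1, 1), (2, 1)]),
   ([9, 9, 9, 7, 5, 4], [(0, 1), (0, 1), (2, 1), (5, 2), (0, 1), (2, 1)]),
   ([9, 9, 9, 7, 5, 3], [(0, 1), (0, 1), (2, 1), (4, 1), (2, 1), (2, 1)])]

def cm_11_8_6_3_7 : List CM :=
  [⟨[9, 9, 9, 7, 4, 4], 1, [([4, 4, 4, 4, 2, 2], (.ev, 0)), ([4, 4, 2, 2, 0, 0], (.ev, 2)), ([1, 0, 2, 0, 2, 1], (.ev, 2)), ([0, 1, 1, 1, 0, 1], (.ev, 2)), ([0, 0, 0, 0, 0, 0], (.pl 1, 2)), ([0, 0, 0, 0, 0, 0], (.ev, 2))], [1, 1, 1, 1, 0, 1]⟩,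
   ⟨[9, 9, 9, 7, 4, 3], 1, [([4, 4, 4, 4, 2, 2], (.ev, 0)), ([4, 4, 2, 2, 1, 1], (.ev, 0)), ([1, 1, 1, 1, 0, 0], (.ev, 4)), ([0, 0, 1, 0, 1, 0], (.ev, 4)), ([0, 0, 1, 0, 0, 0], (.pl 1, 1)), ([0, 0, 0, 0, 0, 0], (.ev, 2))], [1, 1, 1, 1, 0, 1]⟩,
   ⟨[9, 9, 9, 7, 3], 1, [([4, 4, 2, 2, 0], (.ev, 8)), ([4, 2, 4, 2, 0], (.ev, 2)), ([0, 3, 3, 1, 1], (.ev, 0)), ([0, 0, 0, 2, 2], (.ev, 2)), ([1, 0, 0, 0, 0], (.pl 1, 1)), ([0, 0, 0, 0, 0], (.ev, 2))], [2, 1, 1, 1, 1, 1]⟩,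
   ⟨[9, 9, 9, 6, 6, 6, 5], 1, [([4, 4, 4, 4, 2, 2, 0], (.ev, 0)), ([4, 4, 2, 0, 1, 1, 2], (.ev, 0)), ([0, 0, 3, 0, 3, 1, 1], (.ev, 0)), ([1, 0, 0, 2, 0, 2, 1], (.ev, 0)), ([0, 0, 0, 0, 0, 0, 0], (.pl 1, 2)), ([0, 1, 0, 0, 0, 0, 1], (.ev, 0))], [1, 1, 1, 1, 0, 1]⟩,
   ⟨[9, 9, 9, 6, 6, 6, 4], 1, [([4, 4, 4, 4, 2, 2, 0], (.ev, 0)), ([4, 4, 2, 0, 2, 1, 1], (.ev, 0)), ([0, 0, 3, 1, 0, 3, 1], (.ev, 0)), ([1, 1, 0, 0, 2, 0, 2], (.ev, 0)), ([0, 0, 0, 1, 0, 0, 0], (.pl 1, 1)), ([0, 0, 0, 0, 0, 0, 0], (.ev, 2))], [1, 1, 1, 1, 0, 1]⟩,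
   ⟨[9, 9, 9, 6, 6, 6, 3], 2, [([4, 4, 4, 4, 2, 2, 0], (.ev, 0)), ([1, 1, 1, 1, 1, 1, 1], (.pl 1, 1)), ([0, 0, 1, 1, 0, 1, 1], (.pl 1, 2)), ([4, 4, 0, 0, 0, 0, 0], (.ev, 0)), ([0, 0, 3, 0, 3, 0, 0], (.ev, 0)), ([0, 0, 0, 0, 0, 1, 0], (.pl 1, 1)), ([0, 0, 0, 0, 0, 1, 1], (.ev, 0))], [1, 0, 0, 1, 1, 0, 1]⟩,
   ⟨[9, 9, 9, 6, 6, 6, 2], 1, [([4, 4, 4, 4, 2, 2, 0], (.ev, 0)), ([4, 4, 2, 1, 2, 1, 0], (.ev, 0)), ([0, 0, 3, 0, 1, 3, 1], (.ev, 0)), ([1, 1, 0, 1, 1, 0, 0], (.ev, 2)), ([0, 0, 0, 0, 0, 0, 1], (.pl 1, 1)), ([0, 0, 0, 0, 0, 0, 0], (.ev, 2))], [1, 1, 1, 1, 0, 1]⟩,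
   ⟨[9, 9, 9, 6, 6, 5], 2, [([4, 4, 4, 4, 2, 2], (.ev, 0)), ([1, 1, 1, 1, 1, 1], (.pl 1, 2)), ([1, 1, 1, 1, 0, 1], (.pl 1, 1)), ([3, 3, 1, 0, 1, 0], (.ev, 0)), ([0, 0, 2, 0, 2, 0], (.ev, 2)), ([0, 0, 0, 0, 0, 1], (.pl 1, 1)), ([0, 0, 0, 0, 0, 0], (.ev, 2))], [1, 0, 0, 1, 1, 0, 1]⟩,
   ⟨[9, 9, 9, 6, 6, 4], 1, [([4, 4, 4, 4, 2, 2], (.ev, 0)), ([4, 4, 2, 1, 2, 1], (.ev, 0)), ([1, 1, 2, 0, 2, 0], (.ev, 2)), ([0, 0, 1, 1, 0, 0], (.ev, 4)), ([0, 0, 0, 0, 0, 1], (.pl 1, 1)), ([0, 0, 0, 0, 0, 0], (.ev, 2))], [1, 1, 1, 2, 1, 1]⟩,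
   ⟨[9, 9, 9, 6, 6, 3], 1, [([4, 4, 4, 4, 2, 2], (.ev, 0)), ([4, 4, 2, 1, 2, 1], (.ev, 0)), ([1, 1, 2, 0, 2, 0], (.ev, 2)), ([0, 0, 1, 1, 0, 0], (.ev, 4)), ([0, 0, 0, 0, 0, 0], (.pl 1, 2)), ([0, 0, 0, 0, 0, 0], (.ev, 2))], [1, 1, 1, 1, 0, 1]⟩,
   ⟨[9, 9, 9, 6, 5, 5], 1, [([4, 4, 4, 4, 2, 2], (.ev, 0)), ([4, 4, 2, 0, 2, 0], (.ev, 2)), ([0, 0, 3, 0, 0, 3], (.ev, 2)), ([1, 1, 0, 1, 1, 0], (.ev, 2)), ([0, 0, 0, 1, 0, 0], (.pl 1, 1)), ([0, 0, 0, 0, 0, 0], (.ev, 2))], [1, 1, 1, 1, 0, 1]⟩,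
   ⟨[9, 9, 9, 6, 5, 4], 1, [([4, 4, 4, 4, 2, 2], (.ev, 0)), ([4, 4, 2, 0, 2, 0], (.ev, 2)), ([1, 0, 2, 2, 0, 1], (.ev, 2)), ([0, 1, 1, 0, 1, 1], (.ev, 2)), ([0, 0, 0, 0, 0, 0], (.pl 1, 2)), ([0, 0, 0, 0, 0, 0], (.ev, 2))], [1, 1, 1, 1, 0, 1]⟩,
   ⟨[9, 9, 9, 6, 5, 3], 1, [([4, 4, 4, 4, 2, 2], (.ev, 0)), ([4, 4, 2, 1, 2, 1], (.ev, 0)), ([1, 1, 1, 1, 0, 0], (.ev, 4)), ([0, 0, 1, 0, 1, 0], (.ev, 4)), ([0, 0, 1, 0, 0, 0], (.pl 1, 1)), ([0, 0, 0, 0, 0, 0], (.ev, 2))], [1, 1, 1, 1, 0, 1]⟩,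
   ⟨[9, 9, 9, 6, 4], 2, [([4, 4, 2, 2, 0], (.ev, 8)), ([1, 1, 1, 1, 1], (.pl 1, 3)), ([1, 1, 1, 1, 1], (.pl 1, 1)), ([3, 1, 3, 1, 0], (.ev, 0)), ([0, 2, 2, 1, 1], (.ev, 0)), ([0, 0, 0, 0, 1], (.pl 1, 1)), ([0, 0, 0, 0, 0], (.ev, 2))], [3, 0, 1, 1, 1, 1, 1]⟩,
   ⟨[9, 9, 9, 5], 2, [([4, 4, 2, 2], (.ev, 8)), ([1, 1, 1, 1], (.pl 1, 4)), ([0, 1, 1, 1], (.pl 1, 3)), ([4, 0, 4, 0], (.ev, 0)), ([0, 1, 1, 0], (.ev, 4)), ([0, 1, 0, 0], (.pl 1, 1)), ([0, 1, 0, 1], (.ev, 0))], [2, 0, 0, 1, 1, 1, 1]⟩,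
   ⟨[9, 9, 9, 4], 1, [([4, 4, 2, 2], (.ev, 8)), ([4, 2, 4, 2], (.ev, 2)), ([0, 3, 3, 0], (.ev, 2)), ([0, 0, 0, 0], (.ev, 6)), ([1, 0, 0, 0], (.pl 1, 1)), ([0, 0, 0, 0], (.ev, 2))], [2, 1, 1, 1, 1, 1]⟩,
   ⟨[9, 9, 8, 8, 8, 7], 1, [([4, 4, 4, 4, 2, 2], (.ev, 0)), ([4, 2, 1, 1, 4, 2], (.ev, 0)), ([0, 3, 3, 1, 0, 1], (.ev, 0)), ([1, 0, 0, 2, 2, 1], (.ev, 0)), ([0, 0, 0, 0, 0, 1], (.pl 1, 1)), ([0, 0, 0, 0, 0, 0], (.ev, 2))], [1, 1, 1, 1, 0, 1]⟩,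
   ⟨[9, 9, 8, 8, 8, 6], 1, [([4, 4, 4, 4, 2, 2], (.ev, 0)), ([4, 2, 2, 1, 4, 1], (.ev, 0)), ([0, 3, 1, 3, 0, 1], (.ev, 0)), ([1, 0, 1, 0, 2, 2], (.ev, 0)), ([0, 0, 0, 0, 0, 0], (.pl 1, 2)), ([0, 0, 0, 0, 0, 0], (.ev, 2))], [1, 1, 1, 1, 0, 1]⟩,
   ⟨[9, 9, 8, 8, 8, 5], 1, [([4, 4, 4, 4, 2, 2], (.ev, 0)), ([4, 2, 2, 1, 4, 1], (.ev, 0)), ([0, 3, 1, 3, 1, 0], (.ev, 0)), ([1, 0, 1, 0, 1, 1], (.ev, 2)), ([0, 0, 0, 0, 0, 1], (.pl 1, 1)), ([0, 0, 0, 0, 0, 0], (.ev, 2))], [1, 1, 1, 1, 0, 1]⟩,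
   ⟨[9, 9, 8, 8, 8, 4], 2, [([4, 4, 4, 4, 2, 2], (.ev, 0)), ([1, 1, 1, 1, 1, 1], (.pl 1, 2)), ([0, 1, 1, 1, 1, 1], (.pl 1, 1)), ([4, 0, 0, 0, 4, 0], (.ev, 0)), ([0, 2, 2, 0, 0, 0], (.ev, 2)), ([0, 0, 0, 1, 0, 0], (.pl 1, 1)), ([0, 1, 0, 1, 0, 0], (.ev, 0))], [1, 0, 0, 1, 1, 0, 1]⟩,
   ⟨[9, 9, 8, 8, 8, 3], 1, [([4, 4, 4, 4, 2, 2], (.ev, 0)), ([4, 2, 2, 1, 4, 1], (.ev, 0)), ([0, 3, 1, 3, 1, 0], (.ev, 0)), ([1, 0, 1, 0, 0, 0], (.ev, 4)), ([0, 0, 0, 0, 1, 0], (.pl 1, 1)), ([0, 0, 0, 0, 0, 0], (.ev, 2))], [1, 1, 1, 2, 1, 1]⟩,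
   ⟨[9, 9, 8, 8, 8, 2], 1, [([4, 4, 4, 4, 2, 2], (.ev, 0)), ([4, 2, 2, 0, 4, 0], (.ev, 2)), ([0, 3, 1, 3, 1, 0], (.ev, 0)), ([1, 0, 1, 1, 1, 0], (.ev, 2)), ([0, 0, 0, 0, 0, 0], (.pl 1, 2)), ([0, 0, 0, 0, 0, 0], (.ev, 2))], [1, 1, 1, 1, 0, 1]⟩,
   ⟨[9, 9, 8, 8, 7, 7], 1, [([4, 4, 4, 4, 2, 2], (.ev, 0)), ([4, 4, 1, 1, 2, 2], (.ev, 0)), ([0, 0, 3, 3, 1, 1], (.ev, 0)), ([1, 1, 0, 0, 2, 2], (.ev, 0)), ([0, 0, 0, 0, 0, 0], (.pl 1, 2)), ([0, 0, 0, 0, 0, 0], (.ev, 2))], [1, 1, 1, 1, 0, 1]⟩,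
   ⟨[9, 9, 8, 8, 7, 6], 1, [([4, 4, 4, 4, 2, 2], (.ev, 0)), ([4, 4, 2, 1, 2, 1], (.ev, 0)), ([0, 0, 1, 3, 3, 1], (.ev, 0)), ([1, 1, 1, 0, 0, 1], (.ev, 2)), ([0, 0, 0, 0, 0, 1], (.pl 1, 1)), ([0, 0, 0, 0, 0, 0], (.ev, 2))], [1, 1, 1, 1, 0, 1]⟩,
   ⟨[9, 9, 8, 8, 7, 5], 2, [([4, 4, 4, 4, 2, 2], (.ev, 0)), ([1, 1, 1, 1, 1, 1], (.pl 1, 2)), ([1, 1, 1, 1, 1, 0], (.pl 1, 1)), ([3, 3, 1, 0, 1, 0], (.ev, 0)), ([0, 0, 1, 2, 2, 1], (.ev, 0)), ([0, 0, 0, 0, 0, 1], (.pl 1, 1)), ([0, 0, 0, 0, 0, 0], (.ev, 2))], [1, 0, 0, 1, 1, 0, 1]⟩,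
   ⟨[9, 9, 8, 8, 7, 4], 1, [([4, 4, 4, 4, 2, 2], (.ev, 0)), ([4, 4, 2, 1, 2, 1], (.ev, 0)), ([0, 0, 0, 3, 3, 0], (.ev, 2)), ([1, 1, 1, 0, 0, 1], (.ev, 2)), ([0, 0, 1, 0, 0, 0], (.pl 1, 1)), ([0, 0, 0, 0, 0, 0], (.ev, 2))], [1, 1, 1, 1, 0, 1]⟩,
   ⟨[9, 9, 8, 8, 7, 3], 1, [([4, 4, 4, 4, 2, 2], (.ev, 0)), ([4, 4, 2, 1, 2, 1], (.ev, 0)), ([1, 0, 1, 2, 2, 0], (.ev, 2)), ([0, 1, 1, 1, 1, 0], (.ev, 2)), ([0, 0, 0, 0, 0, 0], (.pl 1, 2)), ([0, 0, 0, 0, 0, 0], (.ev, 2))], [1, 1, 1, 1, 0, 1]⟩,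
   ⟨[9, 9, 8, 8, 6, 6], 2, [([4, 4, 4, 4, 2, 2], (.ev, 0)), ([1, 1, 1, 1, 1, 1], (.pl 1, 2)), ([1, 1, 1, 1, 1, 0], (.pl 1, 1)), ([3, 3, 1, 1, 0, 0], (.ev, 0)), ([0, 0, 1, 1, 2, 2], (.ev, 0)), ([0, 0, 0, 0, 0, 1], (.pl 1, 1)), ([0, 0, 0, 0, 0, 0], (.ev, 2))], [1, 0, 0, 1, 1, 0, 1]⟩,
   ⟨[9, 9, 8, 8, 6, 5, 5], 1, [([4, 4, 4, 4, 2, 2, 0], (.ev, 0)), ([4, 4, 2, 1, 1, 0, 2], (.ev, 0)), ([0, 0, 0, 3, 3, 1, 1], (.ev, 0)), ([1, 0, 2, 0, 0, 2, 1], (.ev, 0)), ([0, 0, 0, 0, 0, 0, 0], (.pl 1, 2)), ([0, 1, 0, 0, 0, 0, 1], (.ev, 0))], [1, 1, 1, 1, 0, 1]⟩,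
   ⟨[9, 9, 8, 8, 6, 5, 4], 1, [([4, 4, 4, 4, 2, 2, 0], (.ev, 0)), ([4, 4, 2, 2, 1, 0, 1], (.ev, 0)), ([0, 0, 1, 0, 3, 3, 1], (.ev, 0)), ([1, 1, 0, 2, 0, 0, 2], (.ev, 0)), ([0, 0, 1, 0, 0, 0, 0], (.pl 1, 1)), ([0, 0, 0, 0, 0, 0, 0], (.ev, 2))], [1, 1, 1, 1, 0, 1]⟩,
   ⟨[9, 9, 8, 8, 6, 5, 3], 2, [([4, 4, 4, 4, 2, 2, 0], (.ev, 0)), ([1, 1, 1, 1, 1, 1, 1], (.pl 1, 1)), ([0, 0, 1, 1, 1, 1, 1], (.pl 1, 1)), ([4, 4, 0, 0, 0, 0, 0], (.ev, 0)), ([0, 0, 2, 2, 1, 1, 0], (.ev, 0)), ([0, 0, 0, 0, 0, 0, 0], (.pl 1, 2)), ([0, 0, 0, 0, 1, 0, 1], (.ev, 0))], [1, 0, 0, 1, 1, 0, 1]⟩,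
   ⟨[9, 9, 8, 8, 6, 5, 2], 1, [([4, 4, 4, 4, 2, 2, 0], (.ev, 0)), ([4, 4, 2, 2, 1, 1, 0], (.ev, 0)), ([0, 0, 2, 2, 2, 2, 0], (.ev, 0)), ([1, 1, 0, 0, 1, 0, 1], (.ev, 2)), ([0, 0, 0, 0, 0, 0, 1], (.pl 1, 1)), ([0, 0, 0, 0, 0, 0, 0], (.ev, 2))], [1, 1, 1, 1, 0, 1]⟩,
   ⟨[9, 9, 8, 8, 6, 4], 1, [([4, 4, 4, 4, 2, 2], (.ev, 0)), ([4, 4, 2, 2, 1, 1], (.ev, 0)), ([1, 0, 2, 1, 2, 0], (.ev, 2)), ([0, 1, 0, 1, 1, 1], (.ev, 2)), ([0, 0, 0, 0, 0, 0], (.pl 1, 2)), ([0, 0, 0, 0, 0, 0], (.ev, 2))], [1, 1, 1, 1, 0, 1]⟩,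
   ⟨[9, 9, 8, 8, 6, 3], 1, [([4, 4, 4, 4, 2, 2], (.ev, 0)), ([4, 4, 2, 2, 1, 1], (.ev, 0)), ([1, 0, 2, 1, 2, 0], (.ev, 2)), ([0, 1, 0, 1, 0, 0], (.ev, 4)), ([0, 0, 0, 0, 1, 0], (.pl 1, 1)), ([0, 0, 0, 0, 0, 0], (.ev, 2))], [1, 1, 1, 2, 1, 1]⟩,
   ⟨[9, 9, 8, 8, 5, 5], 2, [([4, 4, 4, 4, 2, 2], (.ev, 0)), ([1, 1, 1, 1, 1, 1], (.pl 1, 2)), ([1, 1, 1, 1, 1, 0], (.pl 1, 1)), ([3, 3, 1, 1, 0, 0], (.ev, 0)), ([0, 0, 1, 1, 1, 1], (.ev, 2)), ([0, 0, 0, 0, 0, 1], (.pl 1, 1)), ([0, 0, 0, 0, 0, 0], (.ev, 2))], [1, 0, 0, 1, 1, 0, 1]⟩,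
   ⟨[9, 9, 8, 8, 5, 4], 1, [([4, 4, 4, 4, 2, 2], (.ev, 0)), ([4, 4, 2, 2, 1, 1], (.ev, 0)), ([1, 0, 2, 2, 1, 0], (.ev, 2)), ([0, 1, 0, 0, 1, 0], (.ev, 4)), ([0, 0, 0, 0, 0, 1], (.pl 1, 1)), ([0, 0, 0, 0, 0, 0], (.ev, 2))], [1, 1, 1, 2, 1, 1]⟩,
   ⟨[9, 9, 8, 8, 5, 3], 1, [([4, 4, 4, 4, 2, 2], (.ev, 0)), ([4, 4, 2, 2, 1, 1], (.ev, 0)), ([1, 0, 2, 2, 1, 0], (.ev, 2)), ([0, 1, 0, 0, 1, 0], (.ev, 4)), ([0, 0, 0, 0, 0, 0], (.pl 1, 2)), ([0, 0, 0, 0, 0, 0], (.ev, 2))], [1, 1, 1, 1, 0, 1]⟩,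
   ⟨[9, 9, 8, 8, 4, 4], 1, [([4, 4, 4, 4, 2, 2], (.ev, 0)), ([4, 4, 2, 2, 0, 0], (.ev, 2)), ([0, 0, 2, 2, 1, 1], (.ev, 2)), ([1, 1, 0, 0, 1, 1], (.ev, 2)), ([0, 0, 0, 0, 0, 0], (.pl 1, 2)), ([0, 0, 0, 0, 0, 0], (.ev, 2))], [1, 1, 1, 1, 0, 1]⟩,
   ⟨[9, 9, 8, 8, 4, 3], 1, [([4, 4, 4, 4, 2, 2], (.ev, 0)), ([4, 4, 2, 2, 1, 1], (.ev, 0)), ([1, 1, 2, 2, 0, 0], (.ev, 2)), ([0, 0, 0, 0, 0, 0], (.ev, 6)), ([0, 0, 0, 0, 1, 0], (.pl 1, 1)), ([0, 0, 0, 0, 0, 0], (.ev, 2))], [1, 1, 1, 2, 1, 1]⟩,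
   ⟨[9, 9, 8, 8, 3], 1, [([4, 4, 2, 2, 0], (.ev, 8)), ([2, 2, 4, 4, 0], (.ev, 2)), ([3, 3, 1, 0, 1], (.ev, 0)), ([0, 0, 0, 2, 2], (.ev, 2)), ([0, 0, 1, 0, 0], (.pl 1, 1)), ([0, 0, 0, 0, 0], (.ev, 2))], [2, 1, 1, 1, 1, 1]⟩,
   ⟨[9, 9, 8, 7, 7, 7], 1, [([4, 4, 4, 4, 2, 2], (.ev, 0)), ([4, 4, 1, 1, 2, 2], (.ev, 0)), ([0, 0, 3, 1, 3, 1], (.ev, 0)), ([1, 1, 0, 1, 0, 1], (.ev, 2)), ([0, 0, 0, 0, 0, 1], (.pl 1, 1)), ([0, 0, 0, 0, 0, 0], (.ev, 2))], [1, 1, 1, 1, 0, 1]⟩,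
   ⟨[9, 9, 8, 7, 7, 6], 2, [([4, 4, 4, 4, 2, 2], (.ev, 0)), ([1, 1, 1, 1, 1, 1], (.pl 1, 2)), ([1, 1, 1, 1, 1, 0], (.pl 1, 1)), ([3, 3, 1, 0, 1, 0], (.ev, 0)), ([0, 0, 1, 1, 2, 2], (.ev, 0)), ([0, 0, 0, 0, 0, 1], (.pl 1, 1)), ([0, 0, 0, 0, 0, 0], (.ev, 2))], [1, 0, 0, 1, 1, 0, 1]⟩,
   ⟨[9, 9, 8, 7, 7, 5, 5], 1, [([4, 4, 4, 4, 2, 2, 0], (.ev, 0)), ([4, 4, 1, 1, 2, 0, 2], (.ev, 0)), ([0, 0, 3, 0, 3, 1, 1], (.ev, 0)), ([1, 0, 0, 2, 0, 2, 1], (.ev, 0)), ([0, 0, 0, 0, 0, 0, 0], (.pl 1, 2)), ([0, 1, 0, 0, 0, 0, 1], (.ev, 0))], [1, 1, 1, 1, 0, 1]⟩,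
   ⟨[9, 9, 8, 7, 7, 5, 4], 1, [([4, 4, 4, 4, 2, 2, 0], (.ev, 0)), ([4, 4, 2, 1, 2, 0, 1], (.ev, 0)), ([0, 0, 1, 0, 3, 3, 1], (.ev, 0)), ([1, 1, 0, 2, 0, 0, 2], (.ev, 0)), ([0, 0, 1, 0, 0, 0, 0], (.pl 1, 1)), ([0, 0, 0, 0, 0, 0, 0], (.ev, 2))], [1, 1, 1, 1, 0, 1]⟩,
   ⟨[9, 9, 8, 7, 7, 5, 3], 2, [([4, 4, 4, 4, 2, 2, 0], (.ev, 0)), ([1, 1, 1, 1, 1, 1, 1], (.pl 1, 1)), ([0, 0, 0, 1, 1, 1, 1], (.pl 1, 2)), ([4, 4, 0, 0, 0, 0, 0], (.ev, 0)), ([0, 0, 3, 0, 3, 0, 0], (.ev, 0)), ([0, 0, 0, 0, 0, 0, 1], (.pl 1, 1)), ([0, 0, 0, 1, 0, 1, 0], (.ev, 0))], [1, 0, 0, 1, 1, 0, 1]⟩,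
   ⟨[9, 9, 8, 7, 7, 5, 2], 1, [([4, 4, 4, 4, 2, 2, 0], (.ev, 0)), ([4, 4, 2, 1, 2, 1, 0], (.ev, 0)), ([0, 0, 2, 2, 2, 2, 0], (.ev, 0)), ([1, 1, 0, 0, 1, 0, 1], (.ev, 2)), ([0, 0, 0, 0, 0, 0, 1], (.pl 1, 1)), ([0, 0, 0, 0, 0, 0, 0], (.ev, 2))], [1, 1, 1, 1, 0, 1]⟩,
   ⟨[9, 9, 8, 7, 7, 4], 1, [([4, 4, 4, 4, 2, 2], (.ev, 0)), ([4, 4, 2, 1, 2, 1], (.ev, 0)), ([1, 0, 2, 1, 2, 0], (.ev, 2)), ([0, 1, 0, 1, 1, 1], (.ev, 2)), ([0, 0, 0, 0, 0, 0], (.pl 1, 2)), ([0, 0, 0, 0, 0, 0], (.ev, 2))], [1, 1, 1, 1, 0, 1]⟩,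
   ⟨[9, 9, 8, 7, 7, 3], 1, [([4, 4, 4, 4, 2, 2], (.ev, 0)), ([4, 4, 2, 1, 2, 1], (.ev, 0)), ([1, 0, 2, 1, 2, 0], (.ev, 2)), ([0, 1, 0, 1, 0, 0], (.ev, 4)), ([0, 0, 0, 0, 1, 0], (.pl 1, 1)), ([0, 0, 0, 0, 0, 0], (.ev, 2))], [1, 1, 1, 2, 1, 1]⟩,
   ⟨[9, 9, 8, 7, 6, 6, 5], 1, [([4, 4, 4, 4, 2, 2, 0], (.ev, 0)), ([4, 4, 2, 0, 1, 1, 2], (.ev, 0)), ([0, 0, 0, 3, 3, 1, 1], (.ev, 0)), ([1, 0, 2, 0, 0, 2, 1], (.ev, 0)), ([0, 0, 0, 0, 0, 0, 0], (.pl 1, 2)), ([0, 1, 0, 0, 0, 0, 1], (.ev, 0))], [1, 1, 1, 1, 0, 1]⟩,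
   ⟨[9, 9, 8, 7, 6, 6, 4], 1, [([4, 4, 4, 4, 2, 2, 0], (.ev, 0)), ([4, 4, 2, 0, 2, 1, 1], (.ev, 0)), ([0, 0, 1, 3, 0, 3, 1], (.ev, 0)), ([1, 1, 0, 0, 2, 0, 2], (.ev, 0)), ([0, 0, 1, 0, 0, 0, 0], (.pl 1, 1)), ([0, 0, 0, 0, 0, 0, 0], (.ev, 2))], [1, 1, 1, 1, 0, 1]⟩,
   ⟨[9, 9, 8, 7, 6, 6, 3], 2, [([4, 4, 4, 4, 2, 2, 0], (.ev, 0)), ([1, 1, 1, 1, 1, 1, 1], (.pl 1, 1)), ([0, 0, 1, 1, 1, 1, 1], (.pl 1, 1)), ([4, 4, 0, 0, 0, 0, 0], (.ev, 0)), ([0, 0, 2, 1, 2, 1, 0], (.ev, 0)), ([0, 0, 0, 0, 0, 0, 0], (.pl 1, 2)), ([0, 0, 0, 0, 0, 1, 1], (.ev, 0))], [1, 0, 0, 1, 1, 0, 1]⟩,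
   ⟨[9, 9, 8, 7, 6, 6, 2], 1, [([4, 4, 4, 4, 2, 2, 0], (.ev, 0)), ([4, 4, 2, 1, 2, 1, 0], (.ev, 0)), ([0, 0, 2, 2, 2, 2, 0], (.ev, 0)), ([1, 1, 0, 0, 0, 1, 1], (.ev, 2)), ([0, 0, 0, 0, 0, 0, 1], (.pl 1, 1)), ([0, 0, 0, 0, 0, 0, 0], (.ev, 2))], [1, 1, 1, 1, 0, 1]⟩,
   ⟨[9, 9, 8, 7, 6, 5], 2, [([4, 4, 4, 4, 2, 2], (.ev, 0)), ([1, 1, 1, 1, 1, 1], (.pl 1, 2)), ([1, 1, 1, 1, 1, 0], (.pl 1, 1)), ([3, 3, 1, 0, 1, 0], (.ev, 0)), ([0, 0, 1, 1, 1, 1], (.ev, 2)), ([0, 0, 0, 0, 0, 1], (.pl 1, 1)), ([0, 0, 0, 0, 0, 0], (.ev, 2))], [1, 0, 0, 1, 1, 0, 1]⟩,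
   ⟨[9, 9, 8, 7, 6, 4], 1, [([4, 4, 4, 4, 2, 2], (.ev, 0)), ([4, 4, 2, 1, 2, 1], (.ev, 0)), ([1, 0, 2, 2, 1, 0], (.ev, 2)), ([0, 1, 0, 0, 1, 0], (.ev, 4)), ([0, 0, 0, 0, 0, 1], (.pl 1, 1)), ([0, 0, 0, 0, 0, 0], (.ev, 2))], [1, 1, 1, 2, 1, 1]⟩,
   ⟨[9, 9, 8, 7, 6, 3], 1, [([4, 4, 4, 4, 2, 2], (.ev, 0)), ([4, 4, 2, 1, 2, 1], (.ev, 0)), ([1, 0, 2, 2, 1, 0], (.ev, 2)), ([0, 1, 0, 0, 1, 0], (.ev, 4)), ([0, 0, 0, 0, 0, 0], (.pl 1, 2)), ([0, 0, 0, 0, 0, 0], (.ev, 2))], [1, 1, 1, 1, 0, 1]⟩,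
   ⟨[9, 9, 8, 7, 5, 5], 1, [([4, 4, 4, 4, 2, 2], (.ev, 0)), ([4, 4, 2, 2, 0, 0], (.ev, 2)), ([0, 0, 0, 0, 3, 3], (.ev, 2)), ([1, 1, 1, 1, 0, 0], (.ev, 2)), ([0, 0, 1, 0, 0, 0], (.pl 1, 1)), ([0, 0, 0, 0, 0, 0], (.ev, 2))], [1, 1, 1, 1, 0, 1]⟩,
   ⟨[9, 9, 8, 7, 5, 4], 1, [([4, 4, 4, 4, 2, 2], (.ev, 0)), ([4, 4, 2, 2, 0, 0], (.ev, 2)), ([1, 0, 2, 0, 2, 1], (.ev, 2)), ([0, 1, 0, 1, 1, 1], (.ev, 2)), ([0, 0, 0, 0, 0, 0], (.pl 1, 2)), ([0, 0, 0, 0, 0, 0], (.ev, 2))], [1, 1, 1, 1, 0, 1]⟩,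
   ⟨[9, 9, 8, 7, 5, 3], 1, [([4, 4, 4, 4, 2, 2], (.ev, 0)), ([4, 4, 2, 2, 1, 1], (.ev, 0)), ([1, 1, 2, 0, 2, 0], (.ev, 2)), ([0, 0, 0, 0, 0, 0], (.ev, 6)), ([0, 0, 0, 1, 0, 0], (.pl 1, 1)), ([0, 0, 0, 0, 0, 0], (.ev, 2))], [1, 1, 1, 2, 1, 1]⟩,
   ⟨[9, 9, 8, 7, 4], 2, [([4, 4, 2, 2, 0], (.ev, 8)), ([1, 1, 1, 1, 1], (.pl 1, 3)), ([1, 1, 1, 1, 1], (.pl 1, 1)), ([3, 1, 3, 1, 0], (.ev, 0)), ([0, 2, 1, 2, 1], (.ev, 0)), ([0, 0, 0, 0, 1], (.pl 1, 1)), ([0, 0, 0, 0, 0], (.ev, 2))], [3, 0, 1, 1, 1, 1, 1]⟩,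
   ⟨[9, 9, 8, 6, 6, 6, 6], 1, [([4, 4, 4, 4, 2, 2, 0], (.ev, 0)), ([4, 2, 2, 0, 1, 1, 4], (.ev, 0)), ([0, 3, 1, 0, 3, 1, 0], (.ev, 0)), ([1, 0, 0, 2, 0, 2, 1], (.ev, 0)), ([0, 0, 0, 0, 0, 0, 0], (.pl 1, 2)), ([0, 0, 1, 0, 0, 0, 1], (.ev, 0))], [1, 1, 1, 1, 0, 1]⟩,
   ⟨[9, 9, 8, 6, 6, 6, 5], 1, [([4, 4, 4, 4, 2, 2, 0], (.ev, 0)), ([4, 4, 2, 0, 1, 1, 2], (.ev, 0)), ([0, 0, 1, 0, 3, 3, 1], (.ev, 0)), ([1, 1, 0, 2, 0, 0, 2], (.ev, 0)), ([0, 0, 1, 0, 0, 0, 0], (.pl 1, 1)), ([0, 0, 0, 0, 0, 0, 0], (.ev, 2))], [1, 1, 1, 1, 0, 1]⟩,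
   ⟨[9, 9, 8, 6, 6, 6, 4], 2, [([4, 4, 4, 4, 2, 2, 0], (.ev, 0)), ([1, 1, 1, 1, 1, 1, 1], (.pl 1, 1)), ([0, 0, 1, 1, 1, 1, 1], (.pl 1, 1)), ([4, 4, 0, 0, 0, 0, 0], (.ev, 0)), ([0, 0, 2, 0, 2, 1, 1], (.ev, 0)), ([0, 0, 0, 0, 0, 0, 0], (.pl 1, 2)), ([0, 0, 0, 0, 0, 1, 1], (.ev, 0))], [1, 0, 0, 1, 1, 0, 1]⟩,
   ⟨[9, 9, 8, 6, 6, 6, 3], 1, [([4, 4, 4, 4, 2, 2, 0], (.ev, 0)), ([4, 4, 2, 0, 2, 1, 1], (.ev, 0)), ([0, 0, 2, 2, 2, 2, 0], (.ev, 0)), ([1, 1, 0, 0, 0, 1, 1], (.ev, 2)), ([0, 0, 0, 0, 0, 0, 1], (.pl 1, 1)), ([0, 0, 0, 0, 0, 0, 0], (.ev, 2))], [1, 1, 1, 1, 0, 1]⟩,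
   ⟨[9, 9, 8, 6, 6, 6, 2], 1, [([4, 4, 4, 4, 2, 2, 0], (.ev, 0)), ([4, 4, 2, 1, 2, 1, 0], (.ev, 0)), ([0, 0, 2, 0, 2, 2, 2], (.ev, 0)), ([1, 1, 0, 1, 0, 1, 0], (.ev, 2)), ([0, 0, 0, 0, 0, 0, 0], (.pl 1, 2)), ([0, 0, 0, 0, 0, 0, 0], (.ev, 2))], [1, 1, 1, 1, 0, 1]⟩,
   ⟨[9, 9, 8, 6, 6, 5], 1, [([4, 4, 4, 4, 2, 2], (.ev, 0)), ([4, 4, 2, 0, 2, 0], (.ev, 2)), ([0, 0, 2, 1, 1, 2], (.ev, 2)), ([1, 1, 0, 1, 1, 0], (.ev, 2)), ([0, 0, 0, 0, 0, 1], (.pl 1, 1)), ([0, 0, 0, 0, 0, 0], (.ev, 2))], [1, 1, 1, 1, 0, 1]⟩,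
   ⟨[9, 9, 8, 6, 6, 4], 1, [([4, 4, 4, 4, 2, 2], (.ev, 0)), ([4, 4, 2, 0, 2, 0], (.ev, 2)), ([0, 0, 2, 2, 1, 1], (.ev, 2)), ([1, 1, 0, 0, 1, 1], (.ev, 2)), ([0, 0, 0, 0, 0, 0], (.pl 1, 2)), ([0, 0, 0, 0, 0, 0], (.ev, 2))], [1, 1, 1, 1, 0, 1]⟩,
   ⟨[9, 9, 8, 6, 6, 3], 1, [([4, 4, 4, 4, 2, 2], (.ev, 0)), ([4, 4, 2, 1, 2, 1], (.ev, 0)), ([1, 1, 2, 0, 2, 0], (.ev, 2)), ([0, 0, 0, 0, 0, 0], (.ev, 6)), ([0, 0, 0, 1, 0, 0], (.pl 1, 1)), ([0, 0, 0, 0, 0, 0], (.ev, 2))], [1, 1, 1, 2, 1, 1]⟩,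
   ⟨[9, 9, 8, 6, 5], 2, [([4, 4, 2, 2, 0], (.ev, 8)), ([1, 1, 1, 1, 1], (.pl 1, 3)), ([1, 1, 1, 1, 1], (.pl 1, 1)), ([3, 1, 3, 0, 1], (.ev, 0)), ([0, 2, 1, 2, 1], (.ev, 0)), ([0, 0, 0, 0, 1], (.pl 1, 1)), ([0, 0, 0, 0, 0], (.ev, 2))], [3, 0, 1, 1, 1, 1, 1]⟩,
   ⟨[9, 9, 8, 6, 4, 4], 2, [([4, 4, 4, 4, 2, 2], (.ev, 0)), ([1, 1, 1, 0, 1, 1], (.pl 1, 3)), ([0, 0, 1, 0, 1, 1], (.pl 1, 3)), ([4, 4, 0, 0, 0, 0], (.ev, 0)), ([0, 0, 2, 2, 0, 0], (.ev, 2)), ([0, 0, 0, 0, 0, 0], (.pl 1, 2)), ([0, 0, 0, 0, 0, 0], (.ev, 2))], [1, 0, 0, 1, 1, 0, 1]⟩,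
   ⟨[9, 9, 8, 5], 1, [([4, 4, 2, 2], (.ev, 8)), ([4, 2, 4, 2], (.ev, 2)), ([0, 2, 2, 0], (.ev, 4)), ([1, 1, 0, 0], (.ev, 4)), ([0, 0, 0, 1], (.pl 1, 1)), ([0, 0, 0, 0], (.ev, 2))], [2, 1, 1, 1, 1, 1]⟩,
   ⟨[9, 9, 8, 4], 2, [([4, 4, 2, 2], (.ev, 8)), ([0, 1, 0, 1], (.pl 1, 6)), ([0, 1, 0, 0], (.pl 1, 5)), ([4, 0, 4, 0], (.ev, 0)), ([1, 2, 2, 1], (.ev, 0)), ([0, 1, 0, 0], (.pl 1, 1)), ([0, 0, 0, 0], (.ev, 2))], [2, 0, 0, 1, 1, 1, 1]⟩,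
   ⟨[9, 9, 7, 7, 7, 7], 2, [([4, 4, 4, 4, 2, 2], (.ev, 0)), ([1, 1, 1, 1, 1, 1], (.pl 1, 2)), ([1, 1, 1, 1, 1, 0], (.pl 1, 1)), ([3, 3, 0, 0, 1, 1], (.ev, 0)), ([0, 0, 1, 1, 2, 2], (.ev, 0)), ([0, 0, 0, 0, 0, 1], (.pl 1, 1)), ([0, 0, 0, 0, 0, 0], (.ev, 2))], [1, 0, 0, 1, 1, 0, 1]⟩,
   ⟨[9, 9, 7, 7, 7, 6, 5], 1, [([4, 4, 4, 4, 2, 2, 0], (.ev, 0)), ([4, 4, 1, 0, 2, 1, 2], (.ev, 0)), ([0, 0, 0, 3, 3, 1, 1], (.ev, 0)), ([1, 0, 2, 0, 0, 2, 1], (.ev, 0)), ([0, 0, 0, 0, 0, 0, 0], (.pl 1, 2)), ([0, 1, 0, 0, 0, 0, 1], (.ev, 0))], [1, 1, 1, 1, 0, 1]⟩,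
   ⟨[9, 9, 7, 7, 7, 6, 4], 1, [([4, 4, 4, 4, 2, 2, 0], (.ev, 0)), ([4, 4, 1, 0, 2, 2, 1], (.ev, 0)), ([0, 0, 1, 3, 3, 0, 1], (.ev, 0)), ([1, 1, 0, 0, 0, 2, 2], (.ev, 0)), ([0, 0, 1, 0, 0, 0, 0], (.pl 1, 1)), ([0, 0, 0, 0, 0, 0, 0], (.ev, 2))], [1, 1, 1, 1, 0, 1]⟩,
   ⟨[9, 9, 7, 7, 7, 6, 3], 2, [([4, 4, 4, 4, 2, 2, 0], (.ev, 0)), ([1, 1, 1, 1, 1, 1, 1], (.pl 1, 1)), ([0, 0, 1, 1, 1, 0, 1], (.pl 1, 2)), ([4, 4, 0, 0, 0, 0, 0], (.ev, 0)), ([0, 0, 0, 0, 3, 3, 0], (.ev, 0)), ([0, 0, 0, 0, 0, 0, 1], (.pl 1, 1)), ([0, 0, 1, 1, 0, 0, 0], (.ev, 0))], [1, 0, 0, 1, 1, 0, 1]⟩,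
   ⟨[9, 9, 7, 7, 7, 6, 2], 1, [([4, 4, 4, 4, 2, 2, 0], (.ev, 0)), ([4, 4, 1, 1, 2, 2, 0], (.ev, 0)), ([0, 0, 2, 2, 2, 2, 0], (.ev, 0)), ([1, 1, 0, 0, 1, 0, 1], (.ev, 2)), ([0, 0, 0, 0, 0, 0, 1], (.pl 1, 1)), ([0, 0, 0, 0, 0, 0, 0], (.ev, 2))], [1, 1, 1, 1, 0, 1]⟩,
   ⟨[9, 9, 7, 7, 7, 5], 2, [([4, 4, 4, 4, 2, 2], (.ev, 0)), ([1, 1, 1, 1, 1, 1], (.pl 1, 2)), ([1, 1, 1, 0, 1, 1], (.pl 1, 1)), ([3, 3, 1, 0, 1, 0], (.ev, 0)), ([0, 0, 0, 2, 2, 0], (.ev, 2)), ([0, 0, 0, 0, 0, 1], (.pl 1, 1)), ([0, 0, 0, 0, 0, 0], (.ev, 2))], [1, 0, 0, 1, 1, 0, 1]⟩,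
   ⟨[9, 9, 7, 7, 7, 4], 1, [([4, 4, 4, 4, 2, 2], (.ev, 0)), ([4, 4, 2, 1, 2, 1], (.ev, 0)), ([1, 1, 0, 2, 2, 0], (.ev, 2)), ([0, 0, 1, 0, 1, 0], (.ev, 4)), ([0, 0, 0, 0, 0, 1], (.pl 1, 1)), ([0, 0, 0, 0, 0, 0], (.ev, 2))], [1, 1, 1, 2, 1, 1]⟩,
   ⟨[9, 9, 7, 7, 7, 3], 1, [([4, 4, 4, 4, 2, 2], (.ev, 0)), ([4, 4, 2, 1, 2, 1], (.ev, 0)), ([1, 1, 0, 2, 2, 0], (.ev, 2)), ([0, 0, 1, 0, 1, 0], (.ev, 4)), ([0, 0, 0, 0, 0, 0], (.pl 1, 2)), ([0, 0, 0, 0, 0, 0], (.ev, 2))], [1, 1, 1, 1, 0, 1]⟩,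
   ⟨[9, 9, 7, 7, 6, 6, 6], 1, [([4, 4, 4, 4, 2, 2, 0], (.ev, 0)), ([4, 2, 1, 0, 2, 1, 4], (.ev, 0)), ([0, 3, 1, 3, 0, 1, 0], (.ev, 0)), ([1, 0, 0, 0, 2, 2, 1], (.ev, 0)), ([0, 0, 0, 0, 0, 0, 0], (.pl 1, 2)), ([0, 0, 1, 0, 0, 0, 1], (.ev, 0))], [1, 1, 1, 1, 0, 1]⟩]

def cmC_11_8_6_3_7 : List (List ℕ × List (ℕ × ℕ)) :=
  [([9, 9, 9, 7, 4, 4], [(0, 1), (2, 1), (2, 1), (2, 1), (2, 1), (2, 1)]),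
   ([9, 9, 9, 7, 4, 3], [(0, 1), (0, 1), (4, 1), (4, 1), (1, 1), (2, 1)]),
   ([9, 9, 9, 7, 3], [(9, 2), (2, 1), (0, 1), (2, 1), (0, 1), (2, 1)]),
   ([9, 9, 9, 6, 6, 6, 5], [(0, 1), (0, 1), (0, 1), (0, 1), (2, 1), (0, 1)]),
   ([9, 9, 9, 6, 6, 6, 4], [(0, 1), (0, 1), (0, 1), (0, 1), (1, 1), (2, 1)]),
   ([9, 9, 9, 6, 6, 6, 3], [(0, 1), (1, 1), (2, 1), (0, 1), (0, 1), (1, 1), (0, 1)]),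
   ([9, 9, 9, 6, 6, 6, 2], [(0, 1), (0, 1), (0, 1), (2, 1), (1, 1), (2, 1)]),
   ([9, 9, 9, 6, 6, 5], [(0, 1), (2, 1), (1, 1), (0, 1), (2, 1), (1, 1), (2, 1)]),
   ([9, 9, 9, 6, 6, 4], [(0, 1), (0, 1), (2, 1), (5, 2), (0, 1), (2, 1)]),
   ([9, 9, 9, 6, 6, 3], [(0, 1), (0, 1), (2, 1), (4, 1), (2, 1), (2, 1)]),
   ([9, 9, 9, 6, 5, 5], [(0, 1), (2, 1), (2, 1), (2, 1), (1, 1), (2, 1)]),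
   ([9, 9, 9, 6, 5, 4], [(0, 1), (2, 1), (2, 1), (2, 1), (2, 1), (2, 1)]),
   ([9, 9, 9, 6, 5, 3], [(0, 1), (0, 1), (4, 1), (4, 1), (1, 1), (2, 1)]),
   ([9, 9, 9, 6, 4], [(10, 3), (3, 1), (0, 1), (0, 1), (0, 1), (0, 1), (2, 1)]),
   ([9, 9, 9, 5], [(9, 2), (4, 1), (3, 1), (0, 1), (4, 1), (0, 1), (0, 1)]),
   ([9, 9, 9, 4], [(9, 2), (2, 1), (2, 1), (6, 1), (0, 1), (2, 1)]),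
   ([9, 9, 8, 8, 8, 7], [(0, 1), (0, 1), (0, 1), (0, 1), (1, 1), (2, 1)]),
   ([9, 9, 8, 8, 8, 6], [(0, 1), (0, 1), (0, 1), (0, 1), (2, 1), (2, 1)]),
   ([9, 9, 8, 8, 8, 5], [(0, 1), (0, 1), (0, 1), (2, 1), (1, 1), (2, 1)]),
   ([9, 9, 8, 8, 8, 4], [(0, 1), (2, 1), (1, 1), (0, 1), (2, 1), (1, 1), (0, 1)]),
   ([9, 9, 8, 8, 8, 3], [(0, 1), (0, 1), (0, 1), (5, 2), (0, 1), (2, 1)]),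
   ([9, 9, 8, 8, 8, 2], [(0, 1), (2, 1), (0, 1), (2, 1), (2, 1), (2, 1)]),
   ([9, 9, 8, 8, 7, 7], [(0, 1), (0, 1), (0, 1), (0, 1), (2, 1), (2, 1)]),
   ([9, 9, 8, 8, 7, 6], [(0, 1), (0, 1), (0, 1), (2, 1), (1, 1), (2, 1)]),
   ([9, 9, 8, 8, 7, 5], [(0, 1), (2, 1), (1, 1), (0, 1), (0, 1), (1, 1), (2, 1)]),
   ([9, 9, 8, 8, 7, 4], [(0, 1), (0, 1), (2, 1), (2, 1), (1, 1), (2, 1)]),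
   ([9, 9, 8, 8, 7, 3], [(0, 1), (0, 1), (2, 1), (2, 1), (2, 1), (2, 1)]),
   ([9, 9, 8, 8, 6, 6], [(0, 1), (2, 1), (1, 1), (0, 1), (0, 1), (1, 1), (2, 1)]),
   ([9, 9, 8, 8, 6, 5, 5], [(0, 1), (0, 1), (0, 1), (0, 1), (2, 1), (0, 1)]),
   ([9, 9, 8, 8, 6, 5, 4], [(0, 1), (0, 1), (0, 1), (0, 1), (1, 1), (2, 1)]),
   ([9, 9, 8, 8, 6, 5, 3], [(0, 1), (1, 1), (1, 1), (0, 1), (0, 1), (2, 1), (0, 1)]),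
   ([9, 9, 8, 8, 6, 5, 2], [(0, 1), (0, 1), (0, 1), (2, 1), (1, 1), (2, 1)]),
   ([9, 9, 8, 8, 6, 4], [(0, 1), (0, 1), (2, 1), (2, 1), (2, 1), (2, 1)]),
   ([9, 9, 8, 8, 6, 3], [(0, 1), (0, 1), (2, 1), (5, 2), (0, 1), (2, 1)]),
   ([9, 9, 8, 8, 5, 5], [(0, 1), (2, 1), (1, 1), (0, 1), (2, 1), (1, 1), (2, 1)]),
   ([9, 9, 8, 8, 5, 4], [(0, 1), (0, 1), (2, 1), (5, 2), (0, 1), (2, 1)]),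
   ([9, 9, 8, 8, 5, 3], [(0, 1), (0, 1), (2, 1), (4, 1), (2, 1), (2, 1)]),
   ([9, 9, 8, 8, 4, 4], [(0, 1), (2, 1), (2, 1), (2, 1), (2, 1), (2, 1)]),
   ([9, 9, 8, 8, 4, 3], [(0, 1), (0, 1), (2, 1), (7, 2), (0, 1), (2, 1)]),
   ([9, 9, 8, 8, 3], [(9, 2), (2, 1), (0, 1), (2, 1), (0, 1), (2, 1)]),
   ([9, 9, 8, 7, 7, 7], [(0, 1), (0, 1), (0, 1), (2, 1), (1, 1), (2, 1)]),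
   ([9, 9, 8, 7, 7, 6], [(0, 1), (2, 1), (1, 1), (0, 1), (0, 1), (1, 1), (2, 1)]),
   ([9, 9, 8, 7, 7, 5, 5], [(0, 1), (0, 1), (0, 1), (0, 1), (2, 1), (0, 1)]),
   ([9, 9, 8, 7, 7, 5, 4], [(0, 1), (0, 1), (0, 1), (0, 1), (1, 1), (2, 1)]),
   ([9, 9, 8, 7, 7, 5, 3], [(0, 1), (1, 1), (2, 1), (0, 1), (0, 1), (1, 1), (0, 1)]),
   ([9, 9, 8, 7, 7, 5, 2], [(0, 1), (0, 1), (0, 1), (2, 1), (1, 1), (2, 1)]),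
   ([9, 9, 8, 7, 7, 4], [(0, 1), (0, 1), (2, 1), (2, 1), (2, 1), (2, 1)]),
   ([9, 9, 8, 7, 7, 3], [(0, 1), (0, 1), (2, 1), (5, 2), (0, 1), (2, 1)]),
   ([9, 9, 8, 7, 6, 6, 5], [(0, 1), (0, 1), (0, 1), (0, 1), (2, 1), (0, 1)]),
   ([9, 9, 8, 7, 6, 6, 4], [(0, 1), (0, 1), (0, 1), (0, 1), (1, 1), (2, 1)]),
   ([9, 9, 8, 7, 6, 6, 3], [(0, 1), (1, 1), (1, 1), (0, 1), (0, 1), (2, 1), (0, 1)]),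
   ([9, 9, 8, 7, 6, 6, 2], [(0, 1), (0, 1), (0, 1), (2, 1), (1, 1), (2, 1)]),
   ([9, 9, 8, 7, 6, 5], [(0, 1), (2, 1), (1, 1), (0, 1), (2, 1), (1, 1), (2, 1)]),
   ([9, 9, 8, 7, 6, 4], [(0, 1), (0, 1), (2, 1), (5, 2), (0, 1), (2, 1)]),
   ([9, 9, 8, 7, 6, 3], [(0, 1), (0, 1), (2, 1), (4, 1), (2, 1), (2, 1)]),
   ([9, 9, 8, 7, 5, 5], [(0, 1), (2, 1), (2, 1), (2, 1), (1, 1), (2, 1)]),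
   ([9, 9, 8, 7, 5, 4], [(0, 1), (2, 1), (2, 1), (2, 1), (2, 1), (2, 1)]),
   ([9, 9, 8, 7, 5, 3], [(0, 1), (0, 1), (2, 1), (7, 2), (0, 1), (2, 1)]),
   ([9, 9, 8, 7, 4], [(10, 3), (3, 1), (0, 1), (0, 1), (0, 1), (0, 1), (2, 1)]),
   ([9, 9, 8, 6, 6, 6, 6], [(0, 1), (0, 1), (0, 1), (0, 1), (2, 1), (0, 1)]),
   ([9, 9, 8, 6, 6, 6, 5], [(0, 1), (0, 1), (0, 1), (0, 1), (1, 1), (2, 1)]),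
   ([9, 9, 8, 6, 6, 6, 4], [(0, 1), (1, 1), (1, 1), (0, 1), (0, 1), (2, 1), (0, 1)]),
   ([9, 9, 8, 6, 6, 6, 3], [(0, 1), (0, 1), (0, 1), (2, 1), (1, 1), (2, 1)]),
   ([9, 9, 8, 6, 6, 6, 2], [(0, 1), (0, 1), (0, 1), (2, 1), (2, 1), (2, 1)]),
   ([9, 9, 8, 6, 6, 5], [(0, 1), (2, 1), (2, 1), (2, 1), (1, 1), (2, 1)]),
   ([9, 9, 8, 6, 6, 4], [(0, 1), (2, 1), (2, 1), (2, 1), (2, 1), (2, 1)]),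
   ([9, 9, 8, 6, 6, 3], [(0, 1), (0, 1), (2, 1), (7, 2), (0, 1), (2, 1)]),
   ([9, 9, 8, 6, 5], [(10, 3), (3, 1), (0, 1), (0, 1), (0, 1), (0, 1), (2, 1)]),
   ([9, 9, 8, 6, 4, 4], [(0, 1), (3, 1), (3, 1), (0, 1), (2, 1), (2, 1), (2, 1)]),
   ([9, 9, 8, 5], [(9, 2), (2, 1), (4, 1), (4, 1), (0, 1), (2, 1)]),
   ([9, 9, 8, 4], [(9, 2), (6, 1), (5, 1), (0, 1), (0, 1), (0, 1), (2, 1)]),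
   ([9, 9, 7, 7, 7, 7], [(0, 1), (2, 1), (1, 1), (0, 1), (0, 1), (1, 1), (2, 1)]),
   ([9, 9, 7, 7, 7, 6, 5], [(0, 1), (0, 1), (0, 1), (0, 1), (2, 1), (0, 1)]),
   ([9, 9, 7, 7, 7, 6, 4], [(0, 1), (0, 1), (0, 1), (0, 1), (1, 1), (2, 1)]),
   ([9, 9, 7, 7, 7, 6, 3], [(0, 1), (1, 1), (2, 1), (0, 1), (0, 1), (1, 1), (0, 1)]),
   ([9, 9, 7, 7, 7, 6, 2], [(0, 1), (0, 1), (0, 1), (2, 1), (1, 1), (2, 1)]),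
   ([9, 9, 7, 7, 7, 5], [(0, 1), (2, 1), (1, 1), (0, 1), (2, 1), (1, 1), (2, 1)]),
   ([9, 9, 7, 7, 7, 4], [(0, 1), (0, 1), (2, 1), (5, 2), (0, 1), (2, 1)]),
   ([9, 9, 7, 7, 7, 3], [(0, 1), (0, 1), (2, 1), (4, 1), (2, 1), (2, 1)]),
   ([9, 9, 7, 7, 6, 6, 6], [(0, 1), (0, 1), (0, 1), (0, 1), (2, 1), (0, 1)])]

def cm_11_8_6_3_8 : List CM :=
  [⟨[9, 9, 7, 7, 6, 6, 5], 1, [([4, 4, 4, 4, 2, 2, 0], (.ev, 0)), ([4, 4, 1, 0, 2, 1, 2], (.ev, 0)), ([0, 0, 1, 3, 0, 3, 1], (.ev, 0)), ([1, 1, 0, 0, 2, 0, 2], (.ev, 0)), ([0, 0, 1, 0, 0, 0, 0], (.pl 1, 1)), ([0, 0, 0, 0, 0, 0, 0], (.ev, 2))], [1, 1, 1, 1, 0, 1]⟩,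
   ⟨[9, 9, 7, 7, 6, 6, 4], 2, [([4, 4, 4, 4, 2, 2, 0], (.ev, 0)), ([1, 1, 1, 1, 1, 1, 1], (.pl 1, 1)), ([0, 0, 1, 1, 1, 1, 1], (.pl 1, 1)), ([4, 4, 0, 0, 0, 0, 0], (.ev, 0)), ([0, 0, 1, 0, 2, 2, 1], (.ev, 0)), ([0, 0, 0, 0, 0, 0, 0], (.pl 1, 2)), ([0, 0, 0, 1, 0, 0, 1], (.ev, 0))], [1, 0, 0, 1, 1, 0, 1]⟩,
   ⟨[9, 9, 7, 7, 6, 6, 3], 1, [([4, 4, 4, 4, 2, 2, 0], (.ev, 0)), ([4, 4, 1, 1, 2, 2, 0], (.ev, 0)), ([0, 0, 2, 2, 2, 0, 2], (.ev, 0)), ([1, 1, 0, 0, 0, 1, 1], (.ev, 2)), ([0, 0, 0, 0, 0, 1, 0], (.pl 1, 1)), ([0, 0, 0, 0, 0, 0, 0], (.ev, 2))], [1, 1, 1, 1, 0, 1]⟩,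
   ⟨[9, 9, 7, 7, 6, 6, 2], 1, [([4, 4, 4, 4, 2, 2, 0], (.ev, 0)), ([4, 4, 1, 1, 2, 2, 0], (.ev, 0)), ([1, 0, 2, 2, 1, 1, 1], (.ev, 0)), ([0, 1, 0, 0, 1, 1, 1], (.ev, 2)), ([0, 0, 0, 0, 0, 0, 0], (.pl 1, 2)), ([0, 0, 0, 0, 0, 0, 0], (.ev, 2))], [1, 1, 1, 1, 0, 1]⟩,
   ⟨[9, 9, 7, 7, 6, 5], 1, [([4, 4, 4, 4, 2, 2], (.ev, 0)), ([4, 4, 2, 0, 2, 0], (.ev, 2)), ([0, 0, 0, 3, 0, 3], (.ev, 2)), ([1, 1, 1, 0, 1, 0], (.ev, 2)), ([0, 0, 0, 0, 1, 0], (.pl 1, 1)), ([0, 0, 0, 0, 0, 0], (.ev, 2))], [1, 1, 1, 1, 0, 1]⟩,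
   ⟨[9, 9, 7, 7, 6, 4], 1, [([4, 4, 4, 4, 2, 2], (.ev, 0)), ([4, 4, 2, 0, 2, 0], (.ev, 2)), ([1, 0, 0, 2, 2, 1], (.ev, 2)), ([0, 1, 1, 1, 0, 1], (.ev, 2)), ([0, 0, 0, 0, 0, 0], (.pl 1, 2)), ([0, 0, 0, 0, 0, 0], (.ev, 2))], [1, 1, 1, 1, 0, 1]⟩,
   ⟨[9, 9, 7, 7, 6, 3], 1, [([4, 4, 4, 4, 2, 2], (.ev, 0)), ([4, 4, 2, 1, 2, 1], (.ev, 0)), ([1, 1, 0, 2, 2, 0], (.ev, 2)), ([0, 0, 0, 0, 0, 0], (.ev, 6)), ([0, 0, 1, 0, 0, 0], (.pl 1, 1)), ([0, 0, 0, 0, 0, 0], (.ev, 2))], [1, 1, 1, 2, 1, 1]⟩,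
   ⟨[9, 9, 7, 7, 5], 2, [([4, 4, 2, 2, 0], (.ev, 8)), ([1, 1, 1, 1, 1], (.pl 1, 3)), ([1, 1, 1, 1, 1], (.pl 1, 1)), ([3, 3, 1, 1, 0], (.ev, 0)), ([0, 0, 2, 0, 2], (.ev, 2)), ([0, 0, 0, 1, 0], (.pl 1, 1)), ([0, 0, 0, 1, 1], (.ev, 0))], [3, 0, 1, 1, 1, 1, 1]⟩,
   ⟨[9, 9, 7, 7, 4, 4], 2, [([4, 4, 4, 4, 2, 2], (.ev, 0)), ([1, 1, 1, 0, 1, 1], (.pl 1, 3)), ([0, 0, 0, 1, 1, 1], (.pl 1, 3)), ([4, 4, 0, 0, 0, 0], (.ev, 0)), ([0, 0, 2, 2, 0, 0], (.ev, 2)), ([0, 0, 0, 0, 0, 0], (.pl 1, 2)), ([0, 0, 0, 0, 0, 0], (.ev, 2))], [1, 0, 0, 1, 1, 0, 1]⟩,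
   ⟨[9, 9, 7, 6, 6, 6, 6], 1, [([4, 4, 4, 4, 2, 2, 0], (.ev, 0)), ([4, 2, 1, 0, 2, 1, 4], (.ev, 0)), ([0, 3, 1, 1, 0, 3, 0], (.ev, 0)), ([1, 0, 1, 0, 2, 0, 2], (.ev, 0)), ([0, 0, 0, 1, 0, 0, 0], (.pl 1, 1)), ([0, 0, 0, 0, 0, 0, 0], (.ev, 2))], [1, 1, 1, 1, 0, 1]⟩,
   ⟨[9, 9, 7, 6, 6, 6, 5], 2, [([4, 4, 4, 4, 2, 2, 0], (.ev, 0)), ([1, 1, 1, 1, 1, 1, 1], (.pl 1, 1)), ([0, 0, 1, 1, 0, 1, 1], (.pl 1, 2)), ([4, 4, 0, 0, 0, 0, 0], (.ev, 0)), ([0, 0, 0, 0, 3, 0, 3], (.ev, 0)), ([0, 0, 0, 0, 0, 1, 0], (.pl 1, 1)), ([0, 0, 1, 0, 0, 1, 0], (.ev, 0))], [1, 0, 0, 1, 1, 0, 1]⟩,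
   ⟨[9, 9, 7, 6, 6, 6, 4], 2, [([4, 4, 4, 4, 2, 2, 0], (.ev, 0)), ([1, 1, 1, 1, 1, 1, 1], (.pl 1, 1)), ([0, 0, 1, 1, 1, 1, 1], (.pl 1, 1)), ([4, 4, 0, 0, 0, 0, 0], (.ev, 0)), ([0, 0, 1, 0, 2, 2, 1], (.ev, 0)), ([0, 0, 0, 0, 0, 0, 1], (.pl 1, 1)), ([0, 0, 0, 0, 0, 0, 0], (.ev, 2))], [1, 0, 0, 1, 1, 0, 1]⟩,
   ⟨[9, 9, 7, 6, 6, 6, 3], 1, [([4, 4, 4, 4, 2, 2, 0], (.ev, 0)), ([4, 4, 1, 0, 2, 2, 1], (.ev, 0)), ([1, 0, 2, 2, 1, 1, 1], (.ev, 0)), ([0, 1, 0, 0, 1, 1, 1], (.ev, 2)), ([0, 0, 0, 0, 0, 0, 0], (.pl 1, 2)), ([0, 0, 0, 0, 0, 0, 0], (.ev, 2))], [1, 1, 1, 1, 0, 1]⟩,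
   ⟨[9, 9, 7, 6, 6, 5], 1, [([4, 4, 4, 4, 2, 2], (.ev, 0)), ([4, 4, 2, 0, 2, 0], (.ev, 2)), ([1, 0, 0, 2, 1, 2], (.ev, 2)), ([0, 1, 1, 0, 1, 1], (.ev, 2)), ([0, 0, 0, 0, 0, 0], (.pl 1, 2)), ([0, 0, 0, 0, 0, 0], (.ev, 2))], [1, 1, 1, 1, 0, 1]⟩,
   ⟨[9, 9, 7, 6, 6, 4], 1, [([4, 4, 4, 4, 2, 2], (.ev, 0)), ([4, 4, 2, 0, 2, 0], (.ev, 2)), ([1, 0, 0, 2, 2, 1], (.ev, 2)), ([0, 1, 1, 0, 0, 0], (.ev, 4)), ([0, 0, 0, 0, 0, 1], (.pl 1, 1)), ([0, 0, 0, 0, 0, 0], (.ev, 2))], [1, 1, 1, 2, 1, 1]⟩,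
   ⟨[9, 9, 7, 6, 6, 3], 1, [([4, 4, 4, 4, 2, 2], (.ev, 0)), ([4, 4, 2, 1, 2, 1], (.ev, 0)), ([1, 1, 1, 0, 1, 0], (.ev, 4)), ([0, 0, 0, 1, 1, 0], (.ev, 4)), ([0, 0, 0, 0, 0, 0], (.pl 1, 2)), ([0, 0, 0, 0, 0, 0], (.ev, 2))], [1, 1, 1, 1, 0, 1]⟩,
   ⟨[9, 9, 7, 6, 5, 5], 1, [([4, 4, 4, 4, 2, 2], (.ev, 0)), ([4, 4, 2, 0, 2, 0], (.ev, 2)), ([1, 1, 0, 2, 0, 2], (.ev, 2)), ([0, 0, 1, 0, 1, 0], (.ev, 4)), ([0, 0, 0, 0, 0, 1], (.pl 1, 1)), ([0, 0, 0, 0, 0, 0], (.ev, 2))], [1, 1, 1, 2, 1, 1]⟩,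
   ⟨[9, 9, 7, 6, 5, 4], 2, [([4, 4, 4, 4, 2, 2], (.ev, 0)), ([1, 1, 1, 1, 0, 1], (.pl 1, 3)), ([0, 0, 0, 1, 1, 1], (.pl 1, 3)), ([4, 4, 0, 0, 0, 0], (.ev, 0)), ([0, 0, 2, 0, 2, 0], (.ev, 2)), ([0, 0, 0, 0, 0, 0], (.pl 1, 2)), ([0, 0, 0, 0, 0, 0], (.ev, 2))], [1, 0, 0, 1, 1, 0, 1]⟩,
   ⟨[9, 9, 7, 6, 4], 1, [([4, 4, 2, 2, 0], (.ev, 8)), ([4, 4, 2, 2, 0], (.ev, 2)), ([1, 0, 3, 1, 3], (.ev, 0)), ([0, 1, 0, 1, 0], (.ev, 4)), ([0, 0, 0, 0, 1], (.pl 1, 1)), ([0, 0, 0, 0, 0], (.ev, 2))], [2, 1, 1, 1, 1, 1]⟩,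
   ⟨[9, 9, 7, 5], 2, [([4, 4, 2, 2], (.ev, 8)), ([1, 1, 1, 1], (.pl 1, 4)), ([0, 0, 1, 0], (.pl 1, 5)), ([4, 4, 0, 0], (.ev, 0)), ([0, 0, 2, 2], (.ev, 2)), ([0, 0, 1, 0], (.pl 1, 1)), ([0, 0, 0, 0], (.ev, 2))], [2, 0, 0, 1, 1, 1, 1]⟩,
   ⟨[9, 9, 7, 4], 1, [([4, 4, 2, 2], (.ev, 8)), ([4, 4, 2, 2], (.ev, 2)), ([1, 0, 1, 0], (.ev, 6)), ([0, 1, 1, 0], (.ev, 4)), ([0, 0, 1, 0], (.pl 1, 1)), ([0, 0, 0, 0], (.ev, 2))], [2, 1, 1, 1, 1, 1]⟩,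
   ⟨[9, 9, 6, 6, 6, 6], 2, [([4, 4, 4, 4, 2, 2], (.ev, 0)), ([1, 1, 1, 1, 1, 1], (.pl 1, 2)), ([1, 1, 1, 1, 1, 0], (.pl 1, 1)), ([3, 3, 0, 0, 0, 0], (.ev, 2)), ([0, 0, 0, 0, 2, 2], (.ev, 2)), ([0, 0, 0, 0, 0, 1], (.pl 1, 1)), ([0, 0, 0, 0, 0, 0], (.ev, 2))], [1, 0, 0, 1, 1, 0, 1]⟩,
   ⟨[9, 9, 6, 6, 6, 5], 1, [([4, 4, 4, 4, 2, 2], (.ev, 0)), ([4, 4, 0, 0, 2, 2], (.ev, 2)), ([1, 0, 2, 2, 1, 0], (.ev, 2)), ([0, 1, 0, 0, 1, 0], (.ev, 4)), ([0, 0, 0, 0, 0, 1], (.pl 1, 1)), ([0, 0, 0, 0, 0, 0], (.ev, 2))], [1, 1, 1, 2, 1, 1]⟩,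
   ⟨[9, 9, 6, 6, 6, 4], 2, [([4, 4, 4, 4, 2, 2], (.ev, 0)), ([1, 1, 0, 1, 1, 1], (.pl 1, 3)), ([0, 0, 0, 1, 1, 1], (.pl 1, 3)), ([4, 4, 0, 0, 0, 0], (.ev, 0)), ([0, 0, 2, 0, 2, 0], (.ev, 2)), ([0, 0, 0, 0, 0, 0], (.pl 1, 2)), ([0, 0, 0, 0, 0, 0], (.ev, 2))], [1, 0, 0, 1, 1, 0, 1]⟩,
   ⟨[9, 9, 6, 6, 5], 2, [([4, 4, 2, 2, 0], (.ev, 8)), ([1, 1, 1, 1, 1], (.pl 1, 3)), ([1, 1, 1, 1, 1], (.pl 1, 1)), ([3, 3, 1, 0, 1], (.ev, 0)), ([0, 0, 0, 2, 2], (.ev, 2)), ([0, 0, 1, 0, 0], (.pl 1, 1)), ([0, 0, 0, 0, 0], (.ev, 2))], [3, 0, 1, 1, 1, 1, 1]⟩,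
   ⟨[9, 9, 6, 6, 4], 2, [([4, 4, 2, 2, 0], (.ev, 8)), ([0, 1, 1, 1, 1], (.pl 1, 4)), ([0, 0, 0, 0, 1], (.pl 1, 5)), ([4, 4, 0, 0, 0], (.ev, 0)), ([0, 0, 3, 3, 0], (.ev, 0)), ([0, 0, 0, 0, 1], (.pl 1, 1)), ([1, 0, 0, 0, 1], (.ev, 0))], [2, 0, 0, 1, 1, 1, 1]⟩,
   ⟨[9, 9, 6, 5], 1, [([4, 4, 2, 2], (.ev, 8)), ([3, 3, 2, 2], (.ev, 4)), ([2, 2, 0, 0], (.ev, 4)), ([0, 0, 1, 1], (.ev, 4)), ([0, 0, 1, 0], (.pl 1, 1)), ([0, 0, 0, 0], (.ev, 2))], [2, 1, 1, 1, 1, 1]⟩,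
   ⟨[9, 9, 6, 4], 2, [([4, 4, 2, 2], (.ev, 8)), ([0, 0, 1, 1], (.pl 1, 6)), ([0, 0, 1, 0], (.pl 1, 5)), ([4, 4, 0, 0], (.ev, 0)), ([1, 1, 1, 1], (.ev, 2)), ([0, 0, 1, 0], (.pl 1, 1)), ([0, 0, 0, 0], (.ev, 2))], [2, 0, 0, 1, 1, 1, 1]⟩,
   ⟨[9, 9, 5, 5, 5], 2, [([4, 4, 2, 2, 0], (.ev, 8)), ([1, 1, 1, 1, 1], (.pl 1, 3)), ([1, 1, 1, 1, 1], (.pl 1, 1)), ([3, 3, 1, 0, 1], (.ev, 0)), ([0, 0, 0, 1, 1], (.ev, 4)), ([0, 0, 0, 0, 1], (.pl 1, 1)), ([0, 0, 0, 0, 0], (.ev, 2))], [3, 0, 1, 1, 1, 1, 1]⟩,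
   ⟨[9, 9, 5, 5, 4], 2, [([4, 4, 2, 2, 0], (.ev, 8)), ([1, 1, 0, 1, 1], (.pl 1, 4)), ([0, 0, 0, 1, 0], (.pl 1, 5)), ([4, 4, 0, 0, 0], (.ev, 0)), ([0, 0, 3, 0, 3], (.ev, 0)), ([0, 0, 0, 1, 0], (.pl 1, 1)), ([0, 0, 0, 0, 0], (.ev, 2))], [2, 0, 0, 1, 1, 1, 1]⟩,
   ⟨[9, 8, 8, 8, 8, 8], 1, [([4, 4, 4, 4, 2, 2], (.ev, 0)), ([2, 2, 1, 1, 4, 4], (.ev, 0)), ([3, 1, 3, 1, 0, 0], (.ev, 0)), ([0, 1, 0, 2, 2, 1], (.ev, 0)), ([0, 0, 0, 0, 0, 1], (.pl 1, 1)), ([0, 0, 0, 0, 0, 0], (.ev, 2))], [1, 1, 1, 1, 0, 1]⟩,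
   ⟨[9, 8, 8, 8, 8, 7], 1, [([4, 4, 4, 4, 2, 2], (.ev, 0)), ([4, 2, 1, 1, 4, 2], (.ev, 0)), ([0, 1, 3, 3, 0, 1], (.ev, 0)), ([1, 1, 0, 0, 2, 2], (.ev, 0)), ([0, 0, 0, 0, 0, 0], (.pl 1, 2)), ([0, 0, 0, 0, 0, 0], (.ev, 2))], [1, 1, 1, 1, 0, 1]⟩,
   ⟨[9, 8, 8, 8, 8, 6], 1, [([4, 4, 4, 4, 2, 2], (.ev, 0)), ([4, 2, 2, 1, 4, 1], (.ev, 0)), ([0, 1, 1, 3, 0, 3], (.ev, 0)), ([1, 1, 1, 0, 1, 0], (.ev, 2)), ([0, 0, 0, 0, 1, 0], (.pl 1, 1)), ([0, 0, 0, 0, 0, 0], (.ev, 2))], [1, 1, 1, 1, 0, 1]⟩,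
   ⟨[9, 8, 8, 8, 8, 5], 2, [([4, 4, 4, 4, 2, 2], (.ev, 0)), ([1, 1, 1, 1, 1, 1], (.pl 1, 2)), ([0, 1, 1, 1, 1, 1], (.pl 1, 1)), ([4, 0, 0, 0, 4, 0], (.ev, 0)), ([0, 2, 2, 1, 0, 1], (.ev, 0)), ([0, 0, 0, 1, 0, 0], (.pl 1, 1)), ([0, 0, 0, 0, 0, 0], (.ev, 2))], [1, 0, 0, 1, 1, 0, 1]⟩,
   ⟨[9, 8, 8, 8, 8, 4], 1, [([4, 4, 4, 4, 2, 2], (.ev, 0)), ([4, 2, 2, 1, 4, 1], (.ev, 0)), ([0, 2, 1, 2, 1, 0], (.ev, 2)), ([1, 0, 1, 1, 1, 0], (.ev, 2)), ([0, 0, 0, 0, 0, 1], (.pl 1, 1)), ([0, 0, 0, 0, 0, 0], (.ev, 2))], [1, 1, 1, 1, 0, 1]⟩,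
   ⟨[9, 8, 8, 8, 8, 3], 1, [([4, 4, 4, 4, 2, 2], (.ev, 0)), ([4, 2, 2, 1, 4, 1], (.ev, 0)), ([0, 2, 1, 2, 1, 0], (.ev, 2)), ([1, 0, 1, 1, 1, 0], (.ev, 2)), ([0, 0, 0, 0, 0, 0], (.pl 1, 2)), ([0, 0, 0, 0, 0, 0], (.ev, 2))], [1, 1, 1, 1, 0, 1]⟩,
   ⟨[9, 8, 8, 8, 7, 7], 1, [([4, 4, 4, 4, 2, 2], (.ev, 0)), ([4, 2, 1, 1, 4, 2], (.ev, 0)), ([0, 1, 3, 3, 0, 1], (.ev, 0)), ([1, 1, 0, 0, 1, 1], (.ev, 2)), ([0, 0, 0, 0, 0, 1], (.pl 1, 1)), ([0, 0, 0, 0, 0, 0], (.ev, 2))], [1, 1, 1, 1, 0, 1]⟩,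
   ⟨[9, 8, 8, 8, 7, 6], 2, [([4, 4, 4, 4, 2, 2], (.ev, 0)), ([1, 1, 1, 1, 1, 1], (.pl 1, 2)), ([1, 1, 1, 1, 1, 0], (.pl 1, 1)), ([3, 1, 1, 0, 3, 0], (.ev, 0)), ([0, 1, 1, 2, 0, 2], (.ev, 0)), ([0, 0, 0, 0, 0, 1], (.pl 1, 1)), ([0, 0, 0, 0, 0, 0], (.ev, 2))], [1, 0, 0, 1, 1, 0, 1]⟩,
   ⟨[9, 8, 8, 8, 7, 5, 5], 1, [([4, 4, 4, 4, 2, 2, 0], (.ev, 0)), ([4, 2, 1, 1, 4, 0, 2], (.ev, 0)), ([0, 0, 3, 3, 0, 1, 1], (.ev, 0)), ([1, 2, 0, 0, 0, 2, 1], (.ev, 0)), ([0, 0, 0, 0, 0, 0, 0], (.pl 1, 2)), ([0, 0, 0, 0, 1, 0, 1], (.ev, 0))], [1, 1, 1, 1, 0, 1]⟩,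
   ⟨[9, 8, 8, 8, 7, 5, 4], 1, [([4, 4, 4, 4, 2, 2, 0], (.ev, 0)), ([4, 2, 2, 1, 4, 0, 1], (.ev, 0)), ([0, 1, 0, 3, 0, 3, 1], (.ev, 0)), ([1, 1, 2, 0, 0, 0, 2], (.ev, 0)), ([0, 0, 0, 0, 1, 0, 0], (.pl 1, 1)), ([0, 0, 0, 0, 0, 0, 0], (.ev, 2))], [1, 1, 1, 1, 0, 1]⟩,
   ⟨[9, 8, 8, 8, 7, 5, 3], 2, [([4, 4, 4, 4, 2, 2, 0], (.ev, 0)), ([1, 1, 1, 1, 1, 1, 1], (.pl 1, 1)), ([0, 1, 1, 1, 0, 1, 1], (.pl 1, 1)), ([4, 0, 0, 0, 4, 0, 0], (.ev, 0)), ([0, 2, 2, 1, 0, 1, 0], (.ev, 0)), ([0, 0, 0, 0, 0, 0, 0], (.pl 1, 2)), ([0, 0, 0, 1, 0, 0, 1], (.ev, 0))], [1, 0, 0, 1, 1, 0, 1]⟩,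
   ⟨[9, 8, 8, 8, 7, 5, 2], 1, [([4, 4, 4, 4, 2, 2, 0], (.ev, 0)), ([4, 2, 2, 1, 4, 1, 0], (.ev, 0)), ([0, 2, 2, 2, 0, 2, 0], (.ev, 0)), ([1, 0, 0, 1, 1, 0, 1], (.ev, 2)), ([0, 0, 0, 0, 0, 0, 1], (.pl 1, 1)), ([0, 0, 0, 0, 0, 0, 0], (.ev, 2))], [1, 1, 1, 1, 0, 1]⟩,
   ⟨[9, 8, 8, 8, 7, 4], 1, [([4, 4, 4, 4, 2, 2], (.ev, 0)), ([4, 2, 2, 1, 4, 1], (.ev, 0)), ([1, 2, 1, 2, 0, 0], (.ev, 2)), ([0, 0, 1, 1, 1, 1], (.ev, 2)), ([0, 0, 0, 0, 0, 0], (.pl 1, 2)), ([0, 0, 0, 0, 0, 0], (.ev, 2))], [1, 1, 1, 1, 0, 1]⟩,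
   ⟨[9, 8, 8, 8, 7, 3], 1, [([4, 4, 4, 4, 2, 2], (.ev, 0)), ([4, 2, 2, 1, 4, 1], (.ev, 0)), ([1, 2, 1, 2, 0, 0], (.ev, 2)), ([0, 0, 1, 1, 0, 0], (.ev, 4)), ([0, 0, 0, 0, 1, 0], (.pl 1, 1)), ([0, 0, 0, 0, 0, 0], (.ev, 2))], [1, 1, 1, 2, 1, 1]⟩,
   ⟨[9, 8, 8, 8, 6, 6, 5], 1, [([4, 4, 4, 4, 2, 2, 0], (.ev, 0)), ([4, 2, 2, 1, 1, 0, 4], (.ev, 0)), ([0, 1, 0, 3, 1, 3, 0], (.ev, 0)), ([1, 1, 2, 0, 2, 0, 0], (.ev, 0)), ([0, 0, 0, 0, 0, 0, 0], (.pl 1, 2)), ([0, 0, 0, 0, 0, 1, 1], (.ev, 0))], [1, 1, 1, 1, 0, 1]⟩,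
   ⟨[9, 8, 8, 8, 6, 6, 4], 1, [([4, 4, 4, 4, 2, 2, 0], (.ev, 0)), ([4, 4, 2, 2, 1, 1, 0], (.ev, 0)), ([0, 0, 1, 0, 3, 1, 3], (.ev, 0)), ([1, 0, 1, 2, 0, 2, 0], (.ev, 0)), ([0, 0, 0, 0, 0, 0, 1], (.pl 1, 1)), ([0, 0, 0, 0, 0, 0, 0], (.ev, 2))], [1, 1, 1, 1, 0, 1]⟩,
   ⟨[9, 8, 8, 8, 6, 6, 3], 2, [([4, 4, 4, 4, 2, 2, 0], (.ev, 0)), ([1, 0, 1, 1, 1, 1, 1], (.pl 1, 2)), ([0, 0, 1, 1, 1, 1, 1], (.pl 1, 1)), ([4, 4, 0, 0, 0, 0, 0], (.ev, 0)), ([0, 0, 2, 2, 1, 1, 0], (.ev, 0)), ([0, 0, 0, 0, 0, 0, 1], (.pl 1, 1)), ([0, 0, 0, 0, 1, 1, 0], (.ev, 0))], [1, 0, 0, 1, 1, 0, 1]⟩,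
   ⟨[9, 8, 8, 8, 6, 6, 2], 1, [([4, 4, 4, 4, 2, 2, 0], (.ev, 0)), ([4, 4, 2, 2, 1, 1, 0], (.ev, 0)), ([0, 0, 1, 1, 3, 3, 0], (.ev, 0)), ([1, 0, 1, 1, 0, 0, 1], (.ev, 2)), ([0, 0, 0, 0, 0, 0, 1], (.pl 1, 1)), ([0, 0, 0, 0, 0, 0, 0], (.ev, 2))], [1, 1, 1, 1, 0, 1]⟩,
   ⟨[9, 8, 8, 8, 6, 5], 2, [([4, 4, 4, 4, 2, 2], (.ev, 0)), ([1, 1, 1, 1, 1, 1], (.pl 1, 2)), ([1, 0, 1, 1, 1, 1], (.pl 1, 1)), ([3, 3, 1, 1, 0, 0], (.ev, 0)), ([0, 0, 1, 1, 1, 1], (.ev, 2)), ([0, 0, 0, 0, 1, 0], (.pl 1, 1)), ([0, 0, 0, 0, 0, 0], (.ev, 2))], [1, 0, 0, 1, 1, 0, 1]⟩,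
   ⟨[9, 8, 8, 8, 6, 4], 1, [([4, 4, 4, 4, 2, 2], (.ev, 0)), ([4, 4, 2, 2, 1, 1], (.ev, 0)), ([1, 0, 2, 1, 2, 0], (.ev, 2)), ([0, 0, 0, 1, 1, 0], (.ev, 4)), ([0, 0, 0, 0, 0, 1], (.pl 1, 1)), ([0, 0, 0, 0, 0, 0], (.ev, 2))], [1, 1, 1, 2, 1, 1]⟩,
   ⟨[9, 8, 8, 8, 6, 3], 1, [([4, 4, 4, 4, 2, 2], (.ev, 0)), ([4, 4, 2, 2, 1, 1], (.ev, 0)), ([1, 0, 2, 1, 2, 0], (.ev, 2)), ([0, 0, 0, 1, 1, 0], (.ev, 4)), ([0, 0, 0, 0, 0, 0], (.pl 1, 2)), ([0, 0, 0, 0, 0, 0], (.ev, 2))], [1, 1, 1, 1, 0, 1]⟩,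
   ⟨[9, 8, 8, 8, 5, 5], 1, [([4, 4, 4, 4, 2, 2], (.ev, 0)), ([4, 4, 2, 2, 0, 0], (.ev, 2)), ([0, 0, 0, 0, 3, 3], (.ev, 2)), ([0, 0, 2, 2, 0, 0], (.ev, 2)), ([1, 0, 0, 0, 0, 0], (.pl 1, 1)), ([0, 0, 0, 0, 0, 0], (.ev, 2))], [1, 1, 1, 1, 0, 1]⟩,
   ⟨[9, 8, 8, 8, 5, 4], 1, [([4, 4, 4, 4, 2, 2], (.ev, 0)), ([4, 4, 2, 2, 0, 0], (.ev, 2)), ([0, 0, 2, 1, 2, 1], (.ev, 2)), ([1, 0, 0, 1, 1, 1], (.ev, 2)), ([0, 0, 0, 0, 0, 0], (.pl 1, 2)), ([0, 0, 0, 0, 0, 0], (.ev, 2))], [1, 1, 1, 1, 0, 1]⟩,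
   ⟨[9, 8, 8, 8, 5, 3], 1, [([4, 4, 4, 4, 2, 2], (.ev, 0)), ([4, 4, 2, 2, 1, 1], (.ev, 0)), ([1, 0, 2, 2, 1, 0], (.ev, 2)), ([0, 0, 0, 0, 0, 0], (.ev, 6)), ([0, 0, 0, 0, 1, 0], (.pl 1, 1)), ([0, 0, 0, 0, 0, 0], (.ev, 2))], [1, 1, 1, 2, 1, 1]⟩,
   ⟨[9, 8, 8, 8, 4], 2, [([4, 4, 2, 2, 0], (.ev, 8)), ([1, 1, 1, 1, 1], (.pl 1, 3)), ([1, 1, 1, 1, 1], (.pl 1, 1)), ([0, 0, 4, 4, 0], (.ev, 0)), ([2, 2, 0, 0, 0], (.ev, 2)), ([0, 0, 0, 0, 1], (.pl 1, 1)), ([1, 0, 0, 0, 1], (.ev, 0))], [3, 0, 1, 1, 1, 1, 1]⟩,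
   ⟨[9, 8, 8, 7, 7, 7], 2, [([4, 4, 4, 4, 2, 2], (.ev, 0)), ([1, 1, 1, 1, 1, 1], (.pl 1, 2)), ([1, 1, 1, 1, 1, 0], (.pl 1, 1)), ([3, 1, 0, 0, 3, 1], (.ev, 0)), ([0, 1, 2, 1, 0, 2], (.ev, 0)), ([0, 0, 0, 0, 0, 1], (.pl 1, 1)), ([0, 0, 0, 0, 0, 0], (.ev, 2))], [1, 0, 0, 1, 1, 0, 1]⟩,
   ⟨[9, 8, 8, 7, 7, 6, 5], 1, [([4, 4, 4, 4, 2, 2, 0], (.ev, 0)), ([4, 2, 1, 0, 4, 1, 2], (.ev, 0)), ([0, 0, 3, 3, 0, 1, 1], (.ev, 0)), ([1, 2, 0, 0, 0, 2, 1], (.ev, 0)), ([0, 0, 0, 0, 0, 0, 0], (.pl 1, 2)), ([0, 0, 0, 0, 1, 0, 1], (.ev, 0))], [1, 1, 1, 1, 0, 1]⟩,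
   ⟨[9, 8, 8, 7, 7, 6, 4], 1, [([4, 4, 4, 4, 2, 2, 0], (.ev, 0)), ([4, 2, 2, 0, 4, 1, 1], (.ev, 0)), ([0, 1, 0, 3, 0, 3, 1], (.ev, 0)), ([1, 1, 2, 0, 0, 0, 2], (.ev, 0)), ([0, 0, 0, 0, 1, 0, 0], (.pl 1, 1)), ([0, 0, 0, 0, 0, 0, 0], (.ev, 2))], [1, 1, 1, 1, 0, 1]⟩,
   ⟨[9, 8, 8, 7, 7, 6, 3], 2, [([4, 4, 4, 4, 2, 2, 0], (.ev, 0)), ([1, 1, 1, 1, 1, 1, 1], (.pl 1, 1)), ([0, 1, 1, 1, 0, 1, 1], (.pl 1, 1)), ([4, 0, 0, 0, 4, 0, 0], (.ev, 0)), ([0, 2, 2, 1, 0, 1, 0], (.ev, 0)), ([0, 0, 0, 0, 0, 0, 0], (.pl 1, 2)), ([0, 0, 0, 0, 0, 1, 1], (.ev, 0))], [1, 0, 0, 1, 1, 0, 1]⟩,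
   ⟨[9, 8, 8, 7, 7, 6, 2], 1, [([4, 4, 4, 4, 2, 2, 0], (.ev, 0)), ([4, 2, 2, 1, 4, 1, 0], (.ev, 0)), ([0, 2, 2, 2, 0, 2, 0], (.ev, 0)), ([1, 0, 0, 0, 1, 1, 1], (.ev, 2)), ([0, 0, 0, 0, 0, 0, 1], (.pl 1, 1)), ([0, 0, 0, 0, 0, 0, 0], (.ev, 2))], [1, 1, 1, 1, 0, 1]⟩,
   ⟨[9, 8, 8, 7, 7, 5], 2, [([4, 4, 4, 4, 2, 2], (.ev, 0)), ([1, 1, 1, 1, 1, 1], (.pl 1, 2)), ([1, 1, 1, 1, 1, 0], (.pl 1, 1)), ([3, 1, 1, 0, 3, 0], (.ev, 0)), ([0, 1, 1, 1, 0, 1], (.ev, 2)), ([0, 0, 0, 0, 0, 1], (.pl 1, 1)), ([0, 0, 0, 0, 0, 0], (.ev, 2))], [1, 0, 0, 1, 1, 0, 1]⟩,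
   ⟨[9, 8, 8, 7, 7, 4], 1, [([4, 4, 4, 4, 2, 2], (.ev, 0)), ([4, 2, 2, 1, 4, 1], (.ev, 0)), ([1, 2, 2, 1, 0, 0], (.ev, 2)), ([0, 0, 0, 1, 1, 0], (.ev, 4)), ([0, 0, 0, 0, 0, 1], (.pl 1, 1)), ([0, 0, 0, 0, 0, 0], (.ev, 2))], [1, 1, 1, 2, 1, 1]⟩,
   ⟨[9, 8, 8, 7, 7, 3], 1, [([4, 4, 4, 4, 2, 2], (.ev, 0)), ([4, 2, 2, 1, 4, 1], (.ev, 0)), ([1, 2, 2, 1, 0, 0], (.ev, 2)), ([0, 0, 0, 1, 1, 0], (.ev, 4)), ([0, 0, 0, 0, 0, 0], (.pl 1, 2)), ([0, 0, 0, 0, 0, 0], (.ev, 2))], [1, 1, 1, 1, 0, 1]⟩,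
   ⟨[9, 8, 8, 7, 6, 6, 6], 1, [([4, 4, 4, 4, 2, 2, 0], (.ev, 0)), ([4, 2, 2, 0, 1, 1, 4], (.ev, 0)), ([0, 1, 0, 3, 3, 1, 0], (.ev, 0)), ([1, 0, 2, 0, 0, 2, 1], (.ev, 0)), ([0, 0, 0, 0, 0, 0, 0], (.pl 1, 2)), ([0, 1, 0, 0, 0, 0, 1], (.ev, 0))], [1, 1, 1, 1, 0, 1]⟩,
   ⟨[9, 8, 8, 7, 6, 6, 5], 1, [([4, 4, 4, 4, 2, 2, 0], (.ev, 0)), ([4, 2, 2, 0, 1, 1, 4], (.ev, 0)), ([0, 1, 0, 3, 3, 1, 0], (.ev, 0)), ([1, 1, 2, 0, 0, 2, 0], (.ev, 0)), ([0, 0, 0, 0, 0, 0, 1], (.pl 1, 1)), ([0, 0, 0, 0, 0, 0, 0], (.ev, 2))], [1, 1, 1, 1, 0, 1]⟩,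
   ⟨[9, 8, 8, 7, 6, 6, 4], 2, [([4, 4, 4, 4, 2, 2, 0], (.ev, 0)), ([1, 0, 1, 1, 1, 1, 1], (.pl 1, 2)), ([0, 0, 1, 1, 1, 1, 1], (.pl 1, 1)), ([4, 4, 0, 0, 0, 0, 0], (.ev, 0)), ([0, 0, 2, 0, 2, 1, 1], (.ev, 0)), ([0, 0, 0, 0, 0, 0, 1], (.pl 1, 1)), ([0, 0, 0, 1, 0, 1, 0], (.ev, 0))], [1, 0, 0, 1, 1, 0, 1]⟩,
   ⟨[9, 8, 8, 7, 6, 6, 3], 1, [([4, 4, 4, 4, 2, 2, 0], (.ev, 0)), ([4, 4, 2, 1, 2, 1, 0], (.ev, 0)), ([0, 0, 1, 1, 0, 3, 3], (.ev, 0)), ([1, 0, 1, 1, 1, 0, 0], (.ev, 2)), ([0, 0, 0, 0, 1, 0, 0], (.pl 1, 1)), ([0, 0, 0, 0, 0, 0, 0], (.ev, 2))], [1, 1, 1, 1, 0, 1]⟩,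
   ⟨[9, 8, 8, 7, 6, 6, 2], 1, [([4, 4, 4, 4, 2, 2, 0], (.ev, 0)), ([4, 4, 2, 1, 2, 1, 0], (.ev, 0)), ([1, 0, 2, 1, 1, 2, 1], (.ev, 0)), ([0, 0, 0, 1, 1, 1, 1], (.ev, 2)), ([0, 0, 0, 0, 0, 0, 0], (.pl 1, 2)), ([0, 0, 0, 0, 0, 0, 0], (.ev, 2))], [1, 1, 1, 1, 0, 1]⟩,
   ⟨[9, 8, 8, 7, 6, 5], 1, [([4, 4, 4, 4, 2, 2], (.ev, 0)), ([4, 4, 2, 0, 2, 0], (.ev, 2)), ([0, 0, 0, 3, 0, 3], (.ev, 2)), ([0, 0, 2, 0, 2, 0], (.ev, 2)), ([1, 0, 0, 0, 0, 0], (.pl 1, 1)), ([0, 0, 0, 0, 0, 0], (.ev, 2))], [1, 1, 1, 1, 0, 1]⟩,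
   ⟨[9, 8, 8, 7, 6, 4], 1, [([4, 4, 4, 4, 2, 2], (.ev, 0)), ([4, 4, 2, 0, 2, 0], (.ev, 2)), ([0, 0, 2, 2, 1, 1], (.ev, 2)), ([1, 0, 0, 1, 1, 1], (.ev, 2)), ([0, 0, 0, 0, 0, 0], (.pl 1, 2)), ([0, 0, 0, 0, 0, 0], (.ev, 2))], [1, 1, 1, 1, 0, 1]⟩,
   ⟨[9, 8, 8, 7, 6, 3], 1, [([4, 4, 4, 4, 2, 2], (.ev, 0)), ([4, 4, 2, 1, 2, 1], (.ev, 0)), ([1, 0, 2, 2, 1, 0], (.ev, 2)), ([0, 0, 0, 0, 0, 0], (.ev, 6)), ([0, 0, 0, 0, 1, 0], (.pl 1, 1)), ([0, 0, 0, 0, 0, 0], (.ev, 2))], [1, 1, 1, 2, 1, 1]⟩,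
   ⟨[9, 8, 8, 7, 5], 2, [([4, 4, 2, 2, 0], (.ev, 8)), ([1, 1, 1, 1, 1], (.pl 1, 3)), ([1, 1, 1, 1, 1], (.pl 1, 1)), ([3, 0, 3, 1, 1], (.ev, 0)), ([0, 2, 1, 2, 1], (.ev, 0)), ([0, 0, 0, 0, 1], (.pl 1, 1)), ([0, 0, 0, 0, 0], (.ev, 2))], [3, 0, 1, 1, 1, 1, 1]⟩,
   ⟨[9, 8, 8, 7, 4, 4], 2, [([4, 4, 4, 4, 2, 2], (.ev, 0)), ([1, 0, 1, 1, 1, 1], (.pl 1, 3)), ([0, 0, 1, 0, 1, 1], (.pl 1, 3)), ([4, 4, 0, 0, 0, 0], (.ev, 0)), ([0, 0, 2, 2, 0, 0], (.ev, 2)), ([0, 0, 0, 0, 0, 0], (.pl 1, 2)), ([0, 0, 0, 0, 0, 0], (.ev, 2))], [1, 0, 0, 1, 1, 0, 1]⟩,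
   ⟨[9, 8, 8, 6, 6, 6, 6], 1, [([4, 4, 4, 4, 2, 2, 0], (.ev, 0)), ([4, 2, 2, 0, 1, 1, 4], (.ev, 0)), ([0, 1, 1, 0, 3, 3, 0], (.ev, 0)), ([1, 1, 0, 2, 0, 0, 2], (.ev, 0)), ([0, 0, 1, 0, 0, 0, 0], (.pl 1, 1)), ([0, 0, 0, 0, 0, 0, 0], (.ev, 2))], [1, 1, 1, 1, 0, 1]⟩,
   ⟨[9, 8, 8, 6, 6, 6, 5], 2, [([4, 4, 4, 4, 2, 2, 0], (.ev, 0)), ([1, 1, 1, 1, 1, 1, 1], (.pl 1, 1)), ([0, 1, 1, 1, 1, 1, 0], (.pl 1, 1)), ([4, 0, 0, 0, 0, 0, 4], (.ev, 0)), ([0, 2, 2, 0, 1, 1, 0], (.ev, 0)), ([0, 0, 0, 0, 0, 0, 0], (.pl 1, 2)), ([0, 0, 0, 0, 1, 1, 0], (.ev, 0))], [1, 0, 0, 1, 1, 0, 1]⟩,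
   ⟨[9, 8, 8, 6, 6, 6, 4], 2, [([4, 4, 4, 4, 2, 2, 0], (.ev, 0)), ([1, 1, 1, 1, 1, 1, 1], (.pl 1, 1)), ([1, 0, 1, 1, 1, 1, 0], (.pl 1, 1)), ([3, 3, 1, 0, 1, 0, 0], (.ev, 0)), ([0, 0, 1, 0, 1, 2, 2], (.ev, 0)), ([0, 0, 0, 0, 0, 0, 1], (.pl 1, 1)), ([0, 0, 0, 0, 0, 0, 0], (.ev, 2))], [1, 0, 0, 1, 1, 0, 1]⟩,
   ⟨[9, 8, 8, 6, 6, 6, 3], 1, [([4, 4, 4, 4, 2, 2, 0], (.ev, 0)), ([4, 4, 2, 0, 2, 1, 1], (.ev, 0)), ([1, 0, 2, 1, 1, 2, 1], (.ev, 0)), ([0, 0, 0, 1, 1, 1, 1], (.ev, 2)), ([0, 0, 0, 0, 0, 0, 0], (.pl 1, 2)), ([0, 0, 0, 0, 0, 0, 0], (.ev, 2))], [1, 1, 1, 1, 0, 1]⟩,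
   ⟨[9, 8, 8, 6, 6, 5], 1, [([4, 4, 4, 4, 2, 2], (.ev, 0)), ([4, 4, 2, 0, 2, 0], (.ev, 2)), ([0, 0, 2, 1, 1, 2], (.ev, 2)), ([1, 0, 0, 1, 1, 1], (.ev, 2)), ([0, 0, 0, 0, 0, 0], (.pl 1, 2)), ([0, 0, 0, 0, 0, 0], (.ev, 2))], [1, 1, 1, 1, 0, 1]⟩,
   ⟨[9, 8, 8, 6, 6, 4], 1, [([4, 4, 4, 4, 2, 2], (.ev, 0)), ([4, 4, 2, 0, 2, 0], (.ev, 2)), ([0, 0, 2, 2, 1, 1], (.ev, 2)), ([1, 0, 0, 0, 1, 0], (.ev, 4)), ([0, 0, 0, 0, 0, 1], (.pl 1, 1)), ([0, 0, 0, 0, 0, 0], (.ev, 2))], [1, 1, 1, 2, 1, 1]⟩,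
   ⟨[9, 8, 8, 6, 6, 3], 1, [([4, 4, 4, 4, 2, 2], (.ev, 0)), ([4, 4, 2, 1, 2, 1], (.ev, 0)), ([0, 0, 2, 0, 2, 0], (.ev, 4)), ([1, 0, 0, 1, 0, 0], (.ev, 4)), ([0, 0, 0, 0, 0, 0], (.pl 1, 2)), ([0, 0, 0, 0, 0, 0], (.ev, 2))], [1, 1, 1, 1, 0, 1]⟩]

def cmC_11_8_6_3_8 : List (List ℕ × List (ℕ × ℕ)) :=
  [([9, 9, 7, 7, 6, 6, 5], [(0, 1), (0, 1), (0, 1), (0, 1), (1, 1), (2, 1)]),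
   ([9, 9, 7, 7, 6, 6, 4], [(0, 1), (1, 1), (1, 1), (0, 1), (0, 1), (2, 1), (0, 1)]),
   ([9, 9, 7, 7, 6, 6, 3], [(0, 1), (0, 1), (0, 1), (2, 1), (1, 1), (2, 1)]),
   ([9, 9, 7, 7, 6, 6, 2], [(0, 1), (0, 1), (0, 1), (2, 1), (2, 1), (2, 1)]),
   ([9, 9, 7, 7, 6, 5], [(0, 1), (2, 1), (2, 1), (2, 1), (1, 1), (2, 1)]),
   ([9, 9, 7, 7, 6, 4], [(0, 1), (2, 1), (2, 1), (2, 1), (2, 1), (2, 1)]),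
   ([9, 9, 7, 7, 6, 3], [(0, 1), (0, 1), (2, 1), (7, 2), (0, 1), (2, 1)]),
   ([9, 9, 7, 7, 5], [(10, 3), (3, 1), (0, 1), (0, 1), (2, 1), (0, 1), (0, 1)]),
   ([9, 9, 7, 7, 4, 4], [(0, 1), (3, 1), (3, 1), (0, 1), (2, 1), (2, 1), (2, 1)]),
   ([9, 9, 7, 6, 6, 6, 6], [(0, 1), (0, 1), (0, 1), (0, 1), (1, 1), (2, 1)]),
   ([9, 9, 7, 6, 6, 6, 5], [(0, 1), (1, 1), (2, 1), (0, 1), (0, 1), (1, 1), (0, 1)]),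
   ([9, 9, 7, 6, 6, 6, 4], [(0, 1), (1, 1), (1, 1), (0, 1), (0, 1), (1, 1), (2, 1)]),
   ([9, 9, 7, 6, 6, 6, 3], [(0, 1), (0, 1), (0, 1), (2, 1), (2, 1), (2, 1)]),
   ([9, 9, 7, 6, 6, 5], [(0, 1), (2, 1), (2, 1), (2, 1), (2, 1), (2, 1)]),
   ([9, 9, 7, 6, 6, 4], [(0, 1), (2, 1), (2, 1), (5, 2), (0, 1), (2, 1)]),
   ([9, 9, 7, 6, 6, 3], [(0, 1), (0, 1), (4, 1), (4, 1), (2, 1), (2, 1)]),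
   ([9, 9, 7, 6, 5, 5], [(0, 1), (2, 1), (2, 1), (5, 2), (0, 1), (2, 1)]),
   ([9, 9, 7, 6, 5, 4], [(0, 1), (3, 1), (3, 1), (0, 1), (2, 1), (2, 1), (2, 1)]),
   ([9, 9, 7, 6, 4], [(9, 2), (2, 1), (0, 1), (4, 1), (0, 1), (2, 1)]),
   ([9, 9, 7, 5], [(9, 2), (4, 1), (5, 1), (0, 1), (2, 1), (0, 1), (2, 1)]),
   ([9, 9, 7, 4], [(9, 2), (2, 1), (6, 1), (4, 1), (0, 1), (2, 1)]),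
   ([9, 9, 6, 6, 6, 6], [(0, 1), (2, 1), (1, 1), (2, 1), (2, 1), (1, 1), (2, 1)]),
   ([9, 9, 6, 6, 6, 5], [(0, 1), (2, 1), (2, 1), (5, 2), (0, 1), (2, 1)]),
   ([9, 9, 6, 6, 6, 4], [(0, 1), (3, 1), (3, 1), (0, 1), (2, 1), (2, 1), (2, 1)]),
   ([9, 9, 6, 6, 5], [(10, 3), (3, 1), (0, 1), (0, 1), (2, 1), (0, 1), (2, 1)]),
   ([9, 9, 6, 6, 4], [(9, 2), (4, 1), (5, 1), (0, 1), (0, 1), (0, 1), (0, 1)]),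
   ([9, 9, 6, 5], [(9, 2), (4, 1), (4, 1), (4, 1), (0, 1), (2, 1)]),
   ([9, 9, 6, 4], [(9, 2), (6, 1), (5, 1), (0, 1), (2, 1), (0, 1), (2, 1)]),
   ([9, 9, 5, 5, 5], [(10, 3), (3, 1), (0, 1), (0, 1), (4, 1), (0, 1), (2, 1)]),
   ([9, 9, 5, 5, 4], [(9, 2), (4, 1), (5, 1), (0, 1), (0, 1), (0, 1), (2, 1)]),
   ([9, 8, 8, 8, 8, 8], [(0, 1), (0, 1), (0, 1), (0, 1), (1, 1), (2, 1)]),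
   ([9, 8, 8, 8, 8, 7], [(0, 1), (0, 1), (0, 1), (0, 1), (2, 1), (2, 1)]),
   ([9, 8, 8, 8, 8, 6], [(0, 1), (0, 1), (0, 1), (2, 1), (1, 1), (2, 1)]),
   ([9, 8, 8, 8, 8, 5], [(0, 1), (2, 1), (1, 1), (0, 1), (0, 1), (1, 1), (2, 1)]),
   ([9, 8, 8, 8, 8, 4], [(0, 1), (0, 1), (2, 1), (2, 1), (1, 1), (2, 1)]),
   ([9, 8, 8, 8, 8, 3], [(0, 1), (0, 1), (2, 1), (2, 1), (2, 1), (2, 1)]),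
   ([9, 8, 8, 8, 7, 7], [(0, 1), (0, 1), (0, 1), (2, 1), (1, 1), (2, 1)]),
   ([9, 8, 8, 8, 7, 6], [(0, 1), (2, 1), (1, 1), (0, 1), (0, 1), (1, 1), (2, 1)]),
   ([9, 8, 8, 8, 7, 5, 5], [(0, 1), (0, 1), (0, 1), (0, 1), (2, 1), (0, 1)]),
   ([9, 8, 8, 8, 7, 5, 4], [(0, 1), (0, 1), (0, 1), (0, 1), (1, 1), (2, 1)]),
   ([9, 8, 8, 8, 7, 5, 3], [(0, 1), (1, 1), (1, 1), (0, 1), (0, 1), (2, 1), (0, 1)]),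
   ([9, 8, 8, 8, 7, 5, 2], [(0, 1), (0, 1), (0, 1), (2, 1), (1, 1), (2, 1)]),
   ([9, 8, 8, 8, 7, 4], [(0, 1), (0, 1), (2, 1), (2, 1), (2, 1), (2, 1)]),
   ([9, 8, 8, 8, 7, 3], [(0, 1), (0, 1), (2, 1), (5, 2), (0, 1), (2, 1)]),
   ([9, 8, 8, 8, 6, 6, 5], [(0, 1), (0, 1), (0, 1), (0, 1), (2, 1), (0, 1)]),
   ([9, 8, 8, 8, 6, 6, 4], [(0, 1), (0, 1), (0, 1), (0, 1), (1, 1), (2, 1)]),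
   ([9, 8, 8, 8, 6, 6, 3], [(0, 1), (2, 1), (1, 1), (0, 1), (0, 1), (1, 1), (0, 1)]),
   ([9, 8, 8, 8, 6, 6, 2], [(0, 1), (0, 1), (0, 1), (2, 1), (1, 1), (2, 1)]),
   ([9, 8, 8, 8, 6, 5], [(0, 1), (2, 1), (1, 1), (0, 1), (2, 1), (1, 1), (2, 1)]),
   ([9, 8, 8, 8, 6, 4], [(0, 1), (0, 1), (2, 1), (5, 2), (0, 1), (2, 1)]),
   ([9, 8, 8, 8, 6, 3], [(0, 1), (0, 1), (2, 1), (4, 1), (2, 1), (2, 1)]),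
   ([9, 8, 8, 8, 5, 5], [(0, 1), (2, 1), (2, 1), (2, 1), (1, 1), (2, 1)]),
   ([9, 8, 8, 8, 5, 4], [(0, 1), (2, 1), (2, 1), (2, 1), (2, 1), (2, 1)]),
   ([9, 8, 8, 8, 5, 3], [(0, 1), (0, 1), (2, 1), (7, 2), (0, 1), (2, 1)]),
   ([9, 8, 8, 8, 4], [(10, 3), (3, 1), (0, 1), (0, 1), (2, 1), (0, 1), (0, 1)]),
   ([9, 8, 8, 7, 7, 7], [(0, 1), (2, 1), (1, 1), (0, 1), (0, 1), (1, 1), (2, 1)]),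
   ([9, 8, 8, 7, 7, 6, 5], [(0, 1), (0, 1), (0, 1), (0, 1), (2, 1), (0, 1)]),
   ([9, 8, 8, 7, 7, 6, 4], [(0, 1), (0, 1), (0, 1), (0, 1), (1, 1), (2, 1)]),
   ([9, 8, 8, 7, 7, 6, 3], [(0, 1), (1, 1), (1, 1), (0, 1), (0, 1), (2, 1), (0, 1)]),
   ([9, 8, 8, 7, 7, 6, 2], [(0, 1), (0, 1), (0, 1), (2, 1), (1, 1), (2, 1)]),
   ([9, 8, 8, 7, 7, 5], [(0, 1), (2, 1), (1, 1), (0, 1), (2, 1), (1, 1), (2, 1)]),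
   ([9, 8, 8, 7, 7, 4], [(0, 1), (0, 1), (2, 1), (5, 2), (0, 1), (2, 1)]),
   ([9, 8, 8, 7, 7, 3], [(0, 1), (0, 1), (2, 1), (4, 1), (2, 1), (2, 1)]),
   ([9, 8, 8, 7, 6, 6, 6], [(0, 1), (0, 1), (0, 1), (0, 1), (2, 1), (0, 1)]),
   ([9, 8, 8, 7, 6, 6, 5], [(0, 1), (0, 1), (0, 1), (0, 1), (1, 1), (2, 1)]),
   ([9, 8, 8, 7, 6, 6, 4], [(0, 1), (2, 1), (1, 1), (0, 1), (0, 1), (1, 1), (0, 1)]),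
   ([9, 8, 8, 7, 6, 6, 3], [(0, 1), (0, 1), (0, 1), (2, 1), (1, 1), (2, 1)]),
   ([9, 8, 8, 7, 6, 6, 2], [(0, 1), (0, 1), (0, 1), (2, 1), (2, 1), (2, 1)]),
   ([9, 8, 8, 7, 6, 5], [(0, 1), (2, 1), (2, 1), (2, 1), (1, 1), (2, 1)]),
   ([9, 8, 8, 7, 6, 4], [(0, 1), (2, 1), (2, 1), (2, 1), (2, 1), (2, 1)]),
   ([9, 8, 8, 7, 6, 3], [(0, 1), (0, 1), (2, 1), (7, 2), (0, 1), (2, 1)]),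
   ([9, 8, 8, 7, 5], [(10, 3), (3, 1), (0, 1), (0, 1), (0, 1), (0, 1), (2, 1)]),
   ([9, 8, 8, 7, 4, 4], [(0, 1), (3, 1), (3, 1), (0, 1), (2, 1), (2, 1), (2, 1)]),
   ([9, 8, 8, 6, 6, 6, 6], [(0, 1), (0, 1), (0, 1), (0, 1), (1, 1), (2, 1)]),
   ([9, 8, 8, 6, 6, 6, 5], [(0, 1), (1, 1), (1, 1), (0, 1), (0, 1), (2, 1), (0, 1)]),
   ([9, 8, 8, 6, 6, 6, 4], [(0, 1), (1, 1), (1, 1), (0, 1), (0, 1), (1, 1), (2, 1)]),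
   ([9, 8, 8, 6, 6, 6, 3], [(0, 1), (0, 1), (0, 1), (2, 1), (2, 1), (2, 1)]),
   ([9, 8, 8, 6, 6, 5], [(0, 1), (2, 1), (2, 1), (2, 1), (2, 1), (2, 1)]),
   ([9, 8, 8, 6, 6, 4], [(0, 1), (2, 1), (2, 1), (5, 2), (0, 1), (2, 1)]),
   ([9, 8, 8, 6, 6, 3], [(0, 1), (0, 1), (4, 1), (4, 1), (2, 1), (2, 1)])]

def cm_11_8_6_3_9 : List CM :=
  [⟨[9, 8, 8, 6, 5, 5], 1, [([4, 4, 4, 4, 2, 2], (.ev, 0)), ([4, 4, 2, 0, 2, 0], (.ev, 2)), ([1, 0, 2, 1, 0, 2], (.ev, 2)), ([0, 0, 0, 1, 1, 0], (.ev, 4)), ([0, 0, 0, 0, 0, 1], (.pl 1, 1)), ([0, 0, 0, 0, 0, 0], (.ev, 2))], [1, 1, 1, 2, 1, 1]⟩,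
   ⟨[9, 8, 8, 6, 5, 4], 2, [([4, 4, 4, 4, 2, 2], (.ev, 0)), ([1, 0, 1, 1, 1, 1], (.pl 1, 3)), ([0, 0, 1, 1, 0, 1], (.pl 1, 3)), ([4, 4, 0, 0, 0, 0], (.ev, 0)), ([0, 0, 2, 0, 2, 0], (.ev, 2)), ([0, 0, 0, 0, 0, 0], (.pl 1, 2)), ([0, 0, 0, 0, 0, 0], (.ev, 2))], [1, 0, 0, 1, 1, 0, 1]⟩,
   ⟨[9, 8, 8, 6, 4], 1, [([4, 4, 2, 2, 0], (.ev, 8)), ([4, 2, 4, 2, 0], (.ev, 2)), ([0, 2, 2, 2, 2], (.ev, 0)), ([1, 0, 0, 0, 1], (.ev, 4)), ([0, 0, 0, 0, 1], (.pl 1, 1)), ([0, 0, 0, 0, 0], (.ev, 2))], [2, 1, 1, 1, 1, 1]⟩,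
   ⟨[9, 8, 8, 5], 2, [([4, 4, 2, 2], (.ev, 8)), ([0, 1, 1, 1], (.pl 1, 5)), ([0, 1, 0, 1], (.pl 1, 4)), ([4, 0, 4, 0], (.ev, 0)), ([1, 1, 1, 1], (.ev, 2)), ([0, 1, 0, 0], (.pl 1, 1)), ([0, 0, 0, 0], (.ev, 2))], [2, 0, 0, 1, 1, 1, 1]⟩,
   ⟨[9, 8, 8, 4], 1, [([4, 4, 2, 2], (.ev, 8)), ([4, 2, 4, 2], (.ev, 2)), ([0, 2, 2, 0], (.ev, 4)), ([0, 0, 0, 0], (.ev, 6)), ([1, 0, 0, 0], (.pl 1, 1)), ([0, 0, 0, 0], (.ev, 2))], [2, 1, 1, 1, 1, 1]⟩,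
   ⟨[9, 8, 7, 7, 7, 7, 5], 1, [([4, 4, 4, 4, 2, 2, 0], (.ev, 0)), ([4, 1, 1, 0, 4, 2, 2], (.ev, 0)), ([0, 3, 0, 3, 0, 1, 1], (.ev, 0)), ([1, 0, 2, 0, 0, 2, 1], (.ev, 0)), ([0, 0, 0, 0, 0, 0, 0], (.pl 1, 2)), ([0, 0, 0, 0, 1, 0, 1], (.ev, 0))], [1, 1, 1, 1, 0, 1]⟩,
   ⟨[9, 8, 7, 7, 7, 7, 4], 1, [([4, 4, 4, 4, 2, 2, 0], (.ev, 0)), ([4, 2, 1, 0, 4, 2, 1], (.ev, 0)), ([0, 1, 0, 3, 0, 3, 1], (.ev, 0)), ([1, 1, 2, 0, 0, 0, 2], (.ev, 0)), ([0, 0, 0, 0, 1, 0, 0], (.pl 1, 1)), ([0, 0, 0, 0, 0, 0, 0], (.ev, 2))], [1, 1, 1, 1, 0, 1]⟩,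
   ⟨[9, 8, 7, 7, 7, 7, 3], 2, [([4, 4, 4, 4, 2, 2, 0], (.ev, 0)), ([1, 1, 1, 1, 1, 1, 1], (.pl 1, 1)), ([0, 0, 1, 1, 0, 1, 1], (.pl 1, 2)), ([4, 0, 0, 0, 4, 0, 0], (.ev, 0)), ([0, 3, 0, 0, 0, 3, 0], (.ev, 0)), ([0, 0, 0, 0, 0, 0, 1], (.pl 1, 1)), ([0, 0, 1, 1, 0, 0, 0], (.ev, 0))], [1, 0, 0, 1, 1, 0, 1]⟩,
   ⟨[9, 8, 7, 7, 7, 7, 2], 1, [([4, 4, 4, 4, 2, 2, 0], (.ev, 0)), ([4, 2, 1, 1, 4, 2, 0], (.ev, 0)), ([0, 2, 2, 2, 0, 2, 0], (.ev, 0)), ([1, 0, 0, 0, 1, 1, 1], (.ev, 2)), ([0, 0, 0, 0, 0, 0, 1], (.pl 1, 1)), ([0, 0, 0, 0, 0, 0, 0], (.ev, 2))], [1, 1, 1, 1, 0, 1]⟩,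
   ⟨[9, 8, 7, 7, 7, 6, 6], 1, [([4, 4, 4, 4, 2, 2, 0], (.ev, 0)), ([4, 2, 1, 0, 2, 1, 4], (.ev, 0)), ([0, 1, 0, 3, 3, 1, 0], (.ev, 0)), ([1, 0, 2, 0, 0, 2, 1], (.ev, 0)), ([0, 0, 0, 0, 0, 0, 0], (.pl 1, 2)), ([0, 1, 0, 0, 0, 0, 1], (.ev, 0))], [1, 1, 1, 1, 0, 1]⟩,
   ⟨[9, 8, 7, 7, 7, 6, 5], 1, [([4, 4, 4, 4, 2, 2, 0], (.ev, 0)), ([4, 2, 1, 0, 4, 1, 2], (.ev, 0)), ([0, 1, 0, 3, 0, 3, 1], (.ev, 0)), ([1, 1, 2, 0, 0, 0, 2], (.ev, 0)), ([0, 0, 0, 0, 1, 0, 0], (.pl 1, 1)), ([0, 0, 0, 0, 0, 0, 0], (.ev, 2))], [1, 1, 1, 1, 0, 1]⟩,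
   ⟨[9, 8, 7, 7, 7, 6, 4], 2, [([4, 4, 4, 4, 2, 2, 0], (.ev, 0)), ([1, 1, 1, 1, 1, 1, 1], (.pl 1, 1)), ([0, 1, 1, 1, 0, 1, 1], (.pl 1, 1)), ([4, 0, 0, 0, 4, 0, 0], (.ev, 0)), ([0, 2, 1, 0, 0, 2, 1], (.ev, 0)), ([0, 0, 0, 0, 0, 0, 0], (.pl 1, 2)), ([0, 0, 0, 1, 0, 0, 1], (.ev, 0))], [1, 0, 0, 1, 1, 0, 1]⟩,
   ⟨[9, 8, 7, 7, 7, 6, 3], 1, [([4, 4, 4, 4, 2, 2, 0], (.ev, 0)), ([4, 2, 1, 1, 4, 2, 0], (.ev, 0)), ([0, 2, 2, 2, 0, 0, 2], (.ev, 0)), ([1, 0, 0, 0, 1, 1, 1], (.ev, 2)), ([0, 0, 0, 0, 0, 1, 0], (.pl 1, 1)), ([0, 0, 0, 0, 0, 0, 0], (.ev, 2))], [1, 1, 1, 1, 0, 1]⟩,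
   ⟨[9, 8, 7, 7, 7, 6, 2], 1, [([4, 4, 4, 4, 2, 2, 0], (.ev, 0)), ([4, 2, 1, 1, 4, 2, 0], (.ev, 0)), ([1, 2, 2, 1, 0, 1, 1], (.ev, 0)), ([0, 0, 0, 1, 1, 1, 1], (.ev, 2)), ([0, 0, 0, 0, 0, 0, 0], (.pl 1, 2)), ([0, 0, 0, 0, 0, 0, 0], (.ev, 2))], [1, 1, 1, 1, 0, 1]⟩,
   ⟨[9, 8, 7, 7, 7, 5], 1, [([4, 4, 4, 4, 2, 2], (.ev, 0)), ([4, 2, 2, 0, 4, 0], (.ev, 2)), ([0, 0, 0, 3, 0, 3], (.ev, 2)), ([1, 1, 1, 0, 1, 0], (.ev, 2)), ([0, 1, 0, 0, 0, 0], (.pl 1, 1)), ([0, 0, 0, 0, 0, 0], (.ev, 2))], [1, 1, 1, 1, 0, 1]⟩,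
   ⟨[9, 8, 7, 7, 7, 4], 1, [([4, 4, 4, 4, 2, 2], (.ev, 0)), ([4, 2, 2, 0, 4, 0], (.ev, 2)), ([1, 2, 0, 2, 0, 1], (.ev, 2)), ([0, 0, 1, 1, 1, 1], (.ev, 2)), ([0, 0, 0, 0, 0, 0], (.pl 1, 2)), ([0, 0, 0, 0, 0, 0], (.ev, 2))], [1, 1, 1, 1, 0, 1]⟩,
   ⟨[9, 8, 7, 7, 7, 3], 1, [([4, 4, 4, 4, 2, 2], (.ev, 0)), ([4, 2, 2, 1, 4, 1], (.ev, 0)), ([1, 2, 1, 2, 0, 0], (.ev, 2)), ([0, 0, 0, 0, 0, 0], (.ev, 6)), ([0, 0, 0, 0, 1, 0], (.pl 1, 1)), ([0, 0, 0, 0, 0, 0], (.ev, 2))], [1, 1, 1, 2, 1, 1]⟩,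
   ⟨[9, 8, 7, 7, 6, 6, 6], 1, [([4, 4, 4, 4, 2, 2, 0], (.ev, 0)), ([4, 2, 1, 0, 2, 1, 4], (.ev, 0)), ([0, 1, 1, 3, 0, 3, 0], (.ev, 0)), ([1, 1, 0, 0, 2, 0, 2], (.ev, 0)), ([0, 0, 1, 0, 0, 0, 0], (.pl 1, 1)), ([0, 0, 0, 0, 0, 0, 0], (.ev, 2))], [1, 1, 1, 1, 0, 1]⟩,
   ⟨[9, 8, 7, 7, 6, 6, 5], 2, [([4, 4, 4, 4, 2, 2, 0], (.ev, 0)), ([1, 1, 1, 1, 1, 1, 1], (.pl 1, 1)), ([0, 1, 1, 1, 1, 1, 0], (.pl 1, 1)), ([4, 0, 0, 0, 0, 0, 4], (.ev, 0)), ([0, 2, 1, 0, 2, 1, 0], (.ev, 0)), ([0, 0, 0, 0, 0, 0, 0], (.pl 1, 2)), ([0, 0, 0, 1, 0, 1, 0], (.ev, 0))], [1, 0, 0, 1, 1, 0, 1]⟩,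
   ⟨[9, 8, 7, 7, 6, 6, 4], 2, [([4, 4, 4, 4, 2, 2, 0], (.ev, 0)), ([1, 1, 1, 1, 1, 1, 1], (.pl 1, 1)), ([1, 0, 0, 1, 1, 1, 1], (.pl 1, 1)), ([3, 3, 0, 0, 1, 1, 0], (.ev, 0)), ([0, 0, 2, 1, 1, 0, 2], (.ev, 0)), ([0, 0, 0, 0, 0, 1, 0], (.pl 1, 1)), ([0, 0, 0, 0, 0, 0, 0], (.ev, 2))], [1, 0, 0, 1, 1, 0, 1]⟩,
   ⟨[9, 8, 7, 7, 6, 6, 3], 1, [([4, 4, 4, 4, 2, 2, 0], (.ev, 0)), ([4, 4, 1, 1, 2, 2, 0], (.ev, 0)), ([1, 0, 2, 1, 1, 1, 2], (.ev, 0)), ([0, 0, 0, 1, 1, 1, 1], (.ev, 2)), ([0, 0, 0, 0, 0, 0, 0], (.pl 1, 2)), ([0, 0, 0, 0, 0, 0, 0], (.ev, 2))], [1, 1, 1, 1, 0, 1]⟩,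
   ⟨[9, 8, 7, 7, 6, 5], 1, [([4, 4, 4, 4, 2, 2], (.ev, 0)), ([4, 4, 2, 0, 2, 0], (.ev, 2)), ([1, 0, 0, 2, 1, 2], (.ev, 2)), ([0, 0, 1, 1, 1, 1], (.ev, 2)), ([0, 0, 0, 0, 0, 0], (.pl 1, 2)), ([0, 0, 0, 0, 0, 0], (.ev, 2))], [1, 1, 1, 1, 0, 1]⟩,
   ⟨[9, 8, 7, 7, 6, 4], 1, [([4, 4, 4, 4, 2, 2], (.ev, 0)), ([4, 4, 2, 0, 2, 0], (.ev, 2)), ([1, 0, 0, 2, 2, 1], (.ev, 2)), ([0, 0, 1, 1, 0, 0], (.ev, 4)), ([0, 0, 0, 0, 0, 1], (.pl 1, 1)), ([0, 0, 0, 0, 0, 0], (.ev, 2))], [1, 1, 1, 2, 1, 1]⟩,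
   ⟨[9, 8, 7, 7, 6, 3], 1, [([4, 4, 4, 4, 2, 2], (.ev, 0)), ([4, 4, 2, 1, 2, 1], (.ev, 0)), ([0, 0, 0, 2, 2, 0], (.ev, 4)), ([1, 0, 1, 0, 0, 0], (.ev, 4)), ([0, 0, 0, 0, 0, 0], (.pl 1, 2)), ([0, 0, 0, 0, 0, 0], (.ev, 2))], [1, 1, 1, 1, 0, 1]⟩,
   ⟨[9, 8, 7, 7, 5, 5], 1, [([4, 4, 4, 4, 2, 2], (.ev, 0)), ([4, 4, 2, 2, 0, 0], (.ev, 2)), ([0, 0, 0, 0, 3, 3], (.ev, 2)), ([1, 0, 1, 0, 0, 0], (.ev, 4)), ([0, 0, 0, 1, 0, 0], (.pl 1, 1)), ([0, 0, 0, 0, 0, 0], (.ev, 2))], [1, 1, 1, 2, 1, 1]⟩,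
   ⟨[9, 8, 7, 7, 5, 4], 2, [([4, 4, 4, 4, 2, 2], (.ev, 0)), ([1, 0, 1, 1, 1, 1], (.pl 1, 3)), ([0, 0, 1, 1, 1, 0], (.pl 1, 3)), ([4, 4, 0, 0, 0, 0], (.ev, 0)), ([0, 0, 1, 1, 1, 1], (.ev, 2)), ([0, 0, 0, 0, 0, 0], (.pl 1, 2)), ([0, 0, 0, 0, 0, 0], (.ev, 2))], [1, 0, 0, 1, 1, 0, 1]⟩,
   ⟨[9, 8, 7, 7, 4], 1, [([4, 4, 2, 2, 0], (.ev, 8)), ([4, 2, 4, 2, 0], (.ev, 2)), ([1, 1, 0, 3, 3], (.ev, 0)), ([0, 1, 1, 0, 0], (.ev, 4)), ([0, 0, 0, 0, 1], (.pl 1, 1)), ([0, 0, 0, 0, 0], (.ev, 2))], [2, 1, 1, 1, 1, 1]⟩,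
   ⟨[9, 8, 7, 6, 6, 6], 2, [([4, 4, 4, 4, 2, 2], (.ev, 0)), ([1, 1, 1, 1, 1, 1], (.pl 1, 2)), ([1, 0, 1, 1, 1, 1], (.pl 1, 1)), ([3, 3, 0, 0, 0, 0], (.ev, 2)), ([0, 0, 0, 0, 2, 2], (.ev, 2)), ([0, 0, 1, 0, 0, 0], (.pl 1, 1)), ([0, 0, 0, 0, 0, 0], (.ev, 2))], [1, 0, 0, 1, 1, 0, 1]⟩,
   ⟨[9, 8, 7, 6, 6, 5], 1, [([4, 4, 4, 4, 2, 2], (.ev, 0)), ([4, 4, 2, 0, 2, 0], (.ev, 2)), ([1, 0, 0, 2, 1, 2], (.ev, 2)), ([0, 0, 1, 0, 1, 0], (.ev, 4)), ([0, 0, 0, 0, 0, 1], (.pl 1, 1)), ([0, 0, 0, 0, 0, 0], (.ev, 2))], [1, 1, 1, 2, 1, 1]⟩,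
   ⟨[9, 8, 7, 6, 6, 4], 2, [([4, 4, 4, 4, 2, 2], (.ev, 0)), ([1, 0, 1, 1, 1, 1], (.pl 1, 3)), ([0, 0, 0, 1, 1, 1], (.pl 1, 3)), ([4, 4, 0, 0, 0, 0], (.ev, 0)), ([0, 0, 2, 0, 2, 0], (.ev, 2)), ([0, 0, 0, 0, 0, 0], (.pl 1, 2)), ([0, 0, 0, 0, 0, 0], (.ev, 2))], [1, 0, 0, 1, 1, 0, 1]⟩,
   ⟨[9, 8, 7, 6, 5], 2, [([4, 4, 2, 2, 0], (.ev, 8)), ([1, 1, 1, 1, 1], (.pl 1, 3)), ([1, 1, 1, 1, 1], (.pl 1, 1)), ([3, 1, 3, 0, 1], (.ev, 0)), ([0, 0, 0, 2, 2], (.ev, 2)), ([0, 1, 0, 0, 0], (.pl 1, 1)), ([0, 0, 0, 0, 0], (.ev, 2))], [3, 0, 1, 1, 1, 1, 1]⟩,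
   ⟨[9, 8, 7, 6, 4], 2, [([4, 4, 2, 2, 0], (.ev, 8)), ([0, 1, 1, 1, 1], (.pl 1, 4)), ([0, 0, 0, 0, 1], (.pl 1, 5)), ([4, 0, 4, 0, 0], (.ev, 0)), ([0, 3, 0, 3, 0], (.ev, 0)), ([0, 0, 0, 0, 1], (.pl 1, 1)), ([1, 0, 0, 0, 1], (.ev, 0))], [2, 0, 0, 1, 1, 1, 1]⟩,
   ⟨[9, 8, 7, 5], 1, [([4, 4, 2, 2], (.ev, 8)), ([3, 2, 3, 2], (.ev, 4)), ([2, 2, 0, 0], (.ev, 4)), ([0, 0, 1, 1], (.ev, 4)), ([0, 0, 1, 0], (.pl 1, 1)), ([0, 0, 0, 0], (.ev, 2))], [2, 1, 1, 1, 1, 1]⟩,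
   ⟨[9, 8, 7, 4], 2, [([4, 4, 2, 2], (.ev, 8)), ([0, 1, 0, 1], (.pl 1, 6)), ([0, 1, 0, 0], (.pl 1, 5)), ([4, 0, 4, 0], (.ev, 0)), ([1, 1, 1, 1], (.ev, 2)), ([0, 1, 0, 0], (.pl 1, 1)), ([0, 0, 0, 0], (.ev, 2))], [2, 0, 0, 1, 1, 1, 1]⟩,
   ⟨[9, 8, 6, 6], 2, [([4, 4, 2, 2], (.ev, 8)), ([1, 1, 1, 1], (.pl 1, 4)), ([0, 1, 0, 1], (.pl 1, 4)), ([2, 2, 1, 1], (.ev, 2)), ([2, 0, 2, 0], (.ev, 2)), ([0, 0, 0, 1], (.pl 1, 1)), ([0, 0, 0, 0], (.ev, 2))], [2, 0, 0, 1, 1, 1, 1]⟩,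
   ⟨[9, 8, 6, 5], 2, [([4, 4, 2, 2], (.ev, 8)), ([1, 0, 1, 1], (.pl 1, 5)), ([0, 0, 1, 1], (.pl 1, 4)), ([4, 4, 0, 0], (.ev, 0)), ([0, 0, 1, 1], (.ev, 4)), ([0, 0, 1, 0], (.pl 1, 1)), ([0, 0, 0, 0], (.ev, 2))], [2, 0, 0, 1, 1, 1, 1]⟩,
   ⟨[9, 8, 5, 5], 2, [([4, 4, 2, 2], (.ev, 8)), ([1, 1, 1, 1], (.pl 1, 4)), ([0, 1, 0, 1], (.pl 1, 4)), ([2, 2, 0, 0], (.ev, 4)), ([2, 0, 2, 0], (.ev, 2)), ([0, 0, 0, 1], (.pl 1, 1)), ([0, 0, 0, 0], (.ev, 2))], [2, 0, 0, 1, 1, 1, 1]⟩,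
   ⟨[9, 7, 7, 7, 7, 7, 6], 1, [([4, 4, 4, 4, 2, 2, 0], (.ev, 0)), ([4, 1, 1, 0, 2, 2, 4], (.ev, 0)), ([0, 1, 0, 3, 3, 1, 0], (.ev, 0)), ([1, 0, 2, 0, 0, 2, 1], (.ev, 0)), ([0, 0, 0, 0, 0, 0, 0], (.pl 1, 2)), ([0, 1, 0, 0, 0, 0, 1], (.ev, 0))], [1, 1, 1, 1, 0, 1]⟩,
   ⟨[9, 7, 7, 7, 7, 7, 5], 1, [([4, 4, 4, 4, 2, 2, 0], (.ev, 0)), ([4, 1, 1, 0, 4, 2, 2], (.ev, 0)), ([0, 1, 0, 3, 0, 3, 1], (.ev, 0)), ([1, 1, 2, 0, 0, 0, 2], (.ev, 0)), ([0, 0, 0, 0, 1, 0, 0], (.pl 1, 1)), ([0, 0, 0, 0, 0, 0, 0], (.ev, 2))], [1, 1, 1, 1, 0, 1]⟩,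
   ⟨[9, 7, 7, 7, 7, 7, 4], 2, [([4, 4, 4, 4, 2, 2, 0], (.ev, 0)), ([1, 1, 1, 1, 1, 1, 1], (.pl 1, 1)), ([0, 1, 1, 1, 0, 1, 0], (.pl 1, 2)), ([4, 0, 0, 0, 4, 0, 0], (.ev, 0)), ([0, 0, 0, 0, 0, 3, 3], (.ev, 0)), ([0, 0, 0, 1, 0, 0, 0], (.pl 1, 1)), ([0, 1, 1, 0, 0, 0, 0], (.ev, 0))], [1, 0, 0, 1, 1, 0, 1]⟩,
   ⟨[9, 7, 7, 7, 7, 7, 3], 1, [([4, 4, 4, 4, 2, 2, 0], (.ev, 0)), ([4, 2, 1, 1, 4, 2, 0], (.ev, 0)), ([0, 0, 1, 1, 0, 3, 3], (.ev, 0)), ([1, 1, 1, 1, 0, 0, 0], (.ev, 2)), ([0, 0, 0, 0, 1, 0, 0], (.pl 1, 1)), ([0, 0, 0, 0, 0, 0, 0], (.ev, 2))], [1, 1, 1, 1, 0, 1]⟩,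
   ⟨[9, 7, 7, 7, 7, 7, 2], 1, [([4, 4, 4, 4, 2, 2, 0], (.ev, 0)), ([4, 2, 1, 1, 4, 2, 0], (.ev, 0)), ([0, 0, 2, 2, 0, 2, 2], (.ev, 0)), ([1, 1, 0, 0, 1, 1, 0], (.ev, 2)), ([0, 0, 0, 0, 0, 0, 0], (.pl 1, 2)), ([0, 0, 0, 0, 0, 0, 0], (.ev, 2))], [1, 1, 1, 1, 0, 1]⟩,
   ⟨[9, 7, 7, 7, 7, 6, 6], 1, [([4, 4, 4, 4, 2, 2, 0], (.ev, 0)), ([4, 1, 1, 0, 2, 2, 4], (.ev, 0)), ([0, 1, 1, 3, 3, 0, 0], (.ev, 0)), ([1, 1, 0, 0, 0, 2, 2], (.ev, 0)), ([0, 0, 1, 0, 0, 0, 0], (.pl 1, 1)), ([0, 0, 0, 0, 0, 0, 0], (.ev, 2))], [1, 1, 1, 1, 0, 1]⟩,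
   ⟨[9, 7, 7, 7, 7, 6, 5], 2, [([4, 4, 4, 4, 2, 2, 0], (.ev, 0)), ([1, 1, 1, 1, 1, 1, 1], (.pl 1, 1)), ([0, 1, 1, 1, 0, 0, 1], (.pl 1, 2)), ([4, 0, 0, 0, 4, 0, 0], (.ev, 0)), ([0, 0, 0, 0, 0, 3, 3], (.ev, 0)), ([0, 0, 0, 1, 0, 0, 0], (.pl 1, 1)), ([0, 1, 1, 0, 0, 0, 0], (.ev, 0))], [1, 0, 0, 1, 1, 0, 1]⟩,
   ⟨[9, 7, 7, 7, 7, 6, 4], 2, [([4, 4, 4, 4, 2, 2, 0], (.ev, 0)), ([1, 1, 1, 1, 1, 1, 1], (.pl 1, 1)), ([0, 1, 1, 1, 0, 1, 1], (.pl 1, 1)), ([4, 0, 0, 0, 4, 0, 0], (.ev, 0)), ([0, 1, 1, 0, 0, 2, 2], (.ev, 0)), ([0, 0, 0, 1, 0, 0, 0], (.pl 1, 1)), ([0, 0, 0, 0, 0, 0, 0], (.ev, 2))], [1, 0, 0, 1, 1, 0, 1]⟩,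
   ⟨[9, 7, 7, 7, 7, 6, 3], 1, [([4, 4, 4, 4, 2, 2, 0], (.ev, 0)), ([4, 2, 1, 1, 4, 2, 0], (.ev, 0)), ([0, 0, 2, 2, 0, 2, 2], (.ev, 0)), ([1, 1, 0, 0, 1, 0, 1], (.ev, 2)), ([0, 0, 0, 0, 0, 0, 0], (.pl 1, 2)), ([0, 0, 0, 0, 0, 0, 0], (.ev, 2))], [1, 1, 1, 1, 0, 1]⟩,
   ⟨[9, 7, 7, 7, 7, 5], 1, [([4, 4, 4, 4, 2, 2], (.ev, 0)), ([4, 2, 2, 0, 4, 0], (.ev, 2)), ([0, 0, 0, 3, 0, 3], (.ev, 2)), ([1, 1, 1, 0, 1, 0], (.ev, 2)), ([0, 0, 0, 0, 0, 0], (.pl 1, 2)), ([0, 0, 0, 0, 0, 0], (.ev, 2))], [1, 1, 1, 1, 0, 1]⟩,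
   ⟨[9, 7, 7, 7, 7, 4], 1, [([4, 4, 4, 4, 2, 2], (.ev, 0)), ([4, 2, 2, 0, 4, 0], (.ev, 2)), ([1, 1, 0, 2, 0, 2], (.ev, 2)), ([0, 0, 1, 1, 0, 0], (.ev, 4)), ([0, 0, 0, 0, 1, 0], (.pl 1, 1)), ([0, 0, 0, 0, 0, 0], (.ev, 2))], [1, 1, 1, 2, 1, 1]⟩,
   ⟨[9, 7, 7, 7, 7, 3], 1, [([4, 4, 4, 4, 2, 2], (.ev, 0)), ([4, 2, 2, 1, 4, 1], (.ev, 0)), ([1, 1, 1, 1, 0, 0], (.ev, 4)), ([0, 0, 0, 1, 1, 0], (.ev, 4)), ([0, 0, 0, 0, 0, 0], (.pl 1, 2)), ([0, 0, 0, 0, 0, 0], (.ev, 2))], [1, 1, 1, 1, 0, 1]⟩,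
   ⟨[9, 7, 7, 7, 6, 6], 2, [([4, 4, 4, 4, 2, 2], (.ev, 0)), ([1, 1, 1, 1, 1, 1], (.pl 1, 2)), ([1, 1, 1, 1, 0, 1], (.pl 1, 1)), ([3, 0, 0, 0, 3, 0], (.ev, 2)), ([0, 1, 1, 1, 0, 1], (.ev, 2)), ([0, 0, 0, 0, 0, 1], (.pl 1, 1)), ([0, 0, 0, 0, 0, 0], (.ev, 2))], [1, 0, 0, 1, 1, 0, 1]⟩,
   ⟨[9, 7, 7, 7, 6, 5], 1, [([4, 4, 4, 4, 2, 2], (.ev, 0)), ([4, 2, 2, 0, 4, 0], (.ev, 2)), ([0, 0, 0, 3, 0, 3], (.ev, 2)), ([1, 1, 0, 0, 0, 0], (.ev, 4)), ([0, 0, 1, 0, 0, 0], (.pl 1, 1)), ([0, 0, 0, 0, 0, 0], (.ev, 2))], [1, 1, 1, 2, 1, 1]⟩,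
   ⟨[9, 7, 7, 7, 6, 4], 2, [([4, 4, 4, 4, 2, 2], (.ev, 0)), ([1, 1, 1, 1, 0, 1], (.pl 1, 3)), ([0, 1, 1, 1, 0, 0], (.pl 1, 3)), ([4, 0, 0, 0, 4, 0], (.ev, 0)), ([0, 1, 1, 1, 0, 1], (.ev, 2)), ([0, 0, 0, 0, 0, 0], (.pl 1, 2)), ([0, 0, 0, 0, 0, 0], (.ev, 2))], [1, 0, 0, 1, 1, 0, 1]⟩,
   ⟨[9, 7, 7, 7, 5], 2, [([4, 4, 2, 2, 0], (.ev, 8)), ([1, 1, 1, 1, 1], (.pl 1, 3)), ([1, 1, 1, 1, 1], (.pl 1, 1)), ([3, 0, 3, 1, 1], (.ev, 0)), ([0, 0, 0, 2, 2], (.ev, 2)), ([0, 1, 0, 0, 0], (.pl 1, 1)), ([0, 0, 0, 0, 0], (.ev, 2))], [3, 0, 1, 1, 1, 1, 1]⟩,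
   ⟨[9, 7, 7, 7, 4], 2, [([4, 4, 2, 2, 0], (.ev, 8)), ([1, 1, 1, 1, 1], (.pl 1, 3)), ([0, 1, 0, 1, 0], (.pl 1, 4)), ([4, 0, 4, 0, 0], (.ev, 0)), ([0, 0, 0, 3, 3], (.ev, 0)), ([0, 1, 0, 0, 0], (.pl 1, 1)), ([0, 0, 0, 0, 0], (.ev, 2))], [2, 0, 0, 1, 1, 1, 1]⟩,
   ⟨[9, 7, 7, 6], 2, [([4, 4, 2, 2], (.ev, 8)), ([1, 1, 1, 1], (.pl 1, 4)), ([0, 1, 0, 1], (.pl 1, 4)), ([3, 0, 3, 0], (.ev, 2)), ([1, 1, 1, 1], (.ev, 2)), ([0, 0, 0, 1], (.pl 1, 1)), ([0, 0, 0, 0], (.ev, 2))], [2, 0, 0, 1, 1, 1, 1]⟩,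
   ⟨[9, 7, 7, 5, 5], 2, [([4, 4, 2, 2, 0], (.ev, 8)), ([1, 1, 1, 1, 1], (.pl 1, 3)), ([1, 1, 1, 1, 1], (.pl 1, 1)), ([3, 1, 3, 0, 1], (.ev, 0)), ([0, 0, 0, 1, 1], (.ev, 4)), ([0, 0, 0, 0, 1], (.pl 1, 1)), ([0, 0, 0, 0, 0], (.ev, 2))], [3, 0, 1, 1, 1, 1, 1]⟩,
   ⟨[9, 7, 7, 5, 4], 2, [([4, 4, 2, 2, 0], (.ev, 8)), ([1, 0, 1, 1, 1], (.pl 1, 4)), ([0, 0, 0, 1, 0], (.pl 1, 5)), ([4, 0, 4, 0, 0], (.ev, 0)), ([0, 3, 0, 0, 3], (.ev, 0)), ([0, 0, 0, 1, 0], (.pl 1, 1)), ([0, 0, 0, 0, 0], (.ev, 2))], [2, 0, 0, 1, 1, 1, 1]⟩,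
   ⟨[9, 7, 6, 6], 2, [([4, 4, 2, 2], (.ev, 8)), ([1, 1, 1, 1], (.pl 1, 4)), ([1, 1, 0, 1], (.pl 1, 3)), ([3, 0, 3, 0], (.ev, 2)), ([0, 1, 0, 1], (.ev, 4)), ([0, 0, 0, 1], (.pl 1, 1)), ([0, 0, 0, 0], (.ev, 2))], [2, 0, 0, 1, 1, 1, 1]⟩,
   ⟨[9, 7, 6, 5], 2, [([4, 4, 2, 2], (.ev, 8)), ([1, 1, 1, 1], (.pl 1, 4)), ([0, 0, 1, 1], (.pl 1, 4)), ([2, 0, 2, 0], (.ev, 4)), ([2, 2, 0, 0], (.ev, 2)), ([0, 0, 0, 1], (.pl 1, 1)), ([0, 0, 0, 0], (.ev, 2))], [2, 0, 0, 1, 1, 1, 1]⟩,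
   ⟨[9, 7, 5, 5], 2, [([4, 4, 2, 2], (.ev, 8)), ([1, 1, 1, 1], (.pl 1, 4)), ([1, 0, 0, 0], (.pl 1, 5)), ([2, 2, 2, 2], (.ev, 0)), ([0, 0, 0, 0], (.ev, 6)), ([1, 0, 0, 0], (.pl 1, 1)), ([0, 0, 0, 0], (.ev, 2))], [2, 0, 0, 1, 1, 1, 1]⟩,
   ⟨[9, 6, 6, 6], 2, [([4, 4, 2, 2], (.ev, 8)), ([1, 1, 1, 1], (.pl 1, 4)), ([0, 1, 0, 1], (.pl 1, 4)), ([3, 0, 3, 0], (.ev, 2)), ([1, 0, 0, 1], (.ev, 4)), ([0, 0, 0, 1], (.pl 1, 1)), ([0, 0, 0, 0], (.ev, 2))], [2, 0, 0, 1, 1, 1, 1]⟩,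
   ⟨[9, 6, 6, 5], 2, [([4, 4, 2, 2], (.ev, 8)), ([1, 1, 0, 1], (.pl 1, 5)), ([0, 1, 0, 1], (.pl 1, 4)), ([4, 0, 4, 0], (.ev, 0)), ([0, 0, 0, 0], (.ev, 6)), ([0, 0, 0, 1], (.pl 1, 1)), ([0, 0, 0, 0], (.ev, 2))], [2, 0, 0, 1, 1, 1, 1]⟩,
   ⟨[9, 6, 5, 5], 1, [([4, 4, 2, 2], (.ev, 8)), ([3, 2, 3, 2], (.ev, 4)), ([1, 0, 0, 1], (.ev, 6)), ([0, 0, 0, 0], (.ev, 6)), ([1, 0, 0, 0], (.pl 1, 1)), ([0, 0, 0, 0], (.ev, 2))], [2, 1, 1, 1, 1, 1]⟩,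
   ⟨[9, 5, 5, 5], 2, [([4, 4, 2, 2], (.ev, 8)), ([1, 1, 0, 1], (.pl 1, 5)), ([1, 0, 0, 1], (.pl 1, 4)), ([3, 0, 3, 0], (.ev, 2)), ([0, 0, 0, 0], (.ev, 6)), ([0, 0, 0, 1], (.pl 1, 1)), ([0, 0, 0, 0], (.ev, 2))], [2, 0, 0, 1, 1, 1, 1]⟩,
   ⟨[8, 8, 8, 8, 8, 8], 2, [([4, 4, 4, 4, 2, 2], (.ev, 0)), ([1, 1, 1, 1, 1, 1], (.pl 1, 2)), ([1, 1, 1, 1, 1, 0], (.pl 1, 1)), ([0, 0, 0, 0, 4, 4], (.ev, 0)), ([2, 2, 1, 1, 0, 0], (.ev, 0)), ([0, 0, 0, 0, 0, 1], (.pl 1, 1)), ([0, 0, 1, 1, 0, 0], (.ev, 0))], [1, 0, 0, 1, 1, 0, 1]⟩,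
   ⟨[8, 8, 8, 8, 8, 7, 4], 1, [([4, 4, 4, 4, 2, 2, 0], (.ev, 0)), ([2, 2, 1, 1, 4, 4, 0], (.ev, 0)), ([1, 0, 3, 1, 0, 0, 3], (.ev, 0)), ([1, 2, 0, 2, 1, 0, 0], (.ev, 0)), ([0, 0, 0, 0, 0, 0, 1], (.pl 1, 1)), ([0, 0, 0, 0, 1, 1, 0], (.ev, 0))], [1, 1, 1, 1, 0, 1]⟩,
   ⟨[8, 8, 8, 8, 8, 7, 3], 2, [([4, 4, 4, 4, 2, 2, 0], (.ev, 0)), ([1, 1, 1, 1, 1, 1, 1], (.pl 1, 1)), ([1, 1, 1, 1, 1, 0, 1], (.pl 1, 0)), ([0, 0, 0, 0, 4, 4, 0], (.ev, 0)), ([2, 2, 1, 1, 0, 0, 0], (.ev, 0)), ([0, 0, 0, 0, 0, 0, 1], (.pl 1, 1)), ([0, 0, 1, 1, 0, 0, 0], (.ev, 0))], [1, 0, 0, 1, 1, 0, 1]⟩,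
   ⟨[8, 8, 8, 8, 8, 7, 2], 1, [([4, 4, 4, 4, 2, 2, 0], (.ev, 0)), ([2, 2, 1, 1, 4, 4, 0], (.ev, 0)), ([1, 1, 3, 3, 0, 0, 0], (.ev, 0)), ([1, 1, 0, 0, 2, 0, 2], (.ev, 0)), ([0, 0, 0, 0, 0, 1, 0], (.pl 1, 1)), ([0, 0, 0, 0, 0, 0, 0], (.ev, 2))], [1, 1, 1, 1, 0, 1]⟩,
   ⟨[8, 8, 8, 8, 8, 6, 5], 1, [([4, 4, 4, 4, 2, 2, 0], (.ev, 0)), ([2, 2, 1, 1, 4, 0, 4], (.ev, 0)), ([1, 0, 3, 1, 0, 3, 0], (.ev, 0)), ([1, 2, 0, 2, 1, 0, 0], (.ev, 0)), ([0, 0, 0, 0, 0, 0, 1], (.pl 1, 1)), ([0, 0, 0, 0, 1, 1, 0], (.ev, 0))], [1, 1, 1, 1, 0, 1]⟩,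
   ⟨[8, 8, 8, 8, 8, 6, 4], 2, [([4, 4, 4, 4, 2, 2, 0], (.ev, 0)), ([1, 1, 1, 1, 1, 1, 1], (.pl 1, 1)), ([0, 1, 1, 1, 1, 1, 1], (.pl 1, 0)), ([3, 1, 1, 0, 3, 0, 0], (.ev, 0)), ([0, 1, 0, 2, 0, 2, 1], (.ev, 0)), ([0, 0, 0, 0, 0, 0, 1], (.pl 1, 1)), ([0, 0, 1, 0, 1, 0, 0], (.ev, 0))], [1, 0, 0, 1, 1, 0, 1]⟩,
   ⟨[8, 8, 8, 8, 8, 6, 3], 2, [([4, 4, 4, 4, 2, 2, 0], (.ev, 0)), ([1, 1, 1, 1, 1, 1, 1], (.pl 1, 1)), ([0, 1, 1, 1, 1, 1, 0], (.pl 1, 1)), ([3, 1, 1, 0, 3, 0, 0], (.ev, 0)), ([0, 1, 1, 2, 0, 2, 0], (.ev, 0)), ([0, 0, 0, 0, 0, 0, 1], (.pl 1, 1)), ([0, 0, 0, 0, 1, 0, 1], (.ev, 0))], [1, 0, 0, 1, 1, 0, 1]⟩,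
   ⟨[8, 8, 8, 8, 8, 6, 2], 1, [([4, 4, 4, 4, 2, 2, 0], (.ev, 0)), ([4, 2, 2, 1, 4, 1, 0], (.ev, 0)), ([0, 1, 1, 3, 0, 3, 0], (.ev, 0)), ([0, 1, 1, 0, 2, 0, 2], (.ev, 0)), ([0, 0, 0, 0, 0, 0, 0], (.pl 1, 2)), ([0, 0, 0, 0, 0, 0, 0], (.ev, 2))], [1, 1, 1, 1, 0, 1]⟩,
   ⟨[8, 8, 8, 8, 8, 5, 5], 2, [([4, 4, 4, 4, 2, 2, 0], (.ev, 0)), ([1, 1, 1, 1, 1, 1, 1], (.pl 1, 1)), ([1, 1, 1, 1, 1, 1, 0], (.pl 1, 0)), ([0, 0, 0, 0, 4, 0, 4], (.ev, 0)), ([2, 2, 1, 1, 0, 0, 0], (.ev, 0)), ([0, 0, 0, 0, 0, 1, 0], (.pl 1, 1)), ([0, 0, 1, 1, 0, 0, 0], (.ev, 0))], [1, 0, 0, 1, 1, 0, 1]⟩,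
   ⟨[8, 8, 8, 8, 8, 5, 4], 2, [([4, 4, 4, 4, 2, 2, 0], (.ev, 0)), ([1, 1, 1, 1, 1, 1, 1], (.pl 1, 1)), ([0, 1, 1, 1, 1, 1, 0], (.pl 1, 1)), ([3, 1, 1, 0, 3, 0, 0], (.ev, 0)), ([0, 1, 1, 2, 0, 0, 2], (.ev, 0)), ([0, 0, 0, 0, 0, 0, 1], (.pl 1, 1)), ([0, 0, 0, 0, 1, 1, 0], (.ev, 0))], [1, 0, 0, 1, 1, 0, 1]⟩,
   ⟨[8, 8, 8, 8, 8, 5, 3], 2, [([4, 4, 4, 4, 2, 2, 0], (.ev, 0)), ([0, 1, 1, 1, 1, 1, 1], (.pl 1, 2)), ([0, 1, 1, 1, 1, 1, 0], (.pl 1, 1)), ([4, 0, 0, 0, 4, 0, 0], (.ev, 0)), ([0, 2, 2, 1, 0, 1, 0], (.ev, 0)), ([0, 0, 0, 0, 0, 0, 1], (.pl 1, 1)), ([0, 0, 0, 1, 0, 0, 1], (.ev, 0))], [1, 0, 0, 1, 1, 0, 1]⟩,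
   ⟨[8, 8, 8, 8, 8, 5, 2], 1, [([4, 4, 4, 4, 2, 2, 0], (.ev, 0)), ([4, 2, 2, 1, 4, 1, 0], (.ev, 0)), ([0, 2, 2, 2, 2, 0, 0], (.ev, 0)), ([0, 0, 0, 0, 0, 2, 2], (.ev, 2)), ([0, 0, 0, 1, 0, 0, 0], (.pl 1, 1)), ([0, 0, 0, 0, 0, 0, 0], (.ev, 2))], [1, 1, 1, 1, 0, 1]⟩,
   ⟨[8, 8, 8, 8, 8, 4], 1, [([4, 4, 4, 4, 2, 2], (.ev, 0)), ([4, 2, 2, 1, 4, 1], (.ev, 0)), ([0, 2, 1, 2, 1, 0], (.ev, 2)), ([0, 0, 1, 1, 1, 1], (.ev, 2)), ([0, 0, 0, 0, 0, 0], (.pl 1, 2)), ([0, 0, 0, 0, 0, 0], (.ev, 2))], [1, 1, 1, 1, 0, 1]⟩,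
   ⟨[8, 8, 8, 8, 8, 3], 1, [([4, 4, 4, 4, 2, 2], (.ev, 0)), ([4, 2, 2, 1, 4, 1], (.ev, 0)), ([0, 2, 1, 2, 1, 0], (.ev, 2)), ([0, 0, 1, 1, 0, 0], (.ev, 4)), ([0, 0, 0, 0, 1, 0], (.pl 1, 1)), ([0, 0, 0, 0, 0, 0], (.ev, 2))], [1, 1, 1, 2, 1, 1]⟩,
   ⟨[8, 8, 8, 8, 7, 7, 5], 1, [([4, 4, 4, 4, 2, 2, 0], (.ev, 0)), ([2, 1, 1, 0, 4, 4, 2], (.ev, 0)), ([0, 3, 1, 3, 0, 0, 1], (.ev, 0)), ([2, 0, 2, 1, 0, 0, 1], (.ev, 0)), ([0, 0, 0, 0, 0, 0, 1], (.pl 1, 1)), ([0, 0, 0, 0, 1, 1, 0], (.ev, 0))], [1, 1, 1, 1, 0, 1]⟩,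
   ⟨[8, 8, 8, 8, 7, 7, 4], 2, [([4, 4, 4, 4, 2, 2, 0], (.ev, 0)), ([1, 1, 1, 1, 1, 1, 1], (.pl 1, 1)), ([1, 1, 1, 1, 0, 0, 1], (.pl 1, 1)), ([0, 0, 0, 0, 4, 4, 0], (.ev, 0)), ([2, 2, 1, 1, 0, 0, 0], (.ev, 0)), ([0, 0, 0, 1, 0, 0, 1], (.pl 1, 0)), ([0, 0, 1, 0, 0, 0, 1], (.ev, 0))], [1, 0, 0, 1, 1, 0, 1]⟩]

def cmC_11_8_6_3_9 : List (List ℕ × List (ℕ × ℕ)) :=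
  [([9, 8, 8, 6, 5, 5], [(0, 1), (2, 1), (2, 1), (5, 2), (0, 1), (2, 1)]),
   ([9, 8, 8, 6, 5, 4], [(0, 1), (3, 1), (3, 1), (0, 1), (2, 1), (2, 1), (2, 1)]),
   ([9, 8, 8, 6, 4], [(9, 2), (2, 1), (0, 1), (4, 1), (0, 1), (2, 1)]),
   ([9, 8, 8, 5], [(9, 2), (5, 1), (4, 1), (0, 1), (2, 1), (0, 1), (2, 1)]),
   ([9, 8, 8, 4], [(9, 2), (2, 1), (4, 1), (6, 1), (0, 1), (2, 1)]),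
   ([9, 8, 7, 7, 7, 7, 5], [(0, 1), (0, 1), (0, 1), (0, 1), (2, 1), (0, 1)]),
   ([9, 8, 7, 7, 7, 7, 4], [(0, 1), (0, 1), (0, 1), (0, 1), (1, 1), (2, 1)]),
   ([9, 8, 7, 7, 7, 7, 3], [(0, 1), (1, 1), (2, 1), (0, 1), (0, 1), (1, 1), (0, 1)]),
   ([9, 8, 7, 7, 7, 7, 2], [(0, 1), (0, 1), (0, 1), (2, 1), (1, 1), (2, 1)]),
   ([9, 8, 7, 7, 7, 6, 6], [(0, 1), (0, 1), (0, 1), (0, 1), (2, 1), (0, 1)]),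
   ([9, 8, 7, 7, 7, 6, 5], [(0, 1), (0, 1), (0, 1), (0, 1), (1, 1), (2, 1)]),
   ([9, 8, 7, 7, 7, 6, 4], [(0, 1), (1, 1), (1, 1), (0, 1), (0, 1), (2, 1), (0, 1)]),
   ([9, 8, 7, 7, 7, 6, 3], [(0, 1), (0, 1), (0, 1), (2, 1), (1, 1), (2, 1)]),
   ([9, 8, 7, 7, 7, 6, 2], [(0, 1), (0, 1), (0, 1), (2, 1), (2, 1), (2, 1)]),
   ([9, 8, 7, 7, 7, 5], [(0, 1), (2, 1), (2, 1), (2, 1), (1, 1), (2, 1)]),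
   ([9, 8, 7, 7, 7, 4], [(0, 1), (2, 1), (2, 1), (2, 1), (2, 1), (2, 1)]),
   ([9, 8, 7, 7, 7, 3], [(0, 1), (0, 1), (2, 1), (7, 2), (0, 1), (2, 1)]),
   ([9, 8, 7, 7, 6, 6, 6], [(0, 1), (0, 1), (0, 1), (0, 1), (1, 1), (2, 1)]),
   ([9, 8, 7, 7, 6, 6, 5], [(0, 1), (1, 1), (1, 1), (0, 1), (0, 1), (2, 1), (0, 1)]),
   ([9, 8, 7, 7, 6, 6, 4], [(0, 1), (1, 1), (1, 1), (0, 1), (0, 1), (1, 1), (2, 1)]),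
   ([9, 8, 7, 7, 6, 6, 3], [(0, 1), (0, 1), (0, 1), (2, 1), (2, 1), (2, 1)]),
   ([9, 8, 7, 7, 6, 5], [(0, 1), (2, 1), (2, 1), (2, 1), (2, 1), (2, 1)]),
   ([9, 8, 7, 7, 6, 4], [(0, 1), (2, 1), (2, 1), (5, 2), (0, 1), (2, 1)]),
   ([9, 8, 7, 7, 6, 3], [(0, 1), (0, 1), (4, 1), (4, 1), (2, 1), (2, 1)]),
   ([9, 8, 7, 7, 5, 5], [(0, 1), (2, 1), (2, 1), (5, 2), (0, 1), (2, 1)]),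
   ([9, 8, 7, 7, 5, 4], [(0, 1), (3, 1), (3, 1), (0, 1), (2, 1), (2, 1), (2, 1)]),
   ([9, 8, 7, 7, 4], [(9, 2), (2, 1), (0, 1), (4, 1), (0, 1), (2, 1)]),
   ([9, 8, 7, 6, 6, 6], [(0, 1), (2, 1), (1, 1), (2, 1), (2, 1), (1, 1), (2, 1)]),
   ([9, 8, 7, 6, 6, 5], [(0, 1), (2, 1), (2, 1), (5, 2), (0, 1), (2, 1)]),
   ([9, 8, 7, 6, 6, 4], [(0, 1), (3, 1), (3, 1), (0, 1), (2, 1), (2, 1), (2, 1)]),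
   ([9, 8, 7, 6, 5], [(10, 3), (3, 1), (0, 1), (0, 1), (2, 1), (0, 1), (2, 1)]),
   ([9, 8, 7, 6, 4], [(9, 2), (4, 1), (5, 1), (0, 1), (0, 1), (0, 1), (0, 1)]),
   ([9, 8, 7, 5], [(9, 2), (4, 1), (4, 1), (4, 1), (0, 1), (2, 1)]),
   ([9, 8, 7, 4], [(9, 2), (6, 1), (5, 1), (0, 1), (2, 1), (0, 1), (2, 1)]),
   ([9, 8, 6, 6], [(9, 2), (4, 1), (4, 1), (2, 1), (2, 1), (0, 1), (2, 1)]),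
   ([9, 8, 6, 5], [(9, 2), (5, 1), (4, 1), (0, 1), (4, 1), (0, 1), (2, 1)]),
   ([9, 8, 5, 5], [(9, 2), (4, 1), (4, 1), (4, 1), (2, 1), (0, 1), (2, 1)]),
   ([9, 7, 7, 7, 7, 7, 6], [(0, 1), (0, 1), (0, 1), (0, 1), (2, 1), (0, 1)]),
   ([9, 7, 7, 7, 7, 7, 5], [(0, 1), (0, 1), (0, 1), (0, 1), (1, 1), (2, 1)]),
   ([9, 7, 7, 7, 7, 7, 4], [(0, 1), (1, 1), (2, 1), (0, 1), (0, 1), (1, 1), (0, 1)]),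
   ([9, 7, 7, 7, 7, 7, 3], [(0, 1), (0, 1), (0, 1), (2, 1), (1, 1), (2, 1)]),
   ([9, 7, 7, 7, 7, 7, 2], [(0, 1), (0, 1), (0, 1), (2, 1), (2, 1), (2, 1)]),
   ([9, 7, 7, 7, 7, 6, 6], [(0, 1), (0, 1), (0, 1), (0, 1), (1, 1), (2, 1)]),
   ([9, 7, 7, 7, 7, 6, 5], [(0, 1), (1, 1), (2, 1), (0, 1), (0, 1), (1, 1), (0, 1)]),
   ([9, 7, 7, 7, 7, 6, 4], [(0, 1), (1, 1), (1, 1), (0, 1), (0, 1), (1, 1), (2, 1)]),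
   ([9, 7, 7, 7, 7, 6, 3], [(0, 1), (0, 1), (0, 1), (2, 1), (2, 1), (2, 1)]),
   ([9, 7, 7, 7, 7, 5], [(0, 1), (2, 1), (2, 1), (2, 1), (2, 1), (2, 1)]),
   ([9, 7, 7, 7, 7, 4], [(0, 1), (2, 1), (2, 1), (5, 2), (0, 1), (2, 1)]),
   ([9, 7, 7, 7, 7, 3], [(0, 1), (0, 1), (4, 1), (4, 1), (2, 1), (2, 1)]),
   ([9, 7, 7, 7, 6, 6], [(0, 1), (2, 1), (1, 1), (2, 1), (2, 1), (1, 1), (2, 1)]),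
   ([9, 7, 7, 7, 6, 5], [(0, 1), (2, 1), (2, 1), (5, 2), (0, 1), (2, 1)]),
   ([9, 7, 7, 7, 6, 4], [(0, 1), (3, 1), (3, 1), (0, 1), (2, 1), (2, 1), (2, 1)]),
   ([9, 7, 7, 7, 5], [(10, 3), (3, 1), (0, 1), (0, 1), (2, 1), (0, 1), (2, 1)]),
   ([9, 7, 7, 7, 4], [(9, 2), (3, 1), (4, 1), (0, 1), (0, 1), (0, 1), (2, 1)]),
   ([9, 7, 7, 6], [(9, 2), (4, 1), (4, 1), (2, 1), (2, 1), (0, 1), (2, 1)]),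
   ([9, 7, 7, 5, 5], [(10, 3), (3, 1), (0, 1), (0, 1), (4, 1), (0, 1), (2, 1)]),
   ([9, 7, 7, 5, 4], [(9, 2), (4, 1), (5, 1), (0, 1), (0, 1), (0, 1), (2, 1)]),
   ([9, 7, 6, 6], [(9, 2), (4, 1), (3, 1), (2, 1), (4, 1), (0, 1), (2, 1)]),
   ([9, 7, 6, 5], [(9, 2), (4, 1), (4, 1), (4, 1), (2, 1), (0, 1), (2, 1)]),
   ([9, 7, 5, 5], [(9, 2), (4, 1), (5, 1), (0, 1), (6, 1), (0, 1), (2, 1)]),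
   ([9, 6, 6, 6], [(9, 2), (4, 1), (4, 1), (2, 1), (4, 1), (0, 1), (2, 1)]),
   ([9, 6, 6, 5], [(9, 2), (5, 1), (4, 1), (0, 1), (6, 1), (0, 1), (2, 1)]),
   ([9, 6, 5, 5], [(9, 2), (4, 1), (6, 1), (6, 1), (0, 1), (2, 1)]),
   ([9, 5, 5, 5], [(9, 2), (5, 1), (4, 1), (2, 1), (6, 1), (0, 1), (2, 1)]),
   ([8, 8, 8, 8, 8, 8], [(0, 1), (2, 1), (1, 1), (0, 1), (0, 1), (1, 1), (0, 1)]),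
   ([8, 8, 8, 8, 8, 7, 4], [(0, 1), (0, 1), (0, 1), (0, 1), (1, 1), (0, 1)]),
   ([8, 8, 8, 8, 8, 7, 3], [(0, 1), (1, 1), (0, 1), (0, 1), (0, 1), (1, 1), (0, 1)]),
   ([8, 8, 8, 8, 8, 7, 2], [(0, 1), (0, 1), (0, 1), (0, 1), (1, 1), (2, 1)]),
   ([8, 8, 8, 8, 8, 6, 5], [(0, 1), (0, 1), (0, 1), (0, 1), (1, 1), (0, 1)]),
   ([8, 8, 8, 8, 8, 6, 4], [(0, 1), (1, 1), (0, 1), (0, 1), (0, 1), (1, 1), (0, 1)]),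
   ([8, 8, 8, 8, 8, 6, 3], [(0, 1), (1, 1), (1, 1), (0, 1), (0, 1), (1, 1), (0, 1)]),
   ([8, 8, 8, 8, 8, 6, 2], [(0, 1), (0, 1), (0, 1), (0, 1), (2, 1), (2, 1)]),
   ([8, 8, 8, 8, 8, 5, 5], [(0, 1), (1, 1), (0, 1), (0, 1), (0, 1), (1, 1), (0, 1)]),
   ([8, 8, 8, 8, 8, 5, 4], [(0, 1), (1, 1), (1, 1), (0, 1), (0, 1), (1, 1), (0, 1)]),
   ([8, 8, 8, 8, 8, 5, 3], [(0, 1), (2, 1), (1, 1), (0, 1), (0, 1), (1, 1), (0, 1)]),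
   ([8, 8, 8, 8, 8, 5, 2], [(0, 1), (0, 1), (0, 1), (2, 1), (1, 1), (2, 1)]),
   ([8, 8, 8, 8, 8, 4], [(0, 1), (0, 1), (2, 1), (2, 1), (2, 1), (2, 1)]),
   ([8, 8, 8, 8, 8, 3], [(0, 1), (0, 1), (2, 1), (5, 2), (0, 1), (2, 1)]),
   ([8, 8, 8, 8, 7, 7, 5], [(0, 1), (0, 1), (0, 1), (0, 1), (1, 1), (0, 1)]),
   ([8, 8, 8, 8, 7, 7, 4], [(0, 1), (1, 1), (1, 1), (0, 1), (0, 1), (0, 1), (0, 1)])]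

def cm_11_8_6_3_10 : List CM :=
  [⟨[8, 8, 8, 8, 7, 7, 3], 2, [([4, 4, 4, 4, 2, 2, 0], (.ev, 0)), ([1, 1, 1, 1, 1, 1, 1], (.pl 1, 1)), ([1, 1, 1, 1, 0, 0, 1], (.pl 1, 1)), ([0, 0, 0, 0, 4, 4, 0], (.ev, 0)), ([2, 2, 1, 1, 0, 0, 0], (.ev, 0)), ([0, 0, 0, 0, 0, 0, 1], (.pl 1, 1)), ([0, 0, 1, 1, 0, 0, 0], (.ev, 0))], [1, 0, 0, 1, 1, 0, 1]⟩,
   ⟨[8, 8, 8, 8, 7, 7, 2], 1, [([4, 4, 4, 4, 2, 2, 0], (.ev, 0)), ([2, 2, 1, 1, 4, 4, 0], (.ev, 0)), ([1, 1, 3, 3, 0, 0, 0], (.ev, 0)), ([1, 1, 0, 0, 1, 0, 1], (.ev, 2)), ([0, 0, 0, 0, 0, 0, 0], (.pl 1, 2)), ([0, 0, 0, 0, 0, 1, 1], (.ev, 0))], [1, 1, 1, 1, 0, 1]⟩,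
   ⟨[8, 8, 8, 8, 7, 6, 6], 1, [([4, 4, 4, 4, 2, 2, 0], (.ev, 0)), ([2, 2, 1, 1, 4, 0, 4], (.ev, 0)), ([1, 0, 3, 1, 0, 3, 0], (.ev, 0)), ([1, 2, 0, 2, 0, 0, 1], (.ev, 0)), ([0, 0, 0, 0, 0, 0, 1], (.pl 1, 1)), ([0, 0, 0, 0, 1, 1, 0], (.ev, 0))], [1, 1, 1, 1, 0, 1]⟩,
   ⟨[8, 8, 8, 8, 7, 6, 5], 2, [([4, 4, 4, 4, 2, 2, 0], (.ev, 0)), ([1, 1, 1, 1, 1, 1, 1], (.pl 1, 1)), ([1, 1, 1, 1, 0, 1, 0], (.pl 1, 1)), ([0, 0, 0, 0, 4, 0, 4], (.ev, 0)), ([2, 2, 1, 1, 0, 0, 0], (.ev, 0)), ([0, 0, 0, 1, 0, 1, 0], (.pl 1, 0)), ([0, 0, 1, 0, 0, 1, 0], (.ev, 0))], [1, 0, 0, 1, 1, 0, 1]⟩,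
   ⟨[8, 8, 8, 8, 7, 6, 4], 2, [([4, 4, 4, 4, 2, 2, 0], (.ev, 0)), ([1, 1, 1, 1, 1, 1, 1], (.pl 1, 1)), ([0, 1, 1, 1, 1, 1, 0], (.pl 1, 1)), ([3, 1, 1, 0, 3, 0, 0], (.ev, 0)), ([0, 1, 0, 2, 0, 2, 1], (.ev, 0)), ([0, 0, 0, 0, 0, 0, 1], (.pl 1, 1)), ([0, 0, 1, 0, 0, 0, 1], (.ev, 0))], [1, 0, 0, 1, 1, 0, 1]⟩,
   ⟨[8, 8, 8, 8, 7, 6, 3], 2, [([4, 4, 4, 4, 2, 2, 0], (.ev, 0)), ([0, 1, 1, 1, 1, 1, 1], (.pl 1, 2)), ([0, 1, 1, 1, 0, 1, 1], (.pl 1, 1)), ([4, 0, 0, 0, 4, 0, 0], (.ev, 0)), ([0, 2, 2, 1, 0, 1, 0], (.ev, 0)), ([0, 0, 0, 0, 0, 0, 1], (.pl 1, 1)), ([0, 0, 0, 1, 0, 1, 0], (.ev, 0))], [1, 0, 0, 1, 1, 0, 1]⟩,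
   ⟨[8, 8, 8, 8, 7, 6, 2], 1, [([4, 4, 4, 4, 2, 2, 0], (.ev, 0)), ([4, 2, 2, 1, 4, 1, 0], (.ev, 0)), ([0, 1, 1, 3, 0, 3, 0], (.ev, 0)), ([0, 1, 1, 0, 1, 0, 1], (.ev, 2)), ([0, 0, 0, 0, 0, 0, 1], (.pl 1, 1)), ([0, 0, 0, 0, 0, 0, 0], (.ev, 2))], [1, 1, 1, 1, 0, 1]⟩,
   ⟨[8, 8, 8, 8, 7, 5], 2, [([4, 4, 4, 4, 2, 2], (.ev, 0)), ([1, 1, 1, 1, 1, 1], (.pl 1, 2)), ([0, 1, 1, 1, 1, 1], (.pl 1, 1)), ([3, 1, 1, 0, 3, 0], (.ev, 0)), ([0, 1, 1, 1, 0, 1], (.ev, 2)), ([0, 0, 0, 1, 0, 0], (.pl 1, 1)), ([0, 0, 0, 0, 0, 0], (.ev, 2))], [1, 0, 0, 1, 1, 0, 1]⟩,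
   ⟨[8, 8, 8, 8, 7, 4], 1, [([4, 4, 4, 4, 2, 2], (.ev, 0)), ([4, 2, 2, 1, 4, 1], (.ev, 0)), ([0, 2, 1, 2, 1, 0], (.ev, 2)), ([0, 0, 1, 1, 0, 0], (.ev, 4)), ([0, 0, 0, 0, 0, 1], (.pl 1, 1)), ([0, 0, 0, 0, 0, 0], (.ev, 2))], [1, 1, 1, 2, 1, 1]⟩,
   ⟨[8, 8, 8, 8, 7, 3], 1, [([4, 4, 4, 4, 2, 2], (.ev, 0)), ([4, 2, 2, 1, 4, 1], (.ev, 0)), ([0, 2, 1, 2, 1, 0], (.ev, 2)), ([0, 0, 1, 1, 0, 0], (.ev, 4)), ([0, 0, 0, 0, 0, 0], (.pl 1, 2)), ([0, 0, 0, 0, 0, 0], (.ev, 2))], [1, 1, 1, 1, 0, 1]⟩,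
   ⟨[8, 8, 8, 8, 6, 6, 6], 2, [([4, 4, 4, 4, 2, 2, 0], (.ev, 0)), ([1, 1, 1, 1, 1, 1, 1], (.pl 1, 1)), ([0, 1, 1, 1, 1, 1, 1], (.pl 1, 0)), ([3, 1, 1, 0, 0, 0, 3], (.ev, 0)), ([0, 1, 0, 2, 2, 1, 0], (.ev, 0)), ([0, 0, 0, 0, 0, 0, 1], (.pl 1, 1)), ([0, 0, 1, 0, 0, 1, 0], (.ev, 0))], [1, 0, 0, 1, 1, 0, 1]⟩,
   ⟨[8, 8, 8, 8, 6, 6, 5], 2, [([4, 4, 4, 4, 2, 2, 0], (.ev, 0)), ([1, 1, 1, 1, 1, 1, 1], (.pl 1, 1)), ([0, 1, 1, 1, 1, 1, 0], (.pl 1, 1)), ([3, 1, 1, 0, 0, 0, 3], (.ev, 0)), ([0, 1, 0, 2, 2, 1, 0], (.ev, 0)), ([0, 0, 0, 0, 0, 0, 1], (.pl 1, 1)), ([0, 0, 1, 0, 0, 1, 0], (.ev, 0))], [1, 0, 0, 1, 1, 0, 1]⟩,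
   ⟨[8, 8, 8, 8, 6, 6, 4, 4], 1, [([4, 4, 4, 4, 2, 2, 0, 0], (.ev, 0)), ([4, 4, 2, 2, 1, 1, 0, 0], (.ev, 0)), ([0, 0, 0, 0, 0, 0, 4, 4], (.ev, 0)), ([0, 0, 0, 0, 3, 3, 0, 0], (.ev, 0)), ([0, 0, 1, 1, 0, 0, 0, 0], (.pl 1, 0)), ([0, 0, 1, 1, 0, 0, 0, 0], (.ev, 0))], [1, 1, 1, 1, 0, 1]⟩,
   ⟨[8, 8, 8, 8, 6, 6, 4, 3], 1, [([4, 4, 4, 4, 2, 2, 0, 0], (.ev, 0)), ([4, 4, 2, 2, 1, 1, 0, 0], (.ev, 0)), ([0, 0, 0, 0, 3, 1, 3, 1], (.ev, 0)), ([0, 0, 2, 2, 0, 1, 0, 1], (.ev, 0)), ([0, 0, 0, 0, 0, 0, 0, 1], (.pl 1, 1)), ([0, 0, 0, 0, 0, 1, 1, 0], (.ev, 0))], [1, 1, 1, 1, 0, 1]⟩,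
   ⟨[8, 8, 8, 8, 6, 6, 4, 2], 2, [([4, 4, 4, 4, 2, 2, 0, 0], (.ev, 0)), ([1, 1, 1, 1, 1, 0, 1, 1], (.pl 1, 1)), ([0, 0, 1, 1, 0, 1, 1, 1], (.pl 1, 1)), ([3, 3, 1, 1, 0, 0, 0, 0], (.ev, 0)), ([0, 0, 0, 0, 3, 3, 0, 0], (.ev, 0)), ([0, 0, 0, 1, 0, 0, 1, 0], (.pl 1, 0)), ([0, 0, 1, 0, 0, 0, 1, 0], (.ev, 0))], [1, 0, 0, 1, 1, 0, 1]⟩,
   ⟨[8, 8, 8, 8, 6, 6, 3], 1, [([4, 4, 4, 4, 2, 2, 0], (.ev, 0)), ([4, 4, 2, 2, 1, 1, 0], (.ev, 0)), ([0, 0, 1, 0, 3, 3, 1], (.ev, 0)), ([0, 0, 0, 2, 0, 0, 2], (.ev, 2)), ([0, 0, 1, 0, 0, 0, 0], (.pl 1, 1)), ([0, 0, 0, 0, 0, 0, 0], (.ev, 2))], [1, 1, 1, 1, 0, 1]⟩,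
   ⟨[8, 8, 8, 8, 6, 6, 2], 1, [([4, 4, 4, 4, 2, 2, 0], (.ev, 0)), ([4, 4, 2, 2, 1, 1, 0], (.ev, 0)), ([0, 0, 1, 1, 2, 2, 0], (.ev, 2)), ([0, 0, 1, 1, 1, 0, 1], (.ev, 2)), ([0, 0, 0, 0, 0, 0, 0], (.pl 1, 2)), ([0, 0, 0, 0, 0, 1, 1], (.ev, 0))], [1, 1, 1, 1, 0, 1]⟩,
   ⟨[8, 8, 8, 8, 6, 5], 1, [([4, 4, 4, 4, 2, 2], (.ev, 0)), ([4, 4, 2, 2, 0, 0], (.ev, 2)), ([0, 0, 0, 0, 3, 3], (.ev, 2)), ([0, 0, 2, 2, 0, 0], (.ev, 2)), ([0, 0, 0, 0, 1, 0], (.pl 1, 1)), ([0, 0, 0, 0, 0, 0], (.ev, 2))], [1, 1, 1, 1, 0, 1]⟩,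
   ⟨[8, 8, 8, 8, 6, 4], 1, [([4, 4, 4, 4, 2, 2], (.ev, 0)), ([3, 3, 2, 2, 1, 1], (.ev, 2)), ([1, 0, 2, 1, 2, 0], (.ev, 2)), ([0, 1, 0, 1, 1, 1], (.ev, 2)), ([0, 0, 0, 0, 0, 0], (.pl 1, 2)), ([0, 0, 0, 0, 0, 0], (.ev, 2))], [1, 1, 1, 1, 0, 1]⟩,
   ⟨[8, 8, 8, 8, 6, 3], 1, [([4, 4, 4, 4, 2, 2], (.ev, 0)), ([4, 4, 2, 2, 1, 1], (.ev, 0)), ([0, 0, 2, 0, 2, 0], (.ev, 4)), ([0, 0, 0, 1, 1, 0], (.ev, 4)), ([0, 0, 0, 1, 0, 0], (.pl 1, 1)), ([0, 0, 0, 0, 0, 0], (.ev, 2))], [1, 1, 1, 1, 0, 1]⟩,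
   ⟨[8, 8, 8, 8, 5, 5], 1, [([4, 4, 4, 4, 2, 2], (.ev, 0)), ([4, 4, 2, 2, 0, 0], (.ev, 2)), ([0, 0, 0, 0, 3, 3], (.ev, 2)), ([0, 0, 2, 2, 0, 0], (.ev, 2)), ([0, 0, 0, 0, 0, 0], (.pl 1, 2)), ([0, 0, 0, 0, 0, 0], (.ev, 2))], [1, 1, 1, 1, 0, 1]⟩,
   ⟨[8, 8, 8, 8, 5, 4], 1, [([4, 4, 4, 4, 2, 2], (.ev, 0)), ([4, 4, 2, 2, 0, 0], (.ev, 2)), ([0, 0, 2, 1, 2, 1], (.ev, 2)), ([0, 0, 0, 1, 1, 0], (.ev, 4)), ([0, 0, 0, 0, 0, 1], (.pl 1, 1)), ([0, 0, 0, 0, 0, 0], (.ev, 2))], [1, 1, 1, 2, 1, 1]⟩,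
   ⟨[8, 8, 8, 8, 5, 3], 1, [([4, 4, 4, 4, 2, 2], (.ev, 0)), ([4, 4, 2, 2, 0, 0], (.ev, 2)), ([0, 0, 2, 1, 2, 1], (.ev, 2)), ([0, 0, 0, 1, 1, 0], (.ev, 4)), ([0, 0, 0, 0, 0, 0], (.pl 1, 2)), ([0, 0, 0, 0, 0, 0], (.ev, 2))], [1, 1, 1, 1, 0, 1]⟩,
   ⟨[8, 8, 8, 8, 4, 4], 2, [([4, 4, 4, 4, 2, 2], (.ev, 0)), ([1, 1, 1, 0, 1, 1], (.pl 1, 3)), ([0, 0, 0, 1, 1, 1], (.pl 1, 3)), ([3, 3, 1, 1, 0, 0], (.ev, 0)), ([0, 0, 2, 2, 0, 0], (.ev, 2)), ([0, 0, 0, 0, 0, 0], (.pl 1, 2)), ([0, 0, 0, 0, 0, 0], (.ev, 2))], [1, 0, 0, 1, 1, 0, 1]⟩,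
   ⟨[8, 8, 8, 7, 7, 7, 6], 1, [([4, 4, 4, 4, 2, 2, 0], (.ev, 0)), ([2, 1, 1, 0, 4, 2, 4], (.ev, 0)), ([0, 3, 3, 1, 0, 1, 0], (.ev, 0)), ([2, 0, 0, 2, 0, 1, 1], (.ev, 0)), ([0, 0, 0, 0, 0, 0, 1], (.pl 1, 1)), ([0, 0, 0, 0, 1, 1, 0], (.ev, 0))], [1, 1, 1, 1, 0, 1]⟩,
   ⟨[8, 8, 8, 7, 7, 7, 5], 2, [([4, 4, 4, 4, 2, 2, 0], (.ev, 0)), ([1, 1, 1, 1, 1, 1, 1], (.pl 1, 1)), ([1, 1, 1, 1, 0, 0, 1], (.pl 1, 1)), ([0, 0, 0, 0, 4, 4, 0], (.ev, 0)), ([2, 1, 1, 0, 0, 0, 2], (.ev, 0)), ([0, 0, 0, 1, 0, 0, 1], (.pl 1, 0)), ([0, 1, 1, 0, 0, 0, 0], (.ev, 0))], [1, 0, 0, 1, 1, 0, 1]⟩,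
   ⟨[8, 8, 8, 7, 7, 7, 4], 2, [([4, 4, 4, 4, 2, 2, 0], (.ev, 0)), ([1, 1, 1, 1, 1, 1, 1], (.pl 1, 1)), ([1, 1, 1, 1, 0, 0, 1], (.pl 1, 1)), ([0, 0, 0, 0, 4, 4, 0], (.ev, 0)), ([2, 2, 1, 0, 0, 0, 1], (.ev, 0)), ([0, 0, 0, 0, 0, 0, 1], (.pl 1, 1)), ([0, 0, 1, 1, 0, 0, 0], (.ev, 0))], [1, 0, 0, 1, 1, 0, 1]⟩,
   ⟨[8, 8, 8, 7, 7, 7, 3], 2, [([4, 4, 4, 4, 2, 2, 0], (.ev, 0)), ([1, 1, 1, 1, 1, 1, 1], (.pl 1, 1)), ([1, 1, 1, 1, 0, 0, 1], (.pl 1, 1)), ([0, 0, 0, 0, 4, 4, 0], (.ev, 0)), ([2, 2, 1, 1, 0, 0, 0], (.ev, 0)), ([0, 0, 0, 0, 0, 0, 0], (.pl 1, 2)), ([0, 0, 1, 0, 0, 0, 1], (.ev, 0))], [1, 0, 0, 1, 1, 0, 1]⟩,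
   ⟨[8, 8, 8, 7, 7, 7, 2], 1, [([4, 4, 4, 4, 2, 2, 0], (.ev, 0)), ([2, 2, 1, 1, 4, 4, 0], (.ev, 0)), ([2, 2, 2, 2, 0, 0, 0], (.ev, 0)), ([0, 0, 1, 0, 1, 1, 1], (.ev, 2)), ([0, 0, 0, 0, 0, 0, 1], (.pl 1, 1)), ([0, 0, 0, 0, 0, 0, 0], (.ev, 2))], [1, 1, 1, 1, 0, 1]⟩,
   ⟨[8, 8, 8, 7, 7, 6, 6], 2, [([4, 4, 4, 4, 2, 2, 0], (.ev, 0)), ([1, 1, 1, 1, 1, 1, 1], (.pl 1, 1)), ([1, 1, 1, 1, 0, 1, 1], (.pl 1, 0)), ([0, 0, 0, 0, 4, 0, 4], (.ev, 0)), ([2, 2, 1, 0, 0, 1, 0], (.ev, 0)), ([0, 0, 0, 0, 0, 1, 0], (.pl 1, 1)), ([0, 0, 1, 1, 0, 0, 0], (.ev, 0))], [1, 0, 0, 1, 1, 0, 1]⟩,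
   ⟨[8, 8, 8, 7, 7, 6, 5], 2, [([4, 4, 4, 4, 2, 2, 0], (.ev, 0)), ([1, 1, 1, 1, 1, 1, 1], (.pl 1, 1)), ([1, 1, 1, 1, 0, 1, 0], (.pl 1, 1)), ([0, 0, 0, 0, 4, 0, 4], (.ev, 0)), ([2, 2, 1, 0, 0, 1, 0], (.ev, 0)), ([0, 0, 0, 0, 0, 1, 0], (.pl 1, 1)), ([0, 0, 1, 1, 0, 0, 0], (.ev, 0))], [1, 0, 0, 1, 1, 0, 1]⟩,
   ⟨[8, 8, 8, 7, 7, 6, 4, 4], 1, [([4, 4, 4, 4, 2, 2, 0, 0], (.ev, 0)), ([4, 2, 2, 0, 4, 1, 1, 0], (.ev, 0)), ([0, 0, 0, 3, 0, 1, 1, 3], (.ev, 0)), ([0, 2, 2, 0, 0, 1, 1, 0], (.ev, 0)), ([0, 0, 0, 0, 0, 0, 1, 1], (.pl 1, 0)), ([0, 0, 0, 0, 1, 1, 0, 0], (.ev, 0))], [1, 1, 1, 1, 0, 1]⟩,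
   ⟨[8, 8, 8, 7, 7, 6, 4, 3], 1, [([4, 4, 4, 4, 2, 2, 0, 0], (.ev, 0)), ([4, 2, 2, 0, 4, 1, 1, 0], (.ev, 0)), ([0, 0, 0, 3, 0, 3, 1, 1], (.ev, 0)), ([0, 2, 2, 0, 0, 0, 1, 1], (.ev, 0)), ([0, 0, 0, 0, 0, 0, 0, 1], (.pl 1, 1)), ([0, 0, 0, 0, 1, 0, 1, 0], (.ev, 0))], [1, 1, 1, 1, 0, 1]⟩,
   ⟨[8, 8, 8, 7, 7, 6, 4, 2], 2, [([4, 4, 4, 4, 2, 2, 0, 0], (.ev, 0)), ([0, 1, 1, 1, 1, 1, 1, 1], (.pl 1, 1)), ([0, 1, 1, 1, 0, 1, 1, 1], (.pl 1, 0)), ([4, 0, 0, 0, 4, 0, 0, 0], (.ev, 0)), ([0, 2, 2, 0, 0, 1, 1, 0], (.ev, 0)), ([0, 0, 0, 0, 0, 0, 1, 0], (.pl 1, 1)), ([0, 0, 0, 1, 0, 1, 0, 0], (.ev, 0))], [1, 0, 0, 1, 1, 0, 1]⟩,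
   ⟨[8, 8, 8, 7, 7, 6, 3], 1, [([4, 4, 4, 4, 2, 2, 0], (.ev, 0)), ([4, 2, 2, 1, 4, 1, 0], (.ev, 0)), ([0, 1, 1, 0, 0, 3, 3], (.ev, 0)), ([0, 1, 1, 1, 1, 0, 0], (.ev, 2)), ([0, 0, 0, 1, 0, 0, 0], (.pl 1, 1)), ([0, 0, 0, 0, 0, 0, 0], (.ev, 2))], [1, 1, 1, 1, 0, 1]⟩,
   ⟨[8, 8, 8, 7, 7, 6, 2], 1, [([4, 4, 4, 4, 2, 2, 0], (.ev, 0)), ([4, 2, 2, 1, 4, 1, 0], (.ev, 0)), ([0, 2, 1, 1, 1, 2, 1], (.ev, 0)), ([0, 0, 1, 1, 0, 1, 1], (.ev, 2)), ([0, 0, 0, 0, 0, 0, 0], (.pl 1, 2)), ([0, 0, 0, 0, 0, 0, 0], (.ev, 2))], [1, 1, 1, 1, 0, 1]⟩,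
   ⟨[8, 8, 8, 7, 7, 5], 1, [([4, 4, 4, 4, 2, 2], (.ev, 0)), ([4, 2, 2, 0, 4, 0], (.ev, 2)), ([0, 0, 0, 3, 0, 3], (.ev, 2)), ([0, 2, 2, 0, 0, 0], (.ev, 2)), ([0, 0, 0, 0, 1, 0], (.pl 1, 1)), ([0, 0, 0, 0, 0, 0], (.ev, 2))], [1, 1, 1, 1, 0, 1]⟩,
   ⟨[8, 8, 8, 7, 7, 4], 1, [([4, 4, 4, 4, 2, 2], (.ev, 0)), ([4, 2, 2, 0, 4, 0], (.ev, 2)), ([0, 2, 1, 2, 0, 1], (.ev, 2)), ([0, 0, 1, 1, 1, 1], (.ev, 2)), ([0, 0, 0, 0, 0, 0], (.pl 1, 2)), ([0, 0, 0, 0, 0, 0], (.ev, 2))], [1, 1, 1, 1, 0, 1]⟩,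
   ⟨[8, 8, 8, 7, 7, 3], 1, [([4, 4, 4, 4, 2, 2], (.ev, 0)), ([4, 2, 2, 1, 4, 1], (.ev, 0)), ([0, 2, 2, 1, 1, 0], (.ev, 2)), ([0, 0, 0, 0, 0, 0], (.ev, 6)), ([0, 0, 0, 1, 0, 0], (.pl 1, 1)), ([0, 0, 0, 0, 0, 0], (.ev, 2))], [1, 1, 1, 2, 1, 1]⟩,
   ⟨[8, 8, 8, 7, 6, 6, 6], 2, [([4, 4, 4, 4, 2, 2, 0], (.ev, 0)), ([1, 1, 1, 1, 1, 1, 1], (.pl 1, 1)), ([0, 1, 1, 1, 1, 1, 0], (.pl 1, 1)), ([3, 1, 1, 0, 0, 0, 3], (.ev, 0)), ([0, 1, 1, 0, 2, 2, 0], (.ev, 0)), ([0, 0, 0, 0, 0, 0, 1], (.pl 1, 1)), ([0, 0, 0, 1, 0, 0, 1], (.ev, 0))], [1, 0, 0, 1, 1, 0, 1]⟩,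
   ⟨[8, 8, 8, 7, 6, 6, 5, 4], 1, [([4, 4, 4, 4, 2, 2, 0, 0], (.ev, 0)), ([4, 2, 2, 0, 1, 1, 4, 0], (.ev, 0)), ([0, 0, 0, 3, 1, 1, 0, 3], (.ev, 0)), ([0, 2, 2, 0, 1, 1, 0, 0], (.ev, 0)), ([0, 0, 0, 0, 0, 0, 1, 1], (.pl 1, 0)), ([0, 0, 0, 0, 1, 1, 0, 0], (.ev, 0))], [1, 1, 1, 1, 0, 1]⟩,
   ⟨[8, 8, 8, 7, 6, 6, 5, 3], 1, [([4, 4, 4, 4, 2, 2, 0, 0], (.ev, 0)), ([4, 2, 2, 0, 1, 1, 4, 0], (.ev, 0)), ([0, 0, 0, 3, 3, 1, 0, 1], (.ev, 0)), ([0, 2, 2, 0, 0, 1, 0, 1], (.ev, 0)), ([0, 0, 0, 0, 0, 0, 0, 1], (.pl 1, 1)), ([0, 0, 0, 0, 0, 1, 1, 0], (.ev, 0))], [1, 1, 1, 1, 0, 1]⟩,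
   ⟨[8, 8, 8, 7, 6, 6, 5, 2], 2, [([4, 4, 4, 4, 2, 2, 0, 0], (.ev, 0)), ([0, 1, 1, 1, 1, 1, 1, 1], (.pl 1, 1)), ([0, 1, 1, 1, 1, 1, 0, 1], (.pl 1, 0)), ([4, 0, 0, 0, 0, 0, 4, 0], (.ev, 0)), ([0, 2, 2, 0, 1, 1, 0, 0], (.ev, 0)), ([0, 0, 0, 0, 0, 1, 0, 0], (.pl 1, 1)), ([0, 0, 0, 1, 1, 0, 0, 0], (.ev, 0))], [1, 0, 0, 1, 1, 0, 1]⟩,
   ⟨[8, 8, 8, 7, 6, 6, 4], 2, [([4, 4, 4, 4, 2, 2, 0], (.ev, 0)), ([1, 1, 1, 1, 1, 1, 1], (.pl 1, 1)), ([0, 0, 1, 1, 1, 1, 1], (.pl 1, 1)), ([3, 3, 1, 0, 1, 0, 0], (.ev, 0)), ([0, 0, 1, 1, 0, 2, 2], (.ev, 0)), ([0, 0, 0, 0, 1, 0, 0], (.pl 1, 1)), ([0, 0, 0, 0, 0, 0, 0], (.ev, 2))], [1, 0, 0, 1, 1, 0, 1]⟩,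
   ⟨[8, 8, 8, 7, 6, 6, 3], 1, [([4, 4, 4, 4, 2, 2, 0], (.ev, 0)), ([4, 4, 2, 1, 2, 1, 0], (.ev, 0)), ([0, 0, 1, 1, 0, 2, 2], (.ev, 2)), ([0, 0, 1, 1, 1, 1, 0], (.ev, 2)), ([0, 0, 0, 0, 0, 0, 0], (.pl 1, 2)), ([0, 0, 0, 0, 1, 0, 1], (.ev, 0))], [1, 1, 1, 1, 0, 1]⟩,
   ⟨[8, 8, 8, 7, 6, 5], 1, [([4, 4, 4, 4, 2, 2], (.ev, 0)), ([4, 4, 2, 0, 2, 0], (.ev, 2)), ([0, 0, 0, 3, 0, 3], (.ev, 2)), ([0, 0, 2, 0, 2, 0], (.ev, 2)), ([0, 0, 0, 0, 0, 0], (.pl 1, 2)), ([0, 0, 0, 0, 0, 0], (.ev, 2))], [1, 1, 1, 1, 0, 1]⟩,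
   ⟨[8, 8, 8, 7, 6, 4], 1, [([4, 4, 4, 4, 2, 2], (.ev, 0)), ([4, 4, 2, 0, 2, 0], (.ev, 2)), ([0, 0, 2, 2, 1, 1], (.ev, 2)), ([0, 0, 0, 1, 1, 0], (.ev, 4)), ([0, 0, 0, 0, 0, 1], (.pl 1, 1)), ([0, 0, 0, 0, 0, 0], (.ev, 2))], [1, 1, 1, 2, 1, 1]⟩,
   ⟨[8, 8, 8, 7, 6, 3], 1, [([4, 4, 4, 4, 2, 2], (.ev, 0)), ([4, 4, 2, 0, 2, 0], (.ev, 2)), ([0, 0, 2, 2, 1, 1], (.ev, 2)), ([0, 0, 0, 1, 1, 0], (.ev, 4)), ([0, 0, 0, 0, 0, 0], (.pl 1, 2)), ([0, 0, 0, 0, 0, 0], (.ev, 2))], [1, 1, 1, 1, 0, 1]⟩,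
   ⟨[8, 8, 8, 7, 5, 5], 1, [([4, 4, 4, 4, 2, 2], (.ev, 0)), ([4, 4, 2, 2, 0, 0], (.ev, 2)), ([0, 0, 0, 0, 3, 3], (.ev, 2)), ([0, 0, 1, 1, 0, 0], (.ev, 4)), ([0, 0, 1, 0, 0, 0], (.pl 1, 1)), ([0, 0, 0, 0, 0, 0], (.ev, 2))], [1, 1, 1, 2, 1, 1]⟩,
   ⟨[8, 8, 8, 7, 5, 4], 2, [([4, 4, 4, 4, 2, 2], (.ev, 0)), ([1, 1, 1, 1, 0, 1], (.pl 1, 3)), ([0, 0, 0, 1, 1, 1], (.pl 1, 3)), ([3, 3, 1, 1, 0, 0], (.ev, 0)), ([0, 0, 2, 0, 2, 0], (.ev, 2)), ([0, 0, 0, 0, 0, 0], (.pl 1, 2)), ([0, 0, 0, 0, 0, 0], (.ev, 2))], [1, 0, 0, 1, 1, 0, 1]⟩,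
   ⟨[8, 8, 8, 7, 4], 1, [([4, 4, 2, 2, 0], (.ev, 8)), ([2, 2, 4, 4, 0], (.ev, 2)), ([2, 2, 2, 0, 2], (.ev, 0)), ([0, 0, 0, 1, 1], (.ev, 4)), ([0, 0, 0, 0, 1], (.pl 1, 1)), ([0, 0, 0, 0, 0], (.ev, 2))], [2, 1, 1, 1, 1, 1]⟩,
   ⟨[8, 8, 8, 6, 6, 6], 2, [([4, 4, 4, 4, 2, 2], (.ev, 0)), ([1, 1, 1, 1, 1, 1], (.pl 1, 2)), ([1, 1, 0, 1, 1, 1], (.pl 1, 1)), ([2, 2, 1, 0, 1, 0], (.ev, 2)), ([0, 0, 2, 0, 0, 2], (.ev, 2)), ([0, 0, 0, 0, 1, 0], (.pl 1, 1)), ([0, 0, 0, 0, 0, 0], (.ev, 2))], [1, 0, 0, 1, 1, 0, 1]⟩,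
   ⟨[8, 8, 8, 6, 6, 5], 1, [([4, 4, 4, 4, 2, 2], (.ev, 0)), ([4, 4, 2, 0, 2, 0], (.ev, 2)), ([0, 0, 2, 1, 1, 2], (.ev, 2)), ([0, 0, 0, 1, 1, 0], (.ev, 4)), ([0, 0, 0, 0, 0, 1], (.pl 1, 1)), ([0, 0, 0, 0, 0, 0], (.ev, 2))], [1, 1, 1, 2, 1, 1]⟩,
   ⟨[8, 8, 8, 6, 6, 4], 2, [([4, 4, 4, 4, 2, 2], (.ev, 0)), ([1, 1, 1, 1, 0, 1], (.pl 1, 3)), ([0, 0, 0, 1, 1, 1], (.pl 1, 3)), ([3, 3, 1, 0, 1, 0], (.ev, 0)), ([0, 0, 2, 0, 2, 0], (.ev, 2)), ([0, 0, 0, 0, 0, 0], (.pl 1, 2)), ([0, 0, 0, 0, 0, 0], (.ev, 2))], [1, 0, 0, 1, 1, 0, 1]⟩,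
   ⟨[8, 8, 8, 6, 5], 2, [([4, 4, 2, 2, 0], (.ev, 8)), ([1, 1, 1, 1, 1], (.pl 1, 3)), ([1, 1, 1, 1, 1], (.pl 1, 1)), ([1, 1, 3, 0, 3], (.ev, 0)), ([1, 1, 1, 1, 0], (.ev, 2)), ([0, 0, 0, 1, 0], (.pl 1, 1)), ([0, 0, 0, 0, 0], (.ev, 2))], [3, 0, 1, 1, 1, 1, 1]⟩,
   ⟨[8, 8, 8, 6, 4], 2, [([4, 4, 2, 2, 0], (.ev, 8)), ([0, 1, 1, 1, 1], (.pl 1, 4)), ([0, 0, 0, 0, 1], (.pl 1, 5)), ([4, 0, 4, 0, 0], (.ev, 0)), ([0, 3, 0, 3, 0], (.ev, 0)), ([0, 0, 0, 0, 1], (.pl 1, 1)), ([0, 0, 1, 0, 1], (.ev, 0))], [2, 0, 0, 1, 1, 1, 1]⟩,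
   ⟨[8, 8, 8, 5], 1, [([4, 4, 2, 2], (.ev, 8)), ([3, 2, 3, 2], (.ev, 4)), ([0, 2, 2, 0], (.ev, 4)), ([1, 0, 1, 0], (.ev, 4)), ([0, 0, 0, 1], (.pl 1, 1)), ([0, 0, 0, 0], (.ev, 2))], [2, 1, 1, 1, 1, 1]⟩,
   ⟨[8, 8, 8, 4], 2, [([4, 4, 2, 2], (.ev, 8)), ([0, 1, 1, 1], (.pl 1, 5)), ([0, 1, 0, 1], (.pl 1, 4)), ([4, 0, 4, 0], (.ev, 0)), ([0, 1, 1, 0], (.ev, 4)), ([0, 1, 0, 0], (.pl 1, 1)), ([0, 0, 0, 0], (.ev, 2))], [2, 0, 0, 1, 1, 1, 1]⟩,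
   ⟨[8, 8, 7, 7, 7, 7, 7], 1, [([4, 4, 4, 4, 2, 2, 0], (.ev, 0)), ([2, 1, 1, 0, 4, 2, 4], (.ev, 0)), ([0, 3, 0, 3, 0, 1, 1], (.ev, 0)), ([2, 0, 2, 0, 0, 1, 1], (.ev, 0)), ([0, 0, 0, 0, 0, 0, 1], (.pl 1, 1)), ([0, 0, 0, 0, 1, 1, 0], (.ev, 0))], [1, 1, 1, 1, 0, 1]⟩,
   ⟨[8, 8, 7, 7, 7, 7, 6], 2, [([4, 4, 4, 4, 2, 2, 0], (.ev, 0)), ([1, 1, 1, 1, 1, 1, 1], (.pl 1, 1)), ([0, 1, 1, 1, 0, 1, 1], (.pl 1, 1)), ([0, 0, 0, 0, 4, 0, 4], (.ev, 0)), ([3, 0, 0, 0, 0, 3, 0], (.ev, 0)), ([0, 1, 0, 1, 0, 0, 0], (.pl 1, 0)), ([0, 1, 1, 0, 0, 0, 0], (.ev, 0))], [1, 0, 0, 1, 1, 0, 1]⟩,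
   ⟨[8, 8, 7, 7, 7, 7, 5], 2, [([4, 4, 4, 4, 2, 2, 0], (.ev, 0)), ([1, 1, 1, 1, 1, 1, 1], (.pl 1, 1)), ([1, 1, 1, 1, 0, 0, 1], (.pl 1, 1)), ([0, 0, 0, 0, 4, 4, 0], (.ev, 0)), ([2, 1, 1, 0, 0, 0, 2], (.ev, 0)), ([0, 0, 0, 0, 0, 0, 1], (.pl 1, 1)), ([0, 1, 0, 1, 0, 0, 0], (.ev, 0))], [1, 0, 0, 1, 1, 0, 1]⟩,
   ⟨[8, 8, 7, 7, 7, 7, 4, 4], 1, [([4, 4, 4, 4, 2, 2, 0, 0], (.ev, 0)), ([2, 2, 0, 0, 4, 4, 1, 1], (.ev, 0)), ([0, 0, 3, 3, 0, 0, 1, 1], (.ev, 0)), ([2, 2, 0, 0, 0, 0, 1, 1], (.ev, 0)), ([0, 0, 0, 0, 0, 0, 1, 1], (.pl 1, 0)), ([0, 0, 0, 0, 1, 1, 0, 0], (.ev, 0))], [1, 1, 1, 1, 0, 1]⟩,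
   ⟨[8, 8, 7, 7, 7, 7, 4, 3], 1, [([4, 4, 4, 4, 2, 2, 0, 0], (.ev, 0)), ([2, 2, 1, 0, 4, 4, 1, 0], (.ev, 0)), ([1, 0, 0, 3, 0, 0, 3, 1], (.ev, 0)), ([1, 2, 2, 0, 0, 0, 0, 1], (.ev, 0)), ([0, 0, 0, 0, 0, 0, 0, 1], (.pl 1, 1)), ([0, 0, 0, 0, 1, 1, 0, 0], (.ev, 0))], [1, 1, 1, 1, 0, 1]⟩,
   ⟨[8, 8, 7, 7, 7, 7, 4, 2], 2, [([4, 4, 4, 4, 2, 2, 0, 0], (.ev, 0)), ([1, 1, 1, 1, 1, 0, 1, 1], (.pl 1, 1)), ([0, 0, 1, 1, 0, 1, 1, 1], (.pl 1, 1)), ([0, 0, 0, 0, 4, 4, 0, 0], (.ev, 0)), ([3, 3, 0, 0, 0, 0, 0, 0], (.ev, 0)), ([0, 0, 0, 1, 0, 0, 1, 0], (.pl 1, 0)), ([0, 0, 1, 0, 0, 0, 1, 0], (.ev, 0))], [1, 0, 0, 1, 1, 0, 1]⟩,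
   ⟨[8, 8, 7, 7, 7, 7, 3], 1, [([4, 4, 4, 4, 2, 2, 0], (.ev, 0)), ([2, 2, 1, 1, 4, 4, 0], (.ev, 0)), ([2, 2, 2, 0, 0, 0, 2], (.ev, 0)), ([0, 0, 0, 1, 1, 1, 1], (.ev, 2)), ([0, 0, 0, 1, 0, 0, 0], (.pl 1, 1)), ([0, 0, 0, 0, 0, 0, 0], (.ev, 2))], [1, 1, 1, 1, 0, 1]⟩,
   ⟨[8, 8, 7, 7, 7, 7, 2], 1, [([4, 4, 4, 4, 2, 2, 0], (.ev, 0)), ([2, 2, 1, 1, 4, 4, 0], (.ev, 0)), ([2, 2, 1, 1, 1, 0, 1], (.ev, 0)), ([0, 0, 1, 1, 0, 1, 1], (.ev, 2)), ([0, 0, 0, 0, 0, 0, 0], (.pl 1, 2)), ([0, 0, 0, 0, 0, 0, 0], (.ev, 2))], [1, 1, 1, 1, 0, 1]⟩,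
   ⟨[8, 8, 7, 7, 7, 6, 6], 2, [([4, 4, 4, 4, 2, 2, 0], (.ev, 0)), ([1, 1, 1, 1, 1, 1, 1], (.pl 1, 1)), ([1, 1, 1, 1, 0, 1, 0], (.pl 1, 1)), ([0, 0, 0, 0, 4, 0, 4], (.ev, 0)), ([2, 2, 1, 0, 0, 1, 0], (.ev, 0)), ([0, 0, 0, 0, 0, 0, 1], (.pl 1, 1)), ([0, 0, 0, 1, 0, 1, 0], (.ev, 0))], [1, 0, 0, 1, 1, 0, 1]⟩,
   ⟨[8, 8, 7, 7, 7, 6, 5, 4], 1, [([4, 4, 4, 4, 2, 2, 0, 0], (.ev, 0)), ([2, 2, 0, 0, 4, 1, 4, 1], (.ev, 0)), ([0, 0, 3, 3, 0, 1, 0, 1], (.ev, 0)), ([2, 2, 0, 0, 0, 1, 0, 1], (.ev, 0)), ([0, 0, 0, 0, 0, 0, 1, 1], (.pl 1, 0)), ([0, 0, 0, 0, 1, 1, 0, 0], (.ev, 0))], [1, 1, 1, 1, 0, 1]⟩,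
   ⟨[8, 8, 7, 7, 7, 6, 5, 3], 1, [([4, 4, 4, 4, 2, 2, 0, 0], (.ev, 0)), ([2, 2, 1, 0, 4, 1, 4, 0], (.ev, 0)), ([1, 0, 0, 3, 0, 3, 0, 1], (.ev, 0)), ([1, 2, 2, 0, 0, 0, 0, 1], (.ev, 0)), ([0, 0, 0, 0, 0, 0, 0, 1], (.pl 1, 1)), ([0, 0, 0, 0, 1, 0, 1, 0], (.ev, 0))], [1, 1, 1, 1, 0, 1]⟩,
   ⟨[8, 8, 7, 7, 7, 6, 5, 2], 2, [([4, 4, 4, 4, 2, 2, 0, 0], (.ev, 0)), ([1, 1, 1, 1, 1, 1, 0, 1], (.pl 1, 1)), ([0, 0, 1, 1, 0, 1, 1, 1], (.pl 1, 1)), ([0, 0, 0, 0, 4, 0, 4, 0], (.ev, 0)), ([3, 3, 0, 0, 0, 0, 0, 0], (.ev, 0)), ([0, 0, 0, 1, 0, 1, 0, 0], (.pl 1, 0)), ([0, 0, 1, 0, 0, 1, 0, 0], (.ev, 0))], [1, 0, 0, 1, 1, 0, 1]⟩,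
   ⟨[8, 8, 7, 7, 7, 6, 4], 2, [([4, 4, 4, 4, 2, 2, 0], (.ev, 0)), ([1, 1, 1, 1, 1, 1, 1], (.pl 1, 1)), ([0, 0, 1, 1, 1, 1, 1], (.pl 1, 1)), ([3, 1, 0, 0, 3, 1, 0], (.ev, 0)), ([0, 2, 1, 1, 0, 0, 2], (.ev, 0)), ([0, 0, 0, 0, 0, 1, 0], (.pl 1, 1)), ([0, 0, 0, 0, 0, 0, 0], (.ev, 2))], [1, 0, 0, 1, 1, 0, 1]⟩,
   ⟨[8, 8, 7, 7, 7, 6, 3], 1, [([4, 4, 4, 4, 2, 2, 0], (.ev, 0)), ([4, 2, 1, 1, 4, 2, 0], (.ev, 0)), ([0, 2, 1, 1, 1, 1, 2], (.ev, 0)), ([0, 0, 1, 1, 0, 1, 1], (.ev, 2)), ([0, 0, 0, 0, 0, 0, 0], (.pl 1, 2)), ([0, 0, 0, 0, 0, 0, 0], (.ev, 2))], [1, 1, 1, 1, 0, 1]⟩,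
   ⟨[8, 8, 7, 7, 7, 5], 1, [([4, 4, 4, 4, 2, 2], (.ev, 0)), ([4, 2, 2, 0, 4, 0], (.ev, 2)), ([0, 1, 1, 2, 0, 2], (.ev, 2)), ([0, 1, 0, 1, 1, 1], (.ev, 2)), ([0, 0, 0, 0, 0, 0], (.pl 1, 2)), ([0, 0, 0, 0, 0, 0], (.ev, 2))], [1, 1, 1, 1, 0, 1]⟩,
   ⟨[8, 8, 7, 7, 7, 4], 1, [([4, 4, 4, 4, 2, 2], (.ev, 0)), ([4, 2, 2, 0, 4, 0], (.ev, 2)), ([0, 2, 1, 2, 0, 1], (.ev, 2)), ([0, 0, 0, 1, 1, 0], (.ev, 4)), ([0, 0, 0, 0, 0, 1], (.pl 1, 1)), ([0, 0, 0, 0, 0, 0], (.ev, 2))], [1, 1, 1, 2, 1, 1]⟩,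
   ⟨[8, 8, 7, 7, 7, 3], 1, [([4, 4, 4, 4, 2, 2], (.ev, 0)), ([4, 2, 2, 1, 4, 1], (.ev, 0)), ([0, 2, 0, 2, 0, 0], (.ev, 4)), ([0, 0, 1, 0, 1, 0], (.ev, 4)), ([0, 0, 0, 0, 0, 0], (.pl 1, 2)), ([0, 0, 0, 0, 0, 0], (.ev, 2))], [1, 1, 1, 1, 0, 1]⟩,
   ⟨[8, 8, 7, 7, 6, 6], 2, [([4, 4, 4, 4, 2, 2], (.ev, 0)), ([1, 1, 1, 1, 1, 1], (.pl 1, 2)), ([1, 1, 1, 1, 1, 0], (.pl 1, 1)), ([2, 2, 0, 0, 1, 1], (.ev, 2)), ([0, 0, 1, 1, 1, 1], (.ev, 2)), ([0, 0, 0, 0, 0, 1], (.pl 1, 1)), ([0, 0, 0, 0, 0, 0], (.ev, 2))], [1, 0, 0, 1, 1, 0, 1]⟩,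
   ⟨[8, 8, 7, 7, 6, 5], 1, [([4, 4, 4, 4, 2, 2], (.ev, 0)), ([4, 4, 2, 0, 2, 0], (.ev, 2)), ([0, 0, 0, 3, 0, 3], (.ev, 2)), ([0, 0, 1, 0, 1, 0], (.ev, 4)), ([0, 0, 0, 0, 1, 0], (.pl 1, 1)), ([0, 0, 0, 0, 0, 0], (.ev, 2))], [1, 1, 1, 2, 1, 1]⟩,
   ⟨[8, 8, 7, 7, 6, 4], 2, [([4, 4, 4, 4, 2, 2], (.ev, 0)), ([1, 1, 1, 1, 0, 1], (.pl 1, 3)), ([0, 0, 1, 0, 1, 1], (.pl 1, 3)), ([3, 3, 1, 0, 1, 0], (.ev, 0)), ([0, 0, 0, 2, 2, 0], (.ev, 2)), ([0, 0, 0, 0, 0, 0], (.pl 1, 2)), ([0, 0, 0, 0, 0, 0], (.ev, 2))], [1, 0, 0, 1, 1, 0, 1]⟩,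
   ⟨[8, 8, 7, 7, 5], 2, [([4, 4, 2, 2, 0], (.ev, 8)), ([1, 1, 1, 1, 1], (.pl 1, 3)), ([1, 1, 1, 1, 1], (.pl 1, 1)), ([1, 0, 3, 3, 1], (.ev, 0)), ([0, 2, 0, 0, 2], (.ev, 2)), ([1, 0, 0, 0, 0], (.pl 1, 1)), ([0, 0, 0, 0, 0], (.ev, 2))], [3, 0, 1, 1, 1, 1, 1]⟩,
   ⟨[8, 8, 7, 7, 4], 2, [([4, 4, 2, 2, 0], (.ev, 8)), ([0, 1, 1, 1, 1], (.pl 1, 4)), ([0, 0, 0, 0, 1], (.pl 1, 5)), ([0, 0, 4, 4, 0], (.ev, 0)), ([3, 3, 0, 0, 0], (.ev, 0)), ([0, 0, 0, 0, 1], (.pl 1, 1)), ([1, 0, 0, 0, 1], (.ev, 0))], [2, 0, 0, 1, 1, 1, 1]⟩]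

def cmC_11_8_6_3_10 : List (List ℕ × List (ℕ × ℕ)) :=
  [([8, 8, 8, 8, 7, 7, 3], [(0, 1), (1, 1), (1, 1), (0, 1), (0, 1), (1, 1), (0, 1)]),
   ([8, 8, 8, 8, 7, 7, 2], [(0, 1), (0, 1), (0, 1), (2, 1), (2, 1), (0, 1)]),
   ([8, 8, 8, 8, 7, 6, 6], [(0, 1), (0, 1), (0, 1), (0, 1), (1, 1), (0, 1)]),
   ([8, 8, 8, 8, 7, 6, 5], [(0, 1), (1, 1), (1, 1), (0, 1), (0, 1), (0, 1), (0, 1)]),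
   ([8, 8, 8, 8, 7, 6, 4], [(0, 1), (1, 1), (1, 1), (0, 1), (0, 1), (1, 1), (0, 1)]),
   ([8, 8, 8, 8, 7, 6, 3], [(0, 1), (2, 1), (1, 1), (0, 1), (0, 1), (1, 1), (0, 1)]),
   ([8, 8, 8, 8, 7, 6, 2], [(0, 1), (0, 1), (0, 1), (2, 1), (1, 1), (2, 1)]),
   ([8, 8, 8, 8, 7, 5], [(0, 1), (2, 1), (1, 1), (0, 1), (2, 1), (1, 1), (2, 1)]),
   ([8, 8, 8, 8, 7, 4], [(0, 1), (0, 1), (2, 1), (5, 2), (0, 1), (2, 1)]),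
   ([8, 8, 8, 8, 7, 3], [(0, 1), (0, 1), (2, 1), (4, 1), (2, 1), (2, 1)]),
   ([8, 8, 8, 8, 6, 6, 6], [(0, 1), (1, 1), (0, 1), (0, 1), (0, 1), (1, 1), (0, 1)]),
   ([8, 8, 8, 8, 6, 6, 5], [(0, 1), (1, 1), (1, 1), (0, 1), (0, 1), (1, 1), (0, 1)]),
   ([8, 8, 8, 8, 6, 6, 4, 4], [(0, 1), (0, 1), (0, 1), (0, 1), (0, 1), (0, 1)]),
   ([8, 8, 8, 8, 6, 6, 4, 3], [(0, 1), (0, 1), (0, 1), (0, 1), (1, 1), (0, 1)]),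
   ([8, 8, 8, 8, 6, 6, 4, 2], [(0, 1), (1, 1), (1, 1), (0, 1), (0, 1), (0, 1), (0, 1)]),
   ([8, 8, 8, 8, 6, 6, 3], [(0, 1), (0, 1), (0, 1), (2, 1), (1, 1), (2, 1)]),
   ([8, 8, 8, 8, 6, 6, 2], [(0, 1), (0, 1), (2, 1), (2, 1), (2, 1), (0, 1)]),
   ([8, 8, 8, 8, 6, 5], [(0, 1), (2, 1), (2, 1), (2, 1), (1, 1), (2, 1)]),
   ([8, 8, 8, 8, 6, 4], [(0, 1), (2, 1), (2, 1), (2, 1), (2, 1), (2, 1)]),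
   ([8, 8, 8, 8, 6, 3], [(0, 1), (0, 1), (4, 1), (4, 1), (1, 1), (2, 1)]),
   ([8, 8, 8, 8, 5, 5], [(0, 1), (2, 1), (2, 1), (2, 1), (2, 1), (2, 1)]),
   ([8, 8, 8, 8, 5, 4], [(0, 1), (2, 1), (2, 1), (5, 2), (0, 1), (2, 1)]),
   ([8, 8, 8, 8, 5, 3], [(0, 1), (2, 1), (2, 1), (4, 1), (2, 1), (2, 1)]),
   ([8, 8, 8, 8, 4, 4], [(0, 1), (3, 1), (3, 1), (0, 1), (2, 1), (2, 1), (2, 1)]),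
   ([8, 8, 8, 7, 7, 7, 6], [(0, 1), (0, 1), (0, 1), (0, 1), (1, 1), (0, 1)]),
   ([8, 8, 8, 7, 7, 7, 5], [(0, 1), (1, 1), (1, 1), (0, 1), (0, 1), (0, 1), (0, 1)]),
   ([8, 8, 8, 7, 7, 7, 4], [(0, 1), (1, 1), (1, 1), (0, 1), (0, 1), (1, 1), (0, 1)]),
   ([8, 8, 8, 7, 7, 7, 3], [(0, 1), (1, 1), (1, 1), (0, 1), (0, 1), (2, 1), (0, 1)]),
   ([8, 8, 8, 7, 7, 7, 2], [(0, 1), (0, 1), (0, 1), (2, 1), (1, 1), (2, 1)]),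
   ([8, 8, 8, 7, 7, 6, 6], [(0, 1), (1, 1), (0, 1), (0, 1), (0, 1), (1, 1), (0, 1)]),
   ([8, 8, 8, 7, 7, 6, 5], [(0, 1), (1, 1), (1, 1), (0, 1), (0, 1), (1, 1), (0, 1)]),
   ([8, 8, 8, 7, 7, 6, 4, 4], [(0, 1), (0, 1), (0, 1), (0, 1), (0, 1), (0, 1)]),
   ([8, 8, 8, 7, 7, 6, 4, 3], [(0, 1), (0, 1), (0, 1), (0, 1), (1, 1), (0, 1)]),
   ([8, 8, 8, 7, 7, 6, 4, 2], [(0, 1), (1, 1), (0, 1), (0, 1), (0, 1), (1, 1), (0, 1)]),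
   ([8, 8, 8, 7, 7, 6, 3], [(0, 1), (0, 1), (0, 1), (2, 1), (1, 1), (2, 1)]),
   ([8, 8, 8, 7, 7, 6, 2], [(0, 1), (0, 1), (0, 1), (2, 1), (2, 1), (2, 1)]),
   ([8, 8, 8, 7, 7, 5], [(0, 1), (2, 1), (2, 1), (2, 1), (1, 1), (2, 1)]),
   ([8, 8, 8, 7, 7, 4], [(0, 1), (2, 1), (2, 1), (2, 1), (2, 1), (2, 1)]),
   ([8, 8, 8, 7, 7, 3], [(0, 1), (0, 1), (2, 1), (7, 2), (0, 1), (2, 1)]),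
   ([8, 8, 8, 7, 6, 6, 6], [(0, 1), (1, 1), (1, 1), (0, 1), (0, 1), (1, 1), (0, 1)]),
   ([8, 8, 8, 7, 6, 6, 5, 4], [(0, 1), (0, 1), (0, 1), (0, 1), (0, 1), (0, 1)]),
   ([8, 8, 8, 7, 6, 6, 5, 3], [(0, 1), (0, 1), (0, 1), (0, 1), (1, 1), (0, 1)]),
   ([8, 8, 8, 7, 6, 6, 5, 2], [(0, 1), (1, 1), (0, 1), (0, 1), (0, 1), (1, 1), (0, 1)]),
   ([8, 8, 8, 7, 6, 6, 4], [(0, 1), (1, 1), (1, 1), (0, 1), (0, 1), (1, 1), (2, 1)]),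
   ([8, 8, 8, 7, 6, 6, 3], [(0, 1), (0, 1), (2, 1), (2, 1), (2, 1), (0, 1)]),
   ([8, 8, 8, 7, 6, 5], [(0, 1), (2, 1), (2, 1), (2, 1), (2, 1), (2, 1)]),
   ([8, 8, 8, 7, 6, 4], [(0, 1), (2, 1), (2, 1), (5, 2), (0, 1), (2, 1)]),
   ([8, 8, 8, 7, 6, 3], [(0, 1), (2, 1), (2, 1), (4, 1), (2, 1), (2, 1)]),
   ([8, 8, 8, 7, 5, 5], [(0, 1), (2, 1), (2, 1), (5, 2), (0, 1), (2, 1)]),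
   ([8, 8, 8, 7, 5, 4], [(0, 1), (3, 1), (3, 1), (0, 1), (2, 1), (2, 1), (2, 1)]),
   ([8, 8, 8, 7, 4], [(9, 2), (2, 1), (0, 1), (4, 1), (0, 1), (2, 1)]),
   ([8, 8, 8, 6, 6, 6], [(0, 1), (2, 1), (1, 1), (2, 1), (2, 1), (1, 1), (2, 1)]),
   ([8, 8, 8, 6, 6, 5], [(0, 1), (2, 1), (2, 1), (5, 2), (0, 1), (2, 1)]),
   ([8, 8, 8, 6, 6, 4], [(0, 1), (3, 1), (3, 1), (0, 1), (2, 1), (2, 1), (2, 1)]),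
   ([8, 8, 8, 6, 5], [(10, 3), (3, 1), (0, 1), (0, 1), (2, 1), (0, 1), (2, 1)]),
   ([8, 8, 8, 6, 4], [(9, 2), (4, 1), (5, 1), (0, 1), (0, 1), (0, 1), (0, 1)]),
   ([8, 8, 8, 5], [(9, 2), (4, 1), (4, 1), (4, 1), (0, 1), (2, 1)]),
   ([8, 8, 8, 4], [(9, 2), (5, 1), (4, 1), (0, 1), (4, 1), (0, 1), (2, 1)]),
   ([8, 8, 7, 7, 7, 7, 7], [(0, 1), (0, 1), (0, 1), (0, 1), (1, 1), (0, 1)]),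
   ([8, 8, 7, 7, 7, 7, 6], [(0, 1), (1, 1), (1, 1), (0, 1), (0, 1), (0, 1), (0, 1)]),
   ([8, 8, 7, 7, 7, 7, 5], [(0, 1), (1, 1), (1, 1), (0, 1), (0, 1), (1, 1), (0, 1)]),
   ([8, 8, 7, 7, 7, 7, 4, 4], [(0, 1), (0, 1), (0, 1), (0, 1), (0, 1), (0, 1)]),
   ([8, 8, 7, 7, 7, 7, 4, 3], [(0, 1), (0, 1), (0, 1), (0, 1), (1, 1), (0, 1)]),
   ([8, 8, 7, 7, 7, 7, 4, 2], [(0, 1), (1, 1), (1, 1), (0, 1), (0, 1), (0, 1), (0, 1)]),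
   ([8, 8, 7, 7, 7, 7, 3], [(0, 1), (0, 1), (0, 1), (2, 1), (1, 1), (2, 1)]),
   ([8, 8, 7, 7, 7, 7, 2], [(0, 1), (0, 1), (0, 1), (2, 1), (2, 1), (2, 1)]),
   ([8, 8, 7, 7, 7, 6, 6], [(0, 1), (1, 1), (1, 1), (0, 1), (0, 1), (1, 1), (0, 1)]),
   ([8, 8, 7, 7, 7, 6, 5, 4], [(0, 1), (0, 1), (0, 1), (0, 1), (0, 1), (0, 1)]),
   ([8, 8, 7, 7, 7, 6, 5, 3], [(0, 1), (0, 1), (0, 1), (0, 1), (1, 1), (0, 1)]),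
   ([8, 8, 7, 7, 7, 6, 5, 2], [(0, 1), (1, 1), (1, 1), (0, 1), (0, 1), (0, 1), (0, 1)]),
   ([8, 8, 7, 7, 7, 6, 4], [(0, 1), (1, 1), (1, 1), (0, 1), (0, 1), (1, 1), (2, 1)]),
   ([8, 8, 7, 7, 7, 6, 3], [(0, 1), (0, 1), (0, 1), (2, 1), (2, 1), (2, 1)]),
   ([8, 8, 7, 7, 7, 5], [(0, 1), (2, 1), (2, 1), (2, 1), (2, 1), (2, 1)]),
   ([8, 8, 7, 7, 7, 4], [(0, 1), (2, 1), (2, 1), (5, 2), (0, 1), (2, 1)]),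
   ([8, 8, 7, 7, 7, 3], [(0, 1), (0, 1), (4, 1), (4, 1), (2, 1), (2, 1)]),
   ([8, 8, 7, 7, 6, 6], [(0, 1), (2, 1), (1, 1), (2, 1), (2, 1), (1, 1), (2, 1)]),
   ([8, 8, 7, 7, 6, 5], [(0, 1), (2, 1), (2, 1), (5, 2), (0, 1), (2, 1)]),
   ([8, 8, 7, 7, 6, 4], [(0, 1), (3, 1), (3, 1), (0, 1), (2, 1), (2, 1), (2, 1)]),
   ([8, 8, 7, 7, 5], [(10, 3), (3, 1), (0, 1), (0, 1), (2, 1), (0, 1), (2, 1)]),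
   ([8, 8, 7, 7, 4], [(9, 2), (4, 1), (5, 1), (0, 1), (0, 1), (0, 1), (0, 1)])]

def cm_11_8_6_3_11 : List CM :=
  [⟨[8, 8, 7, 6, 6, 6], 2, [([4, 4, 4, 4, 2, 2], (.ev, 0)), ([1, 1, 1, 1, 1, 1], (.pl 1, 2)), ([0, 0, 1, 1, 1, 1], (.pl 1, 2)), ([3, 3, 0, 0, 0, 0], (.ev, 2)), ([0, 0, 0, 0, 2, 2], (.ev, 2)), ([0, 0, 1, 0, 0, 0], (.pl 1, 1)), ([0, 0, 0, 0, 0, 0], (.ev, 2))], [1, 0, 0, 1, 1, 0, 1]⟩,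
   ⟨[8, 8, 7, 6, 6, 5], 2, [([4, 4, 4, 4, 2, 2], (.ev, 0)), ([1, 1, 1, 1, 1, 0], (.pl 1, 3)), ([0, 0, 1, 1, 0, 1], (.pl 1, 3)), ([3, 3, 1, 0, 1, 0], (.ev, 0)), ([0, 0, 0, 0, 2, 2], (.ev, 2)), ([0, 0, 0, 0, 0, 0], (.pl 1, 2)), ([0, 0, 0, 0, 0, 0], (.ev, 2))], [1, 0, 0, 1, 1, 0, 1]⟩,
   ⟨[8, 8, 7, 6, 6, 4], 1, [([4, 4, 4, 4, 2, 2], (.ev, 0)), ([4, 4, 2, 0, 2, 0], (.ev, 2)), ([0, 0, 1, 2, 2, 1], (.ev, 2)), ([0, 0, 0, 0, 0, 0], (.ev, 6)), ([0, 0, 0, 0, 0, 1], (.pl 1, 1)), ([0, 0, 0, 0, 0, 0], (.ev, 2))], [1, 1, 1, 2, 1, 1]⟩,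
   ⟨[8, 8, 7, 6, 5, 5], 1, [([4, 4, 3, 3, 2, 2], (.ev, 2)), ([4, 4, 2, 2, 0, 0], (.ev, 2)), ([0, 0, 0, 0, 3, 3], (.ev, 2)), ([0, 0, 1, 1, 0, 0], (.ev, 4)), ([0, 0, 1, 0, 0, 0], (.pl 1, 1)), ([0, 0, 0, 0, 0, 0], (.ev, 2))], [1, 1, 1, 2, 1, 1]⟩,
   ⟨[8, 8, 7, 6, 5, 4], 1, [([4, 4, 4, 4, 2, 2], (.ev, 0)), ([4, 4, 2, 0, 2, 0], (.ev, 2)), ([0, 0, 0, 2, 0, 2], (.ev, 4)), ([0, 0, 1, 0, 1, 0], (.ev, 4)), ([0, 0, 0, 0, 0, 0], (.pl 1, 2)), ([0, 0, 0, 0, 0, 0], (.ev, 2))], [1, 1, 1, 1, 0, 1]⟩,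
   ⟨[8, 8, 7, 6, 4], 1, [([4, 4, 2, 2, 0], (.ev, 8)), ([4, 2, 4, 2, 0], (.ev, 2)), ([0, 2, 1, 1, 2], (.ev, 2)), ([0, 0, 0, 1, 1], (.ev, 4)), ([0, 0, 0, 0, 1], (.pl 1, 1)), ([0, 0, 0, 0, 0], (.ev, 2))], [2, 1, 1, 1, 1, 1]⟩,
   ⟨[8, 8, 7, 5], 2, [([4, 4, 2, 2], (.ev, 8)), ([0, 1, 1, 1], (.pl 1, 5)), ([0, 1, 0, 1], (.pl 1, 4)), ([4, 0, 4, 0], (.ev, 0)), ([0, 1, 0, 1], (.ev, 4)), ([0, 1, 0, 0], (.pl 1, 1)), ([0, 0, 0, 0], (.ev, 2))], [2, 0, 0, 1, 1, 1, 1]⟩,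
   ⟨[8, 8, 6, 6, 6, 6], 2, [([4, 4, 4, 4, 2, 2], (.ev, 0)), ([1, 1, 1, 1, 1, 1], (.pl 1, 2)), ([0, 0, 1, 1, 1, 1], (.pl 1, 2)), ([3, 3, 0, 0, 0, 0], (.ev, 2)), ([0, 0, 0, 0, 2, 2], (.ev, 2)), ([0, 0, 0, 0, 0, 0], (.pl 1, 2)), ([0, 0, 0, 0, 0, 0], (.ev, 2))], [1, 0, 0, 1, 1, 0, 1]⟩,
   ⟨[8, 8, 6, 6, 6, 5], 1, [([4, 4, 3, 3, 2, 2], (.ev, 2)), ([4, 4, 2, 0, 2, 0], (.ev, 2)), ([0, 0, 0, 3, 0, 3], (.ev, 2)), ([0, 0, 1, 0, 1, 0], (.ev, 4)), ([0, 0, 0, 0, 1, 0], (.pl 1, 1)), ([0, 0, 0, 0, 0, 0], (.ev, 2))], [1, 1, 1, 2, 1, 1]⟩,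
   ⟨[8, 8, 6, 6, 6, 4], 1, [([4, 4, 4, 4, 2, 2], (.ev, 0)), ([3, 3, 2, 1, 2, 1], (.ev, 2)), ([1, 1, 0, 1, 1, 0], (.ev, 4)), ([0, 0, 0, 0, 1, 1], (.ev, 4)), ([0, 0, 0, 0, 0, 0], (.pl 1, 2)), ([0, 0, 0, 0, 0, 0], (.ev, 2))], [1, 1, 1, 1, 0, 1]⟩,
   ⟨[8, 8, 6, 6, 5], 2, [([4, 4, 2, 2, 0], (.ev, 8)), ([1, 1, 1, 1, 1], (.pl 1, 3)), ([1, 1, 1, 1, 1], (.pl 1, 1)), ([2, 2, 2, 0, 2], (.ev, 0)), ([0, 0, 0, 1, 1], (.ev, 4)), ([0, 0, 0, 1, 0], (.pl 1, 1)), ([0, 0, 0, 0, 0], (.ev, 2))], [3, 0, 1, 1, 1, 1, 1]⟩,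
   ⟨[8, 8, 6, 6, 4], 2, [([4, 4, 2, 2, 0], (.ev, 8)), ([0, 0, 1, 1, 1], (.pl 1, 5)), ([0, 0, 0, 1, 1], (.pl 1, 4)), ([4, 4, 0, 0, 0], (.ev, 0)), ([0, 0, 2, 2, 0], (.ev, 2)), ([0, 0, 0, 0, 1], (.pl 1, 1)), ([0, 0, 1, 0, 1], (.ev, 0))], [2, 0, 0, 1, 1, 1, 1]⟩,
   ⟨[8, 8, 6, 5], 2, [([4, 4, 2, 2], (.ev, 8)), ([1, 1, 1, 1], (.pl 1, 4)), ([0, 0, 1, 1], (.pl 1, 4)), ([3, 3, 0, 0], (.ev, 2)), ([0, 0, 1, 1], (.ev, 4)), ([0, 0, 1, 0], (.pl 1, 1)), ([0, 0, 0, 0], (.ev, 2))], [2, 0, 0, 1, 1, 1, 1]⟩,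
   ⟨[8, 8, 5, 5, 5], 1, [([4, 4, 2, 2, 0], (.ev, 8)), ([4, 2, 2, 0, 4], (.ev, 2)), ([0, 2, 0, 2, 0], (.ev, 4)), ([0, 0, 1, 1, 0], (.ev, 4)), ([0, 0, 0, 0, 1], (.pl 1, 1)), ([0, 0, 0, 0, 0], (.ev, 2))], [2, 1, 1, 1, 1, 1]⟩,
   ⟨[8, 7, 7, 7, 7, 7, 7], 2, [([4, 4, 4, 4, 2, 2, 0], (.ev, 0)), ([1, 1, 1, 1, 1, 1, 1], (.pl 1, 1)), ([0, 1, 1, 1, 0, 1, 1], (.pl 1, 1)), ([0, 0, 0, 0, 4, 0, 4], (.ev, 0)), ([3, 0, 0, 0, 0, 3, 0], (.ev, 0)), ([0, 0, 0, 1, 0, 0, 1], (.pl 1, 0)), ([0, 1, 1, 0, 0, 0, 0], (.ev, 0))], [1, 0, 0, 1, 1, 0, 1]⟩,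
   ⟨[8, 7, 7, 7, 7, 7, 6], 2, [([4, 4, 4, 4, 2, 2, 0], (.ev, 0)), ([1, 1, 1, 1, 1, 1, 1], (.pl 1, 1)), ([0, 1, 1, 1, 0, 1, 1], (.pl 1, 1)), ([0, 0, 0, 0, 4, 0, 4], (.ev, 0)), ([3, 0, 0, 0, 0, 3, 0], (.ev, 0)), ([0, 0, 0, 1, 0, 0, 0], (.pl 1, 1)), ([0, 1, 1, 0, 0, 0, 0], (.ev, 0))], [1, 0, 0, 1, 1, 0, 1]⟩,
   ⟨[8, 7, 7, 7, 7, 7, 5, 4], 1, [([4, 4, 4, 4, 2, 2, 0, 0], (.ev, 0)), ([2, 1, 0, 0, 4, 4, 2, 1], (.ev, 0)), ([0, 0, 3, 3, 0, 0, 1, 1], (.ev, 0)), ([2, 2, 0, 0, 0, 0, 1, 1], (.ev, 0)), ([0, 0, 0, 0, 0, 0, 1, 1], (.pl 1, 0)), ([0, 0, 0, 0, 1, 1, 0, 0], (.ev, 0))], [1, 1, 1, 1, 0, 1]⟩,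
   ⟨[8, 7, 7, 7, 7, 7, 5, 3], 1, [([4, 4, 4, 4, 2, 2, 0, 0], (.ev, 0)), ([2, 1, 1, 0, 4, 4, 2, 0], (.ev, 0)), ([1, 0, 0, 3, 0, 0, 3, 1], (.ev, 0)), ([1, 2, 2, 0, 0, 0, 0, 1], (.ev, 0)), ([0, 0, 0, 0, 0, 0, 0, 1], (.pl 1, 1)), ([0, 0, 0, 0, 1, 1, 0, 0], (.ev, 0))], [1, 1, 1, 1, 0, 1]⟩,
   ⟨[8, 7, 7, 7, 7, 7, 5, 2], 2, [([4, 4, 4, 4, 2, 2, 0, 0], (.ev, 0)), ([1, 1, 1, 1, 1, 1, 1, 1], (.pl 1, 0)), ([0, 1, 1, 1, 0, 0, 1, 1], (.pl 1, 1)), ([0, 0, 0, 0, 4, 4, 0, 0], (.ev, 0)), ([3, 0, 0, 0, 0, 0, 3, 0], (.ev, 0)), ([0, 0, 0, 1, 0, 0, 0, 0], (.pl 1, 1)), ([0, 1, 1, 0, 0, 0, 0, 0], (.ev, 0))], [1, 0, 0, 1, 1, 0, 1]⟩,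
   ⟨[8, 7, 7, 7, 7, 7, 4], 2, [([4, 4, 4, 4, 2, 2, 0], (.ev, 0)), ([1, 1, 1, 1, 1, 1, 1], (.pl 1, 1)), ([1, 1, 1, 1, 0, 0, 1], (.pl 1, 1)), ([0, 0, 0, 0, 4, 4, 0], (.ev, 0)), ([2, 1, 1, 0, 0, 0, 2], (.ev, 0)), ([0, 0, 0, 1, 0, 0, 0], (.pl 1, 1)), ([0, 0, 0, 0, 0, 0, 0], (.ev, 2))], [1, 0, 0, 1, 1, 0, 1]⟩,
   ⟨[8, 7, 7, 7, 7, 7, 3], 1, [([4, 4, 4, 4, 2, 2, 0], (.ev, 0)), ([2, 2, 1, 1, 4, 4, 0], (.ev, 0)), ([2, 0, 2, 2, 0, 0, 2], (.ev, 0)), ([0, 1, 0, 0, 1, 1, 1], (.ev, 2)), ([0, 0, 0, 0, 0, 0, 0], (.pl 1, 2)), ([0, 0, 0, 0, 0, 0, 0], (.ev, 2))], [1, 1, 1, 1, 0, 1]⟩,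
   ⟨[8, 7, 7, 7, 7, 6], 2, [([4, 4, 4, 4, 2, 2], (.ev, 0)), ([1, 1, 1, 1, 1, 1], (.pl 1, 2)), ([0, 1, 1, 1, 1, 1], (.pl 1, 1)), ([3, 0, 0, 0, 3, 0], (.ev, 2)), ([0, 1, 1, 1, 0, 1], (.ev, 2)), ([0, 0, 0, 0, 0, 1], (.pl 1, 1)), ([0, 0, 0, 0, 0, 0], (.ev, 2))], [1, 0, 0, 1, 1, 0, 1]⟩,
   ⟨[8, 7, 7, 7, 7, 5], 1, [([4, 4, 4, 4, 2, 2], (.ev, 0)), ([4, 2, 2, 0, 4, 0], (.ev, 2)), ([0, 0, 0, 3, 0, 3], (.ev, 2)), ([0, 1, 1, 0, 0, 0], (.ev, 4)), ([0, 0, 0, 0, 1, 0], (.pl 1, 1)), ([0, 0, 0, 0, 0, 0], (.ev, 2))], [1, 1, 1, 2, 1, 1]⟩,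
   ⟨[8, 7, 7, 7, 7, 4], 2, [([4, 4, 4, 4, 2, 2], (.ev, 0)), ([0, 1, 1, 1, 1, 1], (.pl 1, 3)), ([0, 1, 1, 1, 0, 0], (.pl 1, 3)), ([4, 0, 0, 0, 4, 0], (.ev, 0)), ([0, 1, 1, 1, 0, 1], (.ev, 2)), ([0, 0, 0, 0, 0, 0], (.pl 1, 2)), ([0, 0, 0, 0, 0, 0], (.ev, 2))], [1, 0, 0, 1, 1, 0, 1]⟩,
   ⟨[8, 7, 7, 7, 6, 6], 2, [([4, 4, 4, 4, 2, 2], (.ev, 0)), ([1, 1, 1, 1, 1, 1], (.pl 1, 2)), ([0, 1, 1, 1, 0, 1], (.pl 1, 2)), ([3, 0, 0, 0, 3, 0], (.ev, 2)), ([0, 1, 1, 1, 0, 1], (.ev, 2)), ([0, 0, 0, 0, 0, 1], (.pl 1, 1)), ([0, 0, 0, 0, 0, 0], (.ev, 2))], [1, 0, 0, 1, 1, 0, 1]⟩,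
   ⟨[8, 7, 7, 7, 6, 5], 2, [([4, 4, 4, 4, 2, 2], (.ev, 0)), ([1, 1, 1, 1, 1, 0], (.pl 1, 3)), ([0, 1, 1, 0, 0, 1], (.pl 1, 3)), ([3, 1, 1, 0, 3, 0], (.ev, 0)), ([0, 0, 0, 2, 0, 2], (.ev, 2)), ([0, 0, 0, 0, 0, 0], (.pl 1, 2)), ([0, 0, 0, 0, 0, 0], (.ev, 2))], [1, 0, 0, 1, 1, 0, 1]⟩,
   ⟨[8, 7, 7, 7, 6, 4], 1, [([4, 4, 4, 4, 2, 2], (.ev, 0)), ([4, 2, 2, 0, 4, 0], (.ev, 2)), ([0, 1, 1, 2, 0, 2], (.ev, 2)), ([0, 0, 0, 0, 0, 0], (.ev, 6)), ([0, 0, 0, 1, 0, 0], (.pl 1, 1)), ([0, 0, 0, 0, 0, 0], (.ev, 2))], [1, 1, 1, 2, 1, 1]⟩,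
   ⟨[8, 7, 7, 7, 5, 5], 1, [([4, 4, 3, 3, 2, 2], (.ev, 2)), ([4, 2, 4, 2, 0, 0], (.ev, 2)), ([0, 0, 0, 0, 3, 3], (.ev, 2)), ([0, 1, 0, 1, 0, 0], (.ev, 4)), ([0, 0, 0, 1, 0, 0], (.pl 1, 1)), ([0, 0, 0, 0, 0, 0], (.ev, 2))], [1, 1, 1, 2, 1, 1]⟩,
   ⟨[8, 7, 7, 7, 5, 4], 1, [([4, 4, 4, 4, 2, 2], (.ev, 0)), ([3, 3, 2, 2, 1, 1], (.ev, 2)), ([1, 0, 1, 1, 1, 0], (.ev, 4)), ([0, 0, 0, 0, 1, 1], (.ev, 4)), ([0, 0, 0, 0, 0, 0], (.pl 1, 2)), ([0, 0, 0, 0, 0, 0], (.ev, 2))], [1, 1, 1, 1, 0, 1]⟩,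
   ⟨[8, 7, 7, 7, 4], 1, [([4, 4, 2, 2, 0], (.ev, 8)), ([2, 0, 4, 4, 2], (.ev, 2)), ([2, 2, 1, 0, 1], (.ev, 2)), ([0, 1, 0, 1, 0], (.ev, 4)), ([0, 0, 0, 0, 1], (.pl 1, 1)), ([0, 0, 0, 0, 0], (.ev, 2))], [2, 1, 1, 1, 1, 1]⟩,
   ⟨[8, 7, 7, 6, 6, 6], 2, [([4, 4, 4, 4, 2, 2], (.ev, 0)), ([1, 1, 1, 1, 1, 1], (.pl 1, 2)), ([1, 1, 0, 1, 1, 0], (.pl 1, 2)), ([2, 1, 0, 0, 2, 1], (.ev, 2)), ([0, 0, 2, 0, 0, 2], (.ev, 2)), ([0, 0, 0, 0, 0, 0], (.pl 1, 2)), ([0, 0, 0, 0, 0, 0], (.ev, 2))], [1, 0, 0, 1, 1, 0, 1]⟩,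
   ⟨[8, 7, 7, 6, 6, 5], 1, [([4, 4, 3, 3, 2, 2], (.ev, 2)), ([4, 2, 4, 0, 2, 0], (.ev, 2)), ([0, 0, 0, 3, 0, 3], (.ev, 2)), ([0, 1, 0, 0, 1, 0], (.ev, 4)), ([0, 0, 0, 0, 1, 0], (.pl 1, 1)), ([0, 0, 0, 0, 0, 0], (.ev, 2))], [1, 1, 1, 2, 1, 1]⟩,
   ⟨[8, 7, 7, 6, 6, 4], 1, [([4, 4, 4, 4, 2, 2], (.ev, 0)), ([4, 2, 2, 0, 4, 0], (.ev, 2)), ([0, 0, 0, 2, 0, 2], (.ev, 4)), ([0, 1, 1, 0, 0, 0], (.ev, 4)), ([0, 0, 0, 0, 0, 0], (.pl 1, 2)), ([0, 0, 0, 0, 0, 0], (.ev, 2))], [1, 1, 1, 1, 0, 1]⟩,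
   ⟨[8, 7, 7, 6, 5], 2, [([4, 4, 2, 2, 0], (.ev, 8)), ([1, 1, 1, 1, 1], (.pl 1, 3)), ([1, 1, 1, 1, 1], (.pl 1, 1)), ([1, 0, 3, 1, 3], (.ev, 0)), ([1, 1, 0, 0, 0], (.ev, 4)), ([0, 0, 0, 1, 0], (.pl 1, 1)), ([0, 0, 0, 0, 0], (.ev, 2))], [3, 0, 1, 1, 1, 1, 1]⟩,
   ⟨[8, 7, 7, 6, 4], 2, [([4, 4, 2, 2, 0], (.ev, 8)), ([0, 1, 1, 1, 1], (.pl 1, 4)), ([0, 1, 0, 0, 0], (.pl 1, 5)), ([4, 0, 4, 0, 0], (.ev, 0)), ([0, 0, 0, 3, 3], (.ev, 0)), ([0, 1, 0, 0, 0], (.pl 1, 1)), ([0, 0, 0, 0, 0], (.ev, 2))], [2, 0, 0, 1, 1, 1, 1]⟩,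
   ⟨[8, 7, 7, 5], 2, [([4, 4, 2, 2], (.ev, 8)), ([1, 1, 1, 1], (.pl 1, 4)), ([1, 0, 0, 1], (.pl 1, 4)), ([2, 0, 2, 0], (.ev, 4)), ([0, 2, 2, 0], (.ev, 2)), ([0, 0, 0, 1], (.pl 1, 1)), ([0, 0, 0, 0], (.ev, 2))], [2, 0, 0, 1, 1, 1, 1]⟩,
   ⟨[8, 7, 6, 6], 2, [([4, 4, 2, 2], (.ev, 8)), ([1, 1, 1, 1], (.pl 1, 4)), ([0, 1, 0, 1], (.pl 1, 4)), ([3, 0, 3, 0], (.ev, 2)), ([0, 1, 0, 1], (.ev, 4)), ([0, 0, 0, 1], (.pl 1, 1)), ([0, 0, 0, 0], (.ev, 2))], [2, 0, 0, 1, 1, 1, 1]⟩,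
   ⟨[8, 7, 6, 5], 2, [([3, 3, 2, 2], (.ev, 10)), ([1, 0, 1, 1], (.pl 1, 5)), ([0, 0, 1, 1], (.pl 1, 4)), ([4, 4, 0, 0], (.ev, 0)), ([0, 0, 1, 1], (.ev, 4)), ([0, 0, 1, 0], (.pl 1, 1)), ([0, 0, 0, 0], (.ev, 2))], [2, 0, 0, 1, 1, 1, 1]⟩,
   ⟨[8, 7, 5, 5], 1, [([4, 4, 2, 2], (.ev, 8)), ([3, 3, 2, 2], (.ev, 4)), ([1, 0, 1, 0], (.ev, 6)), ([0, 0, 0, 0], (.ev, 6)), ([0, 0, 0, 1], (.pl 1, 1)), ([0, 0, 0, 0], (.ev, 2))], [2, 1, 1, 1, 1, 1]⟩,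
   ⟨[8, 6, 6, 6], 2, [([4, 4, 2, 2], (.ev, 8)), ([1, 1, 1, 1], (.pl 1, 4)), ([0, 0, 0, 1], (.pl 1, 5)), ([3, 0, 3, 0], (.ev, 2)), ([0, 1, 0, 1], (.ev, 4)), ([0, 0, 0, 1], (.pl 1, 1)), ([0, 0, 0, 0], (.ev, 2))], [2, 0, 0, 1, 1, 1, 1]⟩,
   ⟨[8, 6, 6, 5], 1, [([4, 4, 2, 2], (.ev, 8)), ([3, 2, 3, 2], (.ev, 4)), ([1, 0, 1, 0], (.ev, 6)), ([0, 0, 0, 0], (.ev, 6)), ([0, 0, 0, 1], (.pl 1, 1)), ([0, 0, 0, 0], (.ev, 2))], [2, 1, 1, 1, 1, 1]⟩,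
   ⟨[8, 6, 5, 5], 2, [([4, 4, 2, 2], (.ev, 8)), ([1, 1, 0, 1], (.pl 1, 5)), ([0, 1, 0, 1], (.pl 1, 4)), ([3, 0, 3, 0], (.ev, 2)), ([0, 0, 0, 0], (.ev, 6)), ([0, 0, 0, 1], (.pl 1, 1)), ([0, 0, 0, 0], (.ev, 2))], [2, 0, 0, 1, 1, 1, 1]⟩,
   ⟨[8, 5, 5, 5], 1, [([3, 3, 2, 2], (.ev, 10)), ([3, 2, 3, 2], (.ev, 4)), ([1, 0, 0, 1], (.ev, 6)), ([0, 0, 0, 0], (.ev, 6)), ([1, 0, 0, 0], (.pl 1, 1)), ([0, 0, 0, 0], (.ev, 2))], [2, 1, 1, 1, 1, 1]⟩,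
   ⟨[7, 7, 7, 7, 7, 7, 7], 2, [([4, 4, 4, 4, 2, 2, 0], (.ev, 0)), ([1, 1, 1, 1, 1, 1, 1], (.pl 1, 1)), ([0, 1, 1, 1, 0, 1, 1], (.pl 1, 1)), ([0, 0, 0, 0, 4, 0, 4], (.ev, 0)), ([2, 1, 1, 0, 0, 2, 0], (.ev, 0)), ([0, 0, 0, 0, 0, 0, 1], (.pl 1, 1)), ([0, 0, 0, 1, 0, 1, 0], (.ev, 0))], [1, 0, 0, 1, 1, 0, 1]⟩,
   ⟨[7, 7, 7, 7, 7, 7, 6, 4], 1, [([4, 4, 4, 4, 2, 2, 0, 0], (.ev, 0)), ([1, 1, 0, 0, 4, 2, 4, 2], (.ev, 0)), ([1, 0, 3, 3, 0, 1, 0, 0], (.ev, 0)), ([0, 2, 0, 0, 0, 2, 1, 1], (.ev, 0)), ([0, 0, 0, 0, 0, 0, 1, 1], (.pl 1, 0)), ([1, 0, 0, 0, 1, 0, 0, 0], (.ev, 0))], [1, 1, 1, 1, 0, 1]⟩,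
   ⟨[7, 7, 7, 7, 7, 7, 6, 3], 1, [([4, 4, 4, 4, 2, 2, 0, 0], (.ev, 0)), ([2, 1, 1, 0, 4, 2, 4, 0], (.ev, 0)), ([0, 1, 0, 3, 0, 3, 0, 1], (.ev, 0)), ([1, 0, 2, 0, 0, 0, 2, 1], (.ev, 0)), ([0, 0, 0, 0, 0, 0, 0, 1], (.pl 1, 1)), ([0, 1, 0, 0, 1, 0, 0, 0], (.ev, 0))], [1, 1, 1, 1, 0, 1]⟩,
   ⟨[7, 7, 7, 7, 7, 7, 6, 2], 2, [([4, 4, 4, 4, 2, 2, 0, 0], (.ev, 0)), ([0, 1, 1, 1, 1, 1, 1, 1], (.pl 1, 1)), ([0, 1, 1, 1, 0, 1, 1, 1], (.pl 1, 0)), ([0, 0, 0, 0, 4, 0, 4, 0], (.ev, 0)), ([3, 0, 0, 0, 0, 3, 0, 0], (.ev, 0)), ([0, 0, 0, 1, 0, 0, 0, 0], (.pl 1, 1)), ([0, 1, 1, 0, 0, 0, 0, 0], (.ev, 0))], [1, 0, 0, 1, 1, 0, 1]⟩,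
   ⟨[7, 7, 7, 7, 7, 7, 5, 5], 1, [([4, 4, 4, 4, 2, 2, 0, 0], (.ev, 0)), ([1, 1, 0, 0, 4, 4, 2, 2], (.ev, 0)), ([0, 0, 3, 3, 0, 0, 1, 1], (.ev, 0)), ([2, 2, 0, 0, 0, 0, 1, 1], (.ev, 0)), ([0, 0, 0, 0, 0, 0, 1, 1], (.pl 1, 0)), ([0, 0, 0, 0, 1, 1, 0, 0], (.ev, 0))], [1, 1, 1, 1, 0, 1]⟩,
   ⟨[7, 7, 7, 7, 7, 7, 5, 4], 1, [([4, 4, 4, 4, 2, 2, 0, 0], (.ev, 0)), ([1, 1, 0, 0, 4, 4, 2, 2], (.ev, 0)), ([1, 0, 3, 3, 0, 0, 1, 0], (.ev, 0)), ([1, 2, 0, 0, 0, 0, 2, 1], (.ev, 0)), ([0, 0, 0, 0, 0, 0, 0, 1], (.pl 1, 1)), ([0, 0, 0, 0, 1, 1, 0, 0], (.ev, 0))], [1, 1, 1, 1, 0, 1]⟩,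
   ⟨[7, 7, 7, 7, 7, 7, 5, 3], 2, [([4, 4, 4, 4, 2, 2, 0, 0], (.ev, 0)), ([0, 1, 1, 1, 1, 1, 1, 1], (.pl 1, 1)), ([0, 1, 1, 1, 0, 0, 1, 1], (.pl 1, 1)), ([0, 0, 0, 0, 4, 4, 0, 0], (.ev, 0)), ([3, 0, 0, 0, 0, 0, 3, 0], (.ev, 0)), ([0, 0, 0, 1, 0, 0, 0, 1], (.pl 1, 0)), ([0, 1, 1, 0, 0, 0, 0, 0], (.ev, 0))], [1, 0, 0, 1, 1, 0, 1]⟩,
   ⟨[7, 7, 7, 7, 7, 7, 5, 2], 1, [([4, 4, 4, 4, 2, 2, 0, 0], (.ev, 0)), ([2, 1, 1, 0, 4, 4, 2, 0], (.ev, 0)), ([0, 1, 1, 3, 0, 0, 3, 0], (.ev, 0)), ([1, 1, 1, 0, 1, 1, 0, 1], (.ev, 0)), ([0, 0, 0, 0, 0, 0, 0, 1], (.pl 1, 1)), ([0, 0, 0, 0, 0, 0, 0, 0], (.ev, 2))], [1, 1, 1, 1, 0, 1]⟩,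
   ⟨[7, 7, 7, 7, 7, 7, 4], 2, [([4, 4, 4, 4, 2, 2, 0], (.ev, 0)), ([1, 1, 1, 1, 1, 1, 1], (.pl 1, 1)), ([0, 1, 1, 1, 0, 0, 1], (.pl 1, 2)), ([0, 0, 0, 0, 4, 4, 0], (.ev, 0)), ([2, 1, 1, 0, 0, 0, 2], (.ev, 0)), ([0, 0, 0, 1, 0, 0, 0], (.pl 1, 1)), ([0, 0, 0, 0, 0, 0, 0], (.ev, 2))], [1, 0, 0, 1, 1, 0, 1]⟩,
   ⟨[7, 7, 7, 7, 7, 7, 3], 1, [([4, 4, 4, 4, 2, 2, 0], (.ev, 0)), ([2, 2, 1, 1, 4, 4, 0], (.ev, 0)), ([1, 1, 2, 1, 1, 0, 2], (.ev, 0)), ([0, 0, 0, 1, 0, 1, 0], (.ev, 4)), ([0, 0, 0, 0, 0, 0, 1], (.pl 1, 1)), ([0, 0, 0, 0, 0, 0, 0], (.ev, 2))], [1, 1, 1, 2, 1, 1]⟩,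
   ⟨[7, 7, 7, 7, 7, 6], 2, [([4, 4, 4, 4, 2, 2], (.ev, 0)), ([1, 1, 1, 1, 1, 1], (.pl 1, 2)), ([1, 1, 1, 1, 1, 0], (.pl 1, 1)), ([0, 0, 0, 0, 3, 3], (.ev, 2)), ([1, 1, 1, 1, 0, 0], (.ev, 2)), ([0, 0, 0, 0, 0, 0], (.pl 1, 2)), ([0, 0, 0, 0, 0, 0], (.ev, 2))], [1, 0, 0, 1, 1, 0, 1]⟩,
   ⟨[7, 7, 7, 7, 7, 5], 1, [([4, 4, 3, 3, 2, 2], (.ev, 2)), ([2, 0, 4, 2, 4, 0], (.ev, 2)), ([1, 2, 0, 1, 0, 2], (.ev, 2)), ([0, 1, 0, 1, 1, 1], (.ev, 2)), ([0, 0, 0, 0, 0, 0], (.pl 1, 2)), ([0, 0, 0, 0, 0, 0], (.ev, 2))], [1, 1, 1, 1, 0, 1]⟩,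
   ⟨[7, 7, 7, 7, 7, 4], 1, [([4, 4, 4, 4, 2, 2], (.ev, 0)), ([3, 2, 2, 1, 3, 1], (.ev, 2)), ([0, 1, 1, 2, 2, 0], (.ev, 2)), ([0, 0, 0, 0, 0, 0], (.ev, 6)), ([0, 0, 0, 0, 0, 1], (.pl 1, 1)), ([0, 0, 0, 0, 0, 0], (.ev, 2))], [1, 1, 1, 2, 1, 1]⟩,
   ⟨[7, 7, 7, 7, 6, 6], 2, [([4, 4, 4, 4, 2, 2], (.ev, 0)), ([1, 1, 1, 1, 1, 1], (.pl 1, 2)), ([1, 1, 1, 1, 0, 0], (.pl 1, 2)), ([0, 0, 0, 0, 3, 3], (.ev, 2)), ([1, 1, 1, 1, 0, 0], (.ev, 2)), ([0, 0, 0, 0, 0, 0], (.pl 1, 2)), ([0, 0, 0, 0, 0, 0], (.ev, 2))], [1, 0, 0, 1, 1, 0, 1]⟩,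
   ⟨[7, 7, 7, 7, 6, 5], 1, [([4, 4, 3, 3, 2, 2], (.ev, 2)), ([2, 0, 4, 4, 2, 0], (.ev, 2)), ([0, 3, 0, 0, 0, 3], (.ev, 2)), ([1, 0, 0, 0, 1, 0], (.ev, 4)), ([0, 0, 0, 0, 1, 0], (.pl 1, 1)), ([0, 0, 0, 0, 0, 0], (.ev, 2))], [1, 1, 1, 2, 1, 1]⟩,
   ⟨[7, 7, 7, 7, 6, 4], 1, [([4, 4, 4, 4, 2, 2], (.ev, 0)), ([3, 2, 2, 1, 3, 1], (.ev, 2)), ([0, 1, 1, 1, 1, 0], (.ev, 4)), ([0, 0, 0, 1, 0, 1], (.ev, 4)), ([0, 0, 0, 0, 0, 0], (.pl 1, 2)), ([0, 0, 0, 0, 0, 0], (.ev, 2))], [1, 1, 1, 1, 0, 1]⟩,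
   ⟨[7, 7, 7, 7, 5], 2, [([4, 4, 2, 2, 0], (.ev, 8)), ([1, 1, 1, 1, 1], (.pl 1, 3)), ([1, 1, 1, 1, 1], (.pl 1, 1)), ([1, 0, 3, 3, 1], (.ev, 0)), ([0, 1, 0, 0, 1], (.ev, 4)), ([0, 0, 0, 0, 1], (.pl 1, 1)), ([0, 0, 0, 0, 0], (.ev, 2))], [3, 0, 1, 1, 1, 1, 1]⟩,
   ⟨[7, 7, 7, 7, 4], 2, [([4, 4, 2, 2, 0], (.ev, 8)), ([0, 1, 1, 1, 1], (.pl 1, 4)), ([0, 1, 0, 0, 0], (.pl 1, 5)), ([0, 0, 4, 4, 0], (.ev, 0)), ([3, 0, 0, 0, 3], (.ev, 0)), ([0, 1, 0, 0, 0], (.pl 1, 1)), ([0, 0, 0, 0, 0], (.ev, 2))], [2, 0, 0, 1, 1, 1, 1]⟩,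
   ⟨[7, 7, 7, 6], 2, [([4, 4, 2, 2], (.ev, 8)), ([1, 1, 1, 1], (.pl 1, 4)), ([0, 0, 1, 1], (.pl 1, 4)), ([0, 0, 2, 2], (.ev, 4)), ([2, 2, 0, 0], (.ev, 2)), ([0, 0, 1, 0], (.pl 1, 1)), ([0, 0, 0, 0], (.ev, 2))], [2, 0, 0, 1, 1, 1, 1]⟩,
   ⟨[7, 7, 7, 5], 2, [([4, 4, 2, 2], (.ev, 8)), ([1, 1, 1, 1], (.pl 1, 4)), ([0, 0, 1, 0], (.pl 1, 5)), ([2, 2, 2, 2], (.ev, 0)), ([0, 0, 0, 0], (.ev, 6)), ([0, 0, 1, 0], (.pl 1, 1)), ([0, 0, 0, 0], (.ev, 2))], [2, 0, 0, 1, 1, 1, 1]⟩,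
   ⟨[7, 7, 6, 6, 6, 6], 2, [([4, 4, 4, 4, 2, 2], (.ev, 0)), ([1, 1, 1, 1, 1, 0], (.pl 1, 3)), ([0, 0, 1, 1, 0, 1], (.pl 1, 3)), ([0, 0, 0, 0, 3, 3], (.ev, 2)), ([2, 2, 0, 0, 0, 0], (.ev, 2)), ([0, 0, 0, 0, 0, 0], (.pl 1, 2)), ([0, 0, 0, 0, 0, 0], (.ev, 2))], [1, 0, 0, 1, 1, 0, 1]⟩,
   ⟨[7, 7, 6, 6, 6, 5], 2, [([4, 4, 3, 3, 2, 2], (.ev, 2)), ([0, 1, 1, 1, 1, 1], (.pl 1, 3)), ([0, 1, 1, 1, 0, 1], (.pl 1, 2)), ([3, 0, 0, 0, 3, 0], (.ev, 2)), ([0, 1, 1, 1, 0, 1], (.ev, 2)), ([0, 0, 0, 0, 0, 0], (.pl 1, 2)), ([0, 0, 0, 0, 0, 0], (.ev, 2))], [1, 0, 0, 1, 1, 0, 1]⟩,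
   ⟨[7, 7, 6, 6, 6, 4], 1, [([4, 4, 4, 4, 2, 2], (.ev, 0)), ([3, 2, 2, 0, 3, 0], (.ev, 4)), ([0, 0, 0, 2, 0, 2], (.ev, 4)), ([0, 1, 0, 0, 1, 0], (.ev, 4)), ([0, 0, 0, 0, 0, 0], (.pl 1, 2)), ([0, 0, 0, 0, 0, 0], (.ev, 2))], [1, 1, 1, 1, 0, 1]⟩,
   ⟨[7, 7, 6, 6, 5], 1, [([4, 4, 2, 2, 0], (.ev, 8)), ([2, 0, 4, 2, 4], (.ev, 2)), ([0, 2, 0, 2, 0], (.ev, 4)), ([1, 1, 0, 0, 0], (.ev, 4)), ([0, 0, 0, 0, 1], (.pl 1, 1)), ([0, 0, 0, 0, 0], (.ev, 2))], [2, 1, 1, 1, 1, 1]⟩,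
   ⟨[7, 7, 6, 5], 1, [([4, 4, 2, 2], (.ev, 8)), ([3, 2, 3, 2], (.ev, 4)), ([0, 1, 1, 0], (.ev, 6)), ([0, 0, 0, 0], (.ev, 6)), ([0, 0, 0, 1], (.pl 1, 1)), ([0, 0, 0, 0], (.ev, 2))], [2, 1, 1, 1, 1, 1]⟩,
   ⟨[7, 7, 5, 5, 5], 1, [([4, 4, 2, 2, 0], (.ev, 8)), ([3, 2, 2, 0, 3], (.ev, 4)), ([0, 0, 0, 2, 2], (.ev, 4)), ([0, 1, 1, 0, 0], (.ev, 4)), ([0, 0, 0, 1, 0], (.pl 1, 1)), ([0, 0, 0, 0, 0], (.ev, 2))], [2, 1, 1, 1, 1, 1]⟩,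
   ⟨[7, 6, 6, 6, 6], 2, [([4, 4, 2, 2, 0], (.ev, 8)), ([1, 1, 1, 1, 1], (.pl 1, 3)), ([1, 1, 1, 1, 1], (.pl 1, 1)), ([1, 0, 2, 1, 2], (.ev, 2)), ([0, 0, 0, 1, 1], (.ev, 4)), ([0, 0, 0, 0, 1], (.pl 1, 1)), ([0, 0, 0, 0, 0], (.ev, 2))], [3, 0, 1, 1, 1, 1, 1]⟩,
   ⟨[7, 6, 6, 6, 5], 2, [([4, 4, 2, 2, 0], (.ev, 8)), ([1, 1, 0, 1, 0], (.pl 1, 5)), ([1, 0, 0, 1, 0], (.pl 1, 4)), ([0, 0, 4, 0, 4], (.ev, 0)), ([1, 1, 0, 1, 1], (.ev, 2)), ([0, 0, 0, 1, 0], (.pl 1, 1)), ([0, 0, 0, 0, 0], (.ev, 2))], [2, 0, 0, 1, 1, 1, 1]⟩,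
   ⟨[7, 6, 6, 5], 2, [([4, 4, 2, 2], (.ev, 8)), ([0, 1, 1, 1], (.pl 1, 5)), ([0, 1, 0, 1], (.pl 1, 4)), ([3, 0, 3, 0], (.ev, 2)), ([0, 0, 0, 0], (.ev, 6)), ([0, 0, 0, 1], (.pl 1, 1)), ([0, 0, 0, 0], (.ev, 2))], [2, 0, 0, 1, 1, 1, 1]⟩,
   ⟨[7, 6, 5, 5], 1, [([4, 4, 2, 2], (.ev, 8)), ([2, 2, 2, 2], (.ev, 6)), ([1, 0, 1, 0], (.ev, 6)), ([0, 0, 0, 0], (.ev, 6)), ([0, 0, 0, 1], (.pl 1, 1)), ([0, 0, 0, 0], (.ev, 2))], [2, 1, 1, 1, 1, 1]⟩,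
   ⟨[7, 5, 5, 5], 2, [([4, 4, 2, 2], (.ev, 8)), ([0, 1, 0, 1], (.pl 1, 6)), ([0, 0, 0, 1], (.pl 1, 5)), ([3, 0, 3, 0], (.ev, 2)), ([0, 0, 0, 0], (.ev, 6)), ([0, 0, 0, 1], (.pl 1, 1)), ([0, 0, 0, 0], (.ev, 2))], [2, 0, 0, 1, 1, 1, 1]⟩,
   ⟨[6, 6, 6, 6, 6, 6], 2, [([4, 4, 3, 3, 2, 2], (.ev, 2)), ([1, 1, 1, 1, 1, 0], (.pl 1, 3)), ([1, 1, 0, 0, 0, 1], (.pl 1, 3)), ([0, 0, 0, 0, 3, 3], (.ev, 2)), ([0, 0, 2, 2, 0, 0], (.ev, 2)), ([0, 0, 0, 0, 0, 0], (.pl 1, 2)), ([0, 0, 0, 0, 0, 0], (.ev, 2))], [1, 0, 0, 1, 1, 0, 1]⟩,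
   ⟨[6, 6, 6, 6, 6, 5], 1, [([4, 4, 3, 3, 2, 2], (.ev, 2)), ([1, 1, 3, 2, 3, 2], (.ev, 2)), ([1, 1, 0, 1, 1, 0], (.ev, 4)), ([0, 0, 0, 0, 0, 0], (.ev, 6)), ([0, 0, 0, 0, 0, 1], (.pl 1, 1)), ([0, 0, 0, 0, 0, 0], (.ev, 2))], [1, 1, 1, 2, 1, 1]⟩,
   ⟨[6, 6, 6, 6, 5], 1, [([4, 4, 2, 2, 0], (.ev, 8)), ([2, 0, 3, 2, 3], (.ev, 4)), ([0, 2, 0, 2, 0], (.ev, 4)), ([0, 0, 1, 0, 1], (.ev, 4)), ([0, 0, 0, 0, 1], (.pl 1, 1)), ([0, 0, 0, 0, 0], (.ev, 2))], [2, 1, 1, 1, 1, 1]⟩,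
   ⟨[6, 6, 6, 5], 1, [([4, 4, 2, 2], (.ev, 8)), ([2, 2, 2, 2], (.ev, 6)), ([0, 0, 1, 1], (.ev, 6)), ([0, 0, 0, 0], (.ev, 6)), ([0, 0, 1, 0], (.pl 1, 1)), ([0, 0, 0, 0], (.ev, 2))], [2, 1, 1, 1, 1, 1]⟩,
   ⟨[6, 6, 5, 5, 5], 2, [([4, 4, 2, 2, 0], (.ev, 8)), ([1, 1, 1, 0, 1], (.pl 1, 4)), ([0, 0, 0, 1, 1], (.pl 1, 4)), ([1, 0, 1, 1, 1], (.ev, 4)), ([0, 1, 1, 1, 1], (.ev, 2)), ([0, 0, 0, 0, 1], (.pl 1, 1)), ([0, 0, 0, 0, 0], (.ev, 2))], [2, 0, 0, 1, 1, 1, 1]⟩]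

def cmC_11_8_6_3_11 : List (List ℕ × List (ℕ × ℕ)) :=
  [([8, 8, 7, 6, 6, 6], [(0, 1), (2, 1), (2, 1), (2, 1), (2, 1), (1, 1), (2, 1)]),
   ([8, 8, 7, 6, 6, 5], [(0, 1), (3, 1), (3, 1), (0, 1), (2, 1), (2, 1), (2, 1)]),
   ([8, 8, 7, 6, 6, 4], [(0, 1), (2, 1), (2, 1), (7, 2), (0, 1), (2, 1)]),
   ([8, 8, 7, 6, 5, 5], [(2, 1), (2, 1), (2, 1), (5, 2), (0, 1), (2, 1)]),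
   ([8, 8, 7, 6, 5, 4], [(0, 1), (2, 1), (4, 1), (4, 1), (2, 1), (2, 1)]),
   ([8, 8, 7, 6, 4], [(9, 2), (2, 1), (2, 1), (4, 1), (0, 1), (2, 1)]),
   ([8, 8, 7, 5], [(9, 2), (5, 1), (4, 1), (0, 1), (4, 1), (0, 1), (2, 1)]),
   ([8, 8, 6, 6, 6, 6], [(0, 1), (2, 1), (2, 1), (2, 1), (2, 1), (2, 1), (2, 1)]),
   ([8, 8, 6, 6, 6, 5], [(2, 1), (2, 1), (2, 1), (5, 2), (0, 1), (2, 1)]),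
   ([8, 8, 6, 6, 6, 4], [(0, 1), (2, 1), (4, 1), (4, 1), (2, 1), (2, 1)]),
   ([8, 8, 6, 6, 5], [(10, 3), (3, 1), (0, 1), (0, 1), (4, 1), (0, 1), (2, 1)]),
   ([8, 8, 6, 6, 4], [(9, 2), (5, 1), (4, 1), (0, 1), (2, 1), (0, 1), (0, 1)]),
   ([8, 8, 6, 5], [(9, 2), (4, 1), (4, 1), (2, 1), (4, 1), (0, 1), (2, 1)]),
   ([8, 8, 5, 5, 5], [(9, 2), (2, 1), (4, 1), (4, 1), (0, 1), (2, 1)]),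
   ([8, 7, 7, 7, 7, 7, 7], [(0, 1), (1, 1), (1, 1), (0, 1), (0, 1), (0, 1), (0, 1)]),
   ([8, 7, 7, 7, 7, 7, 6], [(0, 1), (1, 1), (1, 1), (0, 1), (0, 1), (1, 1), (0, 1)]),
   ([8, 7, 7, 7, 7, 7, 5, 4], [(0, 1), (0, 1), (0, 1), (0, 1), (0, 1), (0, 1)]),
   ([8, 7, 7, 7, 7, 7, 5, 3], [(0, 1), (0, 1), (0, 1), (0, 1), (1, 1), (0, 1)]),
   ([8, 7, 7, 7, 7, 7, 5, 2], [(0, 1), (0, 1), (1, 1), (0, 1), (0, 1), (1, 1), (0, 1)]),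
   ([8, 7, 7, 7, 7, 7, 4], [(0, 1), (1, 1), (1, 1), (0, 1), (0, 1), (1, 1), (2, 1)]),
   ([8, 7, 7, 7, 7, 7, 3], [(0, 1), (0, 1), (0, 1), (2, 1), (2, 1), (2, 1)]),
   ([8, 7, 7, 7, 7, 6], [(0, 1), (2, 1), (1, 1), (2, 1), (2, 1), (1, 1), (2, 1)]),
   ([8, 7, 7, 7, 7, 5], [(0, 1), (2, 1), (2, 1), (5, 2), (0, 1), (2, 1)]),
   ([8, 7, 7, 7, 7, 4], [(0, 1), (3, 1), (3, 1), (0, 1), (2, 1), (2, 1), (2, 1)]),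
   ([8, 7, 7, 7, 6, 6], [(0, 1), (2, 1), (2, 1), (2, 1), (2, 1), (1, 1), (2, 1)]),
   ([8, 7, 7, 7, 6, 5], [(0, 1), (3, 1), (3, 1), (0, 1), (2, 1), (2, 1), (2, 1)]),
   ([8, 7, 7, 7, 6, 4], [(0, 1), (2, 1), (2, 1), (7, 2), (0, 1), (2, 1)]),
   ([8, 7, 7, 7, 5, 5], [(2, 1), (2, 1), (2, 1), (5, 2), (0, 1), (2, 1)]),
   ([8, 7, 7, 7, 5, 4], [(0, 1), (2, 1), (4, 1), (4, 1), (2, 1), (2, 1)]),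
   ([8, 7, 7, 7, 4], [(9, 2), (2, 1), (2, 1), (4, 1), (0, 1), (2, 1)]),
   ([8, 7, 7, 6, 6, 6], [(0, 1), (2, 1), (2, 1), (2, 1), (2, 1), (2, 1), (2, 1)]),
   ([8, 7, 7, 6, 6, 5], [(2, 1), (2, 1), (2, 1), (5, 2), (0, 1), (2, 1)]),
   ([8, 7, 7, 6, 6, 4], [(0, 1), (2, 1), (4, 1), (4, 1), (2, 1), (2, 1)]),
   ([8, 7, 7, 6, 5], [(10, 3), (3, 1), (0, 1), (0, 1), (4, 1), (0, 1), (2, 1)]),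
   ([8, 7, 7, 6, 4], [(9, 2), (4, 1), (5, 1), (0, 1), (0, 1), (0, 1), (2, 1)]),
   ([8, 7, 7, 5], [(9, 2), (4, 1), (4, 1), (4, 1), (2, 1), (0, 1), (2, 1)]),
   ([8, 7, 6, 6], [(9, 2), (4, 1), (4, 1), (2, 1), (4, 1), (0, 1), (2, 1)]),
   ([8, 7, 6, 5], [(11, 2), (5, 1), (4, 1), (0, 1), (4, 1), (0, 1), (2, 1)]),
   ([8, 7, 5, 5], [(9, 2), (4, 1), (6, 1), (6, 1), (0, 1), (2, 1)]),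
   ([8, 6, 6, 6], [(9, 2), (4, 1), (5, 1), (2, 1), (4, 1), (0, 1), (2, 1)]),
   ([8, 6, 6, 5], [(9, 2), (4, 1), (6, 1), (6, 1), (0, 1), (2, 1)]),
   ([8, 6, 5, 5], [(9, 2), (5, 1), (4, 1), (2, 1), (6, 1), (0, 1), (2, 1)]),
   ([8, 5, 5, 5], [(11, 2), (4, 1), (6, 1), (6, 1), (0, 1), (2, 1)]),
   ([7, 7, 7, 7, 7, 7, 7], [(0, 1), (1, 1), (1, 1), (0, 1), (0, 1), (1, 1), (0, 1)]),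
   ([7, 7, 7, 7, 7, 7, 6, 4], [(0, 1), (0, 1), (0, 1), (0, 1), (0, 1), (0, 1)]),
   ([7, 7, 7, 7, 7, 7, 6, 3], [(0, 1), (0, 1), (0, 1), (0, 1), (1, 1), (0, 1)]),
   ([7, 7, 7, 7, 7, 7, 6, 2], [(0, 1), (1, 1), (0, 1), (0, 1), (0, 1), (1, 1), (0, 1)]),
   ([7, 7, 7, 7, 7, 7, 5, 5], [(0, 1), (0, 1), (0, 1), (0, 1), (0, 1), (0, 1)]),
   ([7, 7, 7, 7, 7, 7, 5, 4], [(0, 1), (0, 1), (0, 1), (0, 1), (1, 1), (0, 1)]),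
   ([7, 7, 7, 7, 7, 7, 5, 3], [(0, 1), (1, 1), (1, 1), (0, 1), (0, 1), (0, 1), (0, 1)]),
   ([7, 7, 7, 7, 7, 7, 5, 2], [(0, 1), (0, 1), (0, 1), (0, 1), (1, 1), (2, 1)]),
   ([7, 7, 7, 7, 7, 7, 4], [(0, 1), (1, 1), (2, 1), (0, 1), (0, 1), (1, 1), (2, 1)]),
   ([7, 7, 7, 7, 7, 7, 3], [(0, 1), (0, 1), (0, 1), (5, 2), (0, 1), (2, 1)]),
   ([7, 7, 7, 7, 7, 6], [(0, 1), (2, 1), (1, 1), (2, 1), (2, 1), (2, 1), (2, 1)]),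
   ([7, 7, 7, 7, 7, 5], [(2, 1), (2, 1), (2, 1), (2, 1), (2, 1), (2, 1)]),
   ([7, 7, 7, 7, 7, 4], [(0, 1), (2, 1), (2, 1), (7, 2), (0, 1), (2, 1)]),
   ([7, 7, 7, 7, 6, 6], [(0, 1), (2, 1), (2, 1), (2, 1), (2, 1), (2, 1), (2, 1)]),
   ([7, 7, 7, 7, 6, 5], [(2, 1), (2, 1), (2, 1), (5, 2), (0, 1), (2, 1)]),
   ([7, 7, 7, 7, 6, 4], [(0, 1), (2, 1), (4, 1), (4, 1), (2, 1), (2, 1)]),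
   ([7, 7, 7, 7, 5], [(10, 3), (3, 1), (0, 1), (0, 1), (4, 1), (0, 1), (2, 1)]),
   ([7, 7, 7, 7, 4], [(9, 2), (4, 1), (5, 1), (0, 1), (0, 1), (0, 1), (2, 1)]),
   ([7, 7, 7, 6], [(9, 2), (4, 1), (4, 1), (4, 1), (2, 1), (0, 1), (2, 1)]),
   ([7, 7, 7, 5], [(9, 2), (4, 1), (5, 1), (0, 1), (6, 1), (0, 1), (2, 1)]),
   ([7, 7, 6, 6, 6, 6], [(0, 1), (3, 1), (3, 1), (2, 1), (2, 1), (2, 1), (2, 1)]),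
   ([7, 7, 6, 6, 6, 5], [(2, 1), (3, 1), (2, 1), (2, 1), (2, 1), (2, 1), (2, 1)]),
   ([7, 7, 6, 6, 6, 4], [(0, 1), (4, 1), (4, 1), (4, 1), (2, 1), (2, 1)]),
   ([7, 7, 6, 6, 5], [(9, 2), (2, 1), (4, 1), (4, 1), (0, 1), (2, 1)]),
   ([7, 7, 6, 5], [(9, 2), (4, 1), (6, 1), (6, 1), (0, 1), (2, 1)]),
   ([7, 7, 5, 5, 5], [(9, 2), (4, 1), (4, 1), (4, 1), (0, 1), (2, 1)]),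
   ([7, 6, 6, 6, 6], [(10, 3), (3, 1), (0, 1), (2, 1), (4, 1), (0, 1), (2, 1)]),
   ([7, 6, 6, 6, 5], [(9, 2), (5, 1), (4, 1), (0, 1), (2, 1), (0, 1), (2, 1)]),
   ([7, 6, 6, 5], [(9, 2), (5, 1), (4, 1), (2, 1), (6, 1), (0, 1), (2, 1)]),
   ([7, 6, 5, 5], [(9, 2), (6, 1), (6, 1), (6, 1), (0, 1), (2, 1)]),
   ([7, 5, 5, 5], [(9, 2), (6, 1), (5, 1), (2, 1), (6, 1), (0, 1), (2, 1)]),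
   ([6, 6, 6, 6, 6, 6], [(2, 1), (3, 1), (3, 1), (2, 1), (2, 1), (2, 1), (2, 1)]),
   ([6, 6, 6, 6, 6, 5], [(2, 1), (2, 1), (4, 1), (7, 2), (0, 1), (2, 1)]),
   ([6, 6, 6, 6, 5], [(9, 2), (4, 1), (4, 1), (4, 1), (0, 1), (2, 1)]),
   ([6, 6, 6, 5], [(9, 2), (6, 1), (6, 1), (6, 1), (0, 1), (2, 1)]),
   ([6, 6, 5, 5, 5], [(9, 2), (4, 1), (4, 1), (4, 1), (2, 1), (0, 1), (2, 1)])]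

def cm_11_8_6_3 : List CM :=
  cm_11_8_6_3_0 ++ (cm_11_8_6_3_1 ++ (cm_11_8_6_3_2 ++ (cm_11_8_6_3_3 ++ (cm_11_8_6_3_4 ++ (cm_11_8_6_3_5 ++ (cm_11_8_6_3_6 ++ (cm_11_8_6_3_7 ++ (cm_11_8_6_3_8 ++ (cm_11_8_6_3_9 ++ (cm_11_8_6_3_10 ++ (cm_11_8_6_3_11)))))))))))

def cmC_11_8_6_3 : List (List ℕ × List (ℕ × ℕ)) :=
  cmC_11_8_6_3_0 ++ (cmC_11_8_6_3_1 ++ (cmC_11_8_6_3_2 ++ (cmC_11_8_6_3_3 ++ (cmC_11_8_6_3_4 ++ (cmC_11_8_6_3_5 ++ (cmC_11_8_6_3_6 ++ (cmC_11_8_6_3_7 ++ (cmC_11_8_6_3_8 ++ (cmC_11_8_6_3_9 ++ (cmC_11_8_6_3_10 ++ (cmC_11_8_6_3_11)))))))))))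

def ex_11_8_6_3 : List (List ℕ) :=
  [[11, 9, 9, 9, 8, 1, 1, 1, 1, 1, 1],
   [10, 10, 10, 10, 7, 1, 1, 1, 1, 1],
   [10, 10, 10, 10, 6, 1, 1, 1, 1, 1, 1],
   [10, 10, 10, 9, 8, 1, 1, 1, 1, 1],
   [10, 10, 10, 9, 7, 1, 1, 1, 1, 1, 1],
   [10, 10, 10, 8, 8, 1, 1, 1, 1, 1, 1],
   [10, 10, 9, 9, 9, 1, 1, 1, 1, 1],
   [10, 10, 9, 9, 8, 1, 1, 1, 1, 1, 1],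
   [10, 9, 9, 9, 9, 1, 1, 1, 1, 1, 1]]

set_option Elab.async false in
theorem fullT_11_8_6_3 (hf : FullH [8, 6, 3])
    (hexc : ∀ q ∈ ex_11_8_6_3, ∀ μ : YoungDiagram, μ.card = 52 →
      (List.range (μ.rowLen 0)).map μ.colLen = q → OccSh (hk [11, 8, 6, 3]) (hk [11, 8, 6, 3]) μ) :
    FullH [11, 8, 6, 3] :=
  fullH_of_tree (by decide) (HC_of (by decide) (by decide)) hf ls_11_8_6_3 sp_11_8_6_3 cm_11_8_6_3 ex_11_8_6_3 spC_11_8_6_3 cmC_11_8_6_3 99 hexc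
    (by decide +kernel) (by decide +kernel) (by decide +kernel) (by decide +kernel) (by decide +kernel)
    (by decide +kernel)

end Crest.Agent.R195
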