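import Crest.Agent.R195.TreeV8
import Crest.Agent.R195.TreeSmall
import Crest.Agent.R195.CTBase
import Crest.Agent.R195.CX52

/-! Row 195, S0298 (helper958).  The shapes for `n = 52` and `n = 77`. -/

set_option autoImplicit false

namespace Crest.Agent.R195

theorem fullH_11_8_6_3 : FullH [11, 8, 6, 3] := fullT_11_8_6_3 fullH_8_6_3 cx52_hexc

theorem fullH_13_11_8_6_3 : FullH [13, 11, 8, 6, 3] :=
  fullH_of_cov (by decide) (by decide) (by decide) fullH_11_8_6_3 covH_13_11_8_6_3

end Crest.Agent.R195
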