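import Crest.Agent.R195.HookStep

/-! Row 195: Young diagram `hookY`, and removal of two hook layers, `[hh][ee]` and `[hh][hh]`. -/

set_option autoImplicit false
set_option linter.unusedSectionVars false
set_option linter.unusedDecidableInType false

namespace Crest.Agent.R195

open Finset Function

/-- `κ` surrounded by the hook `(p, 1^{p-1})`, as a Young diagram -/
def hookY (p : ℕ) (κ : YoungDiagram) (hr : κ.rowLen 0 ≤ p - 1) (hc : κ.colLen 0 ≤ p - 1) :
    YoungDiagram where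
  cells := hookS p κ.cells
  isLowerSet := by
    intro c d hdc hc'
    rw [Finset.mem_coe, mem_hookS] at hc' ⊢
    have h1 : d.1 ≤ c.1 := hdc.1
    have h2 : d.2 ≤ c.2 := hdc.2
    have hrow : ∀ i j, (i, j) ∈ κ.cells → j < κ.rowLen i :=
      fun i j h => YoungDiagram.mem_iff_lt_rowLen.1 h
    have hcol : ∀ i j, (i, j) ∈ κ.cells → i < κ.colLen j :=
      fun i j h => YoungDiagram.mem_iff_lt_colLen.1 h
    have hlow : ∀ i j i' j', (i, j) ∈ κ.cells → i' ≤ i → j' ≤ j → (i', j') ∈ κ.cells :=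
      fun i j i' j' h hi hj => κ.isLowerSet (a := (i, j)) (b := (i', j')) ⟨hi, hj⟩ h
    rcases hc' with ⟨h3, h4⟩ | ⟨h3, h4, h5⟩ | ⟨h3, h4, h5⟩
    · left; omega
    · rcases Nat.eq_zero_or_pos d.2 with h0 | h0
      · left; omega
      · right; left; omega
    · have h6 := hrow _ _ h5
      have h7 := hcol _ _ h5
      have h8 := κ.rowLen_anti 0 (c.1 - 1) (Nat.zero_le _)
      have h9 := κ.colLen_anti 0 (c.2 - 1) (Nat.zero_le _)
      rcases Nat.eq_zero_or_pos d.2 with h0 | h0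
      · left; omega
      · rcases Nat.eq_zero_or_pos d.1 with h0' | h0'
        · right; left; omega
        · right; right
          exact ⟨h0', h0, hlow _ _ _ _ h5 (by omega) (by omega)⟩

theorem hookY_cells (p : ℕ) (κ : YoungDiagram) (hr : κ.rowLen 0 ≤ p - 1)
    (hc : κ.colLen 0 ≤ p - 1) : (hookY p κ hr hc).cells = hookS p κ.cells := rfl

theorem hookY_card (p : ℕ) (κ : YoungDiagram) (hr : κ.rowLen 0 ≤ p - 1)
    (hc : κ.colLen 0 ≤ p - 1) : (hookY p κ hr hc).card = p + (p - 1) + κ.card :=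
  card_hookS p κ.cells

theorem hookY_colLen_zero (p : ℕ) (κ : YoungDiagram) (hr : κ.rowLen 0 ≤ p - 1)
    (hc : κ.colLen 0 ≤ p - 1) : (hookY p κ hr hc).colLen 0 = p := by
  have key : ∀ i, i < (hookY p κ hr hc).colLen 0 ↔ i < p := by
    intro i
    rw [← YoungDiagram.mem_iff_lt_colLen]
    have h1 : (i, 0) ∈ hookY p κ hr hc ↔ (i, 0) ∈ hookS p κ.cells := Iff.rfl
    rw [h1, mem_hookS]
    constructor
    · rintro (⟨h, _⟩ | ⟨_, _, h⟩ | ⟨_, h, _⟩)
      · exact h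
      · simp at h
      · simp at h
    · intro h
      exact Or.inl ⟨h, rfl⟩
  have h1 := key ((hookY p κ hr hc).colLen 0)
  have h2 := key p
  omega

theorem hookY_colLen_succ (p : ℕ) (κ : YoungDiagram) (hr : κ.rowLen 0 ≤ p - 1)
    (hc : κ.colLen 0 ≤ p - 1) (s : ℕ) : (hookY p κ hr hc).colLen (s + 1)
      = if s + 1 < p then κ.colLen s + 1 else 0 := by
  have key : ∀ i, i < (hookY p κ hr hc).colLen (s + 1) ↔
      i < (if s + 1 < p then κ.colLen s + 1 else 0) := by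
    intro i
    rw [← YoungDiagram.mem_iff_lt_colLen]
    have h1 : (i, s + 1) ∈ hookY p κ hr hc ↔ (i, s + 1) ∈ hookS p κ.cells := Iff.rfl
    rw [h1, mem_hookS]
    simp only [Nat.add_sub_cancel]
    have h2 : (i - 1, s) ∈ κ.cells ↔ i - 1 < κ.colLen s := YoungDiagram.mem_iff_lt_colLen
    rw [h2]
    by_cases hs : s + 1 < p
    · rw [if_pos hs]; omega
    · rw [if_neg hs]
      have h3 : κ.colLen s = 0 := by
        by_contra hne
        have h4 : (0, s) ∈ κ := YoungDiagram.mem_iff_lt_colLen.2 (by omega)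
        have h5 := YoungDiagram.mem_iff_lt_rowLen.1 h4
        omega
      omega
  have h1 := key ((hookY p κ hr hc).colLen (s + 1))
  have h2 := key (if s + 1 < p then κ.colLen s + 1 else 0)
  omega

theorem selfconj_iff {κ : YoungDiagram} : κ.transpose = κ ↔ κ.cells.image Prod.swap = κ.cells := by
  rw [← transpose_cells]
  constructor
  · intro h; rw [h]
  · intro h; exact YoungDiagram.ext h

theorem hookY_transpose (p : ℕ) (κ : YoungDiagram) (hr : κ.rowLen 0 ≤ p - 1)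
    (hc : κ.colLen 0 ≤ p - 1) (h : κ.transpose = κ) :
    (hookY p κ hr hc).transpose = hookY p κ hr hc := by
  rw [selfconj_iff] at h ⊢
  rw [hookY_cells]
  exact hookS_swap h

/-- the conditions under which the hook layer `p` around `κ` can be removed -/
structure HookOK (p : ℕ) (κ : YoungDiagram) : Prop where
  hp : 1 ≤ p
  row : κ.rowLen 0 ≤ p - 1
  col : κ.colLen 0 ≤ p - 1
  c1 : ∀ s, s < p - 1 → 2 * (κ.colLen s + 1) ≤ max p (2 * p - (s + 1))
  c2 : ∀ s, 2 * κ.rowLen s ≤ max (p - 1) (2 * (p - 1) - (s + 1))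

theorem HookOK.of_selfconj {p : ℕ} {κ : YoungDiagram} (hp : 1 ≤ p) (hκ : κ.transpose = κ)
    (h0 : κ.colLen 0 ≤ p - 1)
    (h1 : ∀ s, s < p - 1 → 2 * (κ.colLen s + 1) ≤ max p (2 * p - (s + 1))) : HookOK p κ := by
  have hrc : ∀ s, κ.rowLen s = κ.colLen s := by
    intro s
    conv_lhs => rw [← hκ]
    rw [YoungDiagram.rowLen_transpose]
  refine ⟨hp, by rw [hrc]; exact h0, h0, h1, fun s => ?_⟩
  rw [hrc]
  by_cases hs : s < p - 1
  · have := h1 s hs; omega
  · have h3 : κ.colLen s = 0 := by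
      by_contra hne
      have h4 : (0, s) ∈ κ := YoungDiagram.mem_iff_lt_colLen.2 (by omega)
      have h5 := YoungDiagram.mem_iff_lt_rowLen.1 h4
      rw [hrc] at h5
      omega
    omega

/-- the Young diagram of the layer -/
def HookOK.Y {p : ℕ} {κ : YoungDiagram} (h : HookOK p κ) : YoungDiagram := hookY p κ h.row h.col

theorem HookOK.Y_cells {p : ℕ} {κ : YoungDiagram} (h : HookOK p κ) :
    h.Y.cells = hookS p κ.cells := rfl

section two

variable {T : Type} [Fintype T] [DecidableEq T] {W : Type} [AddCommGroup W] [Module ℂ W]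

theorem hook_full' {p : ℕ} {κ : YoungDiagram} (ok : HookOK p κ)
    (hfull : Full κ.cells κ.cells) (hT : Fintype.card T = p + (p - 1) + κ.card)
    (K₁ K₂ : Finset T) (hK : Disjoint K₁ K₂) (hK₁ : K₁.card = p) (hK₂ : K₂.card = p - 1)
    (ρ : Representation ℂ (Equiv.Perm T) W) (v : W) (hv0 : v ≠ 0)
    (hv₁ : ∀ x ∈ K₁, ∀ y ∈ K₁, ρ (Equiv.swap x y) v = v)
    (hv₂ : ∀ x ∈ K₂, ∀ y ∈ K₂, ρ (Equiv.swap x y) v = v) :
    Occ ρ (Kr T (hookS p κ.cells) (hookS p κ.cells)) :=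
  hook_full κ ok.row ok.col ok.hp ok.c1 ok.c2 hfull hT K₁ K₂ hK hK₁ hK₂ ρ v hv0 hv₁ hv₂

/-- the vector `v` inside the vectors fixed by `K₁`, then by `K₂` -/
theorem mem_fix_fix {K₁ K₂ : Finset T} {ρ : Representation ℂ (Equiv.Perm T) W} {v : W}
    (hv₁ : ∀ x ∈ K₁, ∀ y ∈ K₁, ρ (Equiv.swap x y) v = v)
    (hv₂ : ∀ x ∈ K₂, ∀ y ∈ K₂, ρ (Equiv.swap x y) v = v) :
    (⟨v, hv₁⟩ : fixSub ρ K₁) ∈ fixSub (fixRep ρ K₁) (K₂.subtype (fun t => t ∉ K₁)) := by
  intro x hx y hy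
  apply Subtype.ext
  rw [fixRep_apply]
  have h3 : Equiv.Perm.ofSubtype (Equiv.swap x y) = Equiv.swap (x : T) (y : T) :=
    Equiv.Perm.ofSubtype_swap_eq x y
  rw [h3]
  exact hv₂ x (by simpa using hx) y (by simpa using hy)

theorem card_subtype_disjoint {K₁ K₂ : Finset T} (hK : Disjoint K₁ K₂) :
    (K₂.subtype (fun t => t ∉ K₁)).card = K₂.card := by
  rw [Finset.card_subtype]
  congr 1
  ext t
  simp only [mem_filter, and_iff_left_iff_imp]
  intro ht ht'
  exact (Finset.disjoint_left.1 hK ht') ht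

/-- action of a transposition on the doubly fixed vectors -/
theorem fix_fix_swap {K₁ : Finset T} {K₂ : Finset {t : T // t ∉ K₁}}
    (ρ : Representation ℂ (Equiv.Perm T) W) (x y : {t : {t : T // t ∉ K₁} // t ∉ K₂})
    (u : fixSub (fixRep ρ K₁) K₂) :
    ((fixRep (fixRep ρ K₁) K₂ (Equiv.swap x y) u : fixSub (fixRep ρ K₁) K₂) : fixSub ρ K₁).1
      = ρ (Equiv.swap ((x : {t : T // t ∉ K₁}) : T) ((y : {t : T // t ∉ K₁}) : T)) (u.1.1) := by
  rw [fixRep_apply, Equiv.Perm.ofSubtype_swap_eq, fixRep_apply, Equiv.Perm.ofSubtype_swap_eq]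

/-- **two layers, [hh] then anything**: reduction to the twice fixed vectors -/
theorem hook_hook_aux {p p₂ : ℕ} {κ₂ κ : YoungDiagram} (hκ : κ.cells = hookS p₂ κ₂.cells)
    (ok : HookOK p κ) (ok₂ : HookOK p₂ κ₂) (hfull : Full κ₂.cells κ₂.cells)
    (hT : Fintype.card T = p + (p - 1) + (p₂ + (p₂ - 1) + κ₂.card))
    (K₁ K₂ K₃ K₄ : Finset T) (h12 : Disjoint K₁ K₂) (h34 : Disjoint K₃ K₄)
    (h13 : Disjoint (K₁ ∪ K₂) (K₃ ∪ K₄))
    (hK₁ : K₁.card = p) (hK₂ : K₂.card = p - 1) (hK₃ : K₃.card = p₂) (hK₄ : K₄.card = p₂ - 1)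
    (ρ : Representation ℂ (Equiv.Perm T) W) (v : W) (hv0 : v ≠ 0)
    (hv₁ : ∀ x ∈ K₁, ∀ y ∈ K₁, ρ (Equiv.swap x y) v = v)
    (hv₂ : ∀ x ∈ K₂, ∀ y ∈ K₂, ρ (Equiv.swap x y) v = v)
    (tw : Bool)
    (hv₃ : ∀ x ∈ K₃, ∀ y ∈ K₃, x ≠ y → ρ (Equiv.swap x y) v = if tw then -v else v)
    (hv₄ : ∀ x ∈ K₄, ∀ y ∈ K₄, x ≠ y → ρ (Equiv.swap x y) v = if tw then -v else v)
    (hs : tw = true → κ.cells.image Prod.swap = κ.cells) :
    Occ ρ (Kr T (hookS p κ.cells) (hookS p κ.cells)) := by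
  classical
  set K₂' : Finset {t : T // t ∉ K₁} := K₂.subtype (fun t => t ∉ K₁) with hK₂'
  have hcard : K₂'.card = p - 1 := by rw [hK₂', card_subtype_disjoint h12, hK₂]
  refine hook_occ κ ok.row ok.col ok.hp ok.c1 ok.c2 K₁ hK₁ K₂' hcard ρ ?_
  -- the letters of the second layer
  have hmem : ∀ t : {t : {t : T // t ∉ K₁} // t ∉ K₂'}, ((t : {t : T // t ∉ K₁}) : T) ∉ K₁ ∪ K₂ := by
    intro t ht
    rcases mem_union.1 ht with h | h
    · exact t.1.2 h
    · exact t.2 (Finset.mem_subtype.2 h)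
  set L : Finset T → Finset {t : {t : T // t ∉ K₁} // t ∉ K₂'} :=
    fun K => univ.filter (fun t => ((t : {t : T // t ∉ K₁}) : T) ∈ K) with hL
  have hLcard : ∀ K : Finset T, Disjoint (K₁ ∪ K₂) K → (L K).card = K.card := by
    intro K hK
    have h1 : Finset.image (fun t : {t : {t : T // t ∉ K₁} // t ∉ K₂'} =>
        (((t : {t : T // t ∉ K₁}) : T) : T)) (L K) = K := by
      apply Finset.ext
      intro x
      constructor
      · intro hx
        obtain ⟨t, ht, rfl⟩ := Finset.mem_image.1 hx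
        exact (mem_filter.1 ht).2
      · intro hx
        have hx1 : x ∉ K₁ := fun h => (Finset.disjoint_left.1 hK (mem_union_left _ h)) hx
        have hx2 : x ∉ K₂ := fun h => (Finset.disjoint_left.1 hK (mem_union_right _ h)) hx
        exact Finset.mem_image.2 ⟨⟨⟨x, hx1⟩, fun h => hx2 (Finset.mem_subtype.1 h)⟩,
          mem_filter.2 ⟨mem_univ _, hx⟩, rfl⟩
    have h2 := Finset.card_image_of_injective (L K)
      (f := fun t : {t : {t : T // t ∉ K₁} // t ∉ K₂'} => (((t : {t : T // t ∉ K₁}) : T) : T))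
      (fun a b h => Subtype.ext (Subtype.ext h))
    rw [h1] at h2
    exact h2.symm
  have hd3 : Disjoint (K₁ ∪ K₂) K₃ := h13.mono_right subset_union_left
  have hd4 : Disjoint (K₁ ∪ K₂) K₄ := h13.mono_right subset_union_right
  have hL34 : Disjoint (L K₃) (L K₄) := by
    rw [Finset.disjoint_left]
    intro t ht ht'
    exact (Finset.disjoint_left.1 h34 (mem_filter.1 ht).2) (mem_filter.1 ht').2
  have hTT : Fintype.card {t : {t : T // t ∉ K₁} // t ∉ K₂'} = p₂ + (p₂ - 1) + κ₂.card := by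
    rw [Fintype.card_subtype_compl, Fintype.card_subtype_compl]
    simp only [Fintype.card_coe]
    rw [hcard, hK₁, hT]
    omega
  set u : fixSub (fixRep ρ K₁) K₂' := ⟨⟨v, hv₁⟩, mem_fix_fix hv₁ hv₂⟩ with hu
  have hu0 : u ≠ 0 := fun h0 => hv0 (congrArg (fun z => ((z : fixSub ρ K₁) : W))
    (congrArg Subtype.val h0))
  rw [hκ]
  cases tw with
  | true =>
    have hs' := hs rfl
    rw [hκ] at hs'
    refine Occ.of_signTwist hs' ?_
    refine hook_full' ok₂ hfull hTT (L K₃) (L K₄) hL34 (by rw [hLcard _ hd3, hK₃])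
      (by rw [hLcard _ hd4, hK₄]) _ u hu0 ?_ ?_
    · intro x hx y hy
      by_cases hxy : x = y
      · rw [hxy, Equiv.swap_self, ← Equiv.Perm.one_def, map_one]; rfl
      · rw [signTwist_apply, Equiv.Perm.sign_swap hxy]
        apply Subtype.ext
        apply Subtype.ext
        simp only [Units.val_neg, Units.val_one, Int.cast_neg, Int.cast_one, neg_smul, one_smul]
        change -((fixRep (fixRep ρ K₁) K₂' (Equiv.swap x y) u : fixSub (fixRep ρ K₁) K₂') :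
          fixSub ρ K₁).1 = v
        rw [fix_fix_swap]
        have h1 := hv₃ _ (mem_filter.1 hx).2 _ (mem_filter.1 hy).2
          (fun h => hxy (Subtype.ext (Subtype.ext h)))
        simp only [if_true] at h1
        change -(ρ _ v) = v
        rw [h1, neg_neg]
    · intro x hx y hy
      by_cases hxy : x = y
      · rw [hxy, Equiv.swap_self, ← Equiv.Perm.one_def, map_one]; rfl
      · rw [signTwist_apply, Equiv.Perm.sign_swap hxy]
        apply Subtype.ext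
        apply Subtype.ext
        simp only [Units.val_neg, Units.val_one, Int.cast_neg, Int.cast_one, neg_smul, one_smul]
        change -((fixRep (fixRep ρ K₁) K₂' (Equiv.swap x y) u : fixSub (fixRep ρ K₁) K₂') :
          fixSub ρ K₁).1 = v
        rw [fix_fix_swap]
        have h1 := hv₄ _ (mem_filter.1 hx).2 _ (mem_filter.1 hy).2
          (fun h => hxy (Subtype.ext (Subtype.ext h)))
        simp only [if_true] at h1
        change -(ρ _ v) = v
        rw [h1, neg_neg]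
  | false =>
    refine hook_full' ok₂ hfull hTT (L K₃) (L K₄) hL34 (by rw [hLcard _ hd3, hK₃])
      (by rw [hLcard _ hd4, hK₄]) _ u hu0 ?_ ?_
    · intro x hx y hy
      by_cases hxy : x = y
      · rw [hxy, Equiv.swap_self, ← Equiv.Perm.one_def, map_one]; rfl
      · apply Subtype.ext
        apply Subtype.ext
        rw [fix_fix_swap]
        have h1 := hv₃ _ (mem_filter.1 hx).2 _ (mem_filter.1 hy).2
          (fun h => hxy (Subtype.ext (Subtype.ext h)))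
        simpa using h1
    · intro x hx y hy
      by_cases hxy : x = y
      · rw [hxy, Equiv.swap_self, ← Equiv.Perm.one_def, map_one]; rfl
      · apply Subtype.ext
        apply Subtype.ext
        rw [fix_fix_swap]
        have h1 := hv₄ _ (mem_filter.1 hx).2 _ (mem_filter.1 hy).2
          (fun h => hxy (Subtype.ext (Subtype.ext h)))
        simpa using h1

/-- **[hh][ee]** -/
theorem hh_ee {p p₂ : ℕ} {κ₂ κ : YoungDiagram} (hκ : κ.cells = hookS p₂ κ₂.cells)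
    (ok : HookOK p κ) (ok₂ : HookOK p₂ κ₂) (hs : κ.cells.image Prod.swap = κ.cells)
    (hfull : Full κ₂.cells κ₂.cells)
    (hT : Fintype.card T = p + (p - 1) + (p₂ + (p₂ - 1) + κ₂.card))
    (K₁ K₂ K₃ K₄ : Finset T) (h12 : Disjoint K₁ K₂) (h34 : Disjoint K₃ K₄)
    (h13 : Disjoint (K₁ ∪ K₂) (K₃ ∪ K₄))
    (hK₁ : K₁.card = p) (hK₂ : K₂.card = p - 1) (hK₃ : K₃.card = p₂) (hK₄ : K₄.card = p₂ - 1)
    (ρ : Representation ℂ (Equiv.Perm T) W) (v : W) (hv0 : v ≠ 0)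
    (hv₁ : ∀ x ∈ K₁, ∀ y ∈ K₁, ρ (Equiv.swap x y) v = v)
    (hv₂ : ∀ x ∈ K₂, ∀ y ∈ K₂, ρ (Equiv.swap x y) v = v)
    (hv₃ : ∀ x ∈ K₃, ∀ y ∈ K₃, x ≠ y → ρ (Equiv.swap x y) v = -v)
    (hv₄ : ∀ x ∈ K₄, ∀ y ∈ K₄, x ≠ y → ρ (Equiv.swap x y) v = -v) :
    Occ ρ (Kr T (hookS p κ.cells) (hookS p κ.cells)) :=
  hook_hook_aux hκ ok ok₂ hfull hT K₁ K₂ K₃ K₄ h12 h34 h13 hK₁ hK₂ hK₃ hK₄ ρ v hv0 hv₁ hv₂ true
    (by simpa using hv₃) (by simpa using hv₄) (fun _ => hs)

/-- **[hh][hh]** -/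
theorem hh_hh {p p₂ : ℕ} {κ₂ κ : YoungDiagram} (hκ : κ.cells = hookS p₂ κ₂.cells)
    (ok : HookOK p κ) (ok₂ : HookOK p₂ κ₂)
    (hfull : Full κ₂.cells κ₂.cells)
    (hT : Fintype.card T = p + (p - 1) + (p₂ + (p₂ - 1) + κ₂.card))
    (K₁ K₂ K₃ K₄ : Finset T) (h12 : Disjoint K₁ K₂) (h34 : Disjoint K₃ K₄)
    (h13 : Disjoint (K₁ ∪ K₂) (K₃ ∪ K₄))
    (hK₁ : K₁.card = p) (hK₂ : K₂.card = p - 1) (hK₃ : K₃.card = p₂) (hK₄ : K₄.card = p₂ - 1)
    (ρ : Representation ℂ (Equiv.Perm T) W) (v : W) (hv0 : v ≠ 0)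
    (hv₁ : ∀ x ∈ K₁, ∀ y ∈ K₁, ρ (Equiv.swap x y) v = v)
    (hv₂ : ∀ x ∈ K₂, ∀ y ∈ K₂, ρ (Equiv.swap x y) v = v)
    (hv₃ : ∀ x ∈ K₃, ∀ y ∈ K₃, x ≠ y → ρ (Equiv.swap x y) v = v)
    (hv₄ : ∀ x ∈ K₄, ∀ y ∈ K₄, x ≠ y → ρ (Equiv.swap x y) v = v) :
    Occ ρ (Kr T (hookS p κ.cells) (hookS p κ.cells)) :=
  hook_hook_aux hκ ok ok₂ hfull hT K₁ K₂ K₃ K₄ h12 h34 h13 hK₁ hK₂ hK₃ hK₄ ρ v hv0 hv₁ hv₂ false
    (by simpa using hv₃) (by simpa using hv₄) (fun h => absurd h (by simp))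

end two

end Crest.Agent.R195
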