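import Crest.Agent.R195.ChainB1c

/-! Row 195 (T1): a nonzero vector alternating under the columns of a tableau and seen by the rows
is not killed by the symmetrizer of ANY labelling with distinct labels in every column. -/

set_option autoImplicit false

namespace Crest.Agent.R195

open Finset Function Equiv

section comb

variable {T : Type*} [Fintype T]

/-- rank of the label of `t` inside its column -/
def colRank (col : T → ℕ) (n : T → ℕ) (t : T) : ℕ :=
  (univ.filter fun s => col s = col t ∧ n s < n t).card

theorem colRank_lt {col n : T → ℕ} {s t : T} (h : col s = col t) (hst : n s < n t) :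
    colRank col n s < colRank col n t := by
  classical
  unfold colRank
  apply card_lt_card
  rw [Finset.ssubset_iff_of_subset]
  · exact ⟨s, by simp [h, hst], by simp⟩
  · intro x hx
    simp only [mem_filter, mem_univ, true_and] at hx ⊢
    exact ⟨hx.1.trans h, hx.2.trans hst⟩

theorem colRank_inj {col n : T → ℕ} (hn : ∀ s t, col s = col t → n s = n t → s = t) {s t : T}
    (h : col s = col t) (hr : colRank col n s = colRank col n t) : s = t := by
  rcases lt_trichotomy (n s) (n t) with h1 | h1 | h1
  · exact absurd hr (colRank_lt h h1).ne
  · exact hn s t h h1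
  · exact absurd hr (colRank_lt h.symm h1).ne'

theorem colRank_lt_card (col n : T → ℕ) (t : T) :
    colRank col n t < (univ.filter fun s => col s = col t).card := by
  unfold colRank
  apply card_lt_card
  rw [Finset.ssubset_iff_of_subset]
  · exact ⟨t, by simp, by simp⟩
  · intro x hx
    simp only [mem_filter, mem_univ, true_and] at hx ⊢
    exact hx.1

/-- the ranks of a column: every value below the height occurs -/
theorem exists_colRank {col n : T → ℕ} (hn : ∀ s t, col s = col t → n s = n t → s = t) (t : T)
    {a : ℕ} (ha : a < (univ.filter fun s => col s = col t).card) :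
    ∃ s, col s = col t ∧ colRank col n s = a := by
  classical
  have h1 : (univ.filter fun s => col s = col t).image (colRank col n) =
      range (univ.filter fun s => col s = col t).card := by
    apply eq_of_subset_of_card_le
    · intro x hx
      obtain ⟨s, hs, rfl⟩ := mem_image.mp hx
      simp only [mem_filter, mem_univ, true_and] at hs
      rw [mem_range, ← hs]
      exact colRank_lt_card col n s
    · rw [card_range, card_image_of_injOn]
      intro x hx y hy hxy
      simp only [coe_filter, mem_univ, true_and, Set.mem_ofPred_eq] at hx hy
      exact colRank_inj hn (hx.trans hy.symm) hxy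
  have h2 : a ∈ (univ.filter fun s => col s = col t).image (colRank col n) := by
    rw [h1, mem_range]; exact ha
  obtain ⟨s, hs, hsa⟩ := mem_image.mp h2
  simp only [mem_filter, mem_univ, true_and] at hs
  exact ⟨s, hs, hsa⟩

/-- The word `colRank` is rigid: rearranging it inside the label classes never gives another word
that is injective and bounded on the columns. -/
theorem colRank_rigid {col n : T → ℕ} (hn : ∀ s t, col s = col t → n s = n t → s = t)
    (s : Perm T) (hs : ∀ t, n (s t) = n t)
    (hinj : ∀ a b, col a = col b → colRank col n (s a) = colRank col n (s b) → a = b)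
    (hbd : ∀ t, colRank col n (s t) < (univ.filter fun x => col x = col t).card) (t : T) :
    colRank col n (s t) = colRank col n t := by
  classical
  -- descending induction on the label
  obtain ⟨N, hN⟩ : ∃ N, ∀ x, n x ≤ N := by
    refine ⟨∑ x, n x, fun x => ?_⟩
    exact single_le_sum (f := n) (fun _ _ => Nat.zero_le _) (mem_univ x)
  have main : ∀ m, ∀ x, N - m ≤ n x → colRank col n (s x) = colRank col n x := by
    intro m
    induction m with
    | zero =>
      intro x hx
      have hx' : n x = N := le_antisymm (hN x) (by simpa using hx)
      -- all letters with label N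
      have hle : ∀ y ∈ univ.filter (fun y => n y = N),
          colRank col n (s y) ≤ colRank col n y := by
        intro y hy
        simp only [mem_filter, mem_univ, true_and] at hy
        have h1 := hbd y
        have h2 : (univ.filter fun z => col z = col y).card = colRank col n y + 1 := by
          unfold colRank
          have h3 : (univ.filter fun z => col z = col y) =
              insert y (univ.filter fun z => col z = col y ∧ n z < n y) := by
            ext z
            simp only [mem_filter, mem_univ, true_and, mem_insert]
            constructor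
            · intro hz
              by_cases hzy : z = y
              · exact Or.inl hzy
              · right
                refine ⟨hz, lt_of_le_of_ne (by rw [hy]; exact hN z) ?_⟩
                intro hnz
                exact hzy (hn z y hz hnz)
            · rintro (rfl | ⟨hz, -⟩)
              · rfl
              · exact hz
          rw [h3, card_insert_of_notMem (by simp)]
        omega
      have hsum : ∑ y ∈ univ.filter (fun y => n y = N), colRank col n (s y) =
          ∑ y ∈ univ.filter (fun y => n y = N), colRank col n y := by
        refine sum_bij (fun y _ => s y) ?_ (fun a _ b _ h => s.injective h) ?_ (fun _ _ => rfl)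
        · intro y hy
          simp only [mem_filter, mem_univ, true_and] at hy ⊢
          rw [hs, hy]
        · intro y hy
          simp only [mem_filter, mem_univ, true_and] at hy
          refine ⟨s.symm y, ?_, by simp⟩
          simp only [mem_filter, mem_univ, true_and]
          rw [← hs, apply_symm_apply, hy]
      exact (sum_eq_sum_iff_of_le hle).mp hsum x (by simp [hx'])
    | succ m ih =>
      intro x hx
      by_cases hxm : N - m ≤ n x
      · exact ih x hxm
      push Not at hxm
      have hx' : n x = N - (m + 1) := by omega
      have hle : ∀ y ∈ univ.filter (fun y => n y = n x),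
          colRank col n (s y) ≤ colRank col n y := by
        intro y hy
        simp only [mem_filter, mem_univ, true_and] at hy
        by_contra hcon
        push Not at hcon
        -- the letter of the column of `y` with rank `colRank (s y)` has a bigger label
        obtain ⟨z, hz1, hz2⟩ := exists_colRank hn y (hbd y)
        have hlab : n y < n z := by
          by_contra h
          push Not at h
          rcases h.lt_or_eq with h | h
          · have := colRank_lt hz1 h
            omega
          · have := hn z y hz1 h
            rw [this] at hz2
            omega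
        have h3 := ih z (by omega)
        have h4 := hinj z y hz1 (by rw [h3, hz2])
        rw [h4] at hlab
        exact lt_irrefl _ hlab
      have hsum : ∑ y ∈ univ.filter (fun y => n y = n x), colRank col n (s y) =
          ∑ y ∈ univ.filter (fun y => n y = n x), colRank col n y := by
        refine sum_bij (fun y _ => s y) ?_ (fun a _ b _ h => s.injective h) ?_ (fun _ _ => rfl)
        · intro y hy
          simp only [mem_filter, mem_univ, true_and] at hy ⊢
          rw [hs, hy]
        · intro y hy
          simp only [mem_filter, mem_univ, true_and] at hy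
          refine ⟨s.symm y, ?_, by simp⟩
          simp only [mem_filter, mem_univ, true_and]
          rw [← hs, apply_symm_apply, hy]
      exact (sum_eq_sum_iff_of_le hle).mp hsum x (by simp)
  exact main N t (by simp)

end comb

section rep

variable {T : Type*} [Fintype T] [DecidableEq T]
variable {U : Type*} [AddCommGroup U] [Module ℂ U]

/-- symmetrizer of a labelling (any label type) -/
noncomputable def labSum {ι : Type*} [DecidableEq ι] (ρ : Representation ℂ (Perm T) U)
    (n : T → ι) (v : U) : U :=
  ∑ g ∈ univ.filter (fun g : Perm T => ∀ t, n (g t) = n t), ρ g v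

theorem labSum_mul_left {ι : Type*} [DecidableEq ι] (ρ : Representation ℂ (Perm T) U)
    (n : T → ι) (v : U) (r : Perm T) (hr : ∀ t, n (r t) = n t) :
    ρ r (labSum ρ n v) = labSum ρ n v := by
  unfold labSum
  rw [map_sum]
  refine Finset.sum_bij' (fun σ _ => r * σ) (fun σ _ => r⁻¹ * σ) ?_ ?_ ?_ ?_ ?_
  · intro σ hσ
    simp only [Finset.mem_filter, Finset.mem_univ, true_and] at hσ ⊢
    intro t
    rw [Perm.mul_apply, hr, hσ]
  · intro σ hσ
    simp only [Finset.mem_filter, Finset.mem_univ, true_and] at hσ ⊢
    intro t
    rw [Perm.mul_apply, ← hr, ← Perm.mul_apply, mul_inv_cancel, Perm.one_apply, hσ]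
  · intro σ _; simp
  · intro σ _; simp
  · intro σ _
    rw [rho_mul]

theorem labSum_mul_right {ι : Type*} [DecidableEq ι] (ρ : Representation ℂ (Perm T) U)
    (n : T → ι) (v : U) (r : Perm T) (hr : ∀ t, n (r t) = n t) :
    labSum ρ n (ρ r v) = labSum ρ n v := by
  unfold labSum
  refine Finset.sum_bij' (fun σ _ => σ * r) (fun σ _ => σ * r⁻¹) ?_ ?_ ?_ ?_ ?_
  · intro σ hσ
    simp only [Finset.mem_filter, Finset.mem_univ, true_and] at hσ ⊢
    intro t
    rw [Perm.mul_apply, hσ, hr]
  · intro σ hσ
    simp only [Finset.mem_filter, Finset.mem_univ, true_and] at hσ ⊢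
    intro t
    have h1 : n (r⁻¹ t) = n t := by
      rw [← hr (r⁻¹ t), ← Perm.mul_apply, mul_inv_cancel, Perm.one_apply]
    rw [Perm.mul_apply, hσ, h1]
  · intro σ _; simp
  · intro σ _; simp
  · intro σ _
    rw [rho_mul]

/-- swapping two letters of the same column which are sent to the same row kills -/
theorem labSum_alt_eq_zero {ι : Type*} [DecidableEq ι] (ρ : Representation ℂ (Perm T) U)
    (row : T → ι) (col : T → ℕ) (v : U) (hv : SwapAlt ρ col v) (g : Perm T) {a b : T}
    (hab : a ≠ b) (hc : col a = col b) (hr : row (g a) = row (g b)) :
    labSum ρ row (ρ g v) = 0 := by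
  have h1 : labSum ρ row (ρ g v) = - labSum ρ row (ρ g v) := by
    have h2 : ρ g v = - ρ g (ρ (swap a b) v) := by
      rw [hv a b hab hc, map_neg, neg_neg]
    have h3 : ∀ x, labSum ρ row (-x) = - labSum ρ row x := by
      intro x
      unfold labSum
      simp
    conv_lhs => rw [h2]
    rw [rho_mul, swap_conj, ← rho_mul, h3, labSum_mul_right]
    intro t
    by_cases h1 : t = g a
    · rw [h1, swap_apply_left, hr]
    · by_cases h2 : t = g b
      · rw [h2, swap_apply_right, hr]
      · rw [swap_apply_of_ne_of_ne h1 h2]
  have h2 : (2 : ℂ) • labSum ρ row (ρ g v) = 0 := by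
    rw [two_smul]
    nth_rewrite 2 [h1]
    rw [add_neg_cancel]
  exact (smul_eq_zero.mp h2).resolve_left two_ne_zero

/-- **Lemma V** (labels in `ℕ`). -/
theorem labSum_ne_zero_nat (ρ : Representation ℂ (Perm T) U) (row col : T → ℕ)
    (hinj : ∀ s t, row s = row t → col s = col t → s = t)
    (htop : ∀ t a, a < row t → ∃ s, row s = a ∧ col s = col t)
    (n : T → ℕ) (hn : ∀ s t, col s = col t → n s = n t → s = t)
    (v : U) (hv : SwapAlt ρ col v) (hRv : labSum ρ row v ≠ 0) : labSum ρ n v ≠ 0 := by
  classical
  -- heights
  have hht : ∀ t, ∀ a, a < (univ.filter fun s => col s = col t).card →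
      ∃ s, row s = a ∧ col s = col t := by
    intro t a ha
    set C := univ.filter fun s => col s = col t with hC
    -- rows of the column form a lower set of cardinality `C.card`
    by_contra hcon
    push Not at hcon
    have hsub : C.image row ⊆ range a := by
      intro x hx
      obtain ⟨s, hs, rfl⟩ := mem_image.mp hx
      rw [mem_range]
      by_contra hge
      push Not at hge
      have hs' : col s = col t := by simpa [hC] using hs
      rcases hge.eq_or_lt with h | h
      · exact hcon s h.symm hs'
      · obtain ⟨s', h1, h2⟩ := htop s a h
        exact hcon s' h1 (h2.trans hs')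
    have h1 := card_le_card hsub
    rw [card_range, card_image_of_injOn] at h1
    · omega
    · intro x hx y hy hxy
      have hx' : col x = col t := by simpa [hC] using hx
      have hy' : col y = col t := by simpa [hC] using hy
      exact hinj x y hxy (hx'.trans hy'.symm)
  -- the column permutation `k₀` with `row ∘ k₀ = colRank`
  have hex : ∀ t, ∃ s, row s = colRank col n t ∧ col s = col t := fun t =>
    hht t _ (colRank_lt_card col n t)
  choose k hk1 hk2 using hex
  have hkinj : Injective k := by
    intro x y hxy
    have h1 := hk1 x
    have h2 := hk2 x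
    rw [hxy, hk1] at h1
    rw [hxy, hk2] at h2
    exact colRank_inj hn h2.symm h1.symm
  set k₀ : Perm T := Equiv.ofBijective k (Finite.injective_iff_bijective.1 hkinj) with hk₀
  have hk₀r : ∀ t, row (k₀ t) = colRank col n t := hk1
  have hk₀c : ∀ t, col (k₀ t) = col t := hk2
  have hrow_bd : ∀ t, row t < (univ.filter fun s => col s = col t).card := by
    intro t
    -- rows `0..row t` all occur
    have hsub : range (row t + 1) ⊆ (univ.filter fun s => col s = col t).image row := by
      intro a ha
      rw [mem_range, Nat.lt_succ_iff] at ha
      rcases ha.eq_or_lt with h | h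
      · exact mem_image.mpr ⟨t, by simp, h.symm⟩
      · obtain ⟨s, h1, h2⟩ := htop t a h
        exact mem_image.mpr ⟨s, by simp [h2], h1⟩
    have := (card_le_card hsub).trans card_image_le
    rw [card_range] at this
    omega
  intro h0
  apply hRv
  -- evaluate `labSum row (k₀ (labSum n v))`
  have hterm : ∀ s ∈ univ.filter (fun g : Perm T => ∀ t, n (g t) = n t),
      (labSum ρ row (ρ (k₀ * s) v) =
        if (∀ t, colRank col n (s t) = colRank col n t) then
          ((((Perm.sign k₀ : ℤˣ) : ℤ) : ℂ)) • labSum ρ row v else 0) := by
    intro s hs
    simp only [mem_filter, mem_univ, true_and] at hs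
    by_cases hinj' : ∀ a b, col a = col b → colRank col n (s a) = colRank col n (s b) → a = b
    · have hbd : ∀ t, colRank col n (s t) < (univ.filter fun x => col x = col t).card := by
        -- James: the word `colRank ∘ s` has the content of `row` and is injective on columns
        obtain ⟨κ, hκc, hκr⟩ := james row col (fun t => colRank col n (s t)) hinj htop
          (by
            intro a
            have h1 : (univ.filter fun t => colRank col n (s t) = a).card =
                (univ.filter fun t => row t = a).card := by
              refine card_bij (fun t _ => k₀ (s t)) ?_ (fun x _ y _ h =>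
                s.injective (k₀.injective h)) ?_
              · intro t ht
                simp only [mem_filter, mem_univ, true_and] at ht ⊢
                rw [hk₀r, ht]
              · intro t ht
                simp only [mem_filter, mem_univ, true_and] at ht
                refine ⟨s.symm (k₀.symm t), ?_, by simp⟩
                simp only [mem_filter, mem_univ, true_and]
                rw [apply_symm_apply, ← hk₀r, apply_symm_apply, ht]
            exact h1)
          (fun a b h1 h2 => hinj' a b h1 h2)
        intro t
        have h1 := hrow_bd (κ t)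
        rw [hκr t, hκc t] at h1
        exact h1
      have hfix := colRank_rigid hn s hs hinj' hbd
      rw [if_pos hfix]
      have hr : ∀ t, row ((k₀ * s * k₀⁻¹) t) = row t := by
        intro t
        rw [Perm.mul_apply, Perm.mul_apply, hk₀r, hfix, ← hk₀r, ← Perm.mul_apply, mul_inv_cancel,
          Perm.one_apply]
      have h1 : k₀ * s = (k₀ * s * k₀⁻¹) * k₀ := by group
      rw [h1, ← rho_mul, labSum_mul_right ρ row _ _ hr, hv.perm k₀ hk₀c]
      unfold labSum
      simp [Finset.smul_sum]
    · push Not at hinj'
      obtain ⟨a, b, hc, hr, hab⟩ := hinj'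
      rw [if_neg]
      · refine labSum_alt_eq_zero ρ row col v hv (k₀ * s) hab hc ?_
        rw [Perm.mul_apply, Perm.mul_apply, hk₀r, hk₀r, hr]
      · intro hfix
        rw [hfix, hfix] at hr
        exact hab (colRank_inj hn hc hr)
  have h1 : labSum ρ row (ρ k₀ (labSum ρ n v)) =
      ∑ s ∈ univ.filter (fun g : Perm T => ∀ t, n (g t) = n t), labSum ρ row (ρ (k₀ * s) v) := by
    have hlin : ∀ (S : Finset (Perm T)) (f : Perm T → U),
        labSum ρ row (∑ s ∈ S, f s) = ∑ s ∈ S, labSum ρ row (f s) := by
      intro S f
      unfold labSum
      simp only [map_sum]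
      exact sum_comm
    conv_lhs => rw [show labSum ρ n v = ∑ s ∈ univ.filter (fun g : Perm T => ∀ t, n (g t) = n t),
      ρ s v from rfl]
    rw [map_sum, hlin]
    refine sum_congr rfl fun s _ => ?_
    rw [rho_mul]
  rw [h0, map_zero, sum_congr rfl hterm, ← sum_filter, sum_const] at h1
  have h2 : labSum ρ row (0 : U) = 0 := by unfold labSum; simp
  rw [h2] at h1
  have hcard : ((univ.filter (fun g : Perm T => ∀ t, n (g t) = n t)).filter
      (fun s => ∀ t, colRank col n (s t) = colRank col n t)).card ≠ 0 := by
    rw [card_ne_zero]
    exact ⟨1, by simp⟩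
  rw [← Nat.cast_smul_eq_nsmul ℂ, smul_smul] at h1
  have hne : (((univ.filter (fun g : Perm T => ∀ t, n (g t) = n t)).filter
      (fun s => ∀ t, colRank col n (s t) = colRank col n t)).card : ℂ) *
      ((((Perm.sign k₀ : ℤˣ) : ℤ) : ℂ)) ≠ 0 := by
    apply mul_ne_zero (Nat.cast_ne_zero.mpr hcard)
    rcases Int.units_eq_one_or (Perm.sign k₀) with h | h <;> simp [h]
  exact (smul_eq_zero.mp h1.symm).resolve_left hne

/-- **Lemma V** (any label type). -/
theorem labSum_ne_zero {ι : Type*} [DecidableEq ι] (ρ : Representation ℂ (Perm T) U)
    (row col : T → ℕ) (hinj : ∀ s t, row s = row t → col s = col t → s = t)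
    (htop : ∀ t a, a < row t → ∃ s, row s = a ∧ col s = col t)
    (n : T → ι) (hn : ∀ s t, col s = col t → n s = n t → s = t)
    (v : U) (hv : SwapAlt ρ col v) (hRv : labSum ρ row v ≠ 0) : labSum ρ n v ≠ 0 := by
  classical
  set S := univ.image n with hS
  have hmem : ∀ t, n t ∈ S := fun t => mem_image_of_mem n (mem_univ t)
  set f : T → ℕ := fun t => (S.equivFin ⟨n t, hmem t⟩ : ℕ) with hf
  have hfn : ∀ s t, f s = f t ↔ n s = n t := by
    intro s t
    simp only [hf]
    rw [Fin.val_inj, S.equivFin.injective.eq_iff, Subtype.mk.injEq]
  have h1 := labSum_ne_zero_nat ρ row col hinj htop f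
    (fun s t hc hst => hn s t hc ((hfn s t).mp hst)) v hv hRv
  have h2 : labSum ρ f v = labSum ρ n v := by
    unfold labSum
    refine sum_congr ?_ fun _ _ => rfl
    ext g
    simp only [mem_filter, mem_univ, true_and]
    exact forall_congr' fun t => hfn _ _
  rwa [h2] at h1

/-- **Lemma V** in the output form of the shape lemma. -/
theorem labSum_of_shape {ι : Type*} [DecidableEq ι] (ρ : Representation ℂ (Perm T) U)
    {μ : YoungDiagram} (e : T ≃ μ.cells) (w : U) (hw : SwapFixed ρ (fun t => (e t).1.1) w)
    (hA : colAsym ρ (fun t => (e t).1.2) w ≠ 0)
    (n : T → ι) (hn : ∀ s t, (e s).1.2 = (e t).1.2 → n s = n t → s = t) :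
    labSum ρ n (colAsym ρ (fun t => (e t).1.2) w) ≠ 0 := by
  refine labSum_ne_zero ρ (fun t => (e t).1.1) (fun t => (e t).1.2) ?_ ?_ n hn _
    (colAsym_alt ρ _ w) ?_
  · intro s t h1 h2
    exact e.injective (Subtype.ext (Prod.ext h1 h2))
  · intro t a ha
    have hmem : (a, (e t).1.2) ∈ μ.cells := μ.up_left_mem (le_of_lt ha) le_rfl (e t).2
    exact ⟨e.symm ⟨(a, (e t).1.2), hmem⟩, by simp, by simp⟩
  · exact rowSum_colAsym_ne_zero ρ (fun t => (e t).1.1) _ w (fun g hg => hw.perm g hg) hA

end rep

end Crest.Agent.R195
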