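import Mathlib

/-! Row 195 (S0297, S0298). Words `T → X` and the operators replacing a letter `p` by `q`.
`raise p q Φ w = ∑_{t : w t = q} Φ (w with t ↦ p)`. The main result is `raise_inj`:
`raise p q` is injective on functions supported on words with more `p`'s than `q`'s. -/

set_option autoImplicit false

namespace Crest.Agent.R195

open Finset Function

section raise

variable {T X : Type*} [Fintype T] [DecidableEq T] [DecidableEq X]

/-- number of positions carrying the letter `q` -/
def cnt (w : T → X) (q : X) : ℕ := (univ.filter (fun t => w t = q)).card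

/-- `raise p q Φ w = ∑_{t : w t = q} Φ (w with t ↦ p)` -/
def raise (p q : X) (Φ : (T → X) → ℂ) (w : T → X) : ℂ :=
  ∑ t : T, if w t = q then Φ (update w t p) else 0

theorem raise_adj [Fintype X] (p q : X) (Φ Ψ : (T → X) → ℂ) :
    ∑ w, raise p q Φ w * (starRingEnd ℂ) (Ψ w) = ∑ w, Φ w * (starRingEnd ℂ) (raise q p Ψ w) := by
  classical
  simp only [raise, Finset.sum_mul, map_sum, Finset.mul_sum]
  rw [Finset.sum_comm]
  conv_rhs => rw [Finset.sum_comm]
  refine Finset.sum_congr rfl fun t _ => ?_
  have h1 : ∑ w : T → X, (if w t = q then Φ (update w t p) else 0) * (starRingEnd ℂ) (Ψ w)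
      = ∑ w ∈ univ.filter (fun w : T → X => w t = q),
          Φ (update w t p) * (starRingEnd ℂ) (Ψ w) := by
    rw [Finset.sum_filter]
    refine Finset.sum_congr rfl fun w _ => ?_
    split_ifs <;> simp
  have h2 : ∑ w : T → X, Φ w * (starRingEnd ℂ) (if w t = p then Ψ (update w t q) else 0)
      = ∑ w ∈ univ.filter (fun w : T → X => w t = p),
          Φ w * (starRingEnd ℂ) (Ψ (update w t q)) := by
    rw [Finset.sum_filter]
    refine Finset.sum_congr rfl fun w _ => ?_
    split_ifs <;> simp
  rw [h1, h2]
  refine Finset.sum_bij' (fun w _ => update w t p) (fun w _ => update w t q) ?_ ?_ ?_ ?_ ?_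
  · intro w hw; simp
  · intro w hw; simp
  · intro w hw
    have hw' : w t = q := by simpa using hw
    simp only [update_idem]
    rw [← hw', update_eq_self]
  · intro w hw
    have hw' : w t = p := by simpa using hw
    simp only [update_idem]
    rw [← hw', update_eq_self]
  · intro w hw
    have hw' : w t = q := by simpa using hw
    simp only [update_idem]
    congr 2
    rw [← hw', update_eq_self]

theorem raise_comm {p q : X} (hpq : p ≠ q) (Φ : (T → X) → ℂ) (w : T → X) :
    raise q p (raise p q Φ) w
      = raise p q (raise q p Φ) w + ((cnt w p : ℂ) - cnt w q) * Φ w := by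
  classical
  have key1 : ∀ t : T, (if w t = p then (∑ s : T, if (update w t q) s = q
        then Φ (update (update w t q) s p) else 0) else 0)
      = (if w t = p then Φ w else 0)
        + ∑ s : T, if w t = p ∧ w s = q then Φ (update (update w t q) s p) else 0 := by
    intro t
    by_cases ht : w t = p
    · simp only [ht, if_true, true_and]
      rw [← Finset.add_sum_erase univ _ (Finset.mem_univ t)]
      rw [← Finset.add_sum_erase univ (fun s => if w s = q
        then Φ (update (update w t q) s p) else 0) (Finset.mem_univ t)]
      simp only [update_self, if_true, update_idem]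
      rw [show update w t p = w by rw [← ht, update_eq_self]]
      rw [if_neg (by rw [ht]; exact hpq), zero_add]
      congr 1
      refine Finset.sum_congr rfl fun s hs => ?_
      have hst : s ≠ t := (Finset.mem_erase.1 hs).1
      simp [update_of_ne hst]
    · simp [ht]
  have key2 : ∀ s : T, (if w s = q then (∑ t : T, if (update w s p) t = p
        then Φ (update (update w s p) t q) else 0) else 0)
      = (if w s = q then Φ w else 0)
        + ∑ t : T, if w t = p ∧ w s = q then Φ (update (update w t q) s p) else 0 := by
    intro s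
    by_cases hs : w s = q
    · simp only [hs, if_true, and_true]
      rw [← Finset.add_sum_erase univ _ (Finset.mem_univ s)]
      rw [← Finset.add_sum_erase univ (fun t => if w t = p
        then Φ (update (update w t q) s p) else 0) (Finset.mem_univ s)]
      simp only [update_self, if_true, update_idem]
      rw [show update w s q = w by rw [← hs, update_eq_self]]
      rw [if_neg (by rw [hs]; exact hpq.symm), zero_add]
      congr 1
      refine Finset.sum_congr rfl fun t ht => ?_
      have hst : t ≠ s := (Finset.mem_erase.1 ht).1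
      rw [update_of_ne hst]
      by_cases h : w t = p
      · simp only [h, if_true]
        rw [update_comm hst.symm]
      · simp [h]
    · simp [hs]
  have hp : (∑ t : T, if w t = p then Φ w else 0) = (cnt w p : ℂ) * Φ w := by
    rw [← Finset.sum_filter, Finset.sum_const, nsmul_eq_mul]; rfl
  have hq : (∑ t : T, if w t = q then Φ w else 0) = (cnt w q : ℂ) * Φ w := by
    rw [← Finset.sum_filter, Finset.sum_const, nsmul_eq_mul]; rfl
  unfold raise
  rw [Finset.sum_congr rfl fun t _ => key1 t, Finset.sum_congr rfl fun s _ => key2 s,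
    Finset.sum_add_distrib, Finset.sum_add_distrib, hp, hq, Finset.sum_comm]
  ring

theorem raise_inj [Fintype X] {p q : X} (hpq : p ≠ q) {Φ : (T → X) → ℂ}
    (hs : ∀ w, Φ w ≠ 0 → cnt w q < cnt w p) (h : ∀ w, raise p q Φ w = 0) : ∀ w, Φ w = 0 := by
  classical
  have h0 : ∑ w, raise q p (raise p q Φ) w * (starRingEnd ℂ) (Φ w) = 0 := by
    refine Finset.sum_eq_zero fun w _ => ?_
    have : raise q p (raise p q Φ) w = 0 := by
      unfold raise
      refine Finset.sum_eq_zero fun t _ => ?_
      have := h (update w t q)
      unfold raise at this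
      split_ifs
      · exact this
      · rfl
    rw [this, zero_mul]
  have h1 : ∑ w, raise q p (raise p q Φ) w * (starRingEnd ℂ) (Φ w)
      = ∑ w, ((Complex.normSq (raise q p Φ w) : ℝ) : ℂ)
        + ∑ w, ((((cnt w p : ℝ) - cnt w q) * Complex.normSq (Φ w) : ℝ) : ℂ) := by
    have e1 : ∀ w, raise q p (raise p q Φ) w * (starRingEnd ℂ) (Φ w)
        = raise p q (raise q p Φ) w * (starRingEnd ℂ) (Φ w)
          + ((((cnt w p : ℝ) - cnt w q) * Complex.normSq (Φ w) : ℝ) : ℂ) := by
      intro w
      rw [raise_comm hpq, add_mul]
      congr 1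
      push_cast
      rw [Complex.normSq_eq_conj_mul_self]
      ring
    rw [Finset.sum_congr rfl fun w _ => e1 w, Finset.sum_add_distrib, raise_adj]
    congr 1
    refine Finset.sum_congr rfl fun w _ => ?_
    rw [Complex.mul_conj]
  rw [h0] at h1
  have h2 : (0 : ℝ) = ∑ w, Complex.normSq (raise q p Φ w)
        + ∑ w, (((cnt w p : ℝ) - cnt w q) * Complex.normSq (Φ w)) := by
    have := congrArg Complex.re h1
    simpa [← Complex.ofReal_sum] using this
  have hnn : ∀ w, 0 ≤ (((cnt w p : ℝ) - cnt w q) * Complex.normSq (Φ w)) := by
    intro w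
    by_cases hw : Φ w = 0
    · simp [hw]
    · have := hs w hw
      have h3 : (cnt w q : ℝ) < cnt w p := by exact_mod_cast this
      exact mul_nonneg (by linarith) (Complex.normSq_nonneg _)
  have hA : 0 ≤ ∑ w, Complex.normSq (raise q p Φ w) :=
    Finset.sum_nonneg fun w _ => Complex.normSq_nonneg _
  have hB : ∑ w, (((cnt w p : ℝ) - cnt w q) * Complex.normSq (Φ w)) = 0 := by
    have := Finset.sum_nonneg fun w (_ : w ∈ univ) => hnn w
    linarith
  have hC := (Finset.sum_eq_zero_iff_of_nonneg fun w _ => hnn w).1 hB
  intro w
  by_contra hw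
  have h3 : (cnt w q : ℝ) < cnt w p := by exact_mod_cast hs w hw
  have h4 := hC w (Finset.mem_univ w)
  have h5 : 0 < Complex.normSq (Φ w) := Complex.normSq_pos.2 hw
  have : 0 < ((cnt w p : ℝ) - cnt w q) * Complex.normSq (Φ w) := mul_pos (by linarith) h5
  linarith

end raise

end Crest.Agent.R195
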