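import Crest.Agent.R195.SpDefs

/-! Row 195, L4.  Gluing of tableaux with disjoint column sets: the polytabloid of a glued tableau is
the product of the polytabloids. -/

set_option autoImplicit false
set_option linter.unusedSectionVars false
set_option linter.unusedDecidableInType false

namespace Crest.Agent.R195

open Finset Function

section glue

variable {T : Type*} [Fintype T] [DecidableEq T]

/-- summing over the permutations of `T` a function that vanishes off the permutations preserving
`p` is summing over pairs of permutations. -/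
theorem sum_perm_preserving {M : Type*} [AddCommMonoid M] (p : T → Prop) [DecidablePred p]
    (F : Equiv.Perm T → M) (hF : ∀ σ, (¬ ∀ i, p (σ i) ↔ p i) → F σ = 0) :
    ∑ σ, F σ = ∑ a : Equiv.Perm {t // p t}, ∑ b : Equiv.Perm {t // ¬ p t},
      F (Equiv.Perm.subtypeCongr a b) := by
  classical
  rw [← Fintype.sum_prod_type' (f := fun a b => F (Equiv.Perm.subtypeCongr a b))]
  symm
  refine Finset.sum_bij_ne_zero (fun q _ _ => Equiv.Perm.subtypeCongr q.1 q.2)
    (fun q _ _ => Finset.mem_univ _) ?_ ?_ ?_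
  · rintro ⟨a, b⟩ _ _ ⟨a', b'⟩ _ _ h
    have := Equiv.Perm.subtypeCongrHom_injective p (a₁ := (a, b)) (a₂ := (a', b')) h
    exact this
  · intro σ _ hσ
    have hp : ∀ i, p (σ i) ↔ p i := by
      by_contra hcon
      exact hσ (hF σ hcon)
    have hn : ∀ i, (¬ p (σ i)) ↔ ¬ p i := fun i => not_congr (hp i)
    have key : Equiv.Perm.subtypeCongr (σ.subtypePerm hp) (σ.subtypePerm hn) = σ := by
      ext i
      rw [Equiv.Perm.subtypeCongr.apply]
      split_ifs <;> rfl
    refine ⟨(σ.subtypePerm hp, σ.subtypePerm hn), Finset.mem_univ _, ?_, key⟩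
    simp only [key]
    exact hσ
  · intro q _ _
    rfl

/-- **Gluing.** If the letters satisfying `p` and the others sit in different columns, then the
polytabloid is a product. -/
theorem polyF_glue (p : T → Prop) [DecidablePred p] (τ : T → ℕ × ℕ)
    (h : ∀ s t, p s → ¬ p t → (τ s).2 ≠ (τ t).2) (w : T → ℕ) :
    polyF τ w = polyF (fun t : {t // p t} => τ t) (fun t => w t) *
      polyF (fun t : {t // ¬ p t} => τ t) (fun t => w t) := by
  classical
  unfold polyF
  rw [sum_perm_preserving p]
  · rw [Finset.sum_mul_sum]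
    refine Finset.sum_congr rfl fun a _ => Finset.sum_congr rfl fun b _ => ?_
    have hL : ((∀ i, (τ ((Equiv.Perm.subtypeCongr a b) i)).2 = (τ i).2) ∧
        ∀ i, w ((Equiv.Perm.subtypeCongr a b) i) = (τ i).1) ↔
        ((∀ i : {t // p t}, (τ (a i)).2 = (τ i).2) ∧ ∀ i : {t // p t}, w (a i) = (τ i).1) ∧
        ((∀ i : {t // ¬ p t}, (τ (b i)).2 = (τ i).2) ∧
          ∀ i : {t // ¬ p t}, w (b i) = (τ i).1) := by
      constructor
      · rintro ⟨h1, h2⟩
        refine ⟨⟨fun i => ?_, fun i => ?_⟩, ⟨fun i => ?_, fun i => ?_⟩⟩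
        · simpa [Equiv.Perm.subtypeCongr.left_apply _ _ i.2] using h1 i
        · simpa [Equiv.Perm.subtypeCongr.left_apply _ _ i.2] using h2 i
        · simpa [Equiv.Perm.subtypeCongr.right_apply _ _ i.2] using h1 i
        · simpa [Equiv.Perm.subtypeCongr.right_apply _ _ i.2] using h2 i
      · rintro ⟨⟨h1, h2⟩, ⟨h3, h4⟩⟩
        refine ⟨fun i => ?_, fun i => ?_⟩
        · by_cases hi : p i
          · rw [Equiv.Perm.subtypeCongr.left_apply _ _ hi]; exact h1 ⟨i, hi⟩
          · rw [Equiv.Perm.subtypeCongr.right_apply _ _ hi]; exact h3 ⟨i, hi⟩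
        · by_cases hi : p i
          · rw [Equiv.Perm.subtypeCongr.left_apply _ _ hi]; exact h2 ⟨i, hi⟩
          · rw [Equiv.Perm.subtypeCongr.right_apply _ _ hi]; exact h4 ⟨i, hi⟩
    simp only [hL]
    by_cases hA : (∀ i : {t // p t}, (τ (a i)).2 = (τ i).2) ∧
        ∀ i : {t // p t}, w (a i) = (τ i).1
    · by_cases hB : (∀ i : {t // ¬ p t}, (τ (b i)).2 = (τ i).2) ∧
          ∀ i : {t // ¬ p t}, w (b i) = (τ i).1
      · rw [if_pos ⟨hA, hB⟩, if_pos hA, if_pos hB, Equiv.Perm.sign_subtypeCongr]
        push_cast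
        rfl
      · rw [if_neg (fun hh => hB hh.2), if_neg hB, mul_zero]
    · rw [if_neg (fun hh => hA hh.1), if_neg hA, zero_mul]
  · intro σ hσ
    rw [if_neg]
    rintro ⟨h1, -⟩
    apply hσ
    intro i
    constructor
    · intro h2
      by_contra h3
      exact h _ _ h2 h3 (h1 i)
    · intro h2
      by_contra h3
      exact h _ _ h2 h3 (h1 i).symm

end glue

end Crest.Agent.R195
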