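import Crest.Agent.R195.Zig1

/-! Row 195, L4.  The step `λ = κ + rest` for equivariant kernels. -/

set_option autoImplicit false
set_option linter.unusedSectionVars false
set_option linter.unusedDecidableInType false

namespace Crest.Agent.R195

open Finset Function

/-- shift all columns by `k` -/
def shiftC (k : ℕ) (D : Finset (ℕ × ℕ)) : Finset (ℕ × ℕ) := D.image fun c => (c.1, c.2 + k)

/-- the columns of `D` followed by the columns of `E` (the columns of `D` are `< k`) -/
def addC (k : ℕ) (D E : Finset (ℕ × ℕ)) : Finset (ℕ × ℕ) := D ∪ shiftC k E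

section words

variable {T X : Type*}

/-- restrict a word to the letters satisfying `p` -/
def resP (p : T → Prop) (w : T → X) : {t // p t} → X := fun t => w t

/-- restrict a word to the letters not satisfying `p` -/
def resN (p : T → Prop) (w : T → X) : {t // ¬ p t} → X := fun t => w t

/-- glue two words -/
def glueW (p : T → Prop) [DecidablePred p] (a : {t // p t} → X) (b : {t // ¬ p t} → X) : T → X :=
  fun t => if h : p t then a ⟨t, h⟩ else b ⟨t, h⟩

theorem resP_glueW (p : T → Prop) [DecidablePred p] (a : {t // p t} → X) (b : {t // ¬ p t} → X) :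
    resP p (glueW p a b) = a := by
  funext t; simp [resP, glueW, t.2]

theorem resN_glueW (p : T → Prop) [DecidablePred p] (a : {t // p t} → X) (b : {t // ¬ p t} → X) :
    resN p (glueW p a b) = b := by
  funext t; simp [resN, glueW, t.2]

theorem glueW_res (p : T → Prop) [DecidablePred p] (w : T → X) :
    glueW p (resP p w) (resN p w) = w := by
  funext t; by_cases h : p t <;> simp [resP, resN, glueW, h]

/-- words on `T` = pairs of words -/
def glueE (p : T → Prop) [DecidablePred p] : (({t // p t} → X) × ({t // ¬ p t} → X)) ≃ (T → X) where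
  toFun q := glueW p q.1 q.2
  invFun w := (resP p w, resN p w)
  left_inv q := by simp [resP_glueW, resN_glueW]
  right_inv w := glueW_res p w

end words

/-- total cost of a word of cells -/
def cost {T : Type*} [Fintype T] (u : T → ℕ × ℕ) : ℕ := ∑ t, (u t).1 * (u t).2

section cost

variable {T : Type*} [Fintype T] [DecidableEq T]

theorem cost_comp (u : T → ℕ × ℕ) (g : Equiv.Perm T) : cost (u ∘ g) = cost u := by
  unfold cost
  exact Equiv.sum_comp g (fun t => (u t).1 * (u t).2)

theorem cost_res (p : T → Prop) [DecidablePred p] (u : T → ℕ × ℕ) :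
    cost u = cost (resP p u) + cost (resN p u) := by
  unfold cost resP resN
  exact (Fintype.sum_subtype_add_sum_subtype p (fun t => (u t).1 * (u t).2)).symm

theorem polyF_shift (τ : T → ℕ × ℕ) (k : ℕ) :
    polyF (fun t => ((τ t).1, (τ t).2 + k)) = polyF τ := by
  funext w
  unfold polyF
  simp only [Nat.add_right_cancel_iff]

theorem isTab_glue {p : T → Prop} [DecidablePred p] {k : ℕ} {D E : Finset (ℕ × ℕ)}
    {a : {t // p t} → ℕ × ℕ} {b : {t // ¬ p t} → ℕ × ℕ} (ha : IsTab D a) (hb : IsTab E b)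
    (hk : ∀ c ∈ D, c.2 < k) :
    IsTab (addC k D E) (glueW p a (fun t => ((b t).1, (b t).2 + k))) := by
  classical
  have ha' : ∀ t, a t ∈ D := fun t => by rw [← ha.2]; exact mem_image_of_mem _ (mem_univ _)
  constructor
  · intro s t hst
    unfold glueW at hst
    by_cases hs : p s <;> by_cases ht : p t
    · simp only [hs, ht, dif_pos] at hst
      exact congrArg Subtype.val (ha.1 hst)
    · simp only [hs, ht, dif_pos, dif_neg, not_false_iff] at hst
      have := hk _ (ha' ⟨s, hs⟩)
      rw [hst] at this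
      simp only at this
      omega
    · simp only [hs, ht, dif_pos, dif_neg, not_false_iff] at hst
      have := hk _ (ha' ⟨t, ht⟩)
      rw [← hst] at this
      simp only at this
      omega
    · simp only [hs, ht, dif_neg, not_false_iff, Prod.mk.injEq, Nat.add_right_cancel_iff] at hst
      exact congrArg Subtype.val (hb.1 (Prod.ext hst.1 hst.2))
  · ext c
    simp only [mem_image, mem_univ, true_and, addC, shiftC, mem_union]
    constructor
    · rintro ⟨t, rfl⟩
      by_cases ht : p t
      · left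
        simp only [glueW, ht, dif_pos]
        exact ha' _
      · right
        refine ⟨b ⟨t, ht⟩, ?_, ?_⟩
        · rw [← hb.2]; exact mem_image_of_mem _ (mem_univ _)
        · simp [glueW, ht]
    · rintro (hc | ⟨d, hd, rfl⟩)
      · rw [← ha.2] at hc
        obtain ⟨t, -, rfl⟩ := mem_image.1 hc
        exact ⟨t, by simp [glueW, t.2]⟩
      · rw [← hb.2] at hd
        obtain ⟨t, -, rfl⟩ := mem_image.1 hd
        exact ⟨t, by simp [glueW, t.2]⟩

theorem polyF_glueW {p : T → Prop} [DecidablePred p] {k : ℕ} {D : Finset (ℕ × ℕ)}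
    {a : {t // p t} → ℕ × ℕ} (b : {t // ¬ p t} → ℕ × ℕ) (ha : IsTab D a)
    (hk : ∀ c ∈ D, c.2 < k) (w : T → ℕ) :
    polyF (glueW p a (fun t => ((b t).1, (b t).2 + k))) w =
      polyF a (resP p w) * polyF b (resN p w) := by
  classical
  have ha' : ∀ t, a t ∈ D := fun t => by rw [← ha.2]; exact mem_image_of_mem _ (mem_univ _)
  rw [polyF_glue p]
  · congr 1
    · congr 1
      funext t
      simp [glueW, t.2]
    · rw [← polyF_shift b k]
      congr 1
      funext t
      simp [glueW, t.2]
  · intro s t hs ht hst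
    have := hk _ (ha' ⟨s, hs⟩)
    simp only [glueW, hs, ht, dif_pos, dif_neg, not_false_iff] at hst
    omega

/-- products of elements of `Kr` on complementary sets of letters -/
theorem Kr_glue {p : T → Prop} [DecidablePred p] {k l : ℕ} {D E D' E' : Finset (ℕ × ℕ)}
    (hk : ∀ c ∈ D, c.2 < k) (hl : ∀ c ∈ D', c.2 < l)
    {f : ({t // p t} → ℕ × ℕ) → ℂ} (hf : f ∈ Kr {t // p t} D D')
    {g : ({t // ¬ p t} → ℕ × ℕ) → ℂ} (hg : g ∈ Kr {t // ¬ p t} E E') :
    (fun w => f (resP p w) * g (resN p w)) ∈ Kr T (addC k D E) (addC l D' E') := by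
  unfold Kr at hf
  induction hf using Submodule.span_induction with
  | mem x hx =>
    obtain ⟨τ, τ', hτ, hτ', rfl⟩ := hx
    unfold Kr at hg
    induction hg using Submodule.span_induction with
    | mem y hy =>
      obtain ⟨υ, υ', hυ, hυ', rfl⟩ := hy
      refine Submodule.subset_span ⟨_, _, isTab_glue hτ hυ hk, isTab_glue hτ' hυ' hl, ?_⟩
      funext w
      unfold prodF
      rw [polyF_glueW υ hτ hk, polyF_glueW υ' hτ' hl]
      change (polyF τ (fun t => (w t).1) * polyF τ' (fun t => (w t).2)) *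
        (polyF υ (fun t => (w t).1) * polyF υ' (fun t => (w t).2)) =
        (polyF τ (fun t => (w t).1) * polyF υ (fun t => (w t).1)) *
        (polyF τ' (fun t => (w t).2) * polyF υ' (fun t => (w t).2))
      ring
    | zero =>
      convert Submodule.zero_mem (Kr T (addC k D E) (addC l D' E')) using 1
      funext w; simp
    | add y z _ _ hy hz =>
      have := Submodule.add_mem _ hy hz
      convert this using 1
      funext w
      simp only [Pi.add_apply]; ring
    | smul a y _ hy =>
      have := Submodule.smul_mem _ a hy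
      convert this using 1
      funext w
      simp only [Pi.smul_apply, smul_eq_mul]; ring
  | zero =>
    convert Submodule.zero_mem (Kr T (addC k D E) (addC l D' E')) using 1
    funext w; simp
  | add y z _ _ hy hz =>
    have := Submodule.add_mem _ hy hz
    convert this using 1
    funext w
    simp only [Pi.add_apply]; ring
  | smul a y _ hy =>
    have := Submodule.smul_mem _ a hy
    convert this using 1
    funext w
    simp only [Pi.smul_apply, smul_eq_mul]; ring

end cost

/-- equivariant kernels with values in `S`, cost at least `c`, cells in `Z` at cost `c`. -/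
structure KerB {T K : Type*} [Fintype T] [DecidableEq T]
    (S : Submodule ℂ ((T → ℕ × ℕ) → ℂ)) (Z : Set (ℕ × ℕ)) (c : ℕ)
    (k : (T → K) → (T → ℕ × ℕ) → ℂ) : Prop where
  act : ∀ (g : Equiv.Perm T) (z : T → K) (u : T → ℕ × ℕ), k (z ∘ g) (u ∘ g) = k z u
  mem : ∀ z, k z ∈ S
  bd : ∀ z u, k z u ≠ 0 → c ≤ cost u ∧ (cost u = c → ∀ t, u t ∈ Z)

section step

variable {T K : Type*} [Fintype T] [DecidableEq T] [Fintype K] [DecidableEq K]

/-- the induction product of two kernels -/
noncomputable def kerMul (p : T → Prop) [DecidablePred p]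
    (k' : ({t // p t} → K) → ({t // p t} → ℕ × ℕ) → ℂ)
    (k'' : ({t // ¬ p t} → K) → ({t // ¬ p t} → ℕ × ℕ) → ℂ)
    (z : T → K) (u : T → ℕ × ℕ) : ℂ :=
  ∑ g : Equiv.Perm T, k' (resP p (z ∘ g)) (resP p (u ∘ g)) * k'' (resN p (z ∘ g)) (resN p (u ∘ g))

theorem kerMul_KerB {p : T → Prop} [DecidablePred p] {m n : ℕ} {D E D' E' : Finset (ℕ × ℕ)}
    (hm : ∀ c ∈ D, c.2 < m) (hn : ∀ c ∈ D', c.2 < n) {Z' Z'' : Set (ℕ × ℕ)} {c' c'' : ℕ}
    {k' : ({t // p t} → K) → ({t // p t} → ℕ × ℕ) → ℂ}
    {k'' : ({t // ¬ p t} → K) → ({t // ¬ p t} → ℕ × ℕ) → ℂ}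
    (h' : KerB (Kr {t // p t} D D') Z' c' k') (h'' : KerB (Kr {t // ¬ p t} E E') Z'' c'' k'') :
    KerB (Kr T (addC m D E) (addC n D' E')) (Z' ∪ Z'') (c' + c'') (kerMul p k' k'') where
  act := by
    intro h z u
    unfold kerMul
    exact Equiv.sum_comp (Equiv.mulLeft h) (fun g => k' (resP p (z ∘ g)) (resP p (u ∘ g)) *
      k'' (resN p (z ∘ g)) (resN p (u ∘ g)))
  mem := by
    intro z
    have : kerMul p k' k'' z = ∑ g : Equiv.Perm T, fun u : T → ℕ × ℕ =>
        (fun w => k' (resP p (z ∘ g)) (resP p w) * k'' (resN p (z ∘ g)) (resN p w)) (u ∘ g) := by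
      funext u
      simp [kerMul, Finset.sum_apply]
    rw [this]
    refine Submodule.sum_mem _ fun g _ => ?_
    exact Kr_act (Kr_glue hm hn (h'.mem _) (h''.mem _)) g
  bd := by
    intro z u hne
    obtain ⟨g, -, hg⟩ := Finset.exists_ne_zero_of_sum_ne_zero hne
    have h1 := h'.bd _ _ (left_ne_zero_of_mul hg)
    have h2 := h''.bd _ _ (right_ne_zero_of_mul hg)
    have h3 : cost u = cost (resP p (u ∘ g)) + cost (resN p (u ∘ g)) := by
      rw [← cost_res, cost_comp]
    refine ⟨by omega, fun hc t => ?_⟩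
    have h4 := h1.2 (by omega)
    have h5 := h2.2 (by omega)
    by_cases ht : p (g.symm t)
    · left
      have := h4 ⟨g.symm t, ht⟩
      simpa [resP] using this
    · right
      have := h5 ⟨g.symm t, ht⟩
      simpa [resN] using this

theorem resP_congr {X : Type*} {p : T → Prop} [DecidablePred p] (w : T → X)
    (a : Equiv.Perm {t // p t}) (b : Equiv.Perm {t // ¬ p t}) :
    resP p (w ∘ (Equiv.Perm.subtypeCongr a b)) = resP p w ∘ a := by
  funext t
  simp [resP, Equiv.Perm.subtypeCongr.left_apply _ _ t.2]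

theorem resN_congr {X : Type*} {p : T → Prop} [DecidablePred p] (w : T → X)
    (a : Equiv.Perm {t // p t}) (b : Equiv.Perm {t // ¬ p t}) :
    resN p (w ∘ (Equiv.Perm.subtypeCongr a b)) = resN p w ∘ b := by
  funext t
  simp [resN, Equiv.Perm.subtypeCongr.right_apply _ _ t.2]

/-- **The step**: evaluation of the induction product at a word of minimal cost. -/
theorem kerMul_ne {p : T → Prop} [DecidablePred p] {S' : Submodule ℂ (({t // p t} → ℕ × ℕ) → ℂ)}
    {S'' : Submodule ℂ (({t // ¬ p t} → ℕ × ℕ) → ℂ)} {Z' Z'' : Set (ℕ × ℕ)} {c' c'' : ℕ}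
    {k' : ({t // p t} → K) → ({t // p t} → ℕ × ℕ) → ℂ}
    {k'' : ({t // ¬ p t} → K) → ({t // ¬ p t} → ℕ × ℕ) → ℂ}
    (h' : KerB S' Z' c' k') (h'' : KerB S'' Z'' c'' k'')
    (hZ : Disjoint Z' Z'') (v : (T → K) → ℂ)
    {u' : {t // p t} → ℕ × ℕ} {u'' : {t // ¬ p t} → ℕ × ℕ} (hu' : cost u' = c')
    (hu'' : cost u'' = c'')
    (hne : ∑ z', (∑ z'', v (glueW p z' z'') * k'' z'' u'') * k' z' u' ≠ 0) :
    ∑ z, v z * kerMul p k' k'' z (glueW p u' u'') ≠ 0 := by
  classical
  -- the cells of `u'` and `u''`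
  obtain ⟨z1, -, hz1⟩ := Finset.exists_ne_zero_of_sum_ne_zero hne
  have hZ' : ∀ t, u' t ∈ Z' := (h'.bd _ _ (right_ne_zero_of_mul hz1)).2 hu'
  obtain ⟨z2, -, hz2⟩ := Finset.exists_ne_zero_of_sum_ne_zero (left_ne_zero_of_mul hz1)
  have hZ'' : ∀ t, u'' t ∈ Z'' := (h''.bd _ _ (right_ne_zero_of_mul hz2)).2 hu''
  set u : T → ℕ × ℕ := glueW p u' u'' with hu
  have hcu : cost u = c' + c'' := by
    rw [cost_res p, hu, resP_glueW, resN_glueW, hu', hu'']
  have hF : ∀ z : T → K, ∀ g : Equiv.Perm T, (¬ ∀ i, p (g i) ↔ p i) →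
      k' (resP p (z ∘ g)) (resP p (u ∘ g)) * k'' (resN p (z ∘ g)) (resN p (u ∘ g)) = 0 := by
    intro z g hg
    by_contra hcon
    apply hg
    have h1 := h'.bd _ _ (left_ne_zero_of_mul hcon)
    have h2 := h''.bd _ _ (right_ne_zero_of_mul hcon)
    have h3 : cost u = cost (resP p (u ∘ g)) + cost (resN p (u ∘ g)) := by
      rw [← cost_res, cost_comp]
    have h4 := h1.2 (by omega)
    have h5 := h2.2 (by omega)
    have hdis : ∀ c, c ∈ Z' → c ∈ Z'' → False := fun c hc hc' =>
      Set.disjoint_left.1 hZ hc hc'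
    intro i
    constructor
    · intro hi
      by_contra hni
      have h6 := h5 ⟨i, hni⟩
      simp only [resN, comp_apply] at h6
      have h7 : u (g i) = u' ⟨g i, hi⟩ := by rw [hu]; simp [glueW, hi]
      rw [h7] at h6
      exact hdis _ (hZ' _) h6
    · intro hi
      by_contra hni
      have h6 := h4 ⟨i, hi⟩
      simp only [resP, comp_apply] at h6
      have h7 : u (g i) = u'' ⟨g i, hni⟩ := by rw [hu]; simp [glueW, hni]
      rw [h7] at h6
      exact hdis _ h6 (hZ'' _)
  have hK : ∀ z : T → K, kerMul p k' k'' z u =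
      (Fintype.card (Equiv.Perm {t // p t}) : ℂ) * (Fintype.card (Equiv.Perm {t // ¬ p t}) : ℂ) *
        (k' (resP p z) u' * k'' (resN p z) u'') := by
    intro z
    unfold kerMul
    rw [sum_perm_preserving p _ (hF z)]
    have : ∀ (a : Equiv.Perm {t // p t}) (b : Equiv.Perm {t // ¬ p t}),
        k' (resP p (z ∘ (Equiv.Perm.subtypeCongr a b))) (resP p (u ∘ (Equiv.Perm.subtypeCongr a b)))
          * k'' (resN p (z ∘ (Equiv.Perm.subtypeCongr a b)))
            (resN p (u ∘ (Equiv.Perm.subtypeCongr a b))) =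
        k' (resP p z) u' * k'' (resN p z) u'' := by
      intro a b
      rw [resP_congr, resP_congr, resN_congr, resN_congr, h'.act, h''.act, hu, resP_glueW,
        resN_glueW]
    simp only [this]
    simp only [Finset.sum_const, Finset.card_univ, nsmul_eq_mul]
    ring
  simp only [hK]
  have hsum : ∑ z : T → K, v z * ((Fintype.card (Equiv.Perm {t // p t}) : ℂ) *
      (Fintype.card (Equiv.Perm {t // ¬ p t}) : ℂ) * (k' (resP p z) u' * k'' (resN p z) u'')) =
      ((Fintype.card (Equiv.Perm {t // p t}) : ℂ) * (Fintype.card (Equiv.Perm {t // ¬ p t}) : ℂ)) *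
      ∑ z', (∑ z'', v (glueW p z' z'') * k'' z'' u'') * k' z' u' := by
    rw [← Equiv.sum_comp (glueE (X := K) p), Fintype.sum_prod_type, Finset.mul_sum]
    refine Finset.sum_congr rfl fun a _ => ?_
    rw [Finset.sum_mul, Finset.mul_sum]
    refine Finset.sum_congr rfl fun b _ => ?_
    change v (glueW p a b) * (_ * (k' (resP p (glueW p a b)) u' * k'' (resN p (glueW p a b)) u''))
      = _
    rw [resP_glueW, resN_glueW]
    ring
  rw [hsum]
  refine mul_ne_zero (mul_ne_zero ?_ ?_) hne
  · exact_mod_cast Fintype.card_ne_zero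
  · exact_mod_cast Fintype.card_ne_zero

end step

/-- `Det ν D E Z c`: nonzero functions on colour words of content `ν` are detected by equivariant
kernels with values in `Kr T D E`, at words of minimal cost `c` with cells in `Z`. -/
def Det {K : Type} [Fintype K] [DecidableEq K] (ν : K → ℕ) (D E : Finset (ℕ × ℕ))
    (Z : Set (ℕ × ℕ)) (c : ℕ) : Prop :=
  ∀ (T : Type) [Fintype T] [DecidableEq T] (v : (T → K) → ℂ) (z₀ : T → K),
    (∀ a, (univ.filter fun t => z₀ t = a).card = ν a) → v z₀ ≠ 0 →
    ∃ k : (T → K) → (T → ℕ × ℕ) → ℂ, KerB (Kr T D E) Z c k ∧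
      ∃ u, cost u = c ∧ ∑ z, v z * k z u ≠ 0

section det

variable {K : Type} [Fintype K] [DecidableEq K]

/-- **Step** `λ = κ + rest`. -/
theorem Det.add {ν' ν'' : K → ℕ} {D E D' E' : Finset (ℕ × ℕ)} {Z' Z'' : Set (ℕ × ℕ)}
    {c' c'' m n : ℕ} (h' : Det ν' D D' Z' c') (h'' : Det ν'' E E' Z'' c'')
    (hν : ∀ a, ν' a = 0 ∨ ν'' a = 0) (hZ : Disjoint Z' Z'')
    (hm : ∀ c ∈ D, c.2 < m) (hn : ∀ c ∈ D', c.2 < n) :
    Det (fun a => ν' a + ν'' a) (addC m D E) (addC n D' E') (Z' ∪ Z'') (c' + c'') := by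
  classical
  intro T _ _ v z₀ hz₀ hv
  let p : T → Prop := fun t => ν' (z₀ t) ≠ 0
  have hcardP : ∀ a, (univ.filter fun t : {t // p t} => (resP p z₀) t = a).card = ν' a := by
    intro a
    by_cases ha : ν' a = 0
    · rw [ha, Finset.card_eq_zero, Finset.filter_eq_empty_iff]
      intro t _ ht
      exact t.2 (by rw [show z₀ t = a from ht]; exact ha)
    · have h1 : ν'' a = 0 := (hν a).resolve_left ha
      have h2 := hz₀ a
      simp only [h1, add_zero] at h2
      rw [← h2]
      refine Finset.card_bij (fun t _ => (t : T)) ?_ ?_ ?_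
      · intro t ht
        simp only [mem_filter, mem_univ, true_and] at ht ⊢
        exact ht
      · intro s _ t _ hst
        exact Subtype.ext hst
      · intro t ht
        simp only [mem_filter, mem_univ, true_and] at ht
        exact ⟨⟨t, by change ν' (z₀ t) ≠ 0; rw [ht]; exact ha⟩, by simpa [resP] using ht, rfl⟩
  have hcardN : ∀ a, (univ.filter fun t : {t // ¬ p t} => (resN p z₀) t = a).card = ν'' a := by
    intro a
    by_cases ha : ν' a = 0
    · have h2 := hz₀ a
      simp only [ha, zero_add] at h2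
      rw [← h2]
      refine Finset.card_bij (fun t _ => (t : T)) ?_ ?_ ?_
      · intro t ht
        simp only [mem_filter, mem_univ, true_and] at ht ⊢
        exact ht
      · intro s _ t _ hst
        exact Subtype.ext hst
      · intro t ht
        simp only [mem_filter, mem_univ, true_and] at ht
        exact ⟨⟨t, by change ¬ ν' (z₀ t) ≠ 0; rw [ht]; simpa using ha⟩,
          by simpa [resN] using ht, rfl⟩
    · rw [(hν a).resolve_left ha, Finset.card_eq_zero, Finset.filter_eq_empty_iff]
      intro t _ ht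
      apply t.2
      change ν' (z₀ t) ≠ 0
      rw [show z₀ t = a from ht]
      exact ha
  obtain ⟨k'', hk'', u'', hu'', hne''⟩ := h'' {t // ¬ p t} (fun z'' => v (glueW p (resP p z₀) z''))
    (resN p z₀) hcardN (by simpa [glueW_res] using hv)
  obtain ⟨k', hk', u', hu', hne'⟩ := h' {t // p t}
    (fun z' => ∑ z'', v (glueW p z' z'') * k'' z'' u'') (resP p z₀) hcardP hne''
  exact ⟨kerMul p k' k'', kerMul_KerB hm hn hk' hk'', glueW p u' u'',
    by rw [cost_res p, resP_glueW, resN_glueW, hu', hu''],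
    kerMul_ne hk' hk'' hZ v hu' hu'' hne'⟩

/-- the empty shape -/
theorem Det.empty : Det (fun _ : K => 0) ∅ ∅ ∅ 0 := by
  intro T _ _ v z₀ hz₀ hv
  have hT : IsEmpty T := by
    refine ⟨fun t => ?_⟩
    have := hz₀ (z₀ t)
    rw [Finset.card_eq_zero, Finset.filter_eq_empty_iff] at this
    exact this (mem_univ t) rfl
  refine ⟨fun _ _ => 1, ⟨fun _ _ _ => rfl, fun z => ?_, fun z u _ => ⟨Nat.zero_le _, fun _ t =>
    (hT.false t).elim⟩⟩, fun t => (hT.false t).elim, ?_, ?_⟩
  · refine Submodule.subset_span ⟨fun t => (hT.false t).elim, fun t => (hT.false t).elim, ?_, ?_, ?_⟩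
    · exact ⟨fun t => (hT.false t).elim, by simp⟩
    · exact ⟨fun t => (hT.false t).elim, by simp⟩
    · funext w
      simp [prodF, polyF]
  · simp [cost]
  · have : ∀ z : T → K, z = z₀ := fun z => funext fun t => (hT.false t).elim
    rw [Fintype.sum_eq_single z₀ (fun z hz => absurd (this z) hz), mul_one]
    exact hv

end det

end Crest.Agent.R195
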