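import Crest.Agent.R195.Zig2
import Crest.Agent.R195.Shape

/-! Row 195, L4.  From detection to occurrence; from a gadget to detection; dual certificates for the
minimal cost; the rectangle gadget. -/

set_option autoImplicit false
set_option linter.unusedSectionVars false
set_option linter.unusedDecidableInType false

namespace Crest.Agent.R195

open Finset Function

section occ

variable {K : Type} [Fintype K] [DecidableEq K]

/-- a representation with a nonzero vector fixed by the Young subgroup of a colouring of content `ν`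
occurs in `Kr T D E`. -/
theorem Det.occ {ν : K → ℕ} {D E : Finset (ℕ × ℕ)} {Z : Set (ℕ × ℕ)} {c : ℕ} (h : Det ν D E Z c)
    {T : Type} [Fintype T] [DecidableEq T] {W : Type*} [AddCommGroup W] [Module ℂ W]
    (ρ : Representation ℂ (Equiv.Perm T) W) (f : T → K)
    (hf : ∀ a, (univ.filter fun t => f t = a).card = ν a) (w : W) (hw : w ≠ 0)
    (hfix : SwapFixed ρ f w) : Occ ρ (Kr T D E) := by
  classical
  obtain ⟨ℓ, hℓ⟩ : ∃ ℓ : Module.Dual ℂ W, ℓ w ≠ 0 := by
    by_contra hcon
    push Not at hcon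
    exact hw ((Module.forall_dual_apply_eq_zero_iff ℂ w).1 hcon)
  let ι : W →ₗ[ℂ] ((T → K) → ℂ) := LinearMap.pi fun z =>
    ∑ g : Equiv.Perm T, if f ∘ g.symm = z then ℓ ∘ₗ ρ g⁻¹ else 0
  have hι : ∀ x z, ι x z = ∑ g : Equiv.Perm T, if f ∘ g.symm = z then ℓ (ρ g⁻¹ x) else 0 := by
    intro x z
    simp only [ι, LinearMap.pi_apply, LinearMap.sum_apply]
    refine Finset.sum_congr rfl fun g _ => ?_
    split_ifs <;> simp
  have hιw : ι w f ≠ 0 := by
    rw [hι]
    have : ∀ g : Equiv.Perm T, (if f ∘ g.symm = f then ℓ (ρ g⁻¹ w) else 0) =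
        if f ∘ g.symm = f then ℓ w else 0 := by
      intro g
      split_ifs with hg
      · have : ρ g⁻¹ w = w := by
          refine hfix.perm g⁻¹ fun t => ?_
          exact congrFun hg t
        rw [this]
      · rfl
    simp only [this]
    rw [← Finset.sum_filter, Finset.sum_const, nsmul_eq_mul]
    refine mul_ne_zero ?_ hℓ
    have : (univ.filter fun g : Equiv.Perm T => f ∘ g.symm = f).card ≠ 0 := by
      rw [Finset.card_ne_zero]
      exact ⟨1, by simp; rfl⟩
    exact_mod_cast this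
  obtain ⟨k, hk, u, -, hu⟩ := h T (ι w) f hf hιw
  let φ : W →ₗ[ℂ] ((T → ℕ × ℕ) → ℂ) := ∑ z : T → K,
    (LinearMap.toSpanSingleton ℂ ((T → ℕ × ℕ) → ℂ) (k z)) ∘ₗ ((LinearMap.proj z) ∘ₗ ι)
  have hφ : ∀ x u, φ x u = ∑ z : T → K, ι x z * k z u := by
    intro x u
    simp [φ, LinearMap.sum_apply, Finset.sum_apply, LinearMap.toSpanSingleton_apply]
  refine ⟨φ, ?_, ?_, ?_⟩
  · intro h0
    apply hu
    rw [← hφ, h0]
    rfl
  · intro x
    have : φ x = ∑ z : T → K, ι x z • k z := by
      simp [φ, LinearMap.sum_apply, LinearMap.toSpanSingleton_apply]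
    rw [this]
    exact Submodule.sum_mem _ fun z _ => Submodule.smul_mem _ _ (hk.mem z)
  · intro h x u
    rw [hφ, hφ]
    have h1 : ∀ z, ι (ρ h x) z = ι x (z ∘ h) := by
      intro z
      rw [hι, hι, ← Equiv.sum_comp (Equiv.mulLeft h)]
      refine Finset.sum_congr rfl fun g _ => ?_
      have h2 : (f ∘ (Equiv.mulLeft h g).symm = z) ↔ f ∘ g.symm = z ∘ h := by
        constructor
        · intro h3
          rw [← h3]
          funext t
          change f (g.symm t) = f (g.symm (h.symm (h t)))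
          rw [Equiv.symm_apply_apply]
        · intro h3
          funext t
          change f (g.symm (h.symm t)) = z t
          have := congrFun h3 (h.symm t)
          simpa using this
      have h3 : ρ (Equiv.mulLeft h g)⁻¹ (ρ h x) = ρ g⁻¹ x := by
        rw [← Module.End.mul_apply, ← map_mul]
        congr 2
        change (h * g)⁻¹ * h = g⁻¹
        group
      simp only [h2, h3]
    simp only [h1]
    rw [← Equiv.sum_comp (Equiv.arrowCongr h.symm (Equiv.refl K)) (fun z => ι x z * k z (u ∘ h))]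
    refine Finset.sum_congr rfl fun z _ => ?_
    have h4 : (Equiv.arrowCongr h.symm (Equiv.refl K)) z = z ∘ h := by
      funext t; rfl
    rw [h4, hk.act]

end occ

section bound

variable {T : Type*} [Fintype T] [DecidableEq T]

/-- the row contents of the words supporting a polytabloid -/
theorem polyF_sum_row {D : Finset (ℕ × ℕ)} {τ : T → ℕ × ℕ} (hτ : IsTab D τ) {w : T → ℕ}
    (h : polyF τ w ≠ 0) (α : ℕ → ℤ) : ∑ t, α (w t) = ∑ c ∈ D, α c.1 := by
  classical
  obtain ⟨σ, -, hσ⟩ := polyF_support h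
  rw [← Equiv.sum_comp σ (fun t => α (w t)), ← hτ.2, Finset.sum_image (fun s _ t _ h => hτ.1 h)]
  exact Finset.sum_congr rfl fun t _ => by rw [hσ t]

/-- row contents of the words supporting elements of `Kr`, with a dual certificate -/
theorem Kr_sum_rows {D E : Finset (ℕ × ℕ)} {F : (T → ℕ × ℕ) → ℂ} (hF : F ∈ Kr T D E)
    {u : T → ℕ × ℕ} (h : F u ≠ 0) (α β : ℕ → ℤ) :
    (∑ t, α (u t).1 = ∑ c ∈ D, α c.1) ∧ (∑ t, β (u t).2 = ∑ c ∈ E, β c.1) := by
  classical
  by_contra hcon
  apply h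
  unfold Kr at hF
  induction hF using Submodule.span_induction with
  | mem x hx =>
    obtain ⟨τ, τ', hτ, hτ', rfl⟩ := hx
    by_contra h1
    exact hcon ⟨polyF_sum_row hτ (left_ne_zero_of_mul h1) α,
      polyF_sum_row hτ' (right_ne_zero_of_mul h1) β⟩
  | zero => rfl
  | add x y _ _ hx hy =>
    by_cases h1 : x u = 0
    · by_cases h2 : y u = 0
      · simp [h1, h2]
      · exact absurd (hy h2) h2
    · exact absurd (hx h1) h1
  | smul a x _ hx =>
    by_cases h1 : x u = 0
    · simp [h1]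
    · exact absurd (hx h1) h1

/-- **Dual certificate** for the minimal cost. -/
theorem Kr_cost_bound {D E : Finset (ℕ × ℕ)} {Z : Set (ℕ × ℕ)} {N : ℕ} (hN : 0 < N) (α β : ℕ → ℤ)
    (hle : ∀ i j, α i + β j ≤ N * (i * j)) (heq : ∀ i j, α i + β j = N * (i * j) ↔ (i, j) ∈ Z)
    {F₀ : (T → ℕ × ℕ) → ℂ} (hF₀ : F₀ ∈ Kr T D E) {u₀ : T → ℕ × ℕ} (h₀ : F₀ u₀ ≠ 0)
    (hZ₀ : ∀ t, u₀ t ∈ Z) :
    ((((∑ c ∈ D, α c.1) + ∑ c ∈ E, β c.1) / N).toNat = cost u₀) ∧
    ∀ F ∈ Kr T D E, ∀ u, F u ≠ 0 → cost u₀ ≤ cost u ∧ (cost u = cost u₀ → ∀ t, u t ∈ Z) := by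
  have key : ∀ u : T → ℕ × ℕ, (N : ℤ) * (cost u : ℤ) = ∑ t, (N : ℤ) * (((u t).1 : ℤ) * (u t).2) := by
    intro u
    unfold cost
    push_cast
    rw [Finset.mul_sum]
  have h1 : (N : ℤ) * (cost u₀ : ℤ) = (∑ c ∈ D, α c.1) + ∑ c ∈ E, β c.1 := by
    obtain ⟨ha, hb⟩ := Kr_sum_rows hF₀ h₀ α β
    rw [key, ← ha, ← hb, ← Finset.sum_add_distrib]
    exact Finset.sum_congr rfl fun t _ => ((heq _ _).2 (hZ₀ t)).symm
  refine ⟨?_, ?_⟩
  · rw [← h1, Int.mul_ediv_cancel_left _ (by exact_mod_cast hN.ne')]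
    simp
  · intro F hF u hu
    obtain ⟨ha, hb⟩ := Kr_sum_rows hF hu α β
    have h2 : (∑ c ∈ D, α c.1) + ∑ c ∈ E, β c.1 = ∑ t, (α (u t).1 + β (u t).2) := by
      rw [← ha, ← hb, ← Finset.sum_add_distrib]
    have h3 : ∑ t, (α (u t).1 + β (u t).2) ≤ ∑ t, (N : ℤ) * (((u t).1 : ℤ) * (u t).2) :=
      Finset.sum_le_sum fun t _ => hle _ _
    have h4 : (N : ℤ) * (cost u₀ : ℤ) ≤ (N : ℤ) * (cost u : ℤ) := by
      rw [h1, h2, key]; exact h3
    have hN' : (0 : ℤ) < N := by exact_mod_cast hN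
    refine ⟨by exact_mod_cast le_of_mul_le_mul_left h4 hN', ?_⟩
    intro hc t
    rw [← heq]
    have h5 : ∑ t, (α (u t).1 + β (u t).2) = ∑ t, (N : ℤ) * (((u t).1 : ℤ) * (u t).2) := by
      rw [← h2, ← h1, ← hc, key]
    exact (Finset.sum_eq_sum_iff_of_le fun t _ => hle _ _).1 h5 t (mem_univ t)

end bound

section gadget

variable {K : Type} [Fintype K] [DecidableEq K]

/-- **Gadget ⇒ detection.**  `P` is a family of colourings; `hG` is the `U`-form of the gadget. -/
theorem det_of_gadget {D E : Finset (ℕ × ℕ)} {Z : Set (ℕ × ℕ)} {N : ℕ} (hN : 0 < N) (α β : ℕ → ℤ)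
    (hle : ∀ i j, α i + β j ≤ N * (i * j)) (heq : ∀ i j, α i + β j = N * (i * j) ↔ (i, j) ∈ Z)
    {ν : K → ℕ} {C : Type} (e : K → C) (he : ∀ a b, ν a ≠ 0 → ν b ≠ 0 → e a = e b → a = b)
    (hG : ∀ (T : Type) [Fintype T] [DecidableEq T], Fintype.card T = ∑ a, ν a →
      ∀ (U : Type) [AddCommGroup U] [Module ℂ U] (ρ : Representation ℂ (Equiv.Perm T) U)
        (f : T → C) (w : U), w ≠ 0 → SwapFixed ρ f w →
      ∃ G ∈ Kr T D E, ∃ u : T → ℕ × ℕ, (∀ t, u t ∈ Z) ∧
        ∃ x : U, ∑ g : Equiv.Perm T, G (u ∘ g) • ρ g⁻¹ x ≠ 0) :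
    Det ν D E Z (((∑ c ∈ D, α c.1) + ∑ c ∈ E, β c.1) / N).toNat := by
  classical
  intro T _ _ v z₀ hz₀ hv
  have hcard : Fintype.card T = ∑ a, ν a := by
    rw [← Finset.card_univ, Finset.card_eq_sum_card_fiberwise (f := z₀) (t := univ)
      (fun _ _ => mem_univ _)]
    exact Finset.sum_congr rfl fun a _ => hz₀ a
  -- the permutation representation on functions of colour words
  let P : Representation ℂ (Equiv.Perm T) ((T → K) → ℂ) :=
    { toFun := fun g =>
        { toFun := fun F z => F (z ∘ g)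
          map_add' := fun F G => rfl
          map_smul' := fun a F => rfl }
      map_one' := by ext; rfl
      map_mul' := fun g h => by ext; rfl }
  have hP : ∀ g F z, P g F z = F (z ∘ g) := fun g F z => rfl
  let V : Submodule ℂ ((T → K) → ℂ) := Submodule.span ℂ (Set.range fun g => P g v)
  have hV : ∀ g, ∀ x ∈ V, P g x ∈ V := by
    intro g x hx
    induction hx using Submodule.span_induction with
    | mem y hy =>
      obtain ⟨h, rfl⟩ := hy
      refine Submodule.subset_span ⟨g * h, ?_⟩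
      simp only [map_mul, Module.End.mul_apply]
    | zero => rw [map_zero]; exact Submodule.zero_mem _
    | add y z _ _ hy hz => rw [map_add]; exact Submodule.add_mem _ hy hz
    | smul a y _ hy => rw [map_smul]; exact Submodule.smul_mem _ a hy
  let Q : Representation ℂ (Equiv.Perm T) V :=
    { toFun := fun g => (P g).restrict (hV g)
      map_one' := by ext; rfl
      map_mul' := fun g h => by ext; rfl }
  have hQ : ∀ g (x : V), ((Q g x : V) : (T → K) → ℂ) = P g x := fun g x => rfl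
  -- the symmetrized vector
  let S : Finset (Equiv.Perm T) := univ.filter fun s => ∀ t, z₀ (s t) = z₀ t
  let w₀ : (T → K) → ℂ := ∑ s ∈ S, P s v
  have hw₀ : w₀ ∈ V := Submodule.sum_mem _ fun s _ => Submodule.subset_span ⟨s, rfl⟩
  have hw₀z : w₀ z₀ ≠ 0 := by
    have h1 : w₀ z₀ = ∑ s ∈ S, v z₀ := by
      simp only [w₀, Finset.sum_apply]
      refine Finset.sum_congr rfl fun s hs => ?_
      rw [hP]
      congr 1
      funext t
      exact (mem_filter.1 hs).2 t
    rw [h1, Finset.sum_const, nsmul_eq_mul]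
    refine mul_ne_zero ?_ hv
    have : S.card ≠ 0 := by
      rw [Finset.card_ne_zero]
      exact ⟨1, by simp [S]⟩
    exact_mod_cast this
  have hfix : SwapFixed Q (fun t => e (z₀ t)) ⟨w₀, hw₀⟩ := by
    intro a b hab
    have hab' : z₀ a = z₀ b := by
      refine he _ _ ?_ ?_ hab
      · rw [← hz₀, Finset.card_ne_zero]; exact ⟨a, by simp⟩
      · rw [← hz₀, Finset.card_ne_zero]; exact ⟨b, by simp⟩
    apply Subtype.ext
    rw [hQ]
    simp only [w₀, map_sum]
    have hmem : ∀ s ∈ S, Equiv.swap a b * s ∈ S := by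
      intro s hs
      have hs' := (mem_filter.1 hs).2
      refine mem_filter.2 ⟨mem_univ _, fun t => ?_⟩
      rw [Equiv.Perm.mul_apply]
      by_cases h1 : s t = a
      · rw [h1, Equiv.swap_apply_left, ← hab', ← h1, hs']
      · by_cases h2 : s t = b
        · rw [h2, Equiv.swap_apply_right, hab', ← h2, hs']
        · rw [Equiv.swap_apply_of_ne_of_ne h1 h2, hs']
    refine Finset.sum_bij' (fun s _ => Equiv.swap a b * s) (fun s _ => Equiv.swap a b * s)
      (fun s hs => hmem s hs) (fun s hs => hmem s hs) ?_ ?_ ?_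
    · intro s _; rw [← mul_assoc, Equiv.swap_mul_self, one_mul]
    · intro s _; rw [← mul_assoc, Equiv.swap_mul_self, one_mul]
    · intro s _
      rw [map_mul, Module.End.mul_apply]
  obtain ⟨G, hGK, u, huZ, x, hx⟩ := hG T hcard V Q _ ⟨w₀, hw₀⟩ (by
    intro h
    apply hw₀z
    have := congrArg (fun y : V => (y : (T → K) → ℂ) z₀) h
    simpa using this) hfix
  -- some translate of `v` works
  have h1 : ∃ h : Equiv.Perm T, ∑ g : Equiv.Perm T, G (u ∘ g) • P g⁻¹ (P h v) ≠ 0 := by
    by_contra hcon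
    push Not at hcon
    apply hx
    let L : ((T → K) → ℂ) →ₗ[ℂ] ((T → K) → ℂ) := ∑ g : Equiv.Perm T, G (u ∘ g) • P g⁻¹
    have hL : ∀ y, L y = ∑ g : Equiv.Perm T, G (u ∘ g) • P g⁻¹ y := by
      intro y; simp [L, LinearMap.sum_apply]
    have hLV : ∀ y ∈ V, L y = 0 := by
      intro y hy
      induction hy using Submodule.span_induction with
      | mem y hy =>
        obtain ⟨h, rfl⟩ := hy
        rw [hL]; exact hcon h
      | zero => rw [map_zero]
      | add y z _ _ hy hz => rw [map_add, hy, hz, add_zero]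
      | smul a y _ hy => rw [map_smul, hy, smul_zero]
    apply Subtype.ext
    have h2 := hLV x x.2
    rw [hL] at h2
    rw [Submodule.coe_sum]
    simpa [hQ] using h2
  obtain ⟨h, hh⟩ := h1
  obtain ⟨z₁, hz₁⟩ := Function.ne_iff.1 hh
  simp only [Finset.sum_apply, Pi.smul_apply, smul_eq_mul, Pi.zero_apply, hP] at hz₁
  -- the kernel
  let k : (T → K) → (T → ℕ × ℕ) → ℂ := fun z u =>
    ∑ g : Equiv.Perm T, if z₁ ∘ g.symm = z then G (u ∘ g) else 0
  have hkmem : ∀ z, k z ∈ Kr T D E := by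
    intro z
    have : k z = ∑ g : Equiv.Perm T, if z₁ ∘ g.symm = z then (fun u => G (u ∘ g)) else 0 := by
      funext u
      simp only [k, Finset.sum_apply]
      refine Finset.sum_congr rfl fun g _ => ?_
      split_ifs <;> rfl
    rw [this]
    refine Submodule.sum_mem _ fun g _ => ?_
    split_ifs
    · exact Kr_act hGK g
    · exact Submodule.zero_mem _
  have hkne : ∑ z, v z * k z (u ∘ h) ≠ 0 := by
    have h2 : ∑ z, v z * k z (u ∘ h) = ∑ g : Equiv.Perm T, v (z₁ ∘ g.symm) * G (u ∘ h ∘ g) := by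
      simp only [k, Finset.mul_sum]
      rw [Finset.sum_comm]
      refine Finset.sum_congr rfl fun g _ => ?_
      rw [Finset.sum_eq_single (z₁ ∘ g.symm)]
      · rw [if_pos rfl]; rfl
      · intro z _ hz
        rw [if_neg (fun h => hz h.symm), mul_zero]
      · intro h; exact absurd (mem_univ _) h
    rw [h2]
    convert hz₁ using 1
    rw [← Equiv.sum_comp (Equiv.mulLeft h) (fun g => G (u ∘ g) * v ((z₁ ∘ ⇑g⁻¹) ∘ h))]
    refine Finset.sum_congr rfl fun g _ => ?_
    rw [mul_comm]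
    congr 2
    funext t
    simp
  -- value of the minimal cost
  obtain ⟨z2, -, hz2⟩ := Finset.exists_ne_zero_of_sum_ne_zero hkne
  have hb := Kr_cost_bound hN α β hle heq (hkmem z2) (right_ne_zero_of_mul hz2)
    (fun t => huZ (h t))
  refine ⟨k, ⟨?_, hkmem, ?_⟩, u ∘ h, hb.1.symm, hkne⟩
  · intro g z u
    simp only [k]
    rw [← Equiv.sum_comp (Equiv.mulLeft g)
      (fun g' : Equiv.Perm T => if z₁ ∘ g'.symm = z then G (u ∘ g') else 0)]
    refine Finset.sum_congr rfl fun g' _ => ?_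
    have h2 : (z₁ ∘ (Equiv.mulLeft g g').symm = z) ↔ z₁ ∘ g'.symm = z ∘ g := by
      constructor
      · intro h3
        rw [← h3]
        funext t
        change z₁ (g'.symm t) = z₁ (g'.symm (g.symm (g t)))
        rw [Equiv.symm_apply_apply]
      · intro h3
        funext t
        change z₁ (g'.symm (g.symm t)) = z t
        have := congrFun h3 (g.symm t)
        simpa using this
    simp only [h2]
    rfl
  · intro z u' hne
    rw [hb.1]
    exact hb.2 _ (hkmem z) u' hne

end gadget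

end Crest.Agent.R195
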